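import Vale.Agent.NQ.Zr
import Vale.Agent.NQ.Ord

noncomputable section
namespace NQ
open NumberField IsDedekindDomain Polynomial
open scoped Classical

variable {F : Type} [Field F] [NumberField F] {w : 𝓞 F} {v : HS F}

theorem Tame_top {c : 𝓞 F} (hc : c ∉ v.asIdeal) : v.asIdeal ⊔ Ideal.span {c} = ⊤ := by
  obtain ⟨y, i, hi, h⟩ := v.isMaximal.exists_inv hc
  rw [Ideal.eq_top_iff_one, ← h, add_comm]
  exact Submodule.add_mem_sup hi (Ideal.mul_mem_left _ _ (Ideal.mem_span_singleton_self c))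
theorem Tame_not_mem {c : 𝓞 F} (h0 : (c : F) ≠ 0) (h : ord v (c : F) = 0) : c ∉ v.asIdeal := by
  intro hc
  have := ((mem_iff_OG v c).1 hc).le h0
  omega
theorem Tame_unit {x y : F} (hx : x ≠ 0) (hx0 : ord v x = 0) (h : OG v 1 (y - x)) :
    y ≠ 0 ∧ ord v y = 0 := by
  have := ord_eq_of_OG (v := v) (y := y) hx (by rw [hx0]; exact h)
  exact ⟨this.1, this.2.trans hx0⟩
theorem Tame_close {x : F} (hx : x ≠ 0) (hx0 : ord v x = 0) :
    ∃ c : 𝓞 F, c ∉ v.asIdeal ∧ OG v 1 (x - c) := by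
  obtain ⟨c, hc⟩ := exists_int_close (v := v) (x := x) (Or.inr hx0.ge) 1
  have h1 := Tame_unit (y := (c : F)) hx hx0 (by simpa using hc.neg)
  exact ⟨c, Tame_not_mem h1.1 h1.2, hc⟩
theorem Tame_pow {x y : F} (hx : OG v 0 x) (hy : OG v 0 y) (h : OG v 1 (x - y)) (n : ℕ) :
    OG v 1 (x ^ n - y ^ n) := by
  induction n with
  | zero => simpa using OG.zero v 1
  | succ n ih =>
    have : x ^ (n + 1) - y ^ (n + 1) = x ^ n * (x - y) + (x ^ n - y ^ n) * y := by ring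
    rw [this]
    exact (((hx.pow n).mul h).mono (by omega)).add ((ih.mul hy).mono (by omega))
theorem qok_place (hw : w ^ 2 + w + 1 = 0) (h3 : (3 : 𝓞 F) ∉ v.asIdeal) {c : 𝓞 F}
    (hc : c ∉ v.asIdeal) : QOK w c v.asIdeal :=
  ⟨Ideal.finiteQuotientOfFreeOfNeBot _ v.ne_bot, hw ▸ zero_mem _, Tame_top h3, Tame_top hc⟩
theorem zv_eq (hw : w ^ 2 + w + 1 = 0) (h3 : (3 : 𝓞 F) ∉ v.asIdeal) {y : F} {c : 𝓞 F}
    (hc : c ∉ v.asIdeal) (h : OG v 1 (y - c)) : zv w v y = zq w c v.asIdeal := by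
  have hc' := ord_eq_zero_of_not_mem hc
  have hy := Tame_unit hc'.1 hc'.2 h
  have hex : ∃ c : 𝓞 F × 𝓞 F, c.1 ∉ v.asIdeal ∧ c.2 ∉ v.asIdeal ∧ y * c.2 = c.1 := by
    obtain ⟨a, b, hb, hab⟩ := exists_frac (v := v) (x := y) (Or.inr hy.2.ge)
    have hb' := ord_eq_zero_of_not_mem hb
    refine ⟨(a, b), Tame_not_mem ?_ ?_, hb, hab⟩
    · rw [← hab]; exact mul_ne_zero hy.1 hb'.1
    · rw [← hab, ord_mul v hy.1 hb'.1, hy.2, hb'.2, add_zero]
  rw [zv, dif_pos hex]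
  obtain ⟨h1, h2, h4⟩ := hex.choose_spec
  generalize hex.choose.1 = a at *
  generalize hex.choose.2 = b at *
  have h5 : a - c * b ∈ v.asIdeal := by
    rw [mem_iff_OG]
    have : ((a - c * b : 𝓞 F) : F) = (y - c) * b := by
      push_cast
      rw [sub_mul]; congr 1; exact h4.symm
    rw [this]
    exact (h.mul (OG_coe v b)).mono (by omega)
  rw [zq_congr w h5, zq_mul_left (qok_place hw h3 hc) (qok_place hw h3 h2), add_sub_cancel_right]
theorem zv_congr (hw : w ^ 2 + w + 1 = 0) (h3 : (3 : 𝓞 F) ∉ v.asIdeal) {x y : F} (hx : x ≠ 0)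
    (hx0 : ord v x = 0) (h : OG v 1 (y - x)) : zv w v y = zv w v x := by
  obtain ⟨c, hc, h1⟩ := Tame_close hx hx0
  rw [zv_eq hw h3 hc h1, zv_eq hw h3 hc (by simpa using h.add h1)]
theorem zv_one (hw : w ^ 2 + w + 1 = 0) (h3 : (3 : 𝓞 F) ∉ v.asIdeal) : zv w v 1 = 0 := by
  rw [zv_eq hw h3 (c := 1) (fun h => v.isPrime.ne_top ((Ideal.eq_top_iff_one _).2 h))
    (by simpa using OG.zero v 1), zq_one]
theorem zv_mul (hw : w ^ 2 + w + 1 = 0) (h3 : (3 : 𝓞 F) ∉ v.asIdeal) {x y : F} (hx : x ≠ 0)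
    (hy : y ≠ 0) (hx0 : ord v x = 0) (hy0 : ord v y = 0) :
    zv w v (x * y) = zv w v x + zv w v y := by
  obtain ⟨c, hc, h1⟩ := Tame_close hx hx0
  obtain ⟨d, hd, h2⟩ := Tame_close hy hy0
  have hcd : c * d ∉ v.asIdeal := fun h => (v.isPrime.mem_or_mem h).elim hc hd
  rw [zv_eq hw h3 hc h1, zv_eq hw h3 hd h2, zv_eq hw h3 hcd,
    zq_mul_left (qok_place hw h3 hc) (qok_place hw h3 hd)]
  have : x * y - ((c * d : 𝓞 F) : F) = (x - c) * y + c * (y - d) := by push_cast; ring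
  rw [this]
  exact ((h1.mul (Or.inr hy0.ge)).mono (by omega)).add (((OG_coe v c).mul h2).mono (by omega))
theorem zv_zpow (hw : w ^ 2 + w + 1 = 0) (h3 : (3 : 𝓞 F) ∉ v.asIdeal) {x : F} (hx : x ≠ 0)
    (hx0 : ord v x = 0) (k : ℤ) : zv w v (x ^ k) = k * zv w v x := by
  have h0 : ∀ k : ℤ, ord v (x ^ k) = 0 := fun k => by rw [ord_zpow, hx0, mul_zero]
  have hs : ∀ k : ℤ, zv w v (x ^ (k + 1)) = zv w v (x ^ k) + zv w v x := fun k => by
    rw [zpow_add_one₀ hx, zv_mul hw h3 (zpow_ne_zero _ hx) hx (h0 k) hx0]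
  induction k using Int.induction_on with
  | zero => simp [zv_one hw h3]
  | succ k ih => rw [hs, ih]; push_cast; ring
  | pred k ih =>
    have := hs (-(k : ℤ) - 1)
    rw [sub_add_cancel, ih] at this
    push_cast at this ⊢
    linear_combination -this
theorem zv_neg (hw : w ^ 2 + w + 1 = 0) (h3 : (3 : 𝓞 F) ∉ v.asIdeal) {x : F} (hx : x ≠ 0)
    (hx0 : ord v x = 0) : zv w v (-x) = zv w v x := by
  have h1 : ord v (-1 : F) = 0 := by rw [ord_neg, ord_one]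
  have h2 := zv_zpow hw h3 (x := (-1 : F)) (by simp) h1 3
  have h4 : (-1 : F) ^ (3 : ℤ) = -1 := by norm_num
  have h5 : ((3 : ℤ) : ZMod 3) = 0 := by decide
  rw [h4, h5, zero_mul] at h2
  rw [← neg_one_mul, zv_mul hw h3 (by simp) hx h1 hx0, h2, zero_add]
/-- The Euler criterion. -/
theorem zv_pow (hw : w ^ 2 + w + 1 = 0) (h3 : (3 : 𝓞 F) ∉ v.asIdeal) {x : F} (hx : x ≠ 0)
    (hx0 : ord v x = 0) : OG v 1 (x ^ ((qv v - 1) / 3) - (w : F) ^ (zv w v x).val) := by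
  obtain ⟨c, hc, h1⟩ := Tame_close hx hx0
  have := v.isMaximal
  let := Ideal.Quotient.field v.asIdeal
  have : Finite (𝓞 F ⧸ v.asIdeal) := Ideal.finiteQuotientOfFreeOfNeBot _ v.ne_bot
  have h2 := zr_field (T := 𝓞 F ⧸ v.asIdeal) (w := Ideal.Quotient.mk _ w)
    (g := Ideal.Quotient.mk _ c) (by simpa using congrArg (Ideal.Quotient.mk v.asIdeal) hw)
    (fun h => h3 (Ideal.Quotient.eq_zero_iff_mem.1 h)) (fun h => hc (Ideal.Quotient.eq_zero_iff_mem.1 h))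
  rw [card_quot, ← map_pow, ← map_pow, Ideal.Quotient.eq, mem_iff_OG] at h2
  have h4 := (Tame_pow (Or.inr hx0.ge) (OG_coe v c) h1 ((qv v - 1) / 3)).add h2
  rw [zv_eq hw h3 hc h1, zq]
  simpa using h4
theorem zv_unique (hw : w ^ 2 + w + 1 = 0) (h3 : (3 : 𝓞 F) ∉ v.asIdeal) {x : F} (hx : x ≠ 0)
    (hx0 : ord v x = 0) {i : ℕ} (h : OG v 1 (x ^ ((qv v - 1) / 3) - (w : F) ^ i)) :
    zv w v x = i := by
  have h1 := h.neg.add (zv_pow hw h3 hx hx0)
  have h2 : w ^ i - w ^ (zv w v x).val ∈ v.asIdeal := by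
    rw [mem_iff_OG]
    convert h1 using 1
    push_cast; ring
  have := v.isPrime
  have h4 := pow_inj_three (T := 𝓞 F ⧸ v.asIdeal) (w := Ideal.Quotient.mk _ w)
    (by simpa using congrArg (Ideal.Quotient.mk v.asIdeal) hw)
    (fun h => h3 (Ideal.Quotient.eq_zero_iff_mem.1 h)) (i := i) (j := (zv w v x).val)
    (by rw [← map_pow, ← map_pow, Ideal.Quotient.eq]; exact h2)
  rw [h4, ZMod.natCast_zmod_val]
theorem Tame_up {a p : F} (ha : a ≠ 0) (hp : p ≠ 0) (hp1 : ord v p = 1) :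
    a / p ^ ord v a ≠ 0 ∧ ord v (a / p ^ ord v a) = 0 :=
  ⟨div_ne_zero ha (zpow_ne_zero _ hp), by
    rw [ord_div v ha (zpow_ne_zero _ hp), ord_zpow, hp1]; ring⟩
/-- The tame symbol in terms of a uniformiser. -/
theorem hv_eq (hw : w ^ 2 + w + 1 = 0) (h3 : (3 : 𝓞 F) ∉ v.asIdeal) {a b p : F} (ha : a ≠ 0)
    (hb : b ≠ 0) (hp : p ≠ 0) (hp1 : ord v p = 1) :
    hv w v a b = (ord v a : ZMod 3) * zv w v (b / p ^ ord v b)
      - (ord v b : ZMod 3) * zv w v (a / p ^ ord v a) := by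
  have h1 := Tame_up ha hp hp1
  have h2 := Tame_up hb hp hp1
  have h4 : b ^ ord v a / a ^ ord v b
      = (b / p ^ ord v b) ^ ord v a * (a / p ^ ord v a) ^ (-ord v b) := by
    rw [zpow_neg, div_zpow, div_zpow, ← zpow_mul, ← zpow_mul, mul_comm (ord v a)]
    have := zpow_ne_zero (ord v b * ord v a) hp
    have := zpow_ne_zero (ord v b) ha
    field_simp
  rw [hv, h4, zv_mul hw h3 (zpow_ne_zero _ h2.1) (zpow_ne_zero _ h1.1)
    (by rw [ord_zpow, h2.2, mul_zero]) (by rw [ord_zpow, h1.2, mul_zero]),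
    zv_zpow hw h3 h2.1 h2.2, zv_zpow hw h3 h1.1 h1.2]
  push_cast; ring
theorem hv_swap (hw : w ^ 2 + w + 1 = 0) (h3 : (3 : 𝓞 F) ∉ v.asIdeal) {a b : F} (ha : a ≠ 0)
    (hb : b ≠ 0) : hv w v b a = -hv w v a b := by
  obtain ⟨p, hp, hp1⟩ := Ord_unif v
  rw [hv_eq hw h3 ha hb hp hp1, hv_eq hw h3 hb ha hp hp1]; ring
theorem hv_mul_left (hw : w ^ 2 + w + 1 = 0) (h3 : (3 : 𝓞 F) ∉ v.asIdeal) {a a' b : F}
    (ha : a ≠ 0) (ha' : a' ≠ 0) (hb : b ≠ 0) : hv w v (a * a') b = hv w v a b + hv w v a' b := by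
  obtain ⟨p, hp, hp1⟩ := Ord_unif v
  have h1 := Tame_up ha hp hp1
  have h2 := Tame_up ha' hp hp1
  rw [hv_eq hw h3 (mul_ne_zero ha ha') hb hp hp1, hv_eq hw h3 ha hb hp hp1,
    hv_eq hw h3 ha' hb hp hp1, ord_mul v ha ha', zpow_add₀ hp, ← div_mul_div_comm,
    zv_mul hw h3 h1.1 h2.1 h1.2 h2.2]
  push_cast; ring
theorem hv_of_ord_right (hw : w ^ 2 + w + 1 = 0) (h3 : (3 : 𝓞 F) ∉ v.asIdeal) {a b : F}
    (ha : a ≠ 0) (hb : b ≠ 0) (h : ord v b = 0) : hv w v a b = (ord v a : ZMod 3) * zv w v b := by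
  rw [hv, h, zpow_zero, div_one, zv_zpow hw h3 hb h]
theorem hv_close (hw : w ^ 2 + w + 1 = 0) (h3 : (3 : 𝓞 F) ∉ v.asIdeal) {a b : F}
    (h : OG v 1 (a - 1)) (hb : b ≠ 0) : hv w v a b = 0 := by
  have h1 := Tame_unit one_ne_zero (ord_one v) h
  rw [hv_swap hw h3 hb h1.1, hv_of_ord_right hw h3 hb h1.1 h1.2,
    zv_congr hw h3 one_ne_zero (ord_one v) h, zv_one hw h3, mul_zero, neg_zero]
theorem hv_cube_close (hw : w ^ 2 + w + 1 = 0) (h3 : (3 : 𝓞 F) ∉ v.asIdeal) {a b c : F}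
    (hc : c ≠ 0) (h : OG v 1 (a / c ^ 3 - 1)) (hb : b ≠ 0) : hv w v a b = 0 := by
  have h1 := Tame_unit one_ne_zero (ord_one v) h
  have h2 : a = a / c ^ 3 * (c * (c * c)) := by field_simp
  have h5 : (3 : ZMod 3) = 0 := by decide
  rw [h2, hv_mul_left hw h3 h1.1 (by positivity) hb, hv_close hw h3 h hb,
    hv_mul_left hw h3 hc (by positivity) hb, hv_mul_left hw h3 hc hc hb]
  linear_combination hv w v c b * h5
theorem Tame_two {z : ZMod 3} (h : z = -z) : z = 0 := by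
  revert z; decide
theorem hv_stein (hw : w ^ 2 + w + 1 = 0) (h3 : (3 : 𝓞 F) ∉ v.asIdeal) {x : F} (hx : x ≠ 0)
    (hx1 : 1 - x ≠ 0) : hv w v x (1 - x) = 0 := by
  rcases lt_trichotomy (ord v x) 0 with h | h | h
  · have h1 : 1 - x = -1 * x * (1 - x⁻¹) := by field_simp; ring
    have h2 : 1 - x⁻¹ ≠ 0 := fun h0 => hx1 (by rw [h1, h0, mul_zero])
    have h4 : OG v 1 (1 - x⁻¹ - 1) := by
      right
      rw [sub_sub_cancel_left, ord_neg, ord_inv]; omega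
    rw [hv_swap hw h3 hx1 hx, h1, hv_mul_left hw h3 (by simpa using hx) h2 hx,
      hv_mul_left hw h3 (by simp) hx hx, hv_close hw h3 h4 hx, Tame_two (hv_swap hw h3 hx hx),
      hv_cube_close hw h3 (c := -1) (by simp) (by left; norm_num) hx]
    simp
  · by_cases h1 : ord v (1 - x) = 0
    · rw [hv_of_ord_right hw h3 hx hx1 h1, h]; simp
    · have h2 := (((OG_natCast v 1).sub (Or.inr h.ge : OG v 0 x))).le (by simpa using hx1)
      rw [Nat.cast_one] at h2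
      refine hv_close hw h3 ?_ hx1
      right
      rw [← neg_sub, ord_neg]; omega
  · rw [hv_swap hw h3 hx1 hx, hv_close hw h3 _ hx, neg_zero]
    right
    rw [sub_sub_cancel_left, ord_neg]; omega
theorem three_not_mem {s : ℕ} (hs : 3 ∣ s) (h : (s : 𝓞 F) ∉ v.asIdeal) : (3 : 𝓞 F) ∉ v.asIdeal := by
  obtain ⟨c, rfl⟩ := hs
  intro h3
  exact h (by push_cast; exact Ideal.mul_mem_right _ _ h3)
theorem HF_eq_sum {s : ℕ} (hw : w ^ 2 + w + 1 = 0) (hs : 3 ∣ s) {a b : F} (ha : a ≠ 0)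
    (hb : b ≠ 0) (T : Finset (HS F))
    (hT : ∀ v : HS F, (s : 𝓞 F) ∉ v.asIdeal → v ∉ T → ord v a = 0 ∧ ord v b = 0) :
    HF s w a b = ∑ v ∈ T, if (s : 𝓞 F) ∈ v.asIdeal then 0 else hv w v a b := by
  refine finsum_eq_sum_of_support_subset _ fun v hv => ?_
  by_contra hn
  apply hv
  by_cases h : (s : 𝓞 F) ∈ v.asIdeal
  · exact if_pos h
  · have := hT v h hn
    beta_reduce
    rw [if_neg h, hv_of_ord_right hw (three_not_mem hs h) ha hb this.2, this.1]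
    simp
theorem Tame_ex (a b c : F) :
    ∃ T : Finset (HS F), ∀ v ∉ T, ord v a = 0 ∧ ord v b = 0 ∧ ord v c = 0 := by
  refine ⟨(((finite_ord a).union (finite_ord b)).union (finite_ord c)).toFinset, fun v hv => ?_⟩
  simpa [and_assoc] using hv
theorem HF_swap {s : ℕ} (hw : w ^ 2 + w + 1 = 0) (hs : 3 ∣ s) {a b : F} (ha : a ≠ 0) (hb : b ≠ 0) :
    HF s w b a = -HF s w a b := by
  obtain ⟨T, hT⟩ := Tame_ex a b b
  rw [HF_eq_sum hw hs ha hb T fun v _ h => ⟨(hT v h).1, (hT v h).2.1⟩,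
    HF_eq_sum hw hs hb ha T fun v _ h => ⟨(hT v h).2.1, (hT v h).1⟩, ← Finset.sum_neg_distrib]
  refine Finset.sum_congr rfl fun v _ => ?_
  split_ifs with h
  · simp
  · exact hv_swap hw (three_not_mem hs h) ha hb
theorem HF_mul_left {s : ℕ} (hw : w ^ 2 + w + 1 = 0) (hs : 3 ∣ s) {a a' b : F} (ha : a ≠ 0)
    (ha' : a' ≠ 0) (hb : b ≠ 0) : HF s w (a * a') b = HF s w a b + HF s w a' b := by
  obtain ⟨T, hT⟩ := Tame_ex a a' b
  rw [HF_eq_sum hw hs ha hb T fun v _ h => ⟨(hT v h).1, (hT v h).2.2⟩,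
    HF_eq_sum hw hs ha' hb T fun v _ h => (hT v h).2,
    HF_eq_sum hw hs (mul_ne_zero ha ha') hb T fun v _ h =>
      ⟨by rw [ord_mul v ha ha', (hT v h).1, (hT v h).2.1, add_zero], (hT v h).2.2⟩,
    ← Finset.sum_add_distrib]
  refine Finset.sum_congr rfl fun v _ => ?_
  split_ifs with h
  · simp
  · exact hv_mul_left hw (three_not_mem hs h) ha ha' hb
theorem HF_mul_right {s : ℕ} (hw : w ^ 2 + w + 1 = 0) (hs : 3 ∣ s) {a b b' : F} (ha : a ≠ 0)
    (hb : b ≠ 0) (hb' : b' ≠ 0) : HF s w a (b * b') = HF s w a b + HF s w a b' := by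
  rw [HF_swap hw hs (mul_ne_zero hb hb') ha, HF_mul_left hw hs hb hb' ha, HF_swap hw hs ha hb,
    HF_swap hw hs ha hb']
  ring
theorem HF_zpow_left {s : ℕ} (hw : w ^ 2 + w + 1 = 0) (hs : 3 ∣ s) {a b : F} (ha : a ≠ 0)
    (hb : b ≠ 0) (k : ℤ) : HF s w (a ^ k) b = k * HF s w a b := by
  have h1 : HF s w 1 b = 0 := by
    have := HF_mul_left hw hs (a := 1) (a' := 1) one_ne_zero one_ne_zero hb
    rw [one_mul] at this
    linear_combination -this
  have h2 : ∀ k : ℤ, HF s w (a ^ (k + 1)) b = HF s w (a ^ k) b + HF s w a b := fun k => by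
    rw [zpow_add_one₀ ha, HF_mul_left hw hs (zpow_ne_zero _ ha) ha hb]
  induction k using Int.induction_on with
  | zero => simp [h1]
  | succ k ih => rw [h2, ih]; push_cast; ring
  | pred k ih =>
    have := h2 (-(k : ℤ) - 1)
    rw [sub_add_cancel, ih] at this
    push_cast at this ⊢
    linear_combination -this
theorem HF_div_left {s : ℕ} (hw : w ^ 2 + w + 1 = 0) (hs : 3 ∣ s) {a a' b : F} (ha : a ≠ 0)
    (ha' : a' ≠ 0) (hb : b ≠ 0) : HF s w (a / a') b = HF s w a b - HF s w a' b := by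
  have := HF_mul_left hw hs (div_ne_zero ha ha') ha' hb
  rw [div_mul_cancel₀ _ ha'] at this
  linear_combination -this
theorem HF_div_right {s : ℕ} (hw : w ^ 2 + w + 1 = 0) (hs : 3 ∣ s) {a b b' : F} (ha : a ≠ 0)
    (hb : b ≠ 0) (hb' : b' ≠ 0) : HF s w a (b / b') = HF s w a b - HF s w a b' := by
  have := HF_mul_right hw hs ha (div_ne_zero hb hb') hb'
  rw [div_mul_cancel₀ _ hb'] at this
  linear_combination -this
theorem HF_cube_left {s : ℕ} (hw : w ^ 2 + w + 1 = 0) (hs : 3 ∣ s) {a b c : F} (ha : a ≠ 0)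
    (hb : b ≠ 0) (hc : c ≠ 0) : HF s w (a * c ^ 3) b = HF s w a b := by
  have := HF_zpow_left hw hs hc hb 3
  have h5 : ((3 : ℤ) : ZMod 3) = 0 := by decide
  rw [h5, zero_mul, zpow_ofNat] at this
  rw [HF_mul_left hw hs ha (pow_ne_zero _ hc) hb, this, add_zero]
theorem HF_cube_right {s : ℕ} (hw : w ^ 2 + w + 1 = 0) (hs : 3 ∣ s) {a b c : F} (ha : a ≠ 0)
    (hb : b ≠ 0) (hc : c ≠ 0) : HF s w a (b * c ^ 3) = HF s w a b := by
  rw [HF_swap hw hs (mul_ne_zero hb (pow_ne_zero _ hc)) ha, HF_cube_left hw hs hb ha hc,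
    HF_swap hw hs hb ha]
theorem HF_self {s : ℕ} (hw : w ^ 2 + w + 1 = 0) (hs : 3 ∣ s) {a : F} (ha : a ≠ 0) :
    HF s w a a = 0 :=
  Tame_two (HF_swap hw hs ha ha)
theorem HF_neg_right {s : ℕ} (hw : w ^ 2 + w + 1 = 0) (hs : 3 ∣ s) {a b : F} (ha : a ≠ 0)
    (hb : b ≠ 0) : HF s w a (-b) = HF s w a b := by
  rw [← HF_cube_right hw hs ha hb (c := -1) (by simp)]
  congr 1; ring
theorem HF_stein {s : ℕ} (hw : w ^ 2 + w + 1 = 0) (hs : 3 ∣ s) {x : F} (hx : x ≠ 0)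
    (hx1 : 1 - x ≠ 0) : HF s w x (1 - x) = 0 := by
  obtain ⟨T, hT⟩ := Tame_ex x (1 - x) x
  rw [HF_eq_sum hw hs hx hx1 T fun v _ h => ⟨(hT v h).1, (hT v h).2.1⟩]
  refine Finset.sum_eq_zero fun v _ => ?_
  split_ifs with h
  · rfl
  · exact hv_stein hw (three_not_mem hs h) hx hx1
theorem close_iff {s : ℕ} (hs : s ≠ 0) {a : F} :
    Close s a ↔ ∀ v : HS F, (s : 𝓞 F) ∈ v.asIdeal → OG v (2 * ord v (s : F)) (a - 1) := by
  have hsF : (s : F) ≠ 0 := Nat.cast_ne_zero.2 hs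
  simp only [Close, mem_OO, OG_div_iff (pow_ne_zero 2 hsF), ord_pow, zero_add, Nat.cast_ofNat]
theorem Tame_ord_s {s : ℕ} (hs : s ≠ 0) (h : (s : 𝓞 F) ∈ v.asIdeal) : 1 ≤ ord v (s : F) := by
  have hsF : (s : F) ≠ 0 := Nat.cast_ne_zero.2 hs
  have := (mem_iff_OG v _).1 h
  exact OG.le (by simpa using this) hsF
theorem Close.mul {s : ℕ} (hs : s ≠ 0) {a b : F} (ha : Close s a) (hb : Close s b) :
    Close s (a * b) := by
  rw [close_iff hs] at ha hb ⊢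
  intro v hv
  have h1 := Tame_ord_s hs hv
  have : a * b - 1 = (a - 1) * (b - 1) + (a - 1) + (b - 1) := by ring
  rw [this]
  exact ((((ha v hv).mul (hb v hv)).mono (by omega)).add (ha v hv)).add (hb v hv)
theorem Close.inv {s : ℕ} (hs : s ≠ 0) {a : F} (ha : Close s a) (h0 : a ≠ 0) : Close s a⁻¹ := by
  rw [close_iff hs] at ha ⊢
  intro v hv
  have h1 := Tame_ord_s hs hv
  have h2 := Tame_unit one_ne_zero (ord_one v) ((ha v hv).mono (by omega))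
  have : a⁻¹ - 1 = -(a - 1) / a := by field_simp; ring
  rw [this, OG_div_iff h0, h2.2, add_zero]
  exact (ha v hv).neg
theorem Close.pow {s : ℕ} (hs : s ≠ 0) {a : F} (ha : Close s a) (k : ℕ) : Close s (a ^ k) := by
  induction k with
  | zero => simp [Close]
  | succ k ih => rw [pow_succ]; exact ih.mul hs ha
theorem eis_om (hw : w ^ 2 + w + 1 = 0) : eis w hw QRH.om = (w : F) := by
  simp [eis, QRH.om, QuadraticAlgebra.lift]
theorem eis_integral (hw : w ^ 2 + w + 1 = 0) (x : QRH.E) : IsIntegral ℤ (eis w hw x) :=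
  map_isIntegral_int _ (Algebra.IsIntegral.isIntegral x)
theorem eis_inj (hw : w ^ 2 + w + 1 = 0) : Function.Injective (eis w hw) := by
  rw [injective_iff_map_eq_zero]
  intro x hx
  have h := congrArg (eis w hw) (QRH.mul_star_eq x)
  rw [map_mul, hx, zero_mul, map_natCast, eq_comm, Nat.cast_eq_zero] at h
  exact QRH.nm_eq_zero.1 h

end NQ
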