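import Vale.Agent.NQ.Zr
import Vale.Agent.NQ.Tame

noncomputable section
namespace NQ
open NumberField IsDedekindDomain Polynomial
open scoped Classical

variable {s : ℕ}

theorem ASb_le (hs : 0 < s) : Submonoid.powers (s : QRH.E) ≤ nonZeroDivisors QRH.E :=
  powers_le_nonZeroDivisors_of_noZeroDivisors (Nat.cast_ne_zero.2 hs.ne')
theorem AS_dom (hs : 0 < s) : IsDomain (AS s) := IsLocalization.isDomain_localization (ASb_le hs)
theorem AS_pid (hs : 0 < s) : IsPrincipalIdealRing (AS s) := ⟨fun I => by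
  have _ := hs
  obtain ⟨a, ha⟩ := (IsPrincipalIdealRing.principal (I.comap (algebraMap QRH.E (AS s)))).1
  refine ⟨algebraMap _ _ a, ?_⟩
  rw [← IsLocalization.map_under (Submonoid.powers (s : QRH.E)) (AS s) I, Ideal.under, ha,
    Ideal.submodule_span_eq, Ideal.map_span, Set.image_singleton, Ideal.submodule_span_eq]⟩
theorem AS_inj (hs : 0 < s) : Function.Injective (algebraMap QRH.E (AS s)) :=
  IsLocalization.injective (AS s) (ASb_le hs)
theorem AS_char (hs : 0 < s) : CharZero (AS s) := charZero_of_injective_algebraMap (AS_inj hs)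
theorem AS_unit : IsUnit (s : AS s) := by
  have h := IsLocalization.Away.algebraMap_isUnit (S := AS s) (s : QRH.E)
  rwa [map_natCast] at h
theorem AS_three (h3 : 3 ∣ s) : IsUnit (3 : AS s) :=
  isUnit_of_dvd_unit (by exact_mod_cast Nat.cast_dvd_cast (α := AS s) h3) AS_unit
theorem AS_surj (x : AS s) : ∃ (k : ℕ) (y : QRH.E), (s : AS s) ^ k * x = algebraMap _ _ y := by
  obtain ⟨k, y, h⟩ := IsLocalization.Away.surj (s : QRH.E) x
  exact ⟨k, y, by rw [← h, map_natCast, mul_comm]⟩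
theorem AS_surj_poly (u : (AS s)[X]) :
    ∃ (k : ℕ) (p : QRH.E[X]), (s : (AS s)[X]) ^ k * u = p.map (algebraMap _ _) := by
  induction u using Polynomial.induction_on' with
  | add a b ha hb =>
    obtain ⟨k, p, hp⟩ := ha
    obtain ⟨l, q, hq⟩ := hb
    refine ⟨k + l, (s : QRH.E[X]) ^ l * p + (s : QRH.E[X]) ^ k * q, ?_⟩
    simp only [Polynomial.map_add, Polynomial.map_mul, Polynomial.map_pow, Polynomial.map_natCast,
      ← hp, ← hq]
    ring
  | monomial n a =>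
    obtain ⟨k, y, h⟩ := AS_surj a
    refine ⟨k, monomial n y, ?_⟩
    rw [Polynomial.map_monomial, ← h, ← C_mul_monomial, map_pow, map_natCast]
/-- Every nonzero element divides a nonzero natural number. -/
theorem AS_dvd_nat (hs : 0 < s) {c : AS s} (hc : c ≠ 0) : ∃ n : ℕ, n ≠ 0 ∧ c ∣ (n : AS s) := by
  have _ := hs
  obtain ⟨k, y, h⟩ := AS_surj c
  have hy : y ≠ 0 := fun h0 => hc (by
    rw [h0, map_zero] at h
    exact ((AS_unit (s := s)).pow k).mul_right_eq_zero.1 h)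
  refine ⟨QRH.nm y, fun h0 => hy (QRH.nm_eq_zero.1 h0), ?_⟩
  rw [← map_natCast (algebraMap QRH.E (AS s)), ← QRH.mul_star_eq, map_mul, ← h]
  exact (dvd_mul_left c _).mul_right _
theorem ASb_pow (s : ℕ) {n : ℕ} (hn : n ≠ 0) :
    ∃ d : ℕ, (n : AS s) ∣ (s : AS s) ^ (d + 1) - 1 := by
  have : NeZero n := ⟨hn⟩
  have key : ∀ i j : ℕ, i < j → (s : ZMod n) ^ i = (s : ZMod n) ^ j →
      ∃ d : ℕ, (n : AS s) ∣ (s : AS s) ^ (d + 1) - 1 := fun i j hij h => by
    obtain ⟨d, rfl⟩ := Nat.exists_eq_add_of_lt hij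
    have h1 : (n : ℤ) ∣ (s : ℤ) ^ (i + d + 1) - (s : ℤ) ^ i :=
      (ZMod.intCast_eq_intCast_iff_dvd_sub _ _ n).1 (by push_cast; exact h)
    have h2 := map_dvd (Int.castRingHom (AS s)) h1
    simp only [eq_intCast, Int.cast_natCast, Int.cast_sub, Int.cast_pow] at h2
    refine ⟨d, ((AS_unit (s := s)).pow i).dvd_mul_left.1 ?_⟩
    rwa [mul_sub, mul_one, ← pow_add, ← add_assoc]
  obtain ⟨i, j, hij, h⟩ := Finite.exists_ne_map_eq_of_infinite fun i : ℕ => (s : ZMod n) ^ i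
  rcases lt_or_gt_of_ne hij with h1 | h1
  · exact key i j h1 h
  · exact key j i h1 h.symm
theorem AS_surj_mod (hs : 0 < s) {c : AS s} (hc : c ≠ 0) (x : AS s) :
    ∃ y : QRH.E, c ∣ x - algebraMap _ _ y := by
  obtain ⟨n, hn, hcn⟩ := AS_dvd_nat hs hc
  obtain ⟨d, hd⟩ := ASb_pow s hn
  obtain ⟨k, y, h⟩ := AS_surj x
  refine ⟨(s : QRH.E) ^ (d * k) * y, ?_⟩
  have h1 : c ∣ ((s : AS s) ^ (d + 1)) ^ k - 1 :=
    (hcn.trans hd).trans (sub_one_dvd_pow_sub_one _ k)
  have h2 : x - algebraMap _ _ ((s : QRH.E) ^ (d * k) * y) =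
      -((((s : AS s) ^ (d + 1)) ^ k - 1) * x) := by
    rw [map_mul, map_pow, map_natCast, ← h]
    ring
  rw [h2]
  exact (h1.mul_right x).neg_right
/-- A quotient of a finite image is finite. -/
theorem ASb_fin {R T : Type} [CommRing R] [CommRing T] [Finite T] (φ : R →+* T)
    (hφ : Function.Surjective φ) {J : Ideal R} (h : ∀ x, φ x = 0 → x ∈ J) : Finite (R ⧸ J) := by
  refine Finite.of_surjective (fun t => Ideal.Quotient.mk J (Function.surjInv hφ t)) fun r => ?_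
  obtain ⟨x, rfl⟩ := Ideal.Quotient.mk_surjective r
  exact ⟨φ x, Ideal.Quotient.eq.2 (h _ (by rw [map_sub, Function.surjInv_eq hφ, sub_self]))⟩
theorem AS_fin (hs : 0 < s) {c : AS s} (hc : c ≠ 0) : Finite (AS s ⧸ Ideal.span {c}) := by
  obtain ⟨n, hn, hcn⟩ := AS_dvd_nat hs hc
  have h1 : Finite (QRH.E ⧸ (Ideal.span {c}).comap (algebraMap QRH.E (AS s))) :=
    Ideal.finiteQuotientOfFreeOfNeBot _ fun h => by
      have h2 : (n : QRH.E) ∈ (Ideal.span {c}).comap (algebraMap QRH.E (AS s)) := by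
        rw [Ideal.mem_comap, map_natCast]
        exact Ideal.mem_span_singleton.2 hcn
      rw [h, Ideal.mem_bot] at h2
      exact hn (Nat.cast_eq_zero.1 h2)
  refine Finite.of_surjective
    (Ideal.quotientMap (Ideal.span {c}) (algebraMap QRH.E (AS s)) le_rfl) fun r => ?_
  obtain ⟨x, rfl⟩ := Ideal.Quotient.mk_surjective r
  obtain ⟨y, hy⟩ := AS_surj_mod hs hc x
  exact ⟨Ideal.Quotient.mk _ y, by
    rw [Ideal.quotientMap_mk]
    exact (Ideal.Quotient.eq.2 (Ideal.mem_span_singleton.2 hy)).symm⟩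
/-- The rational prime below a prime element. -/
theorem AS_prime_below (hs : 0 < s) {π : AS s} (hπ : Prime π) :
    ∃ l : ℕ, l.Prime ∧ ¬ l ∣ s ∧ ∀ n : ℤ, π ∣ (n : AS s) ↔ (l : ℤ) ∣ n := by
  have key : ∀ n : ℕ, n ≠ 0 → π ∣ (n : AS s) → ∃ l : ℕ, l.Prime ∧ π ∣ (l : AS s) := fun n => by
    induction n using induction_on_primes with
    | zero => exact fun h => absurd rfl h
    | one => exact fun _ h => absurd (isUnit_of_dvd_one (by simpa using h)) hπ.not_isUnit
    | prime_mul p a hp ih =>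
      intro h0 h
      rw [Nat.cast_mul] at h
      rcases hπ.dvd_or_dvd h with h | h
      · exact ⟨p, hp, h⟩
      · exact ih (right_ne_zero_of_mul h0) h
  obtain ⟨n, hn, h⟩ := AS_dvd_nat hs hπ.ne_zero
  obtain ⟨l, hl, hπl⟩ := key n hn h
  refine ⟨l, hl, fun h1 => hπ.not_isUnit
    (isUnit_of_dvd_unit (hπl.trans (Nat.cast_dvd_cast h1)) AS_unit), fun m => ⟨fun h1 => ?_,
      fun h1 => hπl.trans (by simpa using map_dvd (Int.castRingHom (AS s)) h1)⟩⟩
  by_contra h2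
  have h3 := (((Nat.prime_iff_prime_int.1 hl).coprime_iff_not_dvd).2 h2).map
    (Int.castRingHom (AS s))
  exact hπ.not_isUnit (h3.isUnit_of_dvd' (by simpa using hπl) h1)
theorem wP_rel : wP s ^ 2 + wP s + 1 = 0 := by
  have h := congrArg (fun x => C (algebraMap QRH.E (AS s) x)) QRH.om_rel
  simpa [wP] using h
theorem prime_cases_poly (hs : 0 < s) {h : (AS s)[X]} (hh : Prime h) :
    0 < h.natDegree ∨ ∃ π : AS s, Prime π ∧ h = C π := by
  have := AS_dom hs
  rcases Nat.eq_zero_or_pos h.natDegree with h0 | h0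
  · have h1 := eq_C_of_natDegree_eq_zero h0
    exact Or.inr ⟨h.coeff 0, Polynomial.prime_C_iff.1 (h1 ▸ hh), h1⟩
  · exact Or.inl h0
theorem ASb_rel (hs : 0 < s) {f u : (AS s)[X]} (hf : f ≠ 0)
    (h : ∀ h, Prime h → h ∣ f → ¬ h ∣ u) : IsRelPrime f u := by
  have := AS_dom hs
  have := AS_pid hs
  exact (UniqueFactorizationMonoid.isRelPrime_iff_no_prime_factors hf).2
    fun d h1 h2 hd => h d hd h1 h2
theorem regular_of (hs : 0 < s) {f u : (AS s)[X]} (hf : f ≠ 0)
    (h : ∀ h, Prime h → h ∣ f → ¬ h ∣ u) {x : (AS s)[X]} (hx : u ∣ f * x) : u ∣ x := by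
  have := AS_dom hs
  have := AS_pid hs
  exact (ASb_rel hs hf h).symm.dvd_of_dvd_mul_left hx
/-- Relatively prime polynomials generate an ideal that contains a nonzero constant. -/
theorem exists_const (hs : 0 < s) {f u : (AS s)[X]} (hf : f ≠ 0)
    (h : ∀ h, Prime h → h ∣ f → ¬ h ∣ u) : ∃ c : AS s, c ≠ 0 ∧ C c ∈ Ideal.span {f, u} := by
  have := AS_dom hs
  have := AS_pid hs
  have h1 : IsAlgebraic (AS s) (AdjoinRoot.mk f u) := by
    rw [← AdjoinRoot.aeval_eq]
    exact Algebra.isAlgebraic_adjoin_singleton_iff.2 (AdjoinRoot.isAlgebraic_root hf) _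
      (aeval_mem_adjoin_singleton _ _)
  have h2 : AdjoinRoot.mk f u ∈ nonZeroDivisors (AdjoinRoot f) :=
    mem_nonZeroDivisors_iff_left.2 fun x hx => by
      obtain ⟨y, rfl⟩ := AdjoinRoot.mk_surjective x
      rw [← map_mul, AdjoinRoot.mk_eq_zero] at hx
      exact AdjoinRoot.mk_eq_zero.2 ((ASb_rel hs hf h).dvd_of_dvd_mul_left hx)
  obtain ⟨c, hc, t, ht⟩ := h1.exists_nonzero_dvd h2
  obtain ⟨y, rfl⟩ := AdjoinRoot.mk_surjective t
  rw [AdjoinRoot.algebraMap_eq, ← AdjoinRoot.mk_C, ← map_mul, AdjoinRoot.mk_eq_mk] at ht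
  obtain ⟨z, hz⟩ := ht
  exact ⟨c, hc, Ideal.mem_span_pair.2 ⟨z, y, by linear_combination -hz⟩⟩
theorem ASb_vert (hs : 0 < s) {π : AS s} (hπ : Prime π) {g : (AS s)[X]} (hg : ¬ C π ∣ g)
    {J : Ideal (AS s)[X]} (hJ : g ∈ J) : Finite ((AS s)[X] ⧸ (J ⊔ Ideal.span {C π})) := by
  have := AS_dom hs
  have := AS_pid hs
  have := PrincipalIdealRing.isMaximal_of_irreducible hπ.irreducible
  have := AS_fin hs hπ.ne_zero
  let _ : Field (AS s ⧸ Ideal.span {π}) := Ideal.Quotient.field _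
  have hk : ∀ x : (AS s)[X], x.map (Ideal.Quotient.mk (Ideal.span {π})) = 0 → C π ∣ x :=
    fun x hx => (C_dvd_iff_dvd_coeff _ _).2 fun i => Ideal.mem_span_singleton.1
      (Ideal.Quotient.eq_zero_iff_mem.1 (by rw [← coeff_map, hx, coeff_zero]))
  have h0 : g.map (Ideal.Quotient.mk (Ideal.span {π})) ≠ 0 := fun h => hg (hk g h)
  have := (AdjoinRoot.powerBasis h0).finite
  have : Finite (AdjoinRoot (g.map (Ideal.Quotient.mk (Ideal.span {π})))) :=
    Module.finite_of_finite (AS s ⧸ Ideal.span {π})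
  have hsj := Polynomial.map_surjective (Ideal.Quotient.mk (Ideal.span {π}))
    Ideal.Quotient.mk_surjective
  refine ASb_fin ((AdjoinRoot.mk (g.map (Ideal.Quotient.mk (Ideal.span {π})))).comp
    (mapRingHom (Ideal.Quotient.mk (Ideal.span {π})))) (AdjoinRoot.mk_surjective.comp hsj)
    fun x hx => ?_
  obtain ⟨y, hy⟩ := AdjoinRoot.mk_eq_zero.1 hx
  obtain ⟨z, rfl⟩ := hsj y
  have h1 := hk (x - g * z) (by
    rw [Polynomial.map_sub, Polynomial.map_mul, ← hy, coe_mapRingHom, sub_self])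
  rw [← add_sub_cancel (g * z) x]
  exact Submodule.add_mem_sup (J.mul_mem_right z hJ) (Ideal.mem_span_singleton.2 h1)
theorem fin_quot (hs : 0 < s) {f u : (AS s)[X]} (hf : f ≠ 0)
    (h : ∀ h, Prime h → h ∣ f → ¬ h ∣ u) : Finite ((AS s)[X] ⧸ Ideal.span {f, u}) := by
  have := AS_dom hs
  have := AS_pid hs
  obtain ⟨c, hc, hm⟩ := exists_const hs hf h
  have key : Finite ((AS s)[X] ⧸ (Ideal.span {f, u} ⊔ Ideal.span {C c})) := by
    refine UniqueFactorizationMonoid.induction_on_prime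
      (P := fun c => c ≠ 0 → Finite ((AS s)[X] ⧸ (Ideal.span {f, u} ⊔ Ideal.span {C c})))
      c (fun h => absurd rfl h) (fun x hx _ => ?_) (fun a π ha hπ ih _ => ?_) hc
    · rw [Ideal.span_singleton_eq_top.2 (hx.map C), sup_top_eq]
      infer_instance
    · rw [map_mul]
      refine finite_sup_mul ?_ (ih ha)
      by_cases h1 : C π ∣ f
      · exact ASb_vert hs hπ (h _ (Polynomial.prime_C_iff.2 hπ) h1)
          (Ideal.subset_span (by simp))
      · exact ASb_vert hs hπ h1 (Ideal.subset_span (by simp))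
  rwa [sup_eq_left.2 ((Ideal.span_singleton_le_iff_mem _).2 hm)] at key
theorem qok_poly (hs : 0 < s) (h3 : 3 ∣ s) {f u g : (AS s)[X]} (hf : f ≠ 0)
    (h : ∀ h, Prime h → h ∣ f → ¬ h ∣ u) (ht : Ideal.span {f, u, g} = ⊤) :
    QOK (wP s) g (Ideal.span {f, u}) := by
  refine ⟨fin_quot hs hf h, by rw [wP_rel]; exact zero_mem _, ?_, ?_⟩
  · have h1 := (AS_three h3).map (C : AS s →+* (AS s)[X])
    rw [map_ofNat] at h1
    rw [Ideal.span_singleton_eq_top.2 h1, sup_top_eq]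
  · rw [← ht, Ideal.span_insert f, Ideal.span_insert f, Ideal.span_insert u, sup_assoc]
theorem Dz_swap (h u1 u2 : (AS s)[X]) : Dz s h u2 u1 = -Dz s h u1 u2 := by
  rw [Dz, Dz, neg_sub]
theorem Dz_assoc {h h' : (AS s)[X]} (hh : Associated h h') (u1 u2 : (AS s)[X]) :
    Dz s h u1 u2 = Dz s h' u1 u2 := by
  have h1 : Ideal.span {h} = Ideal.span {h'} := le_antisymm
    (Ideal.span_singleton_le_span_singleton.2 hh.symm.dvd)
    (Ideal.span_singleton_le_span_singleton.2 hh.dvd)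
  simp only [Dz, Ideal.span_insert h, Ideal.span_insert h', h1]
theorem Dz_unit {h : (AS s)[X]} (hh : IsUnit h) (u1 u2 : (AS s)[X]) : Dz s h u1 u2 = 0 := by
  simp only [Dz, Ideal.span_insert h, Ideal.span_singleton_eq_top.2 hh, top_sup_eq, zq_top,
    sub_self]
/-- The three curves. -/
theorem Dz_cycle (m f g : (AS s)[X]) : Dz s m f g + Dz s f g m + Dz s g m f = 0 := by
  rw [Dz, Dz, Dz, Set.pair_comm f m, Set.pair_comm g m, Set.pair_comm g f]
  ring
theorem span_top_iff {R : Type} [CommRing R] {a b c : R} :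
    Ideal.span {a, b, c} = ⊤ ↔ ∃ x y z, x * a + y * b + z * c = 1 := by
  rw [Ideal.eq_top_iff_one, ← Ideal.submodule_span_eq, Submodule.mem_span_triple]
  rfl
theorem span_top_perm {R : Type} [CommRing R] {a b c : R} (h : Ideal.span {a, b, c} = ⊤) :
    Ideal.span {b, c, a} = ⊤ ∧ Ideal.span {c, a, b} = ⊤ ∧ Ideal.span {a, c, b} = ⊤ ∧
      Ideal.span {b, a, c} = ⊤ ∧ Ideal.span {c, b, a} = ⊤ := by
  obtain ⟨x, y, z, h⟩ := span_top_iff.1 h
  exact ⟨span_top_iff.2 ⟨y, z, x, by linear_combination h⟩,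
    span_top_iff.2 ⟨z, x, y, by linear_combination h⟩,
    span_top_iff.2 ⟨x, z, y, by linear_combination h⟩,
    span_top_iff.2 ⟨y, x, z, by linear_combination h⟩,
    span_top_iff.2 ⟨z, y, x, by linear_combination h⟩⟩

section
variable {F : Type} [Field F] [NumberField F] {w : 𝓞 F} {h : (AS s)[X]} {ev : (AS s)[X] →+* F}
theorem Chart.rel (hc : Chart s h F w ev) : w ^ 2 + w + 1 = 0 := by
  have h1 := congrArg ev (wP_rel (s := s))
  rw [map_add, map_add, map_pow, map_one, map_zero, hc.om] at h1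
  exact RingOfIntegers.ext (by simpa using h1)
theorem Chart.eis (hc : Chart s h F w ev) (hw : w ^ 2 + w + 1 = 0) (x : QRH.E) :
    ev (C (algebraMap QRH.E (AS s) x)) = eis w hw x := by
  have h1 : x = (x.re : QRH.E) + (x.im : QRH.E) * QRH.om := by
    ext <;> simp [QRH.om]
  have h2 : ev (C (algebraMap QRH.E (AS s) QRH.om)) = w := hc.om
  rw [h1]
  simp only [map_add, map_mul, map_intCast, h2, eis_om]
theorem Chart.eval (hc : Chart s h F w ev) (hw : w ^ 2 + w + 1 = 0) (p : QRH.E[X]) :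
    ev (p.map (algebraMap QRH.E (AS s))) = p.eval₂ (NQ.eis w hw) (ev X) := by
  induction p using Polynomial.induction_on' with
  | add a b ha hb => rw [Polynomial.map_add, map_add, eval₂_add, ha, hb]
  | monomial n a =>
    rw [Polynomial.map_monomial, eval₂_monomial, ← C_mul_X_pow_eq_monomial, map_mul, map_pow,
      hc.eis hw]
theorem Chart.OG_C (hc : Chart s h F w ev) (hs : 0 < s) {v : HS F} (hv : (s : 𝓞 F) ∉ v.asIdeal)
    (c : AS s) : OG v 0 (ev (C c)) := by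
  obtain ⟨k, y, hy⟩ := AS_surj c
  refine (mem_RR hs.ne').1 ⟨k, ?_⟩ v hv
  have h1 := hc.eis hc.rel y
  rw [← hy, map_mul, map_mul, map_pow, map_pow, map_natCast, map_natCast] at h1
  rw [h1]
  exact eis_integral _ y
theorem ASb_term (hc : Chart s h F w ev) (hs : 0 < s) {v : HS F} (hv : (s : 𝓞 F) ∉ v.asIdeal)
    {n : ℤ} (hθ : OG v n (ev X)) (a : AS s) (i : ℕ) : OG v (i * n) (ev (C a * X ^ i)) := by
  have h1 := (hc.OG_C hs hv a).mul (hθ.pow i)
  rwa [zero_add, ← map_pow, ← map_mul] at h1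
theorem Chart.OG_ev (hc : Chart s h F w ev) (hs : 0 < s) {v : HS F} (hv : (s : 𝓞 F) ∉ v.asIdeal)
    (hθ : OG v 0 (ev X)) (u : (AS s)[X]) : OG v 0 (ev u) := by
  rw [u.as_sum_range_C_mul_X_pow, map_sum]
  exact OG.sum _ _ fun i _ => by simpa only [mul_zero] using ASb_term hc hs hv hθ _ i
/-- At a pole a monic polynomial is close to its leading term. -/
theorem Chart.pole (hc : Chart s h F w ev) (hs : 0 < s) {v : HS F} (hv : (s : 𝓞 F) ∉ v.asIdeal)
    (hθ : ¬ OG v 0 (ev X)) {u : (AS s)[X]} (hu : u.Monic) :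
    OG v 1 (ev u / ev X ^ u.natDegree - 1) := by
  have h0 : ev X ≠ 0 := fun h => hθ (Or.inl h)
  have h1 : ord v (ev X) < 0 := not_le.1 fun h => hθ (Or.inr h)
  have h2 := congrArg ev hu.as_sum
  rw [map_add, map_pow, map_sum] at h2
  rw [div_sub_one (pow_ne_zero _ h0), OG_div_iff (pow_ne_zero _ h0), h2, add_sub_cancel_left,
    ord_pow]
  refine OG.sum _ _ fun i hi => (ASb_term hc hs hv (OG.self v _) _ i).mono ?_
  have h3 : (i : ℤ) + 1 ≤ u.natDegree := by exact_mod_cast Finset.mem_range.1 hi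
  nlinarith
theorem ASb_one {v : HS F} : ¬ OG v 1 (1 : F) := fun h => by
  have := h.le one_ne_zero
  rw [ord_one] at this
  omega
theorem ASb_m3 (hc : Chart s h F w ev) (hs : 0 < s) {v : HS F} (hv : (s : 𝓞 F) ∉ v.asIdeal)
    (hθ : ¬ OG v 0 (ev X)) {u : (AS s)[X]} (hu : M3 u) : 3 ∣ ord v (ev u) := by
  have h0 : ev X ≠ 0 := fun h => hθ (Or.inl h)
  have h1 := ord_eq_of_OG (v := v) (y := ev u / ev X ^ u.natDegree) one_ne_zero
    (by rw [ord_one, zero_add]; exact hc.pole hs hv hθ hu.1)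
  have h2 := h1.2
  rw [ord_div v (fun h => h1.1 (by rw [h, zero_div])) (pow_ne_zero _ h0), ord_one, ord_pow,
    sub_eq_zero] at h2
  rw [h2]
  exact Dvd.dvd.mul_right (by exact_mod_cast hu.2) _
theorem Chart.d3 (hc : Chart s h F w ev) (hs : 0 < s) {u1 u2 : (AS s)[X]} (h1 : ¬ h ∣ u1)
    (h2 : ¬ h ∣ u2) (ht : Ideal.span {h, u1, u2} = ⊤) (hm : h.Monic ∨ M3 u1 ∨ M3 u2) :
    D3 s (ev u1) (ev u2) := by
  intro v hv
  have h0 : ev h = 0 := (hc.ker h).2 dvd_rfl
  by_cases hθ : OG v 0 (ev X)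
  · obtain ⟨x, y, z, hx⟩ := span_top_iff.1 ht
    have h3 := congrArg ev hx
    rw [map_add, map_add, map_mul, map_mul, map_mul, h0, mul_zero, zero_add, map_one] at h3
    have a1 := (hc.OG_ev hs hv hθ u1).le fun h => h1 ((hc.ker _).1 h)
    have a2 := (hc.OG_ev hs hv hθ u2).le fun h => h2 ((hc.ker _).1 h)
    by_contra hn
    have b1 : OG v 1 (ev u1) := Or.inr (by omega)
    have b2 : OG v 1 (ev u2) := Or.inr (by omega)
    have h4 := ((hc.OG_ev hs hv hθ y).mul b1).add ((hc.OG_ev hs hv hθ z).mul b2)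
    rw [h3, zero_add] at h4
    exact ASb_one h4
  · rcases hm with hm | hm | hm
    · have h3 := (hc.pole hs hv hθ hm).neg
      rw [h0, zero_div, zero_sub, neg_neg] at h3
      exact absurd h3 ASb_one
    · exact Or.inl (ASb_m3 hc hs hv hθ hm)
    · exact Or.inr (ASb_m3 hc hs hv hθ hm)
theorem Chart.prime (hc : Chart s h F w ev) (hs : 0 < s) (h0 : h ≠ 0) : Prime h := by
  have _ := hs
  refine ⟨h0, fun hu => one_ne_zero ((map_one ev).symm.trans ((hc.ker 1).2 hu.dvd)),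
    fun a b hab => ?_⟩
  have h1 := (hc.ker _).2 hab
  rw [map_mul, mul_eq_zero, hc.ker, hc.ker] at h1
  exact h1
end

end NQ
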