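import Vale.Agent.NQ.Cont
import Vale.Agent.P319.Defs

noncomputable section
namespace NQ
open Complex MeasureTheory NumberField Filter
open scoped ComplexConjugate Classical Topology

theorem AuxP_num {C C' l d1 d2 L m y M G c1 c2 : ℝ} (hC : 0 < C) (hC' : 0 < C') (hm : 1 ≤ m)
    (hy : 1 ≤ y) (hl : 2 ≤ l) (hlm : l ≤ m ^ 2) (h1 : 0 ≤ d1) (hd1 : d1 ≤ 3 * m ^ 2) (h2 : 0 ≤ d2)
    (hd2 : d2 ≤ 3 * m ^ 4) (hL0 : 0 ≤ L) (hL : L ≤ 2 * m) (hM : y ^ 25 / 2 ≤ M)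
    (e1 : |c1 - M| ≤ C * (d1 ^ 3 * L) * y ^ 24) (e2 : |c2 - M| ≤ C * (d2 ^ 3 * L) * y ^ 24)
    (e3 : c1 ≤ G + C' * d1 * y ^ 15) (e4 : l * G ≤ c2) : y ≤ (216 * C + 6 * C') * m ^ 13 := by
  have hy0 : 0 < y ^ 24 := by positivity
  have p : ∀ {a b : ℕ}, a ≤ b → m ^ a ≤ m ^ b := fun h => pow_le_pow_right₀ hm h
  have a1 : l * (d1 ^ 3 * L) ≤ 54 * m ^ 13 :=
    calc l * (d1 ^ 3 * L) ≤ m ^ 2 * ((3 * m ^ 2) ^ 3 * (2 * m)) := by gcongr
      _ = 54 * m ^ 9 := by ring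
      _ ≤ _ := by linarith [p (show 9 ≤ 13 by norm_num)]
  have a2 : d2 ^ 3 * L ≤ 54 * m ^ 13 :=
    calc d2 ^ 3 * L ≤ (3 * m ^ 4) ^ 3 * (2 * m) := by gcongr
      _ = 54 * m ^ 13 := by ring
  have a3 : l * (d1 * y ^ 15) ≤ 3 * m ^ 13 * y ^ 24 :=
    calc l * (d1 * y ^ 15) ≤ m ^ 2 * (3 * m ^ 2 * y ^ 24) := by
          gcongr
          norm_num
      _ = 3 * m ^ 4 * y ^ 24 := by ring
      _ ≤ _ := by
          gcongr
          norm_num
  have b1 := mul_le_mul_of_nonneg_left ((abs_le.1 e1).1) (show 0 ≤ l by linarith)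
  have b2 := (abs_le.1 e2).2
  have b3 := mul_le_mul_of_nonneg_left e3 (show 0 ≤ l by linarith)
  have b4 := mul_le_mul_of_nonneg_left a1 (mul_pos hC hy0).le
  have b5 := mul_le_mul_of_nonneg_left a2 (mul_pos hC hy0).le
  have b6 := mul_le_mul_of_nonneg_left a3 hC'.le
  have b7 : 2 * M ≤ l * M := mul_le_mul_of_nonneg_right hl (le_trans (by positivity) hM)
  refine le_of_mul_le_mul_right ?_ hy0
  nlinarith

theorem aux (h1 : PIT) (h2 : Cheb1) (h3 : Cheb2) (h4 : Kum) : ∃ c : ℕ, ∀ p n : ℕ, p.Prime → 3 < p →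
    Vale.Agent.P319.AuxPrimes p n (((n + 1) * Nat.size p) ^ c) := by
  obtain ⟨C, hC, h1⟩ := h1
  obtain ⟨C', hC', h2⟩ := h2
  obtain ⟨j, hj⟩ := pow_unbounded_of_one_lt (216 * C + 6 * C') (one_lt_two (α := ℝ))
  refine ⟨(j + 13) * 25 * 2, fun p n hp h3p l s hl hlp hs hn => ?_⟩
  by_contra hne
  obtain ⟨F1, F2, _, _, _, _, w1, w2, π, hw1, hw2, hd1, hd2, hs1, hs2, hv⟩ := h4 l s p hl hs hp h3p hlp
  have hS : 2 ≤ p.size := Nat.lt_size.2 (by simpa using hp.two_le)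
  have hnm : n ≤ (n + 1) * p.size := by nlinarith
  have hSm : p.size ≤ (n + 1) * p.size := by nlinarith
  have hlog : Real.log p ≤ p.size := by
    have h5 : (p : ℝ) ≤ 2 ^ p.size := by exact_mod_cast (Nat.lt_size_self p).le
    have h6 := Real.log_le_log (by exact_mod_cast hp.pos) h5
    rw [Real.log_pow] at h6
    nlinarith [Real.log_two_lt_d9, (Nat.cast_nonneg p.size : (0 : ℝ) ≤ _)]
  generalize (n + 1) * p.size = m at hnm hSm hne
  have hm : (2 : ℝ) ≤ m := by exact_mod_cast hS.trans hSm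
  have hls : l ^ s ≤ m ^ 2 := hn.trans (Nat.pow_le_pow_left hnm 2)
  have hlm : l ≤ m ^ 2 := (Nat.le_self_pow hs.ne' l).trans hls
  have hy : (1 : ℝ) ≤ (m : ℝ) ^ (j + 13) := one_le_pow₀ (by linarith)
  have hx : (1 : ℝ) ≤ ((m : ℝ) ^ (j + 13)) ^ 25 := one_le_pow₀ hy
  have hp1 : (1 : ℝ) ≤ p := by exact_mod_cast hp.one_le
  have r : ∀ (k : ℕ) (a : ℝ), 25 * a = k → (((m : ℝ) ^ (j + 13)) ^ 25) ^ a = ((m : ℝ) ^ (j + 13)) ^ k :=
    fun k a h => by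
      rw [← Real.rpow_natCast _ 25, ← Real.rpow_mul (by linarith), ← Real.rpow_natCast _ k, ← h]
      norm_num
  have e1 := h1 F1 w1 p hw1 hp1 hs1 _ hx
  have e2 := h1 F2 w2 p hw2 hp1 hs2 _ hx
  have e3 := h2 F1 {3, l, p} _ Finset.card_le_three hx
  have e4 := h3 F1 F2 π l {3, l, p} _ (lt_of_lt_of_le one_pos hx) fun v hg => by
    obtain ⟨k1, k2⟩ := hv v hg.1 hg.2.2
    by_contra h0
    refine hne ⟨qv v, hg.1, ?_, fun h => hg.2.2 (by simp [h]), k1, fun h => h0 (k2 h)⟩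
    have := hg.2.1
    rw [← pow_mul, ← pow_mul, ← mul_assoc] at this
    exact_mod_cast this
  rw [r 24 _ (by norm_num)] at e1 e2
  rw [r 15 _ (by norm_num)] at e3
  have hS' : (p.size : ℝ) ≤ m := by exact_mod_cast hSm
  have key := AuxP_num hC hC' (m := m) (by linarith) hy (by exact_mod_cast hl.two_le)
    (by exact_mod_cast hlm) (Nat.cast_nonneg _) (by exact_mod_cast hd1.trans (by omega))
    (Nat.cast_nonneg _) (by
      exact_mod_cast hd2.trans ((Nat.mul_le_mul (Nat.mul_le_mul_left 3 hls) hlm).trans_eq (by ring)))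
    (by linarith [Real.log_nonneg hp1]) (by linarith) (mm_ge hx) e1 e2 e3 e4
  rw [pow_add] at key
  have k2 : (2 : ℝ) ^ j ≤ (m : ℝ) ^ j := pow_le_pow_left₀ zero_le_two hm j
  linarith [le_of_mul_le_mul_right key (by positivity)]

end NQ
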