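import Vale.Agent.NQ.B1b

noncomputable section
namespace NQ
open Complex MeasureTheory NumberField Filter
open scoped ComplexConjugate Classical ContDiff Topology

variable [σ : St]

/-- The inclusion of the integers. -/
def B1_inc : 𝓞 FF →+* E :=
  (algebraMap (𝓞 FF) FF).codRestrict (RR FF σ.s) fun x => mem_E_of_integral x.isIntegral_coe

theorem finite_quot {c : E} (hc : c ≠ 0) : Finite (E ⧸ Ideal.span {c}) := by
  obtain ⟨n, hn, hint⟩ := exists_nat_mul_integral ((c : FF)⁻¹)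
  have hc' : (c : FF) ≠ 0 := fun h => hc (Subtype.ext h)
  have hdvd : c ∣ (n : E) := ⟨⟨_, mem_E_of_integral hint⟩, Subtype.ext (by
    change ((n : E) : FF) = (c : FF) * ((n : FF) * (c : FF)⁻¹)
    rw [SubringClass.coe_natCast]
    field_simp)⟩
  have hfin : Finite (𝓞 FF ⧸ Ideal.span {(n : 𝓞 FF)}) :=
    Ideal.finiteQuotientOfFreeOfNeBot _ (by simpa using hn)
  refine Finite.of_surjective (Ideal.Quotient.lift (Ideal.span {(n : 𝓞 FF)})
    ((Ideal.Quotient.mk (Ideal.span {c})).comp B1_inc) fun a ha => ?_) fun z => ?_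
  · obtain ⟨t, rfl⟩ := Ideal.mem_span_singleton.1 ha
    rw [RingHom.comp_apply, Ideal.Quotient.eq_zero_iff_mem, Ideal.mem_span_singleton, map_mul,
      map_natCast]
    exact hdvd.mul_right _
  · obtain ⟨r, rfl⟩ := Ideal.Quotient.mk_surjective z
    obtain ⟨x, hx, hx'⟩ := exists_approx_E hc r 0 one_ne_zero
    rw [sub_zero, div_one] at hx'
    obtain ⟨y, hy⟩ : ∃ y : 𝓞 FF, B1_inc y = x := ⟨⟨x, integral_of_mem hx'⟩, rfl⟩
    refine ⟨Ideal.Quotient.mk _ y, ?_⟩
    rw [Ideal.Quotient.lift_mk, RingHom.comp_apply, Ideal.Quotient.eq, Ideal.mem_span_singleton, hy]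
    exact hx

theorem B1_nm_zero : nm 0 = 0 := by
  unfold nm
  rw [Ideal.span_singleton_eq_bot.2 rfl, Nat.card_congr (RingEquiv.quotientBot E).toEquiv]
  exact Nat.card_eq_zero_of_infinite

theorem nm_mul (x y : E) : nm (x * y) = nm x * nm y := by
  by_cases hx : x = 0
  · rw [hx, zero_mul, B1_nm_zero, zero_mul]
  have hle : Ideal.span {x * y} ≤ Ideal.span {x} :=
    Ideal.span_singleton_le_span_singleton.2 (dvd_mul_right x y)
  have h1 := Submodule.card_quotient_mul_card_quotient (Ideal.span {x}) (Ideal.span {x * y}) hle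
  let f : E →ₗ[E] E ⧸ Ideal.span {x * y} :=
    (Ideal.span {x * y}).mkQ ∘ₗ LinearMap.toSpanSingleton E E x
  have hr : LinearMap.range f =
      Submodule.map (Ideal.span {x * y}).mkQ (Ideal.span {x}) := by
    rw [LinearMap.range_comp, LinearMap.range_toSpanSingleton]
  have hk : LinearMap.ker f = Ideal.span {y} := by
    ext t
    rw [LinearMap.mem_ker, LinearMap.comp_apply, Submodule.mkQ_apply,
      Submodule.Quotient.mk_eq_zero, LinearMap.toSpanSingleton_apply, smul_eq_mul,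
      Ideal.mem_span_singleton, Ideal.mem_span_singleton, mul_comm t x, mul_dvd_mul_iff_left hx]
  have h2 := Nat.card_congr f.quotKerEquivRange.toEquiv
  rw [hr, hk] at h2
  unfold nm
  rw [← h1, ← h2, mul_comm]
theorem nm_one : nm 1 = 1 := by
  unfold nm
  rw [Ideal.span_singleton_one]
  exact Nat.card_unique
theorem nm_zero : nm 0 = 0 := B1_nm_zero
theorem nm_pow (x : E) (k : ℕ) : nm (x ^ k) = nm x ^ k := by
  induction k with
  | zero => rw [pow_zero, pow_zero, nm_one]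
  | succ k ih => rw [pow_succ, pow_succ, nm_mul, ih]
theorem nm_prod {ι : Type*} (s : Finset ι) (f : ι → E) :
    nm (∏ i ∈ s, f i) = ∏ i ∈ s, nm (f i) := by
  induction s using Finset.induction_on with
  | empty => rw [Finset.prod_empty, Finset.prod_empty, nm_one]
  | insert a s ha ih => rw [Finset.prod_insert ha, Finset.prod_insert ha, nm_mul, ih]
theorem nm_neg (x : E) : nm (-x) = nm x := by
  unfold nm
  rw [Ideal.span_singleton_neg]
theorem nm_assoc {x y : E} (h : Associated x y) : nm x = nm y := by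
  unfold nm
  rw [Ideal.span_singleton_eq_span_singleton.2 h]
theorem nm_eq_zero {x : E} : nm x = 0 ↔ x = 0 := by
  refine ⟨fun h => by_contra fun hx => ?_, fun h => h ▸ nm_zero⟩
  have := finite_quot hx
  exact Nat.card_pos.ne' h
theorem one_le_nm {x : E} (hx : x ≠ 0) : 1 ≤ nm x :=
  Nat.one_le_iff_ne_zero.2 fun h => hx (nm_eq_zero.1 h)
theorem one_le_nmR {x : E} (hx : x ≠ 0) : (1 : ℝ) ≤ nm x := by exact_mod_cast one_le_nm hx
theorem nm_dvd {x y : E} (h : x ∣ y) : nm x ∣ nm y := by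
  obtain ⟨t, rfl⟩ := h
  exact ⟨nm t, nm_mul x t⟩
theorem nm_le_of_dvd {x y : E} (h : x ∣ y) (hy : y ≠ 0) : nm x ≤ nm y :=
  Nat.le_of_dvd (one_le_nm hy) (nm_dvd h)
theorem isUnit_iff {x : E} : IsUnit x ↔ nm x = 1 := by
  refine ⟨fun h => (nm_assoc (associated_one_iff_isUnit.2 h)).trans nm_one, fun h => ?_⟩
  exact Ideal.span_singleton_eq_top.1
    (Ideal.Quotient.subsingleton_iff.1 (Nat.card_eq_one_iff_unique.1 h).1)

theorem P.prime (p : P) : Prime p.1 := p.2.1
theorem P.ne_zero (p : P) : p.1 ≠ 0 := p.prime.ne_zero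
theorem exists_P {q : E} (hq : Prime q) : ∃ p : P, Associated q p.1 :=
  ⟨⟨Quot.out (Associates.mk q), (Associates.mk_quot_out q).symm.prime hq, by
    rw [Associates.quot_out]⟩, (Associates.mk_quot_out q).symm⟩

theorem B1_not_unit {l : ℕ} (hl : l.Prime) (hs : σ.s < l) : ¬ IsUnit (l : E) := by
  intro hu
  obtain ⟨t, ht⟩ := hu.exists_right_inv
  obtain ⟨k, hk⟩ := t.2
  have hl0 : (l : FF) ≠ 0 := Nat.cast_ne_zero.2 hl.ne_zero
  have ht' : (l : FF) * (t : FF) = 1 := by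
    have := congrArg (fun z : E => (z : FF)) ht
    simpa using this
  have he : (σ.s : FF) ^ k * (t : FF) = algebraMap ℚ FF ((σ.s : ℚ) ^ k / l) := by
    rw [eq_inv_of_mul_eq_one_right ht']
    simp [div_eq_mul_inv]
  rw [he, isIntegral_algebraMap_iff (algebraMap ℚ FF).injective] at hk
  obtain ⟨m, hm⟩ := IsIntegrallyClosed.isIntegral_iff.1 hk
  have hl1 : (l : ℚ) ≠ 0 := Nat.cast_ne_zero.2 hl.ne_zero
  have h1 : ((σ.s : ℤ) ^ k : ℤ) = l * m := by
    have h2 : ((σ.s : ℚ) ^ k) = l * (m : ℚ) := by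
      have h3 : (m : ℚ) = (σ.s : ℚ) ^ k / l := by simpa using hm
      rw [h3]; field_simp
    exact_mod_cast h2
  have h4 : l ∣ σ.s ^ k := Int.natCast_dvd_natCast.1 ⟨m, by exact_mod_cast h1⟩
  exact absurd (Nat.le_of_dvd σ.s_pos (hl.dvd_of_dvd_pow h4)) (not_le.2 hs)

instance : Nonempty P := by
  obtain ⟨l, hs, hl⟩ := Nat.exists_infinite_primes (σ.s + 1)
  obtain ⟨q, hq, -⟩ := WfDvdMonoid.exists_irreducible_factor (B1_not_unit hl hs)
    (Nat.cast_ne_zero.2 hl.ne_zero)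
  obtain ⟨p, -⟩ := exists_P hq.prime
  exact ⟨p⟩
theorem P.not_dvd_unit (p : P) {u : E} (hu : IsUnit u) : ¬ p.1 ∣ u :=
  fun h => p.prime.not_isUnit (isUnit_of_dvd_unit h hu)
theorem P.not_dvd_two (p : P) : ¬ p.1 ∣ 2 := p.not_dvd_unit isUnit_two
theorem P.not_dvd_three (p : P) : ¬ p.1 ∣ 3 := p.not_dvd_unit isUnit_three
theorem P.dvd_iff (p q : P) : p.1 ∣ q.1 ↔ p = q := by
  refine ⟨fun h => Subtype.ext ?_, fun h => h ▸ dvd_rfl⟩
  rw [← p.2.2, ← q.2.2,
    Associates.mk_eq_mk_iff_associated.2 (p.prime.associated_of_dvd q.prime h)]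
theorem P.coprime {p q : P} (h : p ≠ q) : IsCoprime p.1 q.1 :=
  p.prime.coprime_iff_not_dvd.2 fun hd => h ((p.dvd_iff q).1 hd)

theorem B1_mod (p : P) {l : ℕ} (hl : l.Prime) {x : E} (hx : x ^ l = 1) (h : ¬ p.1 ∣ x - 1) :
    nm p.1 % l = 1 := by
  have : Fact l.Prime := ⟨hl⟩
  have := finite_quot p.ne_zero
  have : (Ideal.span {p.1}).IsMaximal :=
    PrincipalIdealRing.isMaximal_of_irreducible p.prime.irreducible
  let _ := Ideal.Quotient.field (Ideal.span {p.1})
  have h1 : Ideal.Quotient.mk (Ideal.span {p.1}) x ^ l = 1 := by rw [← map_pow, hx, map_one]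
  have h2 : Ideal.Quotient.mk (Ideal.span {p.1}) x ≠ 1 := fun h' => h (by
    rwa [← map_one (Ideal.Quotient.mk (Ideal.span {p.1})), Ideal.Quotient.eq,
      Ideal.mem_span_singleton] at h')
  obtain ⟨u, hu⟩ := IsUnit.of_pow_eq_one h1 hl.ne_zero
  have h3 : orderOf u = l := by
    rw [← orderOf_units, hu]
    exact orderOf_eq_prime h1 h2
  have h4 := orderOf_dvd_natCard u
  rw [h3, Nat.card_units] at h4
  have h5 : 1 ≤ nm p.1 := one_le_nm p.ne_zero
  obtain ⟨t, ht⟩ := h4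
  have h6 : nm p.1 = l * t + 1 := by
    unfold nm at h5 ⊢
    omega
  rw [h6, Nat.mul_add_mod, Nat.mod_eq_of_lt hl.one_lt]

theorem P.nm_mod (p : P) : nm p.1 % 3 = 1 := by
  refine B1_mod p Nat.prime_three om_cube fun h => p.not_dvd_three ?_
  have : (3 : E) = (om - 1) * (-(om + 2)) := by linear_combination om_rel
  rw [this]
  exact h.mul_right _
theorem P.nm_odd (p : P) : nm p.1 % 2 = 1 := by
  refine B1_mod p Nat.prime_two (x := -1) (by ring) fun h => p.not_dvd_two ?_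
  have : (2 : E) = (-1 - 1) * (-1) := by ring
  rw [this]
  exact h.mul_right _
theorem P.four_le_nm (p : P) : 4 ≤ nm p.1 := by
  have h1 := p.nm_mod
  have h2 : nm p.1 ≠ 1 := fun h => p.prime.not_isUnit (isUnit_iff.2 h)
  omega
theorem isCoprime_iff {a b : E} : IsCoprime a b ↔ ∀ p : P, ¬ (p.1 ∣ a ∧ p.1 ∣ b) := by
  refine ⟨fun h p hp => p.prime.not_isUnit (h.isUnit_of_dvd' hp.1 hp.2), fun h => ?_⟩
  refine isCoprime_of_prime_dvd (fun h0 => ?_) fun z hz ha hb => ?_
  · obtain ⟨p⟩ : Nonempty P := inferInstance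
    exact h p ⟨h0.1 ▸ dvd_zero _, h0.2 ▸ dvd_zero _⟩
  · obtain ⟨p, hp⟩ := exists_P hz
    exact h p ⟨hp.dvd_iff_dvd_left.1 ha, hp.dvd_iff_dvd_left.1 hb⟩
theorem isCoprime_prime {p x : E} (hp : Prime p) : IsCoprime x p ↔ ¬ p ∣ x :=
  isCoprime_comm.trans hp.coprime_iff_not_dvd
theorem mul_dv {x y : E} (h : y ∣ x) : y * dv x y = x := by
  unfold dv
  rw [dif_pos h]
  exact h.choose_spec.symm
theorem dv_mul {y : E} (hy : y ≠ 0) (x : E) : dv (y * x) y = x :=
  mul_left_cancel₀ hy (mul_dv (dvd_mul_right y x))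
theorem inv_spec {m x : E} (h : IsCoprime x m) : m ∣ x * inv m x - 1 := by
  have h' : ∃ y, m ∣ x * y - 1 := by
    obtain ⟨a, b, hab⟩ := h
    exact ⟨a, -b, by linear_combination hab⟩
  unfold inv
  rw [dif_pos h']
  exact h'.choose_spec

end NQ
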