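import Vale.Agent.NQ.Defs

/-! Statements of the arithmetic results. Each is proved in its own file; files that use one of
them take it as a hypothesis (this keeps the import graph shallow). -/

noncomputable section
namespace NQ
open Complex MeasureTheory NumberField Filter
open scoped ComplexConjugate Classical Topology

variable [σ : St]

/-- The relative norm to the field of cube roots of unity, as a complex number. -/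
def NK (x : FF) : ℂ := ∏ w : Pl, em w x
/-- The angular factor. -/
def ang (x : FF) : ℂ := ∏ w : Pl, (em w x / (‖em w x‖ : ℝ))
/-- The normalised quadratic Gauss sum. -/
def gq (c : E) : ℂ := rsum c (fun x => psf (x ^ 2) c) / (√(nm c : ℝ) : ℝ)

/-- Cube of the cubic Gauss sum. -/
def G3N : Prop := ∀ p : P, ∃ π : QRH.E, (3 : QRH.E) ∣ π - 1 ∧
  gs c3 {p} ^ 3 = -((nm p.1 : ℂ) * QRH.toC π) ∧ QRH.nm π = nm p.1 ∧
  ∃ (u v : QRH.E) (k j : ℕ), u * v = (σ.s : QRH.E) ^ k ∧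
    QRH.toC π * QRH.toC u = (σ.s : ℂ) ^ j * NK (p.1 : FF)
/-- Product formula for the cubic Hilbert symbol, in the range used. -/
def HOne : Prop := ∀ u b : E, Cl 1 u → b ≠ 0 → H u b = 1
/-- `H a b` only depends on the classes. -/
def HCongr : Prop := ∀ a a' b : E, Cl a a' → b ≠ 0 → H a' b = H a b ∧ H b a' = H b a
/-- The normalised quadratic Gauss sum only depends on the class. -/
def QG : Prop := ∀ c c' : E, Cl c c' → gq c = gq c'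
/-- Reciprocity on a class. -/
def XR (χ : P → E → ℂ) : Prop := ∀ (a : FF) (n : E), a ≠ 0 → n ≠ 0 → ∃ κ : ℂ, ‖κ‖ = 1 ∧
  ∀ c : E, Cl a c → xv χ c n = κ * xv χ n c
/-- Quadratic reciprocity: the sign only depends on finitely many types. -/
def QRec : Prop := ∃ (k : ℕ) (tp : E → Fin k) (sg : Fin k → Fin k → ℂ), (∀ i j, ‖sg i j‖ = 1) ∧
  ∀ c n : E, c ≠ 0 → n ≠ 0 → xv c2 c n = sg (tp c) (tp n) * xv c2 n c
/-- The normalised quadratic Gauss sum of a squarefree modulus only depends on the class. -/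
def QGam : Prop := ∀ (s t : Finset P) (c c' : E), Associated c (pr s) → Associated c' (pr t) →
  Cl c c' → gamE c2 s c = gamE c2 t c'
/-- Moebius times sextic Gauss sum is a theta coefficient. -/
def MuGam : Prop := ∀ a : FF, a ≠ 0 → ∃ κ : ℂ, ‖κ‖ = 1 ∧ ∀ (s : Finset P) (c : E),
  Associated c (pr s) → Cl a c → mu s * gamE c6 s c = κ * (Tg c * ang c / (√(Ns s) : ℝ))

/-- The level one identity (Cardano). -/
def Card1 : Prop := ∀ (p : P) (u δ ξ : E) (a : ℕ), ¬ p.1 ∣ u → (a = 1 ∨ a = 2) →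
  rsum2 p.1 (fun y x => c3 p y ^ a * psq p.1 (x ^ 3) (p.1 * u * y)
      * psq p.1 (y * δ + 3 * x * ξ) (p.1 * u))
    + rsum p.1 (fun y => conj (c3 p y) ^ a * psq p.1 y (p.1 * u))
  = nm p.1 * (c3 p δ ^ a * psq p.1 (ξ ^ 3) (p.1 * u * δ))
    + if p.1 ∣ δ ∧ p.1 ∣ ξ then
        nm p.1 * rsum p.1 (fun y => conj (c3 p y) ^ a * psq p.1 y (p.1 * u)) else 0
/-- Stationary phase. -/
def SPh : Prop := ∀ (p : P) (u δ ξ : E) (a m : ℕ), ¬ p.1 ∣ u → 2 ≤ m →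
  rsum2 (p.1 ^ m) (fun y x => if ¬ p.1 ∣ y ∧ ¬ p.1 ∣ x then
      c3 p y ^ a * psq p.1 (x ^ 3) (p.1 ^ m * u * y)
        * psq p.1 (y * δ + 3 * x * ξ) (p.1 ^ m * u) else 0)
  = if ¬ p.1 ∣ δ ∧ ¬ p.1 ∣ ξ then
      (nm p.1 : ℂ) ^ m * (c3 p δ ^ a * psq p.1 (ξ ^ 3) (p.1 ^ m * u * δ)) else 0
/-- The local section is its own Fourier transform. -/
def LocS : Prop := ∀ (p : P) (c δ ξ : E), c ≠ 0 →
  rsum2 (p.1 ^ vp p.1 c) (fun y x => phip p c y x * psq p.1 (y * δ + 3 * x * ξ) c)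
    = (nm p.1 : ℂ) ^ vp p.1 c * phip p c δ ξ
/-- The global section is its own Fourier transform. -/
def GlS : Prop := ∀ c δ ξ : E, c ≠ 0 →
  rsum2 c (fun y x => phig c y x * psf (y * δ + 3 * x * ξ) c) = nm c * phig c δ ξ
/-- Equivariance. -/
def Eqv : Prop := ∀ α β κ η c d x : E, α * η - β * κ = 1 → κ ≠ 0 → c ≠ 0 → α * c + κ * d ≠ 0 →
  phig c d x = xv c3 κ α * H c (α * c + κ * d) * H κ c * H (α * c + κ * d) κ
    * psf (x ^ 3 * κ) (c * (α * c + κ * d)) * phig (α * c + κ * d) (β * c + η * d) x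
/-- The swap. -/
def Asw : Prop := ∀ c d x : E, c ≠ 0 → d ≠ 0 →
  phig c d x = H c d * psf (x ^ 3) (c * d) * phig d (-c) x

/-- Decay of order three. -/
def Dec (M : ℝ) (f : ℂ → ℂ) : Prop := ∀ z, ‖f z‖ ≤ M * (1 + ‖z‖) ^ (-3 : ℝ)
/-- Decay of order three in two variables. -/
def Dec2 (M : ℝ) (F : ℂ × ℂ → ℂ) : Prop :=
  ∀ z, ‖F z‖ ≤ M * (1 + ‖z.1‖) ^ (-3 : ℝ) * (1 + ‖z.2‖) ^ (-3 : ℝ)
/-- The dual lattice of the integers. -/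
def Dl (ξ : FF) : Prop := ∀ y : FF, IsIntegral ℤ y → psiV (ξ * y) = 1

/-- Poisson summation for a translate of a multiple of the lattice of integers. -/
def PO1 : Prop := ∀ (a y : FF) (f : Pl → ℂ → ℂ) (M : ℝ), a ≠ 0 → (∀ w, Continuous (f w)) →
  (∀ w, Dec M (f w)) → (∀ w, Dec M (ft (f w))) →
  ∑' x : 𝓞 FF, ∏ w, f w (em w (y + a * x))
    = ((kap / Ninf a : ℝ) : ℂ) * ∑' ξ : FF, if Dl ξ then
        psiV (y * ξ / a) * ∏ w, ft (f w) (em w (ξ / a)) else 0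
/-- The same in two variables. -/
def PO2 : Prop := ∀ (a y z : FF) (F : Pl → ℂ × ℂ → ℂ) (M : ℝ), a ≠ 0 → (∀ w, Continuous (F w)) →
  (∀ w, Dec2 M (F w)) → (∀ w, Dec2 M fun ξ => ft2 (F w) ξ.1 ξ.2) →
  ∑' x : 𝓞 FF × 𝓞 FF, ∏ w, F w (em w (y + a * x.1), em w (z + a * x.2))
    = (((kap / Ninf a) ^ 2 : ℝ) : ℂ) * ∑' ξ : FF × FF, if Dl ξ.1 ∧ Dl ξ.2 then
        psiV ((y * ξ.1 + z * ξ.2) / a) * ∏ w, ft2 (F w) (em w (ξ.1 / a)) (em w (ξ.2 / a)) else 0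
/-- Poisson summation with periodic coefficients. -/
def PS1 : Prop := ∀ (q : E) (ρ : E → ℂ) (k : ℕ) (g : FF → ℂ) (f : Pl → ℂ → ℂ) (M : ℝ), q ≠ 0 →
  Per q ρ → SB k g → (∀ w, Continuous (f w)) → (∀ w, Dec M (f w)) → (∀ w, Dec M (ft (f w))) →
  ∑' x : E, ρ x * g x * ∏ w, f w (em w x)
    = ((nm q : ℂ))⁻¹ * ∑' m : E, rsum q (fun y => ρ y * psf (y * m) q) * fts g (m / q)
        * ∏ w, ft (f w) (em w (m / q))
/-- Poisson summation in two variables. -/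
def PS2 : Prop := ∀ (q : E) (ρ : E → E → ℂ) (k : ℕ) (g : FF → FF → ℂ) (F : Pl → ℂ × ℂ → ℂ) (M : ℝ),
  q ≠ 0 → Per2 q ρ → SB2 k g → (∀ w, Continuous (F w)) → (∀ w, Dec2 M (F w)) →
  (∀ w, Dec2 M fun ξ => ft2 (F w) ξ.1 ξ.2) →
  ∑' x : E × E, ρ x.1 x.2 * g x.1 x.2 * ∏ w, F w (em w x.1, em w x.2)
    = ((nm q : ℂ) ^ 2)⁻¹ * ∑' m : E × E,
        rsum2 q (fun y z => ρ y z * psf (y * m.1 + z * m.2) q) * fts2 g (m.1 / q) (m.2 / q)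
          * ∏ w, ft2 (F w) (em w (m.1 / q)) (em w (m.2 / q))
/-- Poisson summation on a lattice `E ∩ b OS`. -/
def PSL : Prop := ∀ (q : E) (ρ : E → ℂ) (b : FF) (f : Pl → ℂ → ℂ) (M : ℝ), q ≠ 0 → Per q ρ →
  b ≠ 0 → (∀ w, Continuous (f w)) → (∀ w, Dec M (f w)) → (∀ w, Dec M (ft (f w))) →
  ∑' x : E, ρ x * il b x * ∏ w, f w (em w x)
    = ((kap * sS b / nm q : ℝ) : ℂ) * ∑' m : E, rsum q (fun y => ρ y * psf (y * m) q)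
        * il (q / (b * del)) m * ∏ w, ft (f w) (em w (m / q))
/-- Poisson summation for the Gaussian. -/
def PSG : Prop := ∀ (q : E) (ρ : E → ℂ) (b : FF) (t : Pl → ℝ), q ≠ 0 → Per q ρ → b ≠ 0 →
  (∀ w, 0 < t w) →
  ∑' x : E, ρ x * il b x * ∏ w, ((Vg (‖em w x‖ ^ 2 / t w) : ℝ) : ℂ)
    = ((kap * sS b * (∏ w, t w) / nm q : ℝ) : ℂ) * ∑' m : E, rsum q (fun y => ρ y * psf (y * m) q)
        * il (q / (b * del)) m * ∏ w, ((Vg (‖em w m‖ ^ 2 * t w / ‖em w q‖ ^ 2) : ℝ) : ℂ)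
/-- The square of the inverse covolume. -/
def KapSq : Prop := kap ^ 2 = sS del
/-- Riemann sums over a translate of a multiple of the lattice of integers. -/
def RiemO : Prop := ∀ (a y z : FF) (Φ : Pl → ℂ × ℂ → ℂ) (M : ℝ) (S1 S2 : ℝ → Pl → ℂ), a ≠ 0 →
  (∀ w, Continuous (Φ w)) → (∀ w, Dec2 M (Φ w)) →
  (∀ w, Tendsto (fun X => ‖S1 X w‖) atTop atTop) → (∀ w, Tendsto (fun X => ‖S2 X w‖) atTop atTop) →
  Tendsto (fun X => (((∏ w, ‖S1 X w‖ ^ 2 * ‖S2 X w‖ ^ 2)⁻¹ : ℝ) : ℂ) *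
      ∑' x : 𝓞 FF × 𝓞 FF, ∏ w, Φ w (em w (y + a * x.1) / S1 X w, em w (z + a * x.2) / S2 X w))
    atTop (𝓝 ((((kap / Ninf a) ^ 2 : ℝ) : ℂ) * ∏ w, (((4 / 3 : ℝ) : ℂ) * ∫ u, Φ w u)))
/-- Riemann sums with periodic coefficients. -/
def Riem0 : Prop := ∀ (m : E) (A : E → E → ℂ) (k : ℕ) (g : FF → FF → ℂ) (Φ : Pl → ℂ × ℂ → ℂ)
  (M : ℝ) (S1 S2 : ℝ → Pl → ℂ), m ≠ 0 → Per2 m A → SB2 k g →
  (∀ w, Continuous (Φ w)) → (∀ w, Dec2 M (Φ w)) →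
  (∀ w, Tendsto (fun X => ‖S1 X w‖) atTop atTop) → (∀ w, Tendsto (fun X => ‖S2 X w‖) atTop atTop) →
  Tendsto (fun X => (((∏ w, ‖S1 X w‖ ^ 2 * ‖S2 X w‖ ^ 2)⁻¹ : ℝ) : ℂ) *
      ∑' x : E × E, A x.1 x.2 * g x.1 x.2 * ∏ w, Φ w (em w x.1 / S1 X w, em w x.2 / S2 X w))
    atTop (𝓝 (rsum2 m A / (nm m : ℂ) ^ 2 * (((kap ^ 2 : ℝ) : ℂ) * sint2 g)
      * ∏ w, (((4 / 3 : ℝ) : ℂ) * ∫ u, Φ w u)))
/-- Truncation away from zero. -/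
def tr (k : ℕ) (g : FF → FF → ℂ) (C ζ : FF) : ℂ := if C ≠ 0 ∧ ss ^ k / C ∈ OS then g C ζ else 0
/-- Riemann sums with singular weights. -/
def RiemL : Prop := ∀ c0 z0 : FF, c0 ≠ 0 → z0 ≠ 0 → ∃ K : ℝ, 0 < K ∧
  ∀ (g : FF → FF → ℂ) (G : ℝ), 0 ≤ G → (∀ C ζ, g C ζ ≠ 0 → C / c0 ∈ OS ∧ ζ / z0 ∈ OS) →
  (∀ C ζ, C ≠ 0 → ‖g C ζ‖ ≤ G * sS C ^ (-(3 / 4) : ℝ)) → (∀ k, ∃ j, SB2 j (tr k g)) →
  ∃ l : ℂ, ‖l‖ ≤ K * G ∧
    ∀ (m : E) (A : E → E → ℂ) (Φ : Pl → ℂ × ℂ → ℂ) (M : ℝ) (S1 S2 : ℝ → Pl → ℂ), m ≠ 0 → Per2 m A →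
    (∀ w, ContinuousOn (Φ w) {z | z.1 ≠ 0}) →
    (∀ w (z : ℂ × ℂ), z.1 ≠ 0 →
      ‖Φ w z‖ ≤ M * (‖z.1‖⁻¹ * (1 + ‖z.1‖) ^ (-3 : ℝ)) * (1 + ‖z.2‖) ^ (-3 : ℝ)) →
    (∀ w, Tendsto (fun X => ‖S1 X w‖) atTop atTop) → (∀ w, Tendsto (fun X => ‖S2 X w‖) atTop atTop) →
    Tendsto (fun X => (((∏ w, ‖S1 X w‖ ^ 2 * ‖S2 X w‖ ^ 2)⁻¹ : ℝ) : ℂ) *
        ∑' x : E × E, if x.1 = 0 then 0 else
          A x.1 x.2 * g x.1 x.2 * ∏ w, Φ w (em w x.1 / S1 X w, em w x.2 / S2 X w))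
      atTop (𝓝 (rsum2 m A / (nm m : ℂ) ^ 2 * l * ∏ w, (((4 / 3 : ℝ) : ℂ) * ∫ u, Φ w u)))

end NQ
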