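import Vale.Agent.NQ.Ord
import Vale.Agent.NQ.Stm1

noncomputable section
namespace NQ
open Complex MeasureTheory NumberField Filter
open scoped ComplexConjugate Classical ContDiff Topology

variable [σ : St]

theorem ss_ne_zero : ss ≠ 0 := Nat.cast_ne_zero.2 σ.s_pos.ne'
theorem ss_mem_OS : ss ∈ OS := natCast_mem OS σ.s
theorem coe_s : ((σ.s : E) : FF) = ss := rfl
theorem isUnit_s : IsUnit (σ.s : E) := by
  have h : ss ^ 1 * ss⁻¹ = 1 := by rw [pow_one, mul_inv_cancel₀ ss_ne_zero]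
  refine IsUnit.of_mul_eq_one (⟨ss⁻¹, 1, ?_⟩ : E) (Subtype.ext (mul_inv_cancel₀ ss_ne_zero))
  exact h.symm ▸ isIntegral_one
theorem isUnit_two : IsUnit (2 : E) := by
  have h : ((2 : ℕ) : E) ∣ (σ.s : E) := Nat.cast_dvd_cast (dvd_trans (by norm_num) σ.twelve)
  exact_mod_cast isUnit_of_dvd_unit h isUnit_s
theorem isUnit_three : IsUnit (3 : E) := by
  have h : ((3 : ℕ) : E) ∣ (σ.s : E) := Nat.cast_dvd_cast (dvd_trans (by norm_num) σ.twelve)
  exact_mod_cast isUnit_of_dvd_unit h isUnit_s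
theorem coe_om : (om : FF) = σ.w := rfl
theorem om_rel : om ^ 2 + om + 1 = 0 := Subtype.ext σ.hw
theorem om_cube : om ^ 3 = 1 := by linear_combination (om - 1) * om_rel
theorem isUnit_om : IsUnit om := IsUnit.of_pow_eq_one om_cube three_ne_zero
theorem mem_OS_iff {x : FF} : x ∈ OS ↔ ∀ v : SP, OG v.1 0 x :=
  mem_OO.trans ⟨fun h v => h v.1 v.2, fun h v hv => h ⟨v, hv⟩⟩
theorem div_mem_OS_iff {x b : FF} (hb : b ≠ 0) : x / b ∈ OS ↔ ∀ v : SP, OG v.1 (ord v.1 b) x := by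
  simp only [mem_OS_iff, OG_div_iff hb, zero_add]
theorem B1a_OG_ss (v : SP) : OG v.1 1 ss := (mem_iff_OG v.1 (σ.s : 𝓞 FF)).1 v.2
theorem one_le_ord_ss (v : SP) : 1 ≤ ord v.1 ss := (B1a_OG_ss v).le ss_ne_zero
theorem mem_OS_of_integral {x : FF} (h : IsIntegral ℤ x) : x ∈ OS :=
  ⟨1, Nat.coprime_one_left _, by simpa using h⟩
theorem mem_E_of_integral {x : FF} (h : IsIntegral ℤ x) : x ∈ RR FF σ.s := ⟨0, by simpa using h⟩
theorem B1a_mem_E {x : FF} :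
    x ∈ RR FF σ.s ↔ ∀ v : HS FF, (σ.s : 𝓞 FF) ∉ v.asIdeal → OG v 0 x := mem_RR σ.s_pos.ne'
theorem integral_of_mem {x : E} (h : (x : FF) ∈ OS) : IsIntegral ℤ (x : FF) := by
  refine isIntegral_iff_OG.2 fun v => ?_
  by_cases hv : (σ.s : 𝓞 FF) ∈ v.asIdeal
  · exact mem_OS_iff.1 h ⟨v, hv⟩
  · exact B1a_mem_E.1 x.2 v hv
theorem exists_pow_integral (x : E) : ∃ k : ℕ, IsIntegral ℤ (ss ^ k * x) := x.2
theorem exists_pow_mem_OS (x : FF) : ∃ k : ℕ, ss ^ k * x ∈ OS := by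
  refine ⟨∑ v : SP, (-ord v.1 x).toNat, mem_OS_iff.2 fun v => ?_⟩
  refine (((B1a_OG_ss v).pow _).mul (OG.self v.1 x)).mono ?_
  have h := Finset.single_le_sum (f := fun v : SP => (-ord v.1 x).toNat)
    (fun _ _ => Nat.zero_le _) (Finset.mem_univ v)
  omega
theorem pow_mul_mem_OS {x : FF} {k l : ℕ} (h : ss ^ k * x ∈ OS) (hkl : k ≤ l) : ss ^ l * x ∈ OS := by
  obtain ⟨m, rfl⟩ := Nat.exists_eq_add_of_le' hkl
  rw [pow_add, mul_assoc]
  exact OS.mul_mem (OS.pow_mem ss_mem_OS m) h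
theorem div_mem_OS_trans {x b c : FF} (hb : b ≠ 0) (h1 : x / b ∈ OS) (h2 : b / c ∈ OS) :
    x / c ∈ OS := by
  rw [← div_mul_div_cancel₀ hb (a := x) (c := c)]
  exact OS.mul_mem h1 h2
/-- The places above `s` as a finite set. -/
def B1a_S : Finset (HS FF) := Finset.univ.image fun v : SP => v.1
theorem B1a_mem_S {v : HS FF} : v ∈ B1a_S ↔ (σ.s : 𝓞 FF) ∈ v.asIdeal := by
  simp [B1a_S]
theorem exists_decomp (x : FF) : ∃ y : E, x - y ∈ OS := by
  obtain ⟨y, h1, h2⟩ := approx B1a_S (fun _ => x) fun _ => 0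
  refine ⟨⟨y, B1a_mem_E.2 fun v hv => h2 v (mt B1a_mem_S.1 hv)⟩, mem_OS_iff.2 fun v => ?_⟩
  simpa using (h1 v.1 (B1a_mem_S.2 v.2)).neg
theorem exists_frac_E (x : FF) : ∃ a b : E, b ≠ 0 ∧ x = a / b := by
  obtain ⟨n, hn, h⟩ := exists_nat_mul_integral x
  refine ⟨⟨n * x, mem_E_of_integral h⟩, n, Nat.cast_ne_zero.2 hn, ?_⟩
  have h0 : (n : FF) ≠ 0 := Nat.cast_ne_zero.2 hn
  change x = n * x / n
  field_simp
/-- Strong approximation in the form used below. -/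
theorem exists_approx_E {q : E} (hq : q ≠ 0) (r : E) (a : FF) {b : FF} (hb : b ≠ 0) :
    ∃ x : E, q ∣ x - r ∧ (x - a) / b ∈ OS := by
  have hq' : (q : FF) ≠ 0 := fun h => hq (Subtype.ext h)
  obtain ⟨y, h1, h2⟩ := approx (B1a_S ∪ (finite_ord (q : FF)).toFinset)
    (fun v => if (σ.s : 𝓞 FF) ∈ v.asIdeal then a else r)
    fun v => if (σ.s : 𝓞 FF) ∈ v.asIdeal then ord v b else ord v (q : FF)
  have key : ∀ v : HS FF, (σ.s : 𝓞 FF) ∉ v.asIdeal → OG v (ord v (q : FF)) (y - r) := by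
    intro v hv
    by_cases hT : v ∈ B1a_S ∪ (finite_ord (q : FF)).toFinset
    · simpa only [if_neg hv] using h1 v hT
    · have h0 : ord v (q : FF) = 0 := by
        by_contra h0
        exact hT (Finset.mem_union_right _ ((Set.Finite.mem_toFinset _).2 h0))
      rw [h0]
      exact (h2 v hT).sub (B1a_mem_E.1 r.2 v hv)
  have hy : y ∈ RR FF σ.s := B1a_mem_E.2 fun v hv => by
    simpa using ((key v hv).mono ((B1a_mem_E.1 q.2 v hv).le hq')).add (B1a_mem_E.1 r.2 v hv)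
  have hz : (y - r) / q ∈ RR FF σ.s := B1a_mem_E.2 fun v hv => by
    rw [OG_div_iff hq', zero_add]
    exact key v hv
  refine ⟨⟨y, hy⟩, ⟨⟨_, hz⟩, Subtype.ext ?_⟩, (div_mem_OS_iff hb).2 fun v => ?_⟩
  · change y - r = q * ((y - r) / q)
    field_simp
  · simpa only [if_pos v.2] using h1 v.1 (Finset.mem_union_left _ (B1a_mem_S.2 v.2))
theorem exists_ord_S (n : SP → ℤ) : ∃ x : E, x ≠ 0 ∧ ∀ v : SP, ord v.1 (x : FF) = n v := by
  obtain ⟨y, h0, h1, h2⟩ := exists_ord B1a_S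
    fun v => if h : (σ.s : 𝓞 FF) ∈ v.asIdeal then n ⟨v, h⟩ else 0
  refine ⟨⟨y, B1a_mem_E.2 fun v hv => Or.inr (h2 v (mt B1a_mem_S.1 hv))⟩,
    fun h => h0 (congrArg Subtype.val h), fun v => ?_⟩
  simpa only [dif_pos v.2] using h1 v.1 (B1a_mem_S.2 v.2)
/-- Finitely many lattices are contained in one lattice. -/
theorem exists_lat_sup (T : Finset FF) : ∃ c : FF, c ≠ 0 ∧ ∀ b ∈ T, b / c ∈ OS := by
  choose k hk using exists_pow_mem_OS
  refine ⟨(ss ^ T.sup k)⁻¹, inv_ne_zero (pow_ne_zero _ ss_ne_zero), fun b hb => ?_⟩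
  rw [div_inv_eq_mul, mul_comm]
  exact pow_mul_mem_OS (hk b) (Finset.le_sup hb)
instance : Countable FF := Countable.of_equiv _ (Module.finBasis ℚ FF).equivFun.symm.toEquiv
instance : Countable E := Subtype.countable

theorem B1a_one_add_ne {y : FF} (hy : y ∈ OS) : 1 + ss * y ≠ 0 := by
  intro h0
  obtain ⟨d, hd, hint⟩ := hy
  have hs : (σ.s : ℚ) ≠ 0 := Nat.cast_ne_zero.2 σ.s_pos.ne'
  have e : (d : FF) * y = algebraMap ℚ FF (-(d : ℚ) / σ.s) := by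
    rw [map_div₀, map_neg, map_natCast, map_natCast,
      eq_div_iff (show (σ.s : FF) ≠ 0 from ss_ne_zero)]
    change d * y * ss = _
    linear_combination (d : FF) * h0
  rw [e, isIntegral_algebraMap_iff (algebraMap ℚ FF).injective] at hint
  obtain ⟨z, hz⟩ := IsIntegrallyClosed.isIntegral_iff.1 hint
  rw [eq_div_iff hs, eq_intCast] at hz
  have h1 : (σ.s : ℤ) ∣ (d : ℤ) := ⟨-z, by
    have : z * σ.s = -(d : ℤ) := by exact_mod_cast hz
    linarith⟩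
  have h2 : σ.s = 1 := Nat.Coprime.eq_one_of_dvd hd.symm (Int.natCast_dvd_natCast.1 h1)
  have h3 := σ.twelve
  rw [h2] at h3
  norm_num at h3
theorem B1a_ord_one_add {y : FF} (hy : y ∈ OS) (v : SP) : ord v.1 (1 + ss * y) = 0 := by
  have h := ord_eq_of_OG (v := v.1) (x := 1) (y := 1 + ss * y) one_ne_zero (by
    rw [ord_one, add_sub_cancel_left, add_comm]
    exact (B1a_OG_ss v).mul (mem_OS_iff.1 hy v))
  rw [h.2, ord_one]
theorem B1a_inv_mem {y : FF} (hy : y ∈ OS) : (1 + ss * y)⁻¹ ∈ OS :=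
  mem_OS_iff.2 fun v => Or.inr (by rw [ord_inv, B1a_ord_one_add hy, neg_zero])
theorem B1a_eq (u : FF) : u = 1 + ss * (ss * ((u - 1) / ss ^ 2)) := by
  have := ss_ne_zero
  field_simp
  ring

theorem Cl.ne_left {a c : FF} (h : Cl a c) : a ≠ 0 := h.1
theorem Cl.ne_zero {a c : FF} (h : Cl a c) : c ≠ 0 := by
  have h1 := B1a_one_add_ne (OS.mul_mem ss_mem_OS h.2)
  rw [← B1a_eq] at h1
  exact (div_ne_zero_iff.1 h1).1
theorem Cl.refl {a : FF} (ha : a ≠ 0) : Cl a a :=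
  ⟨ha, by rw [div_self ha, sub_self, zero_div]; exact OS.zero_mem⟩
theorem Cl.symm {a c : FF} (h : Cl a c) : Cl c a := by
  have h1 := B1a_inv_mem (OS.mul_mem ss_mem_OS h.2)
  rw [← B1a_eq] at h1
  refine ⟨h.ne_zero, ?_⟩
  have e : (a / c - 1) / ss ^ 2 = -((c / a - 1) / ss ^ 2 * (c / a)⁻¹) := by
    have := h.1
    have := h.ne_zero
    field_simp
    ring
  rw [e]
  exact OS.neg_mem (OS.mul_mem h.2 h1)
theorem B1a_div_mem {a c : FF} (h : Cl a c) : c / a ∈ OS := by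
  rw [B1a_eq (c / a)]
  exact OS.add_mem OS.one_mem (OS.mul_mem ss_mem_OS (OS.mul_mem ss_mem_OS h.2))
theorem Cl.trans {a b c : FF} (h1 : Cl a b) (h2 : Cl b c) : Cl a c := by
  refine ⟨h1.1, ?_⟩
  have e : (c / a - 1) / ss ^ 2 = b / a * ((c / b - 1) / ss ^ 2) + (b / a - 1) / ss ^ 2 := by
    have := h1.1
    have := h2.1
    field_simp
    ring
  rw [e]
  exact OS.add_mem (OS.mul_mem (B1a_div_mem h1) h2.2) h1.2
theorem Cl.mul {a b c d : FF} (h1 : Cl a c) (h2 : Cl b d) : Cl (a * b) (c * d) := by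
  refine ⟨mul_ne_zero h1.1 h2.1, ?_⟩
  have e : (c * d / (a * b) - 1) / ss ^ 2
      = c / a * ((d / b - 1) / ss ^ 2) + (c / a - 1) / ss ^ 2 := by
    have := h1.1
    have := h2.1
    field_simp
    ring
  rw [e]
  exact OS.add_mem (OS.mul_mem (B1a_div_mem h1) h2.2) h1.2
theorem Cl.inv {a c : FF} (h : Cl a c) : Cl a⁻¹ c⁻¹ :=
  ⟨inv_ne_zero h.1, by rw [inv_div_inv]; exact h.symm.2⟩
theorem Cl.div {a b c d : FF} (h1 : Cl a c) (h2 : Cl b d) : Cl (a / b) (c / d) := by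
  rw [div_eq_mul_inv, div_eq_mul_inv]
  exact h1.mul h2.inv
theorem Cl.pow {a c : FF} (h : Cl a c) (k : ℕ) : Cl (a ^ k) (c ^ k) := by
  induction k with
  | zero => simpa using Cl.refl one_ne_zero
  | succ k ih =>
    rw [pow_succ, pow_succ]
    exact ih.mul h
theorem Cl_mul_left {t : FF} (ht : t ≠ 0) {a c : FF} : Cl (t * a) (t * c) ↔ Cl a c := by
  unfold Cl
  rw [mul_div_mul_left _ _ ht, mul_ne_zero_iff_left ht]
theorem Cl_div_iff {t : FF} (ht : t ≠ 0) {a c : FF} : Cl (a / t) c ↔ Cl a (t * c) := by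
  rw [← Cl_mul_left ht, mul_div_cancel₀ _ ht]
theorem Cl_iff_one {a c : FF} (ha : a ≠ 0) : Cl a c ↔ Cl 1 (c / a) := by
  rw [← Cl_mul_left ha (a := 1), mul_one, mul_div_cancel₀ _ ha]
theorem Cl_iff_sub {a c : FF} (ha : a ≠ 0) : Cl a c ↔ (c - a) / (a * ss ^ 2) ∈ OS := by
  have e : (c - a) / (a * ss ^ 2) = (c / a - 1) / ss ^ 2 := by field_simp
  rw [e]
  exact and_iff_right ha
theorem Cl.div_mem {a c : FF} (h : Cl a c) : c / a ∈ OS := B1a_div_mem h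
theorem Cl.ord_eq {a c : FF} (h : Cl a c) (v : SP) : ord v.1 c = ord v.1 a := by
  have h1 := B1a_ord_one_add (OS.mul_mem ss_mem_OS h.2) v
  rw [← B1a_eq, ord_div _ h.ne_zero h.1] at h1
  omega
theorem exists_Cl {a : FF} (ha : a ≠ 0) {q : E} (hq : q ≠ 0) (r : E) :
    ∃ c : E, Cl a c ∧ q ∣ c - r := by
  obtain ⟨x, h1, h2⟩ := exists_approx_E hq r a (mul_ne_zero ha (pow_ne_zero 2 ss_ne_zero))
  exact ⟨x, (Cl_iff_sub ha).2 h2, h1⟩
theorem B1a_root {u : FF} (hu : Cl 1 u) (j : ℕ) :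
    ∃ γ : FF, γ ≠ 0 ∧ γ ∈ OS ∧ γ⁻¹ ∈ OS ∧ (u / γ ^ 6 - 1) / ss ^ (j + 2) ∈ OS := by
  induction j with
  | zero => exact ⟨1, one_ne_zero, OS.one_mem, by simp, by simpa using hu.2⟩
  | succ j ih =>
    obtain ⟨γ, h0, h1, h2, hy⟩ := ih
    obtain ⟨t, ht⟩ := σ.twelve
    have hs : ss = 12 * (t : FF) := by
      unfold ss
      rw [ht]
      push_cast
      rfl
    have hs0 := ss_ne_zero
    set y := (u / γ ^ 6 - 1) / ss ^ (j + 2) with hy0
    have hu6 : u / γ ^ 6 = 1 + ss ^ j * ss ^ 2 * y := by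
      rw [hy0, ← pow_add]
      field_simp
      ring
    have hp : ss ^ j ∈ OS := OS.pow_mem ss_mem_OS j
    have htm : (t : FF) ∈ OS := natCast_mem OS t
    have hn : ∀ n : ℕ, (n : FF) ∈ OS := natCast_mem OS
    have hm : 2 * t * y ∈ OS := OS.mul_mem (OS.mul_mem (by exact_mod_cast hn 2) htm) hy
    have hz1 : ss ^ j * (2 * t * y) ∈ OS := OS.mul_mem hp hm
    set z := ss * (ss ^ j * (2 * t * y)) with hz0
    have hz : z ∈ OS := OS.mul_mem ss_mem_OS hz1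
    have hne : 1 + z ≠ 0 := B1a_one_add_ne hz1
    have hinv : (1 + z)⁻¹ ∈ OS := B1a_inv_mem hz1
    refine ⟨γ * (1 + z), mul_ne_zero h0 hne, OS.mul_mem h1 (OS.add_mem OS.one_mem hz), ?_, ?_⟩
    · rw [mul_inv]
      exact OS.mul_mem h2 hinv
    have key : 1 + ss ^ j * ss ^ 2 * y - (1 + z) ^ 6 = -(ss ^ j * ss ^ 3) *
        (ss ^ j * (5 * t * y ^ 2) + (ss ^ j) ^ 2 * (2 * t * y) ^ 3 *
          (20 + 15 * z + 6 * z ^ 2 + z ^ 3)) := by
      rw [hz0]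
      generalize ss ^ j = p
      rw [hs]
      ring
    have e : (u / (γ * (1 + z)) ^ 6 - 1) / ss ^ (j + 1 + 2) =
        -(ss ^ j * (5 * t * y ^ 2) + (ss ^ j) ^ 2 * (2 * t * y) ^ 3 *
          (20 + 15 * z + 6 * z ^ 2 + z ^ 3)) * (1 + z)⁻¹ ^ 6 := by
      rw [mul_pow, ← div_div, hu6, div_sub_one (pow_ne_zero 6 hne), key,
        show j + 1 + 2 = j + 3 from rfl, pow_add]
      field_simp
    rw [e]
    refine OS.mul_mem (OS.neg_mem (OS.add_mem (OS.mul_mem hp (OS.mul_mem (OS.mul_mem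
      (by exact_mod_cast hn 5) htm) (OS.pow_mem hy 2))) (OS.mul_mem (OS.mul_mem (OS.pow_mem hp 2)
      (OS.pow_mem hm 3)) ?_))) (OS.pow_mem hinv 6)
    exact OS.add_mem (OS.add_mem (OS.add_mem (by exact_mod_cast hn 20)
      (OS.mul_mem (by exact_mod_cast hn 15) hz))
      (OS.mul_mem (by exact_mod_cast hn 6) (OS.pow_mem hz 2))) (OS.pow_mem hz 3)
/-- Elements of the trivial class are sixth powers up to an arbitrarily small error. -/
theorem exists_root {u : FF} (hu : Cl 1 u) (k : ℕ) :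
    ∃ γ : FF, γ ≠ 0 ∧ γ ∈ OS ∧ γ⁻¹ ∈ OS ∧ (u / γ ^ 6 - 1) / ss ^ k ∈ OS := by
  obtain ⟨γ, h0, h1, h2, h3⟩ := B1a_root hu k
  refine ⟨γ, h0, h1, h2, div_mem_OS_trans (pow_ne_zero (k + 2) ss_ne_zero) h3 ?_⟩
  rw [pow_add, mul_div_cancel_left₀ _ (pow_ne_zero k ss_ne_zero)]
  exact OS.pow_mem ss_mem_OS 2

end NQ
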