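import Vale.Agent.NQ.B1a

noncomputable section
namespace NQ
open Complex MeasureTheory NumberField Filter
open scoped ComplexConjugate Classical ContDiff Topology

variable [σ : St]

theorem em_w (w : Pl) : em w σ.w = omC := w.2
theorem em_ne_zero (w : Pl) {x : FF} (hx : x ≠ 0) : em w x ≠ 0 := (map_ne_zero (em w)).2 hx
theorem em_sq_pos (w : Pl) {x : FF} (hx : x ≠ 0) : 0 < ‖em w x‖ ^ 2 := pow_pos (norm_pos_iff.2 (em_ne_zero w hx)) 2
omit σ in
theorem b1b_conj_ne : conj omC ≠ omC := by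
  intro h
  have h1 := congrArg Complex.im h
  have h2 : (0 : ℝ) < √3 := Real.sqrt_pos.2 (by norm_num)
  simp only [QRH.omC, conj_im] at h1
  linarith
omit σ in
theorem b1b_conj_eq : conj omC = -1 - omC := by
  apply Complex.ext
  · simp only [QRH.omC, conj_re, sub_re, neg_re, one_re]
    norm_num
  · simp [QRH.omC]
theorem b1b_root (φ : FF →+* ℂ) : φ σ.w = omC ∨ conj (φ σ.w) = omC := by
  have h := congrArg φ σ.hw
  rw [map_add, map_add, map_pow, map_one, map_zero] at h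
  have h1 : (φ σ.w - omC) * (φ σ.w - conj omC) = 0 := by
    rw [b1b_conj_eq]
    linear_combination h - QRH.omC_sq
  rcases mul_eq_zero.1 h1 with h2 | h2
  · exact Or.inl (sub_eq_zero.1 h2)
  · exact Or.inr (by rw [sub_eq_zero.1 h2, conj_conj])
theorem b1b_bij : Function.Bijective
    (Sum.elim (fun w => w.1) (fun w => (starRingEnd ℂ).comp w.1) : Pl ⊕ Pl → (FF →+* ℂ)) := by
  constructor
  · rintro (a | a) (b | b) h
    · exact congrArg Sum.inl (Subtype.ext h)
    · have h1 : a.1 σ.w = conj (b.1 σ.w) := RingHom.congr_fun h σ.w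
      rw [a.2, b.2] at h1
      exact absurd h1.symm b1b_conj_ne
    · have h1 : conj (a.1 σ.w) = b.1 σ.w := RingHom.congr_fun h σ.w
      rw [a.2, b.2] at h1
      exact absurd h1 b1b_conj_ne
    · refine congrArg Sum.inr (Subtype.ext (RingHom.ext fun x => ?_))
      exact (starRingEnd ℂ).injective (RingHom.congr_fun h x)
  · intro φ
    rcases b1b_root φ with h | h
    · exact ⟨Sum.inl ⟨φ, h⟩, rfl⟩
    · exact ⟨Sum.inr ⟨(starRingEnd ℂ).comp φ, h⟩, RingHom.ext fun x => conj_conj _⟩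
/-- Every embedding is a place or the conjugate of a place. -/
def plEquiv : Pl ⊕ Pl ≃ (FF →+* ℂ) := Equiv.ofBijective _ b1b_bij
theorem plEquiv_inl (w : Pl) (x : FF) : plEquiv (Sum.inl w) x = em w x := rfl
theorem plEquiv_inr (w : Pl) (x : FF) : plEquiv (Sum.inr w) x = conj (em w x) := rfl
theorem two_mul_rk : 2 * rk = Module.finrank ℚ FF := by
  rw [← Embeddings.card FF ℂ, ← Fintype.card_congr plEquiv, Fintype.card_sum, two_mul, rk]
theorem rk_pos : 0 < rk := by
  have h := two_mul_rk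
  have h1 : 0 < Module.finrank ℚ FF := Module.finrank_pos
  omega
instance : Nonempty Pl := Fintype.card_pos_iff.1 rk_pos
theorem prod_const_Pl (x : ℝ) : ∏ _w : Pl, x = x ^ rk := by
  rw [Finset.prod_const, Finset.card_univ, rk]
theorem rpow_rk {x : ℝ} (hx : 0 ≤ x) : (x ^ (1 / rk : ℝ)) ^ rk = x := by
  rw [one_div]
  exact Real.rpow_inv_natCast_pow hx rk_pos.ne'
theorem trace_eq (x : FF) :
    ((Algebra.trace ℚ FF x : ℚ) : ℂ) = ∑ w : Pl, (em w x + conj (em w x)) := by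
  have h := trace_eq_sum_embeddings ℂ (K := ℚ) (L := FF) (x := x)
  rw [eq_ratCast] at h
  rw [h, ← (plEquiv.trans (RingHom.equivRatAlgHom (R := FF) (S := ℂ))).sum_comp,
    Fintype.sum_sum_type, Finset.sum_add_distrib]
  rfl
theorem Ninf_eq_norm (x : FF) : Ninf x = ((|Algebra.norm ℚ x| : ℚ) : ℝ) := by
  have h := congrArg norm (Algebra.norm_eq_prod_embeddings ℚ ℂ x)
  rw [eq_ratCast, Complex.norm_ratCast,
    ← (plEquiv.trans (RingHom.equivRatAlgHom (R := FF) (S := ℂ))).prod_comp,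
    Fintype.prod_sum_type, ← Finset.prod_mul_distrib, norm_prod] at h
  rw [Rat.cast_abs, h, Ninf]
  refine Finset.prod_congr rfl fun w _ => ?_
  change _ = ‖em w x * conj (em w x)‖
  rw [norm_mul, Complex.norm_conj, sq]
theorem Ninf_one : Ninf 1 = 1 := by simp [Ninf]
theorem Ninf_pos {x : FF} (hx : x ≠ 0) : 0 < Ninf x := Finset.prod_pos fun w _ => em_sq_pos w hx
theorem Ninf_nonneg (x : FF) : 0 ≤ Ninf x := Finset.prod_nonneg fun _ _ => sq_nonneg _
theorem Ninf_mul (x y : FF) : Ninf (x * y) = Ninf x * Ninf y := by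
  simp only [Ninf, map_mul, norm_mul, mul_pow, Finset.prod_mul_distrib]
theorem Ninf_div (x y : FF) : Ninf (x / y) = Ninf x / Ninf y := by
  simp only [Ninf, map_div₀, norm_div, div_pow, Finset.prod_div_distrib]
theorem Ninf_pow (x : FF) (k : ℕ) : Ninf (x ^ k) = Ninf x ^ k := by
  induction k with
  | zero => simpa using Ninf_one
  | succ k ih => rw [pow_succ, pow_succ, Ninf_mul, ih]
theorem Ninf_natCast (n : ℕ) : Ninf (n : FF) = (n : ℝ) ^ (2 * rk) := by
  simp only [Ninf, map_natCast, Complex.norm_natCast]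
  rw [prod_const_Pl, pow_mul]
theorem one_le_Ninf {x : FF} (hx : x ≠ 0) (h : IsIntegral ℤ x) : 1 ≤ Ninf x := by
  obtain ⟨n, hn⟩ := IsIntegrallyClosed.isIntegral_iff.1 (Algebra.isIntegral_norm ℚ h)
  have h0 := Ninf_pos hx
  rw [Ninf_eq_norm, ← hn, eq_intCast] at h0 ⊢
  have h1 : (0 : ℤ) < |n| := by exact_mod_cast h0
  exact_mod_cast h1
theorem norm_ang {x : FF} (hx : x ≠ 0) : ‖ang x‖ = 1 := by
  rw [ang, norm_prod]
  refine Finset.prod_eq_one fun w _ => ?_
  rw [norm_div, Complex.norm_real, norm_norm, div_self (norm_ne_zero_iff.2 (em_ne_zero w hx))]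
theorem ang_mul (x y : FF) : ang (x * y) = ang x * ang y := by
  simp only [ang, map_mul, norm_mul, Complex.ofReal_mul, ← Finset.prod_mul_distrib,
    mul_div_mul_comm]
theorem ang_pow (x : FF) (k : ℕ) : ang (x ^ k) = ang x ^ k := by
  induction k with
  | zero => simp [ang]
  | succ k ih => rw [pow_succ, pow_succ, ang_mul, ih]
theorem NK_eq (x : FF) : NK x = ang x * (√(Ninf x) : ℝ) := by
  rw [Ninf, Finset.prod_pow, Real.sqrt_sq (Finset.prod_nonneg fun _ _ => norm_nonneg _), NK, ang,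
    Complex.ofReal_prod, ← Finset.prod_mul_distrib]
  refine Finset.prod_congr rfl fun w _ => ?_
  by_cases h : em w x = 0
  · simp [h]
  · rw [div_mul_cancel₀ _ (by exact_mod_cast norm_ne_zero_iff.2 h)]

theorem b1b_two_le (v : SP) : (2 : ℝ) ≤ qv v.1 := by exact_mod_cast two_le_qv v.1
theorem b1b_pos (v : SP) : (0 : ℝ) < qv v.1 := two_pos.trans_le (b1b_two_le v)
theorem b1b_one_le (v : SP) : (1 : ℝ) ≤ qv v.1 := one_le_two.trans (b1b_two_le v)
theorem sS_pos (x : FF) : 0 < sS x := Finset.prod_pos fun v _ => zpow_pos (b1b_pos v) _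
theorem sS_one : sS 1 = 1 := by simp [sS, ord_one]
theorem sS_mul {x y : FF} (hx : x ≠ 0) (hy : y ≠ 0) : sS (x * y) = sS x * sS y := by
  rw [sS, sS, sS, ← Finset.prod_mul_distrib]
  refine Finset.prod_congr rfl fun v _ => ?_
  rw [ord_mul _ hx hy, neg_add, zpow_add₀ (b1b_pos v).ne']
theorem sS_inv (x : FF) : sS x⁻¹ = (sS x)⁻¹ := by
  simp only [sS, ord_inv, zpow_neg, Finset.prod_inv_distrib]
theorem sS_div {x y : FF} (hx : x ≠ 0) (hy : y ≠ 0) : sS (x / y) = sS x / sS y := by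
  rw [div_eq_mul_inv, sS_mul hx (inv_ne_zero hy), sS_inv, div_eq_mul_inv]
theorem sS_pow (x : FF) (k : ℕ) : sS (x ^ k) = sS x ^ k := by
  rw [sS, sS, ← Finset.prod_pow]
  refine Finset.prod_congr rfl fun v _ => ?_
  rw [ord_pow, ← zpow_natCast, ← zpow_mul, neg_mul, mul_comm]
theorem sS_neg (x : FF) : sS (-x) = sS x := by simp only [sS, ord_neg]
theorem sS_le_one {x : FF} (h : x ∈ OS) : sS x ≤ 1 := by
  refine Finset.prod_le_one (fun v _ => (zpow_pos (b1b_pos v) _).le) fun v _ => ?_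
  refine zpow_le_one_of_nonpos₀ (b1b_one_le v) (neg_nonpos.2 ?_)
  rcases mem_OS_iff.1 h v with rfl | h1
  · exact (ord_zero _).ge
  · exact h1
theorem sS_mono {x b : FF} (hx : x ≠ 0) (hb : b ≠ 0) (h : x / b ∈ OS) : sS x ≤ sS b := by
  have h1 := sS_le_one h
  rwa [sS_div hx hb, div_le_one (sS_pos b)] at h1
theorem sS_eq_of {x b : FF} (hx : x ≠ 0) (hb : b ≠ 0) (h : x / b ∈ OS) (h' : b / x ∈ OS) :
    sS x = sS b := le_antisymm (sS_mono hx hb h) (sS_mono hb hx h')
theorem Cl.sS_eq {a c : FF} (h : Cl a c) : sS c = sS a := by simp only [sS, h.ord_eq]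
/-- Elements that are very small at one place of `S`. -/
theorem sS_small {c0 : FF} (hc : c0 ≠ 0) : ∃ K : ℝ, 0 < K ∧ ∀ (k : ℕ) (x : FF), x ≠ 0 → x / c0 ∈ OS →
    ss ^ k / x ∉ OS → sS x ≤ K * (1 / 2) ^ k := by
  refine ⟨∏ v : SP, max 1 ((qv v.1 : ℝ) ^ (-ord v.1 c0)),
    Finset.prod_pos fun v _ => lt_max_of_lt_left one_pos, fun k x hx h1 h2 => ?_⟩
  rw [div_mem_OS_iff hc] at h1
  rw [div_mem_OS_iff hx] at h2
  obtain ⟨v, hv⟩ := not_forall.1 h2
  have h3 : (k : ℤ) ≤ ord v.1 x := by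
    have h4 : ¬ ord v.1 x ≤ ord v.1 (ss ^ k) := fun h => hv (Or.inr h)
    rw [ord_pow] at h4
    have h5 := mul_le_mul_of_nonneg_left (one_le_ord_ss v) (Int.natCast_nonneg k)
    omega
  have e : ((1 : ℝ) / 2) ^ k = ∏ v' : SP, if v' = v then ((1 : ℝ) / 2) ^ k else 1 := by simp
  rw [e, ← Finset.prod_mul_distrib]
  refine Finset.prod_le_prod (fun v _ => (zpow_pos (b1b_pos v) _).le) fun v' _ => ?_
  split_ifs with h
  · subst h
    refine le_trans ?_ (le_mul_of_one_le_left (by positivity) (le_max_left _ _))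
    refine (zpow_le_zpow_right₀ (b1b_one_le v') (neg_le_neg h3)).trans ?_
    rw [zpow_neg, zpow_natCast, one_div, inv_pow]
    exact inv_anti₀ (by positivity) (pow_le_pow_left₀ zero_le_two (b1b_two_le v') k)
  · rw [mul_one]
    exact le_max_of_le_right (zpow_le_zpow_right₀ (b1b_one_le v') (neg_le_neg ((h1 v').le hx)))

end NQ
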