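import Vale.Agent.NQ.B1

noncomputable section
namespace NQ
open Complex MeasureTheory NumberField Filter
open scoped ComplexConjugate Classical ContDiff Topology

variable [σ : St]

theorem b2_e_fin {p x : E} (hp : Prime p) (hx : x ≠ 0) : FiniteMultiplicity p x :=
  FiniteMultiplicity.of_prime_left hp hx
theorem pow_vp_mul_up (p x : E) : p ^ vp p x * up p x = x := mul_dv (pow_multiplicity_dvd p x)
theorem not_dvd_up {p x : E} (hp : Prime p) (hx : x ≠ 0) : ¬ p ∣ up p x := fun h =>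
  (b2_e_fin hp hx).not_pow_dvd_of_multiplicity_lt (Nat.lt_succ_self _) (by
    have := mul_dvd_mul_left (p ^ vp p x) h
    rwa [pow_vp_mul_up, ← pow_succ] at this)
theorem up_ne_zero {p x : E} (hx : x ≠ 0) : up p x ≠ 0 := fun h =>
  hx (by rw [← pow_vp_mul_up p x, h, mul_zero])
theorem vp_up_eq {p u : E} (hp : Prime p) (hu : ¬ p ∣ u) (k : ℕ) :
    vp p (p ^ k * u) = k ∧ up p (p ^ k * u) = u := by
  have h : vp p (p ^ k * u) = k := multiplicity_eq_of_dvd_of_not_dvd (dvd_mul_right _ _) fun h =>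
    hu ((mul_dvd_mul_iff_left (pow_ne_zero k hp.ne_zero)).1 (by rwa [pow_succ] at h))
  exact ⟨h, by rw [up, h, dv_mul (pow_ne_zero k hp.ne_zero)]⟩
theorem vp_of_not_dvd {p x : E} (h : ¬ p ∣ x) : vp p x = 0 := multiplicity_eq_zero.2 h
theorem up_of_not_dvd {p x : E} (h : ¬ p ∣ x) : up p x = x := by
  have := pow_vp_mul_up p x
  rwa [vp_of_not_dvd h, pow_zero, one_mul] at this
theorem pow_dvd_iff {p x : E} (hp : Prime p) (hx : x ≠ 0) (k : ℕ) : p ^ k ∣ x ↔ k ≤ vp p x := (b2_e_fin hp hx).pow_dvd_iff_le_multiplicity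
theorem dvd_iff_vp {p x : E} (hp : Prime p) (hx : x ≠ 0) : p ∣ x ↔ vp p x ≠ 0 := multiplicity_ne_zero.symm
theorem b2_e_mul {p x y : E} (hp : Prime p) (hx : x ≠ 0) (hy : y ≠ 0) :
    vp p (x * y) = vp p x + vp p y ∧ up p (x * y) = up p x * up p y := by
  have h := vp_up_eq hp (hp.not_dvd_mul (not_dvd_up hp hx) (not_dvd_up hp hy)) (vp p x + vp p y)
  rwa [pow_add, mul_mul_mul_comm, pow_vp_mul_up, pow_vp_mul_up] at h
theorem b2_e_pow {p x : E} (hp : Prime p) (hx : x ≠ 0) (k : ℕ) :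
    vp p (x ^ k) = k * vp p x ∧ up p (x ^ k) = up p x ^ k := by
  have h := vp_up_eq (u := up p x ^ k) hp (fun h => not_dvd_up hp hx (hp.dvd_of_dvd_pow h))
    (k * vp p x)
  rwa [pow_mul', ← mul_pow, pow_vp_mul_up] at h
theorem b2_e_neg {p x : E} (hp : Prime p) (hx : x ≠ 0) :
    vp p (-x) = vp p x ∧ up p (-x) = -up p x := by
  have h := vp_up_eq (u := -up p x) hp (fun h => not_dvd_up hp hx (dvd_neg.1 h)) (vp p x)
  rwa [mul_neg, pow_vp_mul_up] at h
theorem vp_mul {p x y : E} (hp : Prime p) (hx : x ≠ 0) (hy : y ≠ 0) :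
    vp p (x * y) = vp p x + vp p y := (b2_e_mul hp hx hy).1
theorem up_mul {p x y : E} (hp : Prime p) (hx : x ≠ 0) (hy : y ≠ 0) :
    up p (x * y) = up p x * up p y := (b2_e_mul hp hx hy).2
theorem vp_pow {p x : E} (hp : Prime p) (hx : x ≠ 0) (k : ℕ) : vp p (x ^ k) = k * vp p x := (b2_e_pow hp hx k).1
theorem up_pow {p x : E} (hp : Prime p) (hx : x ≠ 0) (k : ℕ) : up p (x ^ k) = up p x ^ k := (b2_e_pow hp hx k).2
theorem vp_neg {p x : E} (hp : Prime p) (hx : x ≠ 0) : vp p (-x) = vp p x := (b2_e_neg hp hx).1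
theorem up_neg {p x : E} (hp : Prime p) (hx : x ≠ 0) : up p (-x) = -up p x := (b2_e_neg hp hx).2
/-- Close elements have the same valuation and congruent unit parts. -/
theorem vp_up_congr {p x y : E} (hp : Prime p) (hx : x ≠ 0) (k : ℕ)
    (h : p ^ (vp p x + (k + 1)) ∣ y - x) :
    y ≠ 0 ∧ vp p y = vp p x ∧ p ^ (k + 1) ∣ up p y - up p x := by
  obtain ⟨t, ht⟩ := h
  have h1 : ¬ p ∣ up p x + p ^ (k + 1) * t := fun h =>
    not_dvd_up hp hx ((dvd_add_left ((dvd_pow_self p (by omega)).mul_right t)).1 h)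
  have h2 : y = p ^ vp p x * (up p x + p ^ (k + 1) * t) := by
    rw [mul_add, pow_vp_mul_up, ← mul_assoc, ← pow_add, ← ht]; ring
  have h3 := vp_up_eq hp h1 (vp p x)
  rw [← h2] at h3
  refine ⟨?_, h3.1, ⟨t, by rw [h3.2]; ring⟩⟩
  rw [h2]
  exact mul_ne_zero (pow_ne_zero _ hp.ne_zero) fun h => h1 (h ▸ dvd_zero _)
theorem pow_vp_le_nm {p x : E} (hx : x ≠ 0) : nm p ^ vp p x ≤ nm x := by
  rw [← nm_pow]; exact nm_le_of_dvd (pow_multiplicity_dvd p x) hx

theorem b2_finite {c : E} (hc : c ≠ 0) : {p : P | p.1 ∣ c}.Finite := by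
  refine UniqueFactorizationMonoid.induction_on_prime (P := fun c => c ≠ 0 → {p : P | p.1 ∣ c}.Finite)
    c (fun h => absurd rfl h) (fun u hu _ => ?_) (fun a q ha hq ih _ => ?_) hc
  · exact Set.finite_empty.subset fun p hp => p.not_dvd_unit hu hp
  · obtain ⟨r, hr⟩ := exists_P hq
    refine ((ih ha).insert r).subset fun p hp => ?_
    rcases p.2.1.dvd_or_dvd hp with h | h
    · exact Or.inl ((P.dvd_iff p r).1 (h.trans hr.dvd))
    · exact Or.inr h
theorem mem_fac {c : E} (hc : c ≠ 0) {p : P} : p ∈ fac c ↔ p.1 ∣ c := by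
  rw [fac, dif_pos ⟨hc, b2_finite hc⟩]; simp
theorem fac_mul {a b : E} (ha : a ≠ 0) (hb : b ≠ 0) : fac (a * b) = fac a ∪ fac b := by
  ext p
  rw [Finset.mem_union, mem_fac ha, mem_fac hb, mem_fac (mul_ne_zero ha hb), p.2.1.dvd_mul]
theorem fac_pow {a : E} (ha : a ≠ 0) {k : ℕ} (hk : k ≠ 0) : fac (a ^ k) = fac a := by
  ext p
  rw [mem_fac ha, mem_fac (pow_ne_zero _ ha), p.2.1.dvd_pow_iff_dvd hk]
theorem fac_unit {u : E} (hu : IsUnit u) : fac u = ∅ := by
  ext p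
  simp [mem_fac hu.ne_zero, p.not_dvd_unit hu]
theorem fac_mono {a b : E} (hb : b ≠ 0) (h : a ∣ b) : fac a ⊆ fac b := fun p hp =>
  (mem_fac hb).2 (((mem_fac (ne_zero_of_dvd_ne_zero hb h)).1 hp).trans h)
theorem b2_e_vp_prod (s : Finset P) (k : P → ℕ) (q : P) :
    vp q.1 (∏ p ∈ s, p.1 ^ k p) = if q ∈ s then k q else 0 := by
  have key : ∀ t : Finset P, q ∉ t → ¬ q.1 ∣ ∏ p ∈ t, p.1 ^ k p := fun t ht h => by
    obtain ⟨p, hp, h1⟩ := (q.2.1.dvd_finsetProd_iff _).1 h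
    exact ht ((P.dvd_iff q p).1 (q.2.1.dvd_of_dvd_pow h1) ▸ hp)
  split_ifs with h
  · rw [← Finset.mul_prod_erase _ _ h]
    exact (vp_up_eq q.2.1 (key _ (Finset.notMem_erase q s)) _).1
  · exact vp_of_not_dvd (key s h)
theorem b2_e_prod_dvd {s : Finset P} {k : P → ℕ} {x : E} (h : ∀ p ∈ s, p.1 ^ k p ∣ x) :
    ∏ p ∈ s, p.1 ^ k p ∣ x :=
  Finset.prod_dvd_of_coprime (fun _ _ _ _ hpq => (P.coprime hpq).pow) h
theorem b2_e_prod_ne (s : Finset P) (k : P → ℕ) : ∏ p ∈ s, p.1 ^ k p ≠ 0 :=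
  Finset.prod_ne_zero_iff.2 fun p _ => pow_ne_zero _ p.ne_zero
theorem vp_prod_pow (s : Finset P) (k : P → ℕ) (q : P) :
    vp q.1 (∏ p ∈ s, p.1 ^ k p) = if q ∈ s then k q else 0 := b2_e_vp_prod s k q
theorem b2_e_pr (s : Finset P) : pr s = ∏ p ∈ s, p.1 ^ 1 := by simp [pr]
theorem pr_empty : pr ∅ = 1 := by simp [pr]
theorem pr_singleton (p : P) : pr {p} = p.1 := by simp [pr]
theorem pr_insert {p : P} {s : Finset P} (h : p ∉ s) : pr (insert p s) = p.1 * pr s := Finset.prod_insert h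
theorem pr_union {s t : Finset P} (h : Disjoint s t) : pr (s ∪ t) = pr s * pr t := Finset.prod_union h
theorem pr_ne_zero (s : Finset P) : pr s ≠ 0 := b2_e_pr s ▸ b2_e_prod_ne s fun _ => 1
theorem dvd_pr_iff {p : P} {s : Finset P} : p.1 ∣ pr s ↔ p ∈ s := by
  rw [dvd_iff_vp p.2.1 (pr_ne_zero s), b2_e_pr, b2_e_vp_prod s fun _ => 1]
  simp
theorem fac_pr (s : Finset P) : fac (pr s) = s := by
  ext p; rw [mem_fac (pr_ne_zero s), dvd_pr_iff]
theorem pr_inj : Function.Injective pr := fun s t h => by rw [← fac_pr s, h, fac_pr]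
theorem pr_dvd_iff {s : Finset P} {x : E} : pr s ∣ x ↔ ∀ p ∈ s, p.1 ∣ x := ⟨fun h _ hp => (dvd_pr_iff.2 hp).trans h, fun h => by
  rw [b2_e_pr]; exact b2_e_prod_dvd (k := fun _ => 1) fun p hp => by simpa using h p hp⟩
theorem pr_dvd_pr {s t : Finset P} : pr s ∣ pr t ↔ s ⊆ t := by
  simp only [pr_dvd_iff, dvd_pr_iff]; rfl
theorem pr_fac_dvd {x : E} (hx : x ≠ 0) : pr (fac x) ∣ x := pr_dvd_iff.2 fun _ hp => (mem_fac hx).1 hp
theorem vp_pr (p : P) (s : Finset P) : vp p.1 (pr s) = if p ∈ s then 1 else 0 := by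
  rw [b2_e_pr, b2_e_vp_prod s fun _ => 1]
theorem up_pr {p : P} {s : Finset P} (h : p ∈ s) : up p.1 (pr s) = pr (s.erase p) := by
  have := (vp_up_eq p.2.1 (u := pr (s.erase p))
    (fun h => Finset.notMem_erase p s (dvd_pr_iff.1 h)) 1).2
  rwa [pow_one, ← pr_insert (Finset.notMem_erase p s), Finset.insert_erase h] at this
theorem coprime_pr_iff {s : Finset P} {x : E} : IsCoprime x (pr s) ↔ ∀ p ∈ s, ¬ p.1 ∣ x := by
  rw [pr, IsCoprime.prod_right_iff]
  exact forall₂_congr fun p _ => isCoprime_prime p.2.1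
theorem coprime_pr {s t : Finset P} : IsCoprime (pr s) (pr t) ↔ Disjoint s t := by
  simp only [coprime_pr_iff, dvd_pr_iff, Finset.disjoint_right]
theorem Ns_eq_prod (s : Finset P) : Ns s = ∏ p ∈ s, (nm p.1 : ℝ) := by
  simp [Ns, pr, nm_prod]
theorem Ns_empty : Ns ∅ = 1 := by simp [Ns_eq_prod]
theorem one_le_Ns (s : Finset P) : 1 ≤ Ns s := one_le_nmR (pr_ne_zero s)
theorem Ns_pos (s : Finset P) : 0 < Ns s := zero_lt_one.trans_le (one_le_Ns s)
theorem Ns_union {s t : Finset P} (h : Disjoint s t) : Ns (s ∪ t) = Ns s * Ns t := by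
  simp [Ns, pr_union h, nm_mul]
theorem b2_e_Ns_le {s : Finset P} {x : E} (hx : x ≠ 0) (h : pr s ∣ x) : Ns s ≤ nm x := by
  rw [Ns]; exact_mod_cast nm_le_of_dvd h hx
theorem Ns_union_le (s t : Finset P) : Ns (s ∪ t) ≤ Ns s * Ns t := by
  have := b2_e_Ns_le (s := s ∪ t) (mul_ne_zero (pr_ne_zero s) (pr_ne_zero t))
    (pr_dvd_iff.2 fun p hp => (Finset.mem_union.1 hp).elim
      (fun h => (dvd_pr_iff.2 h).mul_right _) fun h => (dvd_pr_iff.2 h).mul_left _)
  rwa [nm_mul, Nat.cast_mul] at this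
theorem Ns_mono {s t : Finset P} (h : s ⊆ t) : Ns s ≤ Ns t := b2_e_Ns_le (pr_ne_zero t) (pr_dvd_pr.2 h)
theorem Ns_fac_le {x : E} (hx : x ≠ 0) : Ns (fac x) ≤ nm x := b2_e_Ns_le hx (pr_fac_dvd hx)
theorem mu_empty : mu ∅ = 1 := by simp [mu]
theorem mu_union {s t : Finset P} (h : Disjoint s t) : mu (s ∪ t) = mu s * mu t := by
  simp [mu, Finset.card_union_of_disjoint h, pow_add]
theorem norm_mu (s : Finset P) : ‖mu s‖ = 1 := by simp [mu]
theorem mu_sq (s : Finset P) : mu s * mu s = 1 := by simp [mu, ← mul_pow]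
theorem conj_mu (s : Finset P) : conj (mu s) = mu s := by simp [mu]
theorem sum_mu (s : Finset P) : ∑ t ∈ s.powerset, mu t = if s = ∅ then 1 else 0 := by
  have := Finset.sum_powerset_neg_one_pow_card (x := s)
  simp only [mu]
  exact_mod_cast this
theorem sum_mu_dvd (d : Finset P) (n : E) :
    ∑ f ∈ d.powerset, (if pr f ∣ n then mu f else 0) = if ∀ p ∈ d, ¬ p.1 ∣ n then 1 else 0 := by
  have h : d.powerset.filter (fun f => pr f ∣ n) = (d.filter fun p => p.1 ∣ n).powerset := by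
    ext f
    simp only [Finset.mem_filter, Finset.mem_powerset, pr_dvd_iff, Finset.subset_iff]
    exact ⟨fun h p hp => ⟨h.1 hp, h.2 p hp⟩, fun h => ⟨fun p hp => (h hp).1, fun p hp => (h hp).2⟩⟩
  rw [← Finset.sum_filter, h, sum_mu]
  simp only [Finset.filter_eq_empty_iff]

theorem fac_zero : fac 0 = ∅ := by
  rw [fac, dif_neg fun h => h.1 rfl]
theorem vp_assoc {p x y : E} (h : Associated x y) : vp p x = vp p y :=
  multiplicity_eq_of_associated_right h
theorem fac_assoc {x y : E} (h : Associated x y) : fac x = fac y := by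
  by_cases hx : x = 0
  · rw [hx, h.eq_zero_iff.1 hx]
  · ext p
    rw [mem_fac hx, mem_fac (h.ne_zero_iff.1 hx), h.dvd_iff_dvd_right]
theorem vp_unit_mul {p u x : E} (hu : IsUnit u) : vp p (u * x) = vp p x :=
  vp_assoc (associated_unit_mul_left x u hu)
theorem pm_ne_zero (x : E) : pm x ≠ 0 := b2_e_prod_ne _ _
theorem b2_pm_dvd (x : E) : pm x ∣ x := b2_e_prod_dvd fun _ _ => pow_multiplicity_dvd _ _
theorem b2_vp_pm {x : E} (hx : x ≠ 0) (p : P) : vp p.1 (pm x) = vp p.1 x := by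
  rw [pm, b2_e_vp_prod]
  split_ifs with h
  · rfl
  · exact (vp_of_not_dvd fun h1 => h ((mem_fac hx).2 h1)).symm
theorem b2_un_mul_pm (x : E) : un x * pm x = x := by
  rw [mul_comm]; exact mul_dv (b2_pm_dvd x)
theorem un_mul_pm {x : E} (hx : x ≠ 0) : un x * pm x = x := (fun _ => b2_un_mul_pm x) hx
theorem isUnit_un {x : E} (hx : x ≠ 0) : IsUnit (un x) := by
  have hu0 : un x ≠ 0 := fun h => hx (by rw [← b2_un_mul_pm x, h, zero_mul])
  by_contra hn
  obtain ⟨q, hq, h3⟩ := WfDvdMonoid.exists_irreducible_factor hn hu0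
  obtain ⟨p, h4⟩ := exists_P hq.prime
  have h5 := (dvd_iff_vp p.2.1 hu0).1 (h4.dvd_iff_dvd_left.1 h3)
  have h6 := congrArg (vp p.1) (b2_un_mul_pm x)
  rw [vp_mul p.2.1 hu0 (pm_ne_zero x), b2_vp_pm hx] at h6
  omega
theorem assoc_pm {x : E} (hx : x ≠ 0) : Associated x (pm x) := by
  conv_lhs => rw [← b2_un_mul_pm x]
  exact associated_unit_mul_left _ _ (isUnit_un hx)
theorem pm_assoc {x y : E} (h : Associated x y) : pm x = pm y := by
  simp only [pm, fac_assoc h, vp_assoc h]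
theorem b2_pm_ext {x y : E} (hx : x ≠ 0) (hy : y ≠ 0) (h : ∀ p : P, vp p.1 x = vp p.1 y) :
    pm x = pm y := by
  have h1 : fac x = fac y := by
    ext p
    rw [mem_fac hx, mem_fac hy, dvd_iff_vp p.2.1 hx, dvd_iff_vp p.2.1 hy, h]
  simp only [pm, h1, h]
theorem b2_pm_prod (s : Finset P) (k : P → ℕ) :
    pm (∏ p ∈ s, p.1 ^ k p) = ∏ p ∈ s, p.1 ^ k p := by
  have hs : fac (∏ p ∈ s, p.1 ^ k p) ⊆ s := fun q hq => by
    have h := (dvd_iff_vp q.2.1 (b2_e_prod_ne s k)).1 ((mem_fac (b2_e_prod_ne s k)).1 hq)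
    rw [b2_e_vp_prod] at h
    by_contra h1
    exact h (if_neg h1)
  rw [pm, Finset.prod_subset hs fun q _ hq => by
    rw [vp_of_not_dvd fun h => hq ((mem_fac (b2_e_prod_ne s k)).2 h), pow_zero]]
  exact Finset.prod_congr rfl fun q hq => by rw [b2_e_vp_prod, if_pos hq]
theorem b2_pm_sub {x : E} (hx : x ≠ 0) {s : Finset P} (hs : fac x ⊆ s) :
    pm x = ∏ p ∈ s, p.1 ^ vp p.1 x :=
  Finset.prod_subset hs fun q _ hq => by
    rw [vp_of_not_dvd fun h => hq ((mem_fac hx).2 h), pow_zero]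
theorem pm_mul {x y : E} (hx : x ≠ 0) (hy : y ≠ 0) : pm (x * y) = pm x * pm y := by
  rw [b2_pm_sub hx (s := fac x ∪ fac y) Finset.subset_union_left,
    b2_pm_sub hy (s := fac x ∪ fac y) Finset.subset_union_right, ← Finset.prod_mul_distrib, pm,
    fac_mul hx hy]
  exact Finset.prod_congr rfl fun p _ => by rw [vp_mul p.2.1 hx hy, pow_add]
theorem un_mul {x y : E} (hx : x ≠ 0) (hy : y ≠ 0) : un (x * y) = un x * un y := by
  refine mul_right_cancel₀ (pm_ne_zero (x * y)) ?_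
  rw [b2_un_mul_pm, pm_mul hx hy, mul_mul_mul_comm, b2_un_mul_pm, b2_un_mul_pm]
theorem pm_unit {u : E} (hu : IsUnit u) : pm u = 1 := by
  rw [pm, fac_unit hu, Finset.prod_empty]
theorem un_unit {u : E} (hu : IsUnit u) : un u = u := by
  have h := b2_un_mul_pm u
  rwa [pm_unit hu, mul_one] at h
theorem prim_prod_pow (s : Finset P) (k : P → ℕ) : Prim (∏ p ∈ s, p.1 ^ k p) :=
  ⟨b2_e_prod_ne s k, b2_pm_prod s k⟩
theorem prim_pm (x : E) : Prim (pm x) := prim_prod_pow _ _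
theorem Prim.un_eq {x : E} (h : Prim x) : un x = 1 := by
  refine mul_right_cancel₀ h.1 ?_
  have h1 := b2_un_mul_pm x
  rw [h.2] at h1
  rw [h1, one_mul]
theorem prim_one : Prim 1 := ⟨one_ne_zero, pm_unit isUnit_one⟩
theorem Prim.mul {x y : E} (hx : Prim x) (hy : Prim y) : Prim (x * y) :=
  ⟨mul_ne_zero hx.1 hy.1, by rw [pm_mul hx.1 hy.1, hx.2, hy.2]⟩
theorem Prim.pow {x : E} (hx : Prim x) (k : ℕ) : Prim (x ^ k) := by
  induction k with
  | zero => rw [pow_zero]; exact prim_one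
  | succ k ih => rw [pow_succ]; exact ih.mul hx
theorem prim_pr (s : Finset P) : Prim (pr s) := b2_e_pr s ▸ prim_prod_pow s fun _ => 1
theorem prim_P (p : P) : Prim p.1 := pr_singleton p ▸ prim_pr {p}
theorem Prim.of_mul {x y : E} (hx : Prim x) (hxy : Prim (x * y)) : Prim y := by
  have hy : y ≠ 0 := right_ne_zero_of_mul hxy.1
  refine ⟨hy, mul_left_cancel₀ hx.1 ?_⟩
  have h := hxy.2
  rwa [pm_mul hx.1 hy, hx.2] at h
theorem prim_unique {x y : E} (hx : Prim x) (hy : Prim y) (h : Associated x y) : x = y := by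
  rw [← hx.2, ← hy.2, pm_assoc h]
theorem assoc_of_vp {x y : E} (hx : x ≠ 0) (hy : y ≠ 0) (h : ∀ p : P, vp p.1 x = vp p.1 y) :
    Associated x y := (assoc_pm hx).trans (b2_pm_ext hx hy h ▸ (assoc_pm hy).symm)
theorem nm_eq_prod {c : E} (hc : c ≠ 0) : nm c = ∏ p ∈ fac c, nm p.1 ^ vp p.1 c := by
  rw [nm_assoc (assoc_pm hc), pm, nm_prod]
  exact Finset.prod_congr rfl fun p _ => nm_pow _ _
theorem dvd_iff_forall {a x : E} (ha : a ≠ 0) : a ∣ x ↔ ∀ p ∈ fac a, p.1 ^ vp p.1 a ∣ x :=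
  ⟨fun h _ _ => (pow_multiplicity_dvd _ _).trans h,
    fun h => (assoc_pm ha).dvd.trans (b2_e_prod_dvd h)⟩
theorem b2_e_ind {M : E → Prop} {a : E} (ha : M a) (s : Finset P) (k : P → ℕ)
    (hp : ∀ (p : P) (j : ℕ) (t : Finset P), M (p.1 ^ j * (∏ p ∈ t, p.1 ^ k p) * a) →
      M (p.1 * (p.1 ^ j * (∏ p ∈ t, p.1 ^ k p) * a))) : M ((∏ p ∈ s, p.1 ^ k p) * a) := by
  induction s using Finset.induction_on with
  | empty => simpa using ha
  | insert q s hq ih =>
    rw [Finset.prod_insert hq]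
    induction k q with
    | zero => simpa using ih
    | succ j ih' =>
      have := hp q j s ih'
      rwa [← mul_assoc, ← mul_assoc, ← pow_succ'] at this
/-- Induction over nonzero elements. -/
theorem induction_nz {M : E → Prop} (hu : ∀ u, IsUnit u → M u)
    (hp : ∀ (p : P) x, x ≠ 0 → M x → M (p.1 * x)) {x : E} (hx : x ≠ 0) : M x := by
  have h1 := isUnit_un hx
  have := b2_e_ind (hu _ h1) (fac x) (fun p => vp p.1 x) fun p j t h =>
    hp p _ (mul_ne_zero (mul_ne_zero (pow_ne_zero _ p.ne_zero) (b2_e_prod_ne _ _)) h1.ne_zero) h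
  rw [← b2_un_mul_pm x, mul_comm]
  exact this
/-- Induction over primary elements. -/
theorem induction_prim {M : E → Prop} (h1 : M 1) (hp : ∀ (p : P) x, Prim x → M x → M (p.1 * x))
    {x : E} (hx : Prim x) : M x := by
  have := b2_e_ind h1 (fac x) (fun p => vp p.1 x) fun p j t h =>
    hp p _ ((((prim_P p).pow j).mul (prim_prod_pow _ _)).mul prim_one) h
  rw [← hx.2, ← mul_one (pm x)]
  exact this
theorem squarefree_iff_vp {x : E} (hx : x ≠ 0) : Squarefree x ↔ ∀ p : P, vp p.1 x ≤ 1 := by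
  refine ⟨fun h p => ?_, fun h y hy => ?_⟩
  · by_contra h1
    have h2 := (pow_dvd_iff p.2.1 hx 2).2 (by omega)
    rw [sq] at h2
    exact p.2.1.not_isUnit (h _ h2)
  · by_contra hn
    have hy0 : y ≠ 0 := fun h0 => hx (by simpa [h0] using hy)
    obtain ⟨q, hq, h3⟩ := WfDvdMonoid.exists_irreducible_factor hn hy0
    obtain ⟨p, h4⟩ := exists_P hq.prime
    have h5 := h4.dvd_iff_dvd_left.1 h3
    have h6 := (pow_dvd_iff p.2.1 hx 2).1 (by rw [sq]; exact (mul_dvd_mul h5 h5).trans hy)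
    have := h p
    omega
theorem squarefree_pr (s : Finset P) : Squarefree (pr s) :=
  (squarefree_iff_vp (pr_ne_zero s)).2 fun p => by
    rw [vp_pr]
    split_ifs <;> omega
theorem squarefree_iff_assoc {x : E} : Squarefree x ↔ Associated x (pr (fac x)) := by
  refine ⟨fun h => assoc_of_vp h.ne_zero (pr_ne_zero _) fun p => ?_,
    fun h => h.squarefree_iff.2 (squarefree_pr _)⟩
  have h1 := (squarefree_iff_vp h.ne_zero).1 h p
  have h2 := dvd_iff_vp p.2.1 h.ne_zero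
  simp only [vp_pr, mem_fac h.ne_zero, h2]
  split_ifs <;> omega
theorem assoc_pr_iff {x : E} {s : Finset P} : Associated x (pr s) ↔ Squarefree x ∧ fac x = s :=
  ⟨fun h => ⟨h.squarefree_iff.2 (squarefree_pr s), by rw [fac_assoc h, fac_pr]⟩,
    fun h => h.2 ▸ squarefree_iff_assoc.1 h.1⟩
theorem nm_of_assoc_pr {x : E} {s : Finset P} (h : Associated x (pr s)) : (nm x : ℝ) = Ns s := by
  rw [nm_assoc h, Ns]

end NQ
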