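import Vale.Agent.NQ.Stm2

noncomputable section
namespace NQ
open Complex MeasureTheory NumberField Filter
open scoped ComplexConjugate Classical Topology

open Metric in
theorem BC_core {F : ℂ → ℂ} {M : ℝ} (hM : 0 < M) (hd : DifferentiableOn ℂ F (Metric.ball 0 (13 / 12)))
    (hne : ∀ z ∈ Metric.ball (0 : ℂ) (13 / 12), F z ≠ 0)
    (hup : ∀ z ∈ Metric.ball (0 : ℂ) (13 / 12), ‖F z‖ ≤ Real.exp M * ‖F 0‖) {z : ℂ}
    (hz : ‖z‖ ≤ 17 / 16) : ‖deriv F z / F z‖ ≤ 20000 * M := by
  have hR : (0 : ℝ) < 13 / 12 := by norm_num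
  have hq : DifferentiableOn ℂ (fun w => deriv F w / F w) (Metric.ball 0 (13 / 12)) :=
    (hd.deriv isOpen_ball).div hd hne
  obtain ⟨h, h0, hh⟩ := hq.isExactOn_ball.with_val_at 0 0
  have hhd : DifferentiableOn ℂ h (Metric.ball 0 (13 / 12)) :=
    fun w hw => (hh w hw).differentiableAt.differentiableWithinAt
  have hc : ∀ w ∈ Metric.ball (0 : ℂ) (13 / 12), F w * exp (-h w) = F 0 := by
    intro w hw
    have h1 : ∀ v ∈ Metric.ball (0 : ℂ) (13 / 12), HasDerivAt (fun v => F v * exp (-h v)) 0 v := by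
      intro v hv
      have h2 := (hd.differentiableAt (isOpen_ball.mem_nhds hv)).hasDerivAt.mul
        (hh v hv).neg.cexp
      have h3 := hne v hv
      refine h2.congr_deriv ?_
      simp only [Pi.neg_apply]
      field_simp
      ring
    have h2 := isOpen_ball.is_const_of_deriv_eq_zero (convex_ball (0 : ℂ) (13 / 12)).isPreconnected
      (fun v hv => (h1 v hv).differentiableAt.differentiableWithinAt)
      (fun v hv => (h1 v hv).deriv) hw (mem_ball_self hR)
    simpa [h0] using h2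
  have hre : Set.MapsTo h (Metric.ball 0 (13 / 12)) {w | w.re ≤ M} := by
    intro w hw
    have h1 := congrArg norm (hc w hw)
    rw [norm_mul, norm_exp, neg_re, Real.exp_neg, ← div_eq_mul_inv,
      div_eq_iff (Real.exp_pos _).ne'] at h1
    have h2 := hup w hw
    rw [h1, mul_comm] at h2
    exact Real.exp_le_exp.1
      (le_of_mul_le_mul_right h2 (norm_pos_iff.2 (hne 0 (mem_ball_self hR))))
  have hsub : closedBall z (1 / 96) ⊆ Metric.ball 0 (13 / 12) :=
    closedBall_subset_ball' (by rw [dist_zero_right]; linarith)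
  have hb : ∀ w ∈ sphere z (1 / 96), ‖h w‖ ≤ 206 * M := by
    intro w hw
    have h1 : ‖w‖ ≤ 103 / 96 := by
      have := norm_le_norm_add_norm_sub' w z
      rw [mem_sphere_iff_norm] at hw
      linarith
    refine (borelCaratheodory_zero hM hhd hre hR (hsub (sphere_subset_closedBall hw)) h0).trans ?_
    rw [div_le_iff₀ (by linarith)]
    nlinarith
  have hz' : z ∈ Metric.ball (0 : ℂ) (13 / 12) := hsub (mem_closedBall_self (by norm_num))
  rw [← (hh z hz').deriv]
  refine (norm_deriv_le_of_forall_mem_sphere_norm_le (by norm_num)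
    (hhd.diffContOnCl_ball hsub) hb).trans ?_
  rw [div_le_iff₀ (by norm_num)]
  linarith

theorem bC : BC := by
  refine ⟨20000, by norm_num, fun f c L hL hd hne hup z hz => ?_⟩
  have hm : ∀ w ∈ Metric.ball (0 : ℂ) (13 / 12), w + c ∈ Metric.ball c (13 / 12) := by
    intro w hw
    rw [mem_ball_zero_iff] at hw
    rw [mem_ball_iff_norm, add_sub_cancel_right]
    exact hw
  have h := BC_core (F := fun w => f (w + c)) (M := L) (by linarith)
    (hd.comp (by fun_prop) hm) (fun w hw => hne _ (hm w hw))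
    (fun w hw => by rw [zero_add]; exact hup _ (hm w hw)) (z := z - c)
    (by rw [mem_closedBall_iff_norm] at hz; linarith)
  rwa [deriv_comp_add_const, sub_add_cancel] at h

theorem BC_sinh (x : ℝ) : |Real.sinh x| ≤ |x| * Real.exp |x| := by
  rw [Real.abs_sinh, Real.sinh_eq]
  have h0 := abs_nonneg x
  have h1 := Real.add_one_le_exp (-(2 * |x|))
  have h2 : Real.exp (-|x|) = Real.exp |x| * Real.exp (-(2 * |x|)) := by
    rw [← Real.exp_add]
    ring_nf
  rw [h2]
  nlinarith [Real.exp_pos |x|]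

theorem BC_gam1 (t : ℝ) : Real.exp (-(2 * |t|)) ≤ ‖Gamma (1 + t * I)‖ := by
  rcases eq_or_ne t 0 with rfl | ht
  · simp
  have ht' : (t : ℂ) * I ≠ 0 := mul_ne_zero (ofReal_ne_zero.2 ht) I_ne_zero
  have h1 : Gamma (1 + t * I) = t * I * Gamma (t * I) := by
    rw [add_comm, Gamma_add_one _ ht']
  have h2 : ‖Gamma (1 - t * I)‖ = ‖Gamma (1 + t * I)‖ := by
    have : (1 - t * I : ℂ) = conj (1 + t * I) := by simp [sub_eq_add_neg]
    rw [this, Gamma_conj, norm_conj]
  have h3 := congrArg norm (Gamma_mul_Gamma_one_sub (t * I))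
  have h4 : ‖sin (Real.pi * (t * I))‖ = |Real.sinh (Real.pi * t)| := by
    rw [← mul_assoc, sin_mul_I, norm_mul, norm_I, mul_one, ← ofReal_mul, ← ofReal_sinh, norm_real,
      Real.norm_eq_abs]
  rw [norm_mul, norm_div, h4, h2, norm_real, Real.norm_eq_abs, abs_of_pos Real.pi_pos] at h3
  have hs : 0 < |Real.sinh (Real.pi * t)| :=
    abs_pos.2 (Real.sinh_ne_zero.2 (mul_ne_zero Real.pi_ne_zero ht))
  have h5 : ‖Gamma (1 + t * I)‖ ^ 2 = |t| * (Real.pi / |Real.sinh (Real.pi * t)|) := by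
    rw [← h3, sq]
    nth_rw 1 [h1]
    rw [norm_mul, norm_mul, norm_I, norm_real, Real.norm_eq_abs]
    ring
  have h6 := BC_sinh (Real.pi * t)
  rw [abs_mul, abs_of_pos Real.pi_pos] at h6
  have h7 : Real.exp (-(2 * |t|)) ^ 2 ≤ ‖Gamma (1 + t * I)‖ ^ 2 := by
    rw [h5, ← mul_div_assoc, le_div_iff₀ hs]
    have h8 : Real.exp (-(2 * |t|)) ^ 2 * Real.exp (Real.pi * |t|) ≤ 1 := by
      rw [sq, ← Real.exp_add, ← Real.exp_add]
      refine Real.exp_le_one_iff.2 ?_
      nlinarith [Real.pi_le_four, abs_nonneg t]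
    have h9 : 0 ≤ Real.pi * |t| := by positivity
    calc _ ≤ Real.exp (-(2 * |t|)) ^ 2 * (Real.pi * |t| * Real.exp (Real.pi * |t|)) := by gcongr
      _ = Real.pi * |t| * (Real.exp (-(2 * |t|)) ^ 2 * Real.exp (Real.pi * |t|)) := by ring
      _ ≤ Real.pi * |t| * 1 := by gcongr
      _ = _ := by ring
  exact (sq_le_sq₀ (Real.exp_pos _).le (norm_nonneg _)).1 h7

theorem BC_gam2 (t : ℝ) : Real.exp (-(2 * |t|)) ≤ ‖Gamma (2 + t * I)‖ := by
  have h0 : (1 : ℝ) ≤ ‖(1 + t * I : ℂ)‖ := by
    have := re_le_norm (1 + t * I : ℂ)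
    simpa using this
  have h1 : (1 + t * I : ℂ) ≠ 0 := norm_pos_iff.1 (by linarith)
  have h2 : Gamma (2 + t * I) = (1 + t * I) * Gamma (1 + t * I) := by
    rw [← Gamma_add_one _ h1]
    congr 1
    ring
  rw [h2, norm_mul]
  exact (BC_gam1 t).trans (le_mul_of_one_le_left (norm_nonneg _) h0)

theorem BC_gam_le {z : ℂ} (hz : 0 < z.re) : ‖Gamma z‖ ≤ Real.Gamma z.re := by
  rw [Gamma_eq_integral hz, Real.Gamma_eq_integral hz, GammaIntegral]
  refine (norm_integral_le_integral_norm _).trans (le_of_eq ?_)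
  refine setIntegral_congr_fun measurableSet_Ioi fun x hx => ?_
  have hx' : 0 < x := hx
  rw [norm_mul, norm_real, norm_cpow_eq_rpow_re_of_pos hx', Real.norm_eq_abs,
    abs_of_pos (Real.exp_pos _)]
  simp

theorem BC_a : (1 : ℝ) ≤ 2 * Real.pi / √3 := by
  have h3 : √3 ≤ 2 := Real.sqrt_le_iff.2 ⟨by norm_num, by norm_num⟩
  rw [le_div_iff₀ (Real.sqrt_pos.2 (by norm_num))]
  linarith [Real.pi_gt_three]

theorem BC_norm (z : ℂ) : ‖GG z‖ = (2 * Real.pi / √3) ^ (-z.re) * ‖Gamma z‖ := by
  rw [GG, norm_mul, norm_cpow_eq_rpow_re_of_pos (by linarith [BC_a]), neg_re]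

theorem BC_diff {z : ℂ} (hz : 0 < z.re) : DifferentiableAt ℂ GG z := by
  have h1 : DifferentiableAt ℂ Gamma z := differentiableAt_Gamma z fun m hm => by
    rw [hm] at hz
    simp only [neg_re, natCast_re] at hz
    linarith [Nat.cast_nonneg (α := ℝ) m]
  have h2 : DifferentiableAt ℂ (fun z : ℂ => ((2 * Real.pi / √3 : ℝ) : ℂ) ^ (-z)) z :=
    differentiableAt_id.neg.const_cpow (Or.inl (ofReal_ne_zero.2 (by linarith [BC_a])))
  exact h2.mul h1

theorem BC_ne {z : ℂ} (hz : 0 < z.re) : GG z ≠ 0 := by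
  refine norm_pos_iff.1 ?_
  rw [BC_norm]
  exact mul_pos (Real.rpow_pos_of_pos (by linarith [BC_a]) _)
    (norm_pos_iff.2 (Gamma_ne_zero_of_re_pos hz))

theorem BC_K : ∃ K : ℝ, 1 ≤ K ∧ (∀ z : ℂ, 11 / 12 ≤ z.re → z.re ≤ 4 → ‖GG z‖ ≤ Real.exp K) ∧
    ∀ t : ℝ, Real.exp (-(K * (1 + |t|))) ≤ ‖GG (2 + t * I)‖ := by
  have hc : ContinuousOn Real.Gamma (Set.Icc (11 / 12) 4) := fun x hx =>
    (Real.differentiableAt_Gamma fun m hm => by
      have := hx.1
      rw [hm] at this
      linarith [Nat.cast_nonneg (α := ℝ) m]).continuousAt.continuousWithinAt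
  obtain ⟨B, hB⟩ := isCompact_Icc.exists_bound_of_continuousOn hc
  have hl : 0 ≤ Real.log (2 * Real.pi / √3) := Real.log_nonneg BC_a
  refine ⟨|B| + 2 + 2 * Real.log (2 * Real.pi / √3), by linarith [abs_nonneg B],
    fun z h1 h2 => ?_, fun t => ?_⟩
  · rw [BC_norm]
    have h3 : (2 * Real.pi / √3) ^ (-z.re) ≤ 1 :=
      Real.rpow_le_one_of_one_le_of_nonpos BC_a (by linarith)
    have h4 : ‖Gamma z‖ ≤ |B| := (BC_gam_le (by linarith)).trans
      (((le_abs_self _).trans (hB _ ⟨h1, h2⟩)).trans (le_abs_self B))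
    have h5 := Real.add_one_le_exp (|B| + 2 + 2 * Real.log (2 * Real.pi / √3))
    calc _ ≤ 1 * |B| := by gcongr
      _ ≤ _ := by linarith
  · rw [BC_norm, Real.rpow_def_of_pos (by linarith [BC_a])]
    refine le_trans ?_ (mul_le_mul_of_nonneg_left (BC_gam2 t) (Real.exp_pos _).le)
    rw [← Real.exp_add]
    refine Real.exp_le_exp.2 ?_
    have h0 := abs_nonneg t
    have h1 := abs_nonneg B
    have h2 : (2 + t * I : ℂ).re = 2 := by simp
    rw [h2]
    nlinarith [mul_nonneg h0 h1, mul_nonneg h0 hl]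

theorem lDer (h : BC) : LDer := by
  obtain ⟨C, hC, hBC⟩ := h
  obtain ⟨K, hK, hup, hlo⟩ := BC_K
  refine ⟨C * (10 + K) + 2 + C * (2 * K), by positivity,
    fun r L Λ ζ D hL hr hΛ hne heq hb hζ hD => ?_⟩
  have hU : IsOpen {z : ℂ | 11 / 12 < z.re} := isOpen_lt continuous_const continuous_re
  have hG : DifferentiableOn ℂ GG {z : ℂ | 11 / 12 < z.re} := fun z hz =>
    (BC_diff (by have : 11 / 12 < z.re := hz; linarith)).differentiableWithinAt
  refine ⟨fun z => -(deriv Λ z / Λ z) + 1 / z + r * (deriv GG z / GG z), ?_, fun z hz => ?_,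
    fun z h1 h2 => ?_⟩
  · refine ((((hΛ.differentiableOn.deriv hU).div hΛ.differentiableOn hne).neg.add
      ((differentiableOn_const _).div differentiableOn_id fun z hz h0 => ?_)).add
      ((differentiableOn_const _).mul ((hG.deriv hU).div hG fun z hz => BC_ne ?_)))
    · have h3 : 11 / 12 < z.re := hz
      have h4 : z = 0 := h0
      rw [h4] at h3
      norm_num at h3
    · have : 11 / 12 < z.re := hz
      linarith
  · have h0 : z ≠ 0 := fun h0 => by
      rw [h0] at hz
      norm_num at hz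
    have h1 : z - 1 ≠ 0 := fun h1 => by
      rw [sub_eq_zero.1 h1] at hz
      norm_num at hz
    have hg := BC_ne (z := z) (by linarith)
    have hz0 : ζ z ≠ 0 := fun h2 => hne z (by linarith) (by rw [heq z hz, h2, mul_zero])
    have hd := ((((hasDerivAt_id z).mul ((hasDerivAt_id z).sub_const 1)).mul
      ((BC_diff (z := z) (by linarith)).hasDerivAt.pow r)).mul (hD z hz))
    have hev : Λ =ᶠ[𝓝 z] fun w => w * (w - 1) * GG w ^ r * ζ w := by
      filter_upwards [(isOpen_lt continuous_const continuous_re).mem_nhds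
        (show z ∈ {w : ℂ | 1 < w.re} from hz)] with w hw using heq w hw
    have hd2 := (hd.congr_of_eventuallyEq hev).deriv
    simp only
    rw [hd2, heq z hz]
    simp only [id, Pi.mul_apply, Pi.pow_apply]
    rcases r with _ | r
    · simp only [pow_zero, Nat.cast_zero]
      field_simp
      ring
    · simp only [Nat.add_sub_cancel]
      field_simp
      ring
  · set c : ℂ := 2 + z.im * I with hc
    have ht := abs_nonneg z.im
    have hmem : ∀ w ∈ Metric.ball c (13 / 12),
        11 / 12 < w.re ∧ w.re < 4 ∧ ‖w‖ ≤ 4 * (1 + |z.im|) := by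
      intro w hw
      rw [mem_ball_iff_norm] at hw
      have h3 := abs_lt.1 ((abs_re_le_norm _).trans_lt hw)
      have h5 : (w - c).re = w.re - 2 := by simp [hc]
      rw [h5] at h3
      have h6 : ‖c‖ ≤ 2 + |z.im| := (norm_add_le _ _).trans (by simp)
      have h7 := norm_le_norm_add_norm_sub' w c
      exact ⟨by linarith [h3.1], by linarith [h3.2], by linarith⟩
    have hz : z ∈ Metric.closedBall c (26 / 25) := by
      have h3 : z - c = ((z.re - 2 : ℝ) : ℂ) := by
        apply Complex.ext <;> simp [hc]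
      rw [mem_closedBall_iff_norm, h3, norm_real, Real.norm_eq_abs, abs_le]
      constructor <;> linarith
    have hT : 1 ≤ L * (1 + |z.im|) := by nlinarith
    have b1 := hBC GG c (2 * K * (1 + |z.im|)) (by nlinarith)
      (hG.mono fun w hw => (hmem w hw).1) (fun w hw => BC_ne (by linarith [(hmem w hw).1]))
      (fun w hw => by
        obtain ⟨a1, a2, -⟩ := hmem w hw
        refine (hup w a1.le a2.le).trans
          (le_trans ?_ (mul_le_mul_of_nonneg_left (hlo z.im) (Real.exp_pos _).le))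
        rw [← Real.exp_add]
        exact Real.exp_le_exp.2 (by nlinarith)) z hz
    have hc1 : Real.exp (-(K * (1 + |z.im|) * L + L)) ≤ ‖Λ c‖ := by
      have e1 : c.re = 2 := by simp [hc]
      have e2 : 1 ≤ ‖c‖ := by linarith [re_le_norm c]
      have e3 : 1 ≤ ‖c - 1‖ := by
        have := re_le_norm (c - 1)
        rw [sub_re, e1, one_re] at this
        linarith
      have e4 : Real.exp (-(K * (1 + |z.im|) * L)) ≤ ‖GG c‖ ^ r := by
        refine le_trans ?_ (pow_le_pow_left₀ (Real.exp_pos _).le (hlo z.im) r)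
        rw [← Real.exp_nat_mul]
        refine Real.exp_le_exp.2 ?_
        have : 0 ≤ K * (1 + |z.im|) := by positivity
        nlinarith
      rw [heq c (by rw [e1]; norm_num), norm_mul, norm_mul, norm_mul, norm_pow, neg_add,
        Real.exp_add]
      calc _ = 1 * 1 * Real.exp (-(K * (1 + |z.im|) * L)) * Real.exp (-L) := by ring
        _ ≤ _ := by gcongr; exact hζ z.im
    have b2 := hBC Λ c ((10 + K) * (L * (1 + |z.im|))) (by nlinarith)
      hΛ.differentiableOn (fun w hw => hne w (hmem w hw).1)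
      (fun w hw => by
        obtain ⟨a1, a2, a3⟩ := hmem w hw
        refine (hb w (by linarith) a2.le).trans
          (le_trans ?_ (mul_le_mul_of_nonneg_left hc1 (Real.exp_pos _).le))
        have e1 : (1 + ‖w‖) ^ 2 ≤ Real.exp ‖w‖ ^ 2 :=
          pow_le_pow_left₀ (by positivity) (by linarith [Real.add_one_le_exp ‖w‖]) 2
        refine (mul_le_mul_of_nonneg_right e1 (Real.exp_pos _).le).trans ?_
        rw [sq, ← Real.exp_add, ← Real.exp_add, ← Real.exp_add]
        refine Real.exp_le_exp.2 ?_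
        nlinarith) z hz
    have b3 : ‖1 / z‖ ≤ 2 := by
      have := re_le_norm z
      rw [norm_div, norm_one, div_le_iff₀ (by linarith)]
      linarith
    have b4 : ‖(r : ℂ) * (deriv GG z / GG z)‖ ≤ L * (C * (2 * K * (1 + |z.im|))) := by
      rw [norm_mul, Complex.norm_natCast]
      gcongr
    refine (norm_add₃_le).trans ?_
    rw [norm_neg]
    nlinarith

end NQ
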