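import Vale.Agent.NQ.Sym
import Vale.Agent.NQ.Psq
import Vale.Agent.P026.Card

noncomputable section
namespace NQ
open Complex MeasureTheory NumberField Filter
open scoped ComplexConjugate Classical ContDiff Topology

variable [σ : St]

theorem card1 : Card1 := by
  intro p u δ ξ a hu ha
  have hp := p.2.1
  have ha0 : a ≠ 0 := by rcases ha with rfl | rfl <;> norm_num
  obtain ⟨t, ht⟩ : ∃ t, p.1 ∣ u * t - 1 := ⟨_, inv_spec ((isCoprime_prime hp).2 hu)⟩
  have ht0 : ¬ p.1 ∣ t := fun h => hp.not_isUnit (isUnit_of_dvd_one (by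
    have := dvd_sub (Dvd.dvd.mul_left h u) ht
    simpa using this))
  obtain ⟨e, he, hee⟩ := exists_addChar p ht0
  obtain ⟨χ, hχ, hχ1⟩ := ((c3_mc p).pow ha0).exists_mulChar
  have hone : ∀ x, ¬ p.1 ∣ x → c3 p x ^ a = 1 → c3 p x = 1 := by
    intro x hx h
    rcases ha with rfl | rfl
    · simpa using h
    · linear_combination c3_cube hx - c3 p x * h
  have h1 : χ ≠ 1 := by
    rw [hχ1]
    obtain ⟨x, hx, hx1⟩ := c3_nt p
    exact ⟨x, hx, fun h => hx1 (hone x hx h)⟩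
  have hc : ∀ T, T ≠ 0 → χ T ^ 3 = 1 := by
    intro T hT
    obtain ⟨x, rfl⟩ := rd_surj p T
    rw [hχ, ← pow_mul, mul_comm, pow_mul, c3_cube (mt rd_eq_zero.2 hT), one_pow]
  have hk : ∀ T, χ T = 1 → ∃ r, r ^ 3 = T := by
    intro T hT
    obtain ⟨x, rfl⟩ := rd_surj p T
    by_cases hx : p.1 ∣ x
    · exact ⟨0, by simp [rd_eq_zero.2 hx]⟩
    rw [hχ] at hT
    obtain ⟨y, hy⟩ := (c3_eq_one_iff hx).1 (hone x hx hT)
    exact ⟨rd p y, by rw [rd_eq_iff.2 hy, map_pow]⟩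
  have q1 : ∀ A, psq p.1 A (p.1 * u) = e (rd p A) := by
    intro A
    rw [hee, psq_eq hp (j := 1) (y := t) (by rw [pow_one]) hu (by rwa [pow_one]), pow_one]
  have q2 : ∀ A y, c3 p y ^ a * psq p.1 A (p.1 * u * y) = χ (rd p y) * e (rd p A / rd p y) := by
    intro A y
    rw [hχ]
    by_cases hy : p.1 ∣ y
    · rw [(c3_mc p).zero y hy, zero_pow ha0, zero_mul, zero_mul]
    obtain ⟨z, hz⟩ : ∃ z, p.1 ∣ y * z - 1 := ⟨_, inv_spec ((isCoprime_prime hp).2 hy)⟩
    have hz' : rd p y * rd p z = 1 := by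
      rw [← map_mul, rd_eq_iff.2 hz, map_one]
    have hd : rd p A / rd p y = rd p (A * z) := by
      rw [map_mul, div_eq_mul_inv, inv_eq_of_mul_eq_one_right hz']
    rw [hd, hee, psq_eq hp (j := 1) (u := u * y) (y := z * t) (by rw [pow_one, mul_assoc])
      (fun h => (hp.dvd_or_dvd h).elim hu hy) ?_, pow_one, mul_assoc]
    rw [pow_one]
    have : u * y * (z * t) - 1 = (u * t - 1) * (y * z) + (y * z - 1) := by ring
    rw [this]
    exact dvd_add (Dvd.dvd.mul_right ht _) hz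
  have q3 : ∀ y, conj (c3 p y) ^ a = χ (rd p y) ^ 2 := by
    intro y
    rw [hχ, conj_c3, ← pow_mul, ← pow_mul, mul_comm]
  have key := QRH.card_main (rd_three p) (rd_om_prim p) χ h1 hc hk e he (rd p δ) (rd p ξ)
  have r1 : rsum p.1 (fun y => conj (c3 p y) ^ a * psq p.1 y (p.1 * u))
      = ∑ y, χ y ^ 2 * e y := by
    rw [← rsum_rd]
    simp only [q1, q3]
  have r2 : rsum2 p.1 (fun y x => c3 p y ^ a * psq p.1 (x ^ 3) (p.1 * u * y)
      * psq p.1 (y * δ + 3 * x * ξ) (p.1 * u))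
      = ∑ y, ∑ x, χ y * e (x ^ 3 / y) * e (y * rd p δ + 3 * x * rd p ξ) := by
    rw [← rsum_rd]
    unfold rsum2
    congr 1
    funext y
    rw [← rsum_rd]
    congr 1
    funext x
    beta_reduce
    rw [q1, q2]
    simp only [map_pow, map_add, map_mul, map_ofNat]
  rw [r1, r2, key, q2, card_Fp, map_pow]
  simp only [rd_eq_zero]

end NQ
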