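import Vale.Agent.NQ.Stm2

noncomputable section
namespace NQ
open Complex MeasureTheory NumberField Filter
open scoped ComplexConjugate Classical Topology

theorem kw_pos (y : ℝ) : 0 < kw y := Real.exp_pos _

theorem kw_le_rpow (A : ℝ) {y : ℝ} (hy : 0 < y) : kw y ≤ Real.exp (A ^ 2) * y ^ (-A) := by
  rw [Real.rpow_def_of_pos hy, ← Real.exp_add]
  refine Real.exp_le_exp.2 ?_
  nlinarith [sq_nonneg (A - Real.log y / 2)]

theorem Cont_meas (x : ℝ) : Measurable fun y : ℝ => kw (y / x) := by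
  unfold kw
  fun_prop

theorem Cont_intOn {x : ℝ} (hx : 0 < x) : IntegrableOn (fun y : ℝ => kw (y / x)) (Set.Ioi 1) := by
  have h := (integrableOn_Ioi_rpow_of_lt (a := -2) (c := 1) (by norm_num) one_pos).const_mul
    (Real.exp (2 ^ 2) * x ^ (2 : ℝ))
  refine h.mono' (Cont_meas x).aestronglyMeasurable ?_
  refine (ae_restrict_iff' measurableSet_Ioi).2 (Eventually.of_forall fun y hy => ?_)
  have hy0 : 0 < y := lt_trans one_pos hy
  rw [Real.norm_eq_abs, abs_of_pos (kw_pos _)]
  refine (kw_le_rpow 2 (div_pos hy0 hx)).trans (le_of_eq ?_)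
  rw [Real.div_rpow hy0.le hx.le, Real.rpow_neg hx.le]
  field_simp

theorem mm_ge {x : ℝ} (hx : 1 ≤ x) : x / 2 ≤ mm x := by
  have hx0 : 0 < x := by linarith
  have hsub : Set.Ioc x (2 * x) ⊆ Set.Ioi 1 := fun y hy => lt_of_le_of_lt hx hy.1
  refine le_trans ?_ (setIntegral_mono_set (Cont_intOn hx0)
    (Eventually.of_forall fun y => (kw_pos _).le) hsub.eventuallyLE)
  have h := setIntegral_mono_on (f := fun _ : ℝ => (1 / 2 : ℝ)) (g := fun y : ℝ => kw (y / x))
    (s := Set.Ioc x (2 * x)) (μ := volume) (by simp) ((Cont_intOn hx0).mono_set hsub)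
    measurableSet_Ioc fun y hy => by
      have h1 : 1 ≤ y / x := (one_le_div hx0).2 hy.1.le
      have h2 : y / x ≤ 2 := (div_le_iff₀ hx0).2 hy.2
      have h3 := Real.log_nonneg h1
      have h4 := Real.log_le_sub_one_of_pos (show 0 < y / x by linarith)
      have h5 := Real.add_one_le_exp (-(Real.log (y / x)) ^ 2 / 4)
      unfold kw
      nlinarith
  refine le_trans (le_of_eq ?_) h
  rw [setIntegral_const, Real.volume_real_Ioc_of_le (by linarith), smul_eq_mul]
  ring

theorem Cont_gauss (l : ℝ) : ∫ t : ℝ, Complex.exp ((2 + t * I) ^ 2 - (2 + t * I) * l)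
    = ((√Real.pi * Real.exp (-l ^ 2 / 4) : ℝ) : ℂ) := by
  have h := integral_cexp_quadratic (b := -1) (by simp) ((4 - l) * I) (4 - 2 * l)
  have e : ∀ t : ℝ, (2 + t * I) ^ 2 - (2 + t * I) * l =
      -1 * (t : ℂ) ^ 2 + (4 - l) * I * t + (4 - 2 * l) := fun t => by
    linear_combination (t : ℂ) ^ 2 * I_sq
  simp only [e]
  rw [h, neg_neg, div_one, Real.sqrt_eq_rpow, ofReal_mul, ofReal_cpow Real.pi_pos.le,
    ofReal_exp]
  congr 2
  · simp
  · push_cast
    linear_combination (4 - (l : ℂ)) ^ 2 / 4 * I_sq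

theorem Cont_cpow {y : ℝ} (hy : 0 < y) (z : ℂ) :
    (y : ℂ) ^ (-z) = Complex.exp (-(z * Real.log y)) := by
  rw [cpow_def_of_ne_zero (by exact_mod_cast hy.ne'), ofReal_log hy.le]
  congr 1
  ring

/-- The kernel as a vertical integral. -/
theorem kw_eq {y : ℝ} (hy : 0 < y) : ∫ t : ℝ, Complex.exp ((2 + t * I) ^ 2) * (y : ℂ) ^ (-(2 + t * I))
    = ((√Real.pi * kw y : ℝ) : ℂ) := by
  simp only [Cont_cpow hy, ← Complex.exp_add, ← sub_eq_add_neg]
  exact Cont_gauss _

theorem Cont_wt : Integrable fun t : ℝ => (1 + |t|) * Real.exp (-t ^ 2) := by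
  have h1 := integrable_exp_neg_mul_sq (b := 1) one_pos
  have h2 := (integrable_mul_exp_neg_mul_sq (b := 1) one_pos).abs
  refine (h1.add h2).congr (Eventually.of_forall fun t => ?_)
  simp only [Pi.add_apply, abs_mul, Real.abs_exp, neg_mul, one_mul]
  ring

theorem Cont_int {F : ℝ → ℂ} {K : ℝ} (hF : Continuous F)
    (hK : ∀ t, ‖F t‖ ≤ K * (1 + |t|) * Real.exp (-t ^ 2)) : Integrable F :=
  (Cont_wt.const_mul K).mono' hF.aestronglyMeasurable
    (Eventually.of_forall fun t => by rw [← mul_assoc]; exact hK t)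

theorem Cont_line {f : ℂ → ℂ} {a K : ℝ} (hf : ∀ z : ℂ, z.re = a → DifferentiableAt ℂ f z)
    (hK : ∀ z : ℂ, z.re = a → ‖f z‖ ≤ K * (1 + |z.im|) * Real.exp (-z.im ^ 2)) :
    Integrable fun t : ℝ => f (a + t * I) := by
  refine Cont_int (K := K) (continuous_iff_continuousAt.2 fun t => ?_) fun t => ?_
  · exact ContinuousAt.comp (f := fun t : ℝ => (a : ℂ) + t * I)
      (hf _ (by simp)).continuousAt (by fun_prop)
  · simpa using hK (a + t * I) (by simp)

/-- Shift of the contour. -/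
theorem shift_line {f : ℂ → ℂ} {a b K : ℝ} (hab : a ≤ b)
    (hf : ∀ z : ℂ, a ≤ z.re → z.re ≤ b → DifferentiableAt ℂ f z)
    (hK : ∀ z : ℂ, a ≤ z.re → z.re ≤ b → ‖f z‖ ≤ K * (1 + |z.im|) * Real.exp (-z.im ^ 2)) :
    ∫ t : ℝ, f (a + t * I) = ∫ t : ℝ, f (b + t * I) := by
  have ia : Integrable fun t : ℝ => f (a + t * I) :=
    Cont_line (K := K) (fun z hz => hf z hz.ge (hz.le.trans hab))
      fun z hz => hK z hz.ge (hz.le.trans hab)
  have ib : Integrable fun t : ℝ => f (b + t * I) :=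
    Cont_line (K := K) (fun z hz => hf z (hab.trans hz.ge) hz.le)
      fun z hz => hK z (hab.trans hz.ge) hz.le
  have ta := intervalIntegral_tendsto_integral ia tendsto_neg_atTop_atBot tendsto_id
  have tb := intervalIntegral_tendsto_integral ib tendsto_neg_atTop_atBot tendsto_id
  have t0 : Tendsto (fun T : ℝ => K * (1 + |T|) * Real.exp (-T ^ 2) * |b - a|) atTop (𝓝 0) := by
    have h1 := ((Real.tendsto_pow_mul_exp_neg_atTop_nhds_zero 1).comp
      (tendsto_pow_atTop (α := ℝ) two_ne_zero)).const_mul 2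
    have h2 : Tendsto (fun T : ℝ => (1 + |T|) * Real.exp (-T ^ 2)) atTop (𝓝 0) := by
      rw [mul_zero] at h1
      refine squeeze_zero' (Eventually.of_forall fun T => by positivity) ?_ h1
      filter_upwards [eventually_ge_atTop 1] with T hT
      simp only [Function.comp, pow_one]
      rw [← mul_assoc, abs_of_nonneg (by linarith)]
      exact mul_le_mul_of_nonneg_right (by nlinarith) (Real.exp_pos _).le
    have h3 := (h2.const_mul K).mul_const |b - a|
    simpa only [mul_zero, zero_mul, mul_assoc] using h3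
  have hor : ∀ s : ℝ, ‖∫ x : ℝ in a..b, f (x + s * I)‖ ≤
      K * (1 + |s|) * Real.exp (-s ^ 2) * |b - a| := fun s =>
    intervalIntegral.norm_integral_le_of_norm_le_const fun x hx => by
      rw [Set.uIoc_of_le hab] at hx
      simpa using hK (x + s * I) (by simpa using hx.1.le) (by simpa using hx.2)
  have h1 : Tendsto (fun T : ℝ => ∫ x : ℝ in a..b, f (x + T * I)) atTop (𝓝 0) :=
    squeeze_zero_norm hor t0
  have h2 : Tendsto (fun T : ℝ => ∫ x : ℝ in a..b, f (x + (-T : ℝ) * I)) atTop (𝓝 0) :=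
    squeeze_zero_norm (fun T => by simpa only [abs_neg, neg_sq] using hor (-T)) t0
  have key := ((h2.sub h1).add (tb.const_smul I)).sub (ta.const_smul I)
  have z : ∀ T : ℝ, (∫ x : ℝ in a..b, f (x + (-T : ℝ) * I)) - (∫ x : ℝ in a..b, f (x + T * I)) +
      I • (∫ y : ℝ in (-T)..id T, f (b + y * I)) - I • (∫ y : ℝ in (-T)..id T, f (a + y * I))
      = 0 := fun T =>
    integral_boundary_rect_eq_zero_of_differentiableOn f ⟨a, -T⟩ ⟨b, T⟩ fun z hz => by
      have h := (mem_reProdIm.1 hz).1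
      rw [Set.uIcc_of_le hab] at h
      exact (hf z h.1 h.2).differentiableWithinAt
  simp only [z] at key
  have e := tendsto_nhds_unique key tendsto_const_nhds
  rw [sub_zero, zero_add, ← smul_sub, smul_eq_zero] at e
  exact (sub_eq_zero.1 (e.resolve_left I_ne_zero)).symm

/-- The weight on vertical lines. -/
def ContW (x : ℝ) (z : ℂ) : ℂ := Complex.exp (z ^ 2 + z * Real.log x)

theorem Cont_normW {x : ℝ} (hx : 0 < x) (z : ℂ) :
    ‖ContW x z‖ = Real.exp (z.re ^ 2) * x ^ z.re * Real.exp (-z.im ^ 2) := by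
  unfold ContW
  rw [Complex.norm_exp, Real.rpow_def_of_pos hx, ← Real.exp_add, ← Real.exp_add]
  congr 1
  simp only [add_re, sq, mul_re, ofReal_re, ofReal_im]
  ring

theorem Cont_kw {x y : ℝ} (hx : 0 < x) (hy : 0 < y) :
    ∫ t : ℝ, (y : ℂ) ^ (-(2 + t * I)) * ContW x (2 + t * I) = ((√Real.pi * kw (y / x) : ℝ) : ℂ) := by
  unfold kw
  rw [← Cont_gauss]
  refine integral_congr_ae (Eventually.of_forall fun t => ?_)
  simp only [Cont_cpow hy, ContW, ← Complex.exp_add, Real.log_div hy.ne' hx.ne']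
  congr 1
  push_cast
  ring

theorem Cont_norm2 {x y : ℝ} (hx : 0 < x) (hy : 0 < y) (t : ℝ) :
    ‖(y : ℂ) ^ (-(2 + t * I)) * ContW x (2 + t * I)‖ =
      y ^ (-2 : ℝ) * (Real.exp (2 ^ 2) * x ^ (2 : ℝ) * Real.exp (-1 * t ^ 2)) := by
  rw [norm_mul, Cont_normW hx, norm_cpow_eq_rpow_re_of_pos hy]
  simp

theorem Cont_contW (x : ℝ) : Differentiable ℂ (ContW x) := by
  unfold ContW
  fun_prop

theorem Cont_mm {x : ℝ} (hx : 0 < x) :
    ∫ t : ℝ, 1 / (2 + t * I - 1) * ContW x (2 + t * I) = ((√Real.pi * mm x : ℝ) : ℂ) := by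
  have hi : Integrable (Function.uncurry fun (y t : ℝ) => Complex.exp (-((2 + t * I) * Real.log y)) *
      ContW x (2 + t * I)) ((volume.restrict (Set.Ioi (1 : ℝ))).prod volume) := by
    have h := Integrable.mul_prod
      (integrableOn_Ioi_rpow_of_lt (a := -2) (c := 1) (by norm_num) one_pos)
      ((integrable_exp_neg_mul_sq (b := 1) one_pos).const_mul (Real.exp (2 ^ 2) * x ^ (2 : ℝ)))
    refine h.mono' (Measurable.aestronglyMeasurable (by unfold ContW Function.uncurry; fun_prop)) ?_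
    rw [Measure.restrict_prod_eq_prod_univ]
    refine (ae_restrict_iff' (measurableSet_Ioi.prod MeasurableSet.univ)).2
      (Eventually.of_forall fun p hp => ?_)
    have hy : 0 < p.1 := lt_trans one_pos hp.1
    rw [← Cont_norm2 hx hy, Cont_cpow hy]
    exact le_rfl
  have h := integral_integral_swap hi
  have e1 : ∫ y in Set.Ioi (1 : ℝ), ∫ t : ℝ, Complex.exp (-((2 + t * I) * Real.log y)) *
      ContW x (2 + t * I) = ((√Real.pi * mm x : ℝ) : ℂ) := by
    unfold mm
    rw [← integral_const_mul, ← integral_complex_ofReal]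
    refine setIntegral_congr_fun measurableSet_Ioi fun y hy => ?_
    have hy0 : 0 < y := lt_trans one_pos hy
    simp only [← Cont_cpow hy0]
    exact Cont_kw hx hy0
  rw [← e1, h]
  refine integral_congr_ae (Eventually.of_forall fun t => ?_)
  simp only
  rw [integral_mul_const]
  congr 1
  have e2 := integral_Ioi_cpow_of_lt (a := -(2 + t * I)) (c := 1) (by simp) one_pos
  rw [ofReal_one, one_cpow] at e2
  rw [setIntegral_congr_fun measurableSet_Ioi
    (fun y hy => (Cont_cpow (lt_trans one_pos hy) (2 + t * I)).symm), e2,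
    show -(2 + t * I) + 1 = -(2 + t * I - 1) by ring, neg_div_neg_eq]

theorem Cont_sum {ι : Type} [Countable ι] {N c : ι → ℝ} {x : ℝ} (hx : 0 < x) (hN : ∀ i, 0 < N i)
    (hc : ∀ i, 0 ≤ c i) (hs : Summable fun i => c i * N i ^ (-2 : ℝ)) :
    ∫ t : ℝ, (∑' i, (c i : ℂ) * (N i : ℂ) ^ (-(2 + t * I))) * ContW x (2 + t * I) =
      ((√Real.pi * ∑' i, c i * kw (N i / x) : ℝ) : ℂ) := by
  have hg := (integrable_exp_neg_mul_sq (b := 1) one_pos).const_mul
    (Real.exp (2 ^ 2) * x ^ (2 : ℝ))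
  have hn : ∀ i (t : ℝ), ‖(c i : ℂ) * ((N i : ℂ) ^ (-(2 + t * I)) * ContW x (2 + t * I))‖ =
      c i * N i ^ (-2 : ℝ) * (Real.exp (2 ^ 2) * x ^ (2 : ℝ) * Real.exp (-1 * t ^ 2)) := by
    intro i t
    rw [norm_mul, Cont_norm2 hx (hN i), Complex.norm_real, Real.norm_eq_abs, abs_of_nonneg (hc i)]
    ring
  have h := integral_tsum_of_summable_integral_norm (μ := volume)
    (F := fun i (t : ℝ) => (c i : ℂ) * ((N i : ℂ) ^ (-(2 + t * I)) * ContW x (2 + t * I)))
    (fun i => (hg.const_mul (c i * N i ^ (-2 : ℝ))).mono' (by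
      simp only [Cont_cpow (hN i)]
      exact Continuous.aestronglyMeasurable (by unfold ContW; fun_prop))
      (Eventually.of_forall fun t => (hn i t).le))
    (by
      simp only [hn, integral_const_mul]
      exact hs.mul_right _)
  simp only [← tsum_mul_right, mul_assoc]
  rw [← h, ← tsum_mul_left, ofReal_tsum]
  refine tsum_congr fun i => ?_
  rw [integral_const_mul, Cont_kw hx (hN i)]
  push_cast
  ring

theorem cont : Cont := by
  set C0 : ℝ := ∫ t : ℝ, (1 + |t|) * Real.exp (-t ^ 2) with hC0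
  have hC : 0 ≤ C0 := integral_nonneg fun t => by positivity
  refine ⟨Real.exp 4 * (C0 + 1), by positivity, ?_⟩
  intro ι _ N c h L hL hN hc hs hd he hb x hx
  have hx0 : 0 < x := by linarith
  have hdiff : ∀ z : ℂ, 24 / 25 ≤ z.re → DifferentiableAt ℂ (fun z => h z * ContW x z) z :=
    fun z hz => (hd.differentiableAt ((isOpen_lt continuous_const continuous_re).mem_nhds
      (show 11 / 12 < z.re by linarith))).mul (Cont_contW x z)
  have hW : ∀ (z : ℂ) (s : ℝ), 24 / 25 ≤ z.re → z.re ≤ 2 → z.re ≤ s →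
      ‖ContW x z‖ ≤ Real.exp 4 * x ^ s * Real.exp (-z.im ^ 2) := fun z s h1 h2 h3 => by
    rw [Cont_normW hx0]
    refine mul_le_mul_of_nonneg_right (mul_le_mul (Real.exp_le_exp.2 (by nlinarith))
      (Real.rpow_le_rpow_of_exponent_le hx h3) (by positivity) (by positivity)) (by positivity)
  have hbd : ∀ (z : ℂ) (s : ℝ), 24 / 25 ≤ z.re → z.re ≤ 2 → z.re ≤ s → ‖h z * ContW x z‖ ≤
      L * (Real.exp 4 * x ^ s) * (1 + |z.im|) * Real.exp (-z.im ^ 2) := fun z s h1 h2 h3 => by
    rw [norm_mul]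
    refine (mul_le_mul (hb z h1 h2) (hW z s h1 h2 h3) (norm_nonneg _) (by positivity)).trans
      (le_of_eq (by ring))
  have sh := shift_line (f := fun z => h z * ContW x z) (a := 24 / 25) (b := 2) (by norm_num)
    (fun z h1 _ => hdiff z h1) fun z h1 h2 => hbd z 2 h1 h2 h2
  have i1 : Integrable fun t : ℝ => h (2 + t * I) * ContW x (2 + t * I) := by
    have := Cont_line (f := fun z => h z * ContW x z) (a := 2)
      (fun z hz => hdiff z (by linarith)) fun z hz => hbd z 2 (by linarith) hz.le hz.le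
    simpa only [ofReal_ofNat] using this
  have hre : ∀ t : ℝ, 1 ≤ ‖(2 + t * I - 1 : ℂ)‖ := fun t => by
    refine le_trans (le_of_eq ?_) (re_le_norm _)
    simp
    norm_num
  have i2 : Integrable fun t : ℝ => 1 / (2 + t * I - 1) * ContW x (2 + t * I) := by
    refine Cont_int (K := Real.exp 4 * x ^ (2 : ℝ)) (Continuous.mul (continuous_const.div
      (by fun_prop) fun t => norm_pos_iff.1 (by linarith [hre t])) (by unfold ContW; fun_prop))
      fun t => ?_
    have h1 := hW (2 + t * I) 2 (by simp; norm_num) (by simp) (by simp)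
    have h2 : ‖(1 / (2 + t * I - 1) : ℂ)‖ ≤ 1 + |t| := by
      rw [norm_div, norm_one]
      exact ((div_le_one (by linarith [hre t])).2 (hre t)).trans (by linarith [abs_nonneg t])
    rw [norm_mul]
    refine (mul_le_mul h2 h1 (norm_nonneg _) (by positivity)).trans (le_of_eq ?_)
    simp
    ring
  have e : ((√Real.pi * (∑' i, c i * kw (N i / x) - mm x) : ℝ) : ℂ) =
      ∫ t : ℝ, h (2 + t * I) * ContW x (2 + t * I) := by
    rw [mul_sub, ofReal_sub, ← Cont_mm hx0, ← Cont_sum hx0 hN hc hs, sub_eq_iff_eq_add,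
      ← integral_add i1 i2]
    refine integral_congr_ae (Eventually.of_forall fun t => ?_)
    simp only [he]
    ring
  simp only [ofReal_ofNat] at sh
  rw [← sh] at e
  have hn := congrArg norm e
  rw [Complex.norm_real, Real.norm_eq_abs, abs_mul, abs_of_nonneg (Real.sqrt_nonneg _)] at hn
  have h1 : ‖∫ t : ℝ, h (((24 / 25 : ℝ) : ℂ) + t * I) * ContW x (((24 / 25 : ℝ) : ℂ) + t * I)‖ ≤
      L * (Real.exp 4 * x ^ (24 / 25 : ℝ)) * C0 := by
    rw [hC0, ← integral_const_mul]
    refine norm_integral_le_of_norm_le (Cont_wt.const_mul _) (Eventually.of_forall fun t => ?_)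
    have := hbd (((24 / 25 : ℝ) : ℂ) + t * I) (24 / 25) (by simp) (by simp; norm_num) (by simp)
    rw [← mul_assoc]
    simpa only [add_im, ofReal_im, mul_im, ofReal_re, I_im, I_re, mul_one, mul_zero, add_zero,
      zero_add] using this
  have h2 : 1 ≤ √Real.pi := Real.one_le_sqrt.2 (by linarith [Real.pi_gt_three])
  have h3 := mul_le_mul_of_nonneg_right h2 (abs_nonneg (∑' i, c i * kw (N i / x) - mm x))
  have h4 : 0 ≤ L * (Real.exp 4 * x ^ (24 / 25 : ℝ)) := by positivity
  nlinarith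

end NQ
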