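import Vale.Agent.NQ.EulB
import Vale.Agent.NQ.Cont

noncomputable section
namespace NQ
open Complex MeasureTheory NumberField Filter
open scoped ComplexConjugate Classical Topology

theorem Cheb_qv {F : Type} [Field F] [NumberField F] (v : HS F) : (2 : ℝ) ≤ qv v := by
  exact_mod_cast two_le_qv v

theorem Cheb_nonneg {F : Type} [Field F] [NumberField F] (v : HS F) (y : ℝ) :
    0 ≤ Real.log (qv v) * kw y :=
  mul_nonneg (Real.log_natCast_nonneg _) (kw_pos _).le

theorem Cheb_kw (A : ℝ) {N x : ℝ} (hN : 0 < N) (hx : 0 < x) :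
    kw (N / x) ≤ Real.exp (A ^ 2) * x ^ A * N ^ (-A) := by
  refine (kw_le_rpow A (div_pos hN hx)).trans (le_of_eq ?_)
  rw [Real.div_rpow hN.le hx.le, Real.rpow_neg hx.le]
  field_simp

theorem summable_cheb (F : Type) [Field F] [NumberField F] {x : ℝ} (hx : 0 < x) :
    Summable fun i : HS F × ℕ => Real.log (qv i.1) * kw ((qv i.1 : ℝ) ^ (i.2 + 1) / x) := by
  refine Summable.of_nonneg_of_le (fun i => Cheb_nonneg _ _) (fun i => ?_)
    (((zetaF F).1 2 (by norm_num)).mul_left (Real.exp (2 ^ 2) * x ^ (2 : ℝ)))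
  rw [mul_left_comm]
  exact mul_le_mul_of_nonneg_left (Cheb_kw 2 (pow_pos (by linarith [Cheb_qv i.1]) _) hx)
    (Real.log_natCast_nonneg _)

/-- The general bound. -/
theorem Cheb_gen {q N x : ℝ} (hq : 1 ≤ q) (hN : q ≤ N) (hx : 0 < x) :
    Real.log q * kw (N / x) ≤ 20 * Real.exp 16 * x ^ (3 / 5 : ℝ) * N ^ (-(11 / 20) : ℝ) := by
  have hN0 : 0 < N := by linarith
  have h1 : Real.log q ≤ 20 * N ^ (1 / 20 : ℝ) := by
    have := Real.log_le_rpow_div hN0.le (show (0 : ℝ) < 1 / 20 by norm_num)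
    linarith [Real.log_le_log (by linarith) hN]
  have h2 := Cheb_kw (3 / 5) hN0 hx
  have h3 : Real.exp ((3 / 5) ^ 2) ≤ Real.exp 16 := Real.exp_le_exp.2 (by norm_num)
  have h4 : kw (N / x) ≤ Real.exp 16 * x ^ (3 / 5 : ℝ) * N ^ (-(3 / 5) : ℝ) :=
    h2.trans (by gcongr)
  refine (mul_le_mul h1 h4 (kw_pos _).le (by positivity)).trans (le_of_eq ?_)
  have e : N ^ (-(11 / 20) : ℝ) = N ^ (1 / 20 : ℝ) * N ^ (-(3 / 5) : ℝ) := by
    rw [← Real.rpow_add hN0]; norm_num
  rw [e]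
  ring

/-- Large primes. -/
theorem Cheb_big {N x : ℝ} (hx : 1 ≤ x) (hN : x ^ 2 < N) :
    Real.log N * kw (N / x) ≤ 20 * Real.exp 16 * x ^ (3 / 5 : ℝ) * N ^ (-(21 / 20) : ℝ) := by
  have hx0 : 0 < x := by linarith
  have hN1 : 1 ≤ N := by nlinarith
  have hN0 : 0 < N := by linarith
  have h1 : Real.log N ≤ 20 * N ^ (1 / 20 : ℝ) := by
    have := Real.log_le_rpow_div hN0.le (show (0 : ℝ) < 1 / 20 by norm_num)
    linarith
  have h2 := Cheb_kw 4 hN0 hx0
  have h3 : x ^ (4 : ℝ) ≤ N ^ (2 : ℝ) := by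
    rw [show (4 : ℝ) = ((4 : ℕ) : ℝ) by norm_num, Real.rpow_natCast, Real.rpow_two,
      show x ^ 4 = (x ^ 2) ^ 2 by ring]
    exact pow_le_pow_left₀ (by positivity) hN.le 2
  have h4 : kw (N / x) ≤ Real.exp 16 * N ^ (2 : ℝ) * N ^ (-4 : ℝ) := by
    refine h2.trans ?_
    rw [show (4 : ℝ) ^ 2 = 16 by norm_num]
    gcongr
  have h5 : N ^ (1 / 20 : ℝ) * N ^ (2 : ℝ) * N ^ (-4 : ℝ) ≤ N ^ (-(21 / 20) : ℝ) := by
    rw [← Real.rpow_add hN0, ← Real.rpow_add hN0]
    exact Real.rpow_le_rpow_of_exponent_le hN1 (by norm_num)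
  have h6 : 1 ≤ x ^ (3 / 5 : ℝ) := Real.one_le_rpow hx (by norm_num)
  calc _ ≤ 20 * N ^ (1 / 20 : ℝ) * (Real.exp 16 * N ^ (2 : ℝ) * N ^ (-4 : ℝ)) :=
        mul_le_mul h1 h4 (kw_pos _).le (by positivity)
    _ = 20 * Real.exp 16 * 1 * (N ^ (1 / 20 : ℝ) * N ^ (2 : ℝ) * N ^ (-4 : ℝ)) := by ring
    _ ≤ _ := by gcongr

theorem Cheb_pow {l N : ℝ} {k : ℕ} (hl : 0 < l) (h1 : l ^ 2 ≤ N) (h2 : 2 ^ k ≤ N) :
    N ^ (-(11 / 20) : ℝ) ≤ l ^ (-(21 / 20) : ℝ) * ((2 : ℝ) ^ (-(1 / 40) : ℝ)) ^ k := by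
  have hN : 0 < N := lt_of_lt_of_le (by positivity) h2
  have e : N ^ (-(11 / 20) : ℝ) = N ^ (-(21 / 40) : ℝ) * N ^ (-(1 / 40) : ℝ) := by
    rw [← Real.rpow_add hN]; norm_num
  rw [e]
  refine mul_le_mul ?_ ?_ (by positivity) (by positivity)
  · refine (Real.rpow_le_rpow_of_nonpos (by positivity) h1 (by norm_num)).trans (le_of_eq ?_)
    rw [← Real.rpow_two, ← Real.rpow_mul hl.le]
    norm_num
  · refine (Real.rpow_le_rpow_of_nonpos (by positivity) h2 (by norm_num)).trans (le_of_eq ?_)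
    rw [← Real.rpow_natCast, ← Real.rpow_mul (by norm_num), mul_comm, Real.rpow_mul (by norm_num),
      Real.rpow_natCast]

/-- Counting the places above each prime. -/
theorem Cheb_fib {F : Type} [Field F] [NumberField F] (l : HS F → ℕ) (hl : ∀ v, (l v).Prime)
    (hm : ∀ v, (l v : 𝓞 F) ∈ v.asIdeal) {g : ℕ → ℝ} (h0 : ∀ n, 0 ≤ g n) (S : Finset (HS F)) :
    ∑ v ∈ S, g (l v) ≤ Module.finrank ℚ F * ∑ n ∈ S.image l, g n := by
  rw [Finset.sum_comp, Finset.mul_sum]
  refine Finset.sum_le_sum fun n hn => ?_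
  rw [nsmul_eq_mul]
  refine mul_le_mul_of_nonneg_right ?_ (h0 n)
  obtain ⟨v, -, rfl⟩ := Finset.mem_image.1 hn
  exact_mod_cast card_above_le (hl v) _ fun w hw => by
    rw [← (Finset.mem_filter.1 hw).2]; exact hm w

theorem cheb1 : Cheb1 := by
  set ρ : ℝ := (2 : ℝ) ^ (-(1 / 40) : ℝ) with hρ
  have hρ0 : 0 ≤ ρ := by positivity
  have hρ1 : ρ < 1 := Real.rpow_lt_one_of_one_lt_of_neg (by norm_num) (by norm_num)
  have hZs : Summable fun n : ℕ => (n : ℝ) ^ (-(21 / 20) : ℝ) :=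
    Real.summable_nat_rpow.2 (by norm_num)
  set Z : ℝ := ∑' n : ℕ, (n : ℝ) ^ (-(21 / 20) : ℝ) with hZ
  have hZ0 : 0 ≤ Z := tsum_nonneg fun n => by positivity
  have hρ2 : 0 < (1 - ρ)⁻¹ := inv_pos.2 (by linarith)
  refine ⟨20 * Real.exp 16 * ((Z + 3) * (1 - ρ)⁻¹), by positivity, ?_⟩
  intro F _ _ T x hT hx
  have hx0 : 0 < x := by linarith
  choose l f hl hf hm hq using fun v : HS F => Ord_below v
  set G : HS F → ℝ := fun v => if GoodP T x v then Real.log (qv v) * kw (qv v / x) else 0 with hG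
  set g : ℕ → ℝ := fun n => (n : ℝ) ^ (-(21 / 20) : ℝ) + if n ∈ T then 1 else 0 with hg
  have hg1 : ∀ n : ℕ, (n : ℝ) ^ (-(21 / 20) : ℝ) ≤ g n := fun n =>
    le_add_of_nonneg_right (by split_ifs <;> norm_num)
  have hg0 : ∀ n, 0 ≤ g n := fun n => le_trans (by positivity) (hg1 n)
  have hG0 : ∀ v, 0 ≤ G v := fun v => by
    simp only [hG]
    split_ifs
    exacts [Cheb_nonneg _ _, le_rfl]
  have hGs : Summable G := by
    refine Summable.of_nonneg_of_le hG0 (fun v => ?_) ((summable_cheb F hx0).comp_injective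
      (i := fun v : HS F => (v, 0)) fun v w h => (Prod.ext_iff.1 h).1)
    simp only [hG, Function.comp, zero_add, pow_one]
    split_ifs
    exacts [le_rfl, Cheb_nonneg _ _]
  set K : ℝ := 20 * Real.exp 16 * x ^ (3 / 5 : ℝ) with hK
  have hK0 : 0 ≤ K := by positivity
  have pt : ∀ (v : HS F) (k : ℕ), Real.log (qv v) * kw ((qv v : ℝ) ^ (k + 1) / x) ≤
      (if k = 0 then G v else 0) + K * (g (l v) * ρ ^ k) := by
    intro v k
    have h2 := Cheb_qv v
    have hnn : 0 ≤ K * (g (l v) * ρ ^ k) := mul_nonneg hK0 (mul_nonneg (hg0 _) (by positivity))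
    have hif : 0 ≤ if k = 0 then G v else 0 := by
      split_ifs
      exacts [hG0 v, le_rfl]
    have hgen := Cheb_gen (q := qv v) (N := (qv v : ℝ) ^ (k + 1)) (by linarith)
      (le_self_pow₀ (by linarith) (by omega)) hx0
    by_cases h1 : 2 ≤ f v * (k + 1)
    · refine le_trans ?_ (le_add_of_nonneg_left hif)
      refine hgen.trans (mul_le_mul_of_nonneg_left ?_ hK0)
      have hl1 : (1 : ℝ) ≤ l v := by exact_mod_cast (hl v).one_le
      refine (Cheb_pow (l := l v) (k := k) (by linarith) ?_ ?_).trans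
        (mul_le_mul_of_nonneg_right (hg1 _) (by positivity))
      · rw [hq v, Nat.cast_pow, ← pow_mul]
        exact pow_le_pow_right₀ hl1 h1
      · exact (pow_le_pow_right₀ (by norm_num) k.le_succ).trans
          (pow_le_pow_left₀ (by norm_num) h2 _)
    · have hfv := hf v
      have hk : k = 0 := by
        by_contra hk
        exact h1 (by nlinarith [Nat.pos_of_ne_zero hk])
      subst hk
      have hql : qv v = l v := by
        rw [hq v, show f v = 1 by omega, pow_one]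
      simp only [zero_add, pow_one, pow_zero, mul_one, if_true] at hgen hnn ⊢
      by_cases hgd : GoodP T x v
      · simp only [hG, if_pos hgd]
        exact le_add_of_nonneg_right hnn
      refine le_trans ?_ (le_add_of_nonneg_left (hG0 v))
      by_cases hT' : qv v ∈ T
      · refine hgen.trans (mul_le_mul_of_nonneg_left ?_ hK0)
        refine (Real.rpow_le_one_of_one_le_of_nonpos (by linarith) (by norm_num)).trans ?_
        simp only [hg, ← hql, if_pos hT']
        exact le_add_of_nonneg_left (by positivity)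
      · have hb : x ^ 2 < qv v := by
          by_contra hb
          exact hgd ⟨hql ▸ hl v, not_lt.1 hb, hT'⟩
        refine (Cheb_big hx hb).trans (mul_le_mul_of_nonneg_left ?_ hK0)
        rw [hql]
        exact hg1 _
  refine (summable_cheb F hx0).tsum_le_of_sum_le fun s => ?_
  refine (Finset.sum_le_sum_of_subset_of_nonneg Finset.subset_product
    fun i _ _ => Cheb_nonneg _ _).trans ?_
  refine (Finset.sum_le_sum fun i _ => pt i.1 i.2).trans ?_
  rw [Finset.sum_add_distrib, ← Finset.mul_sum, Finset.sum_product,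
    Finset.sum_product' (f := fun v k => g (l v) * ρ ^ k), ← Finset.sum_mul_sum]
  refine add_le_add ?_ ?_
  · have a0 := hGs.sum_le_tsum (s.image Prod.fst) fun v _ => hG0 v
    refine (Finset.sum_le_sum fun v _ => ?_).trans a0
    simp only [Finset.sum_ite_eq']
    split_ifs
    exacts [le_rfl, hG0 v]
  · have a1 : ∑ k ∈ s.image Prod.snd, ρ ^ k ≤ (1 - ρ)⁻¹ := by
      rw [← tsum_geometric_of_lt_one hρ0 hρ1]
      exact (summable_geometric_of_lt_one hρ0 hρ1).sum_le_tsum _ fun k _ => by positivity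
    have a2 : ∀ S : Finset ℕ, ∑ n ∈ S, g n ≤ Z + 3 := fun S => by
      simp only [hg]
      rw [Finset.sum_add_distrib]
      refine add_le_add (hZs.sum_le_tsum _ fun n _ => by positivity) ?_
      rw [Finset.sum_boole]
      have : (S.filter fun n => n ∈ T).card ≤ 3 :=
        (Finset.card_le_card fun n hn => (Finset.mem_filter.1 hn).2).trans hT
      exact_mod_cast this
    have a3 := (Cheb_fib l hl hm hg0 (s.image Prod.fst)).trans
      (mul_le_mul_of_nonneg_left (a2 _) (Nat.cast_nonneg _))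
    have a4 := mul_le_mul a3 a1 (Finset.sum_nonneg fun k _ => by positivity) (by positivity)
    refine (mul_le_mul_of_nonneg_left a4 hK0).trans (le_of_eq ?_)
    rw [hK]
    ring

theorem cheb2 : Cheb2 := by
  intro F1 F2 _ _ _ _ π l T x hx h
  choose g hg hq using h
  set e : {v : HS F1 // GoodP T x v} × Fin l → HS F2 × ℕ := fun p => (g p.1.1 p.1.2 p.2, 0) with he
  have hi : Function.Injective e := by
    rintro ⟨⟨v, hv⟩, i⟩ ⟨⟨w, hw⟩, j⟩ hvw
    have h1 : g v hv i = g w hw j := (Prod.ext_iff.1 hvw).1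
    have h2 : v = w := by rw [← (hq v hv i).2, h1, (hq w hw j).2]
    subst h2
    rw [hg v hv h1]
  have hs := summable_cheb F2 hx
  have h1 := tsum_comp_le_tsum_of_inj hs (fun i => Cheb_nonneg _ _) hi
  have h2 := hs.comp_injective hi
  refine le_trans (le_of_eq ?_) h1
  rw [h2.tsum_prod]
  have h3 := tsum_subtype {v : HS F1 | GoodP T x v}
    fun v => Real.log (qv v) * kw (qv v / x)
  simp only [Set.indicator_apply, Set.mem_ofPred_eq] at h3
  rw [← h3, ← tsum_mul_left]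
  refine tsum_congr fun v => ?_
  simp only [Function.comp, he, (hq _ _ _).1, zero_add, pow_one, tsum_fintype, Finset.sum_const,
    Finset.card_univ, Fintype.card_fin, nsmul_eq_mul]

end NQ
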