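import Vale.Agent.NQ.B1
import Vale.Agent.P026.Rsum

noncomputable section
namespace NQ
open Complex MeasureTheory NumberField Filter
open scoped ComplexConjugate Classical ContDiff Topology

variable [σ : St]

theorem psiV_add (x y : FF) : psiV (x + y) = psiV x * psiV y := by
  simp only [psiV, map_add, QRH.psi_add, Finset.prod_mul_distrib]
theorem psiV_zero : psiV 0 = 1 := by
  simp only [psiV, map_zero, QRH.psi_zero, Finset.prod_const_one]
theorem norm_psiV (x : FF) : ‖psiV x‖ = 1 := by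
  simp only [psiV, norm_prod, QRH.norm_psi, Finset.prod_const_one]
theorem psiV_neg (x : FF) : psiV (-x) = conj (psiV x) := by
  simp only [psiV, map_neg, QRH.psi_neg, map_prod]

omit σ in
theorem chr_om : 1 + 2 * omC = I * (√3 : ℝ) := by
  apply Complex.ext <;> simp [omC] <;> ring

omit σ in
theorem chr_im (z : ℂ) : z / (1 + 2 * omC) + conj (z / (1 + 2 * omC))
    = ((2 * z.im / √3 : ℝ) : ℂ) := by
  have h3 : ((√3 : ℝ) : ℂ) ≠ 0 := by
    exact_mod_cast (Real.sqrt_pos.2 (by norm_num : (0 : ℝ) < 3)).ne'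
  have h1 := Complex.sub_conj z
  rw [chr_om, map_div₀, map_mul, conj_I, conj_ofReal]
  push_cast at h1 ⊢
  field_simp
  linear_combination h1

theorem chr_em (w : Pl) (x : FF) : em w (x / (1 + 2 * σ.w)) = em w x / (1 + 2 * omC) := by
  rw [map_div₀, map_add, map_mul, map_one, map_ofNat, em_w]

theorem chr_trace (x : FF) : ((Algebra.trace ℚ FF (x / (1 + 2 * σ.w)) : ℚ) : ℂ)
    = ∑ w : Pl, ((2 * (em w x).im / √3 : ℝ) : ℂ) := by
  rw [trace_eq]
  exact Finset.sum_congr rfl fun w _ => by rw [chr_em, chr_im]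

theorem psiV_eq_trace (x : FF) : psiV x
    = Complex.exp (2 * Real.pi * I * ((Algebra.trace ℚ FF (x / (1 + 2 * σ.w)) : ℚ) : ℂ)) := by
  rw [chr_trace, Finset.mul_sum, Complex.exp_sum]
  rfl

theorem psiV_eq_one_iff (x : FF) :
    psiV x = 1 ↔ ∃ n : ℤ, Algebra.trace ℚ FF (x / (1 + 2 * σ.w)) = n := by
  rw [psiV_eq_trace, Complex.exp_eq_one_iff]
  refine exists_congr fun n => ?_
  rw [mul_comm (n : ℂ), mul_right_inj' Complex.two_pi_I_ne_zero]
  exact_mod_cast Iff.rfl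

omit σ in
theorem chr_rat {t : ℚ} (h : IsIntegral ℤ (3 * (t : ℂ) ^ 2)) : ∃ n : ℤ, t = n := by
  have h0 : IsIntegral ℤ (3 * t ^ 2) := by
    rw [← isIntegral_algebraMap_iff (algebraMap ℚ ℂ).injective]
    simpa using h
  obtain ⟨n, hn⟩ := (IsIntegrallyClosed.isIntegral_iff (K := ℚ)).1 h0
  have h1 : IsIntegral ℤ (3 * t) := by
    refine IsIntegral.of_pow (n := 2) two_pos ?_
    have h2 : (3 * t) ^ 2 = algebraMap ℤ ℚ (3 * n) := by
      rw [map_mul, hn]
      simp only [eq_intCast, Int.cast_ofNat]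
      ring
    rw [h2]
    exact isIntegral_algebraMap
  obtain ⟨m, hm⟩ := (IsIntegrallyClosed.isIntegral_iff (K := ℚ)).1 h1
  simp only [eq_intCast] at hn hm
  have h3 : m ^ 2 = 3 * n := by
    have : (m : ℚ) ^ 2 = 3 * n := by rw [hm, hn]; ring
    exact_mod_cast this
  obtain ⟨k, hk⟩ := Int.prime_three.dvd_of_dvd_pow (n := 2) ⟨n, h3⟩
  refine ⟨k, ?_⟩
  rw [hk] at hm
  push_cast at hm
  linarith

theorem psiV_integral {x : FF} (h : IsIntegral ℤ x) : psiV x = 1 := by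
  rw [psiV_eq_one_iff]
  refine chr_rat ?_
  have h1 : IsIntegral ℤ (∑ w : Pl, (em w x - conj (em w x))) :=
    IsIntegral.sum _ fun w _ => (h.map (em w).toIntAlgHom).sub
      (h.map ((starRingEnd ℂ).comp (em w)).toIntAlgHom)
  have h3 : ((√3 : ℝ) : ℂ) ^ 2 = 3 := by
    exact_mod_cast Real.sq_sqrt (by norm_num : (0 : ℝ) ≤ 3)
  have h4 : ((√3 : ℝ) : ℂ) ≠ 0 := fun h0 => by simp [h0] at h3
  have h2 : ∑ w : Pl, (em w x - conj (em w x)) =
      I * (√3 : ℝ) * ((Algebra.trace ℚ FF (x / (1 + 2 * σ.w)) : ℚ) : ℂ) := by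
    rw [chr_trace, Finset.mul_sum]
    refine Finset.sum_congr rfl fun w _ => ?_
    rw [Complex.sub_conj]
    push_cast
    field_simp
  have h5 := (h1.pow 2).neg
  rw [h2, mul_pow, mul_pow, h3, I_sq] at h5
  simpa using h5

theorem rp_spec (x : FF) : rp x ∈ RR FF σ.s ∧ x - rp x ∈ OS := by
  have h := exists_decomp x
  rw [rp, dif_pos h]
  exact ⟨h.choose.2, h.choose_spec⟩

/-- The principal part as an element of `E`. -/
def chrp (x : FF) : E := ⟨rp x, (rp_spec x).1⟩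

theorem chrp_spec (x : FF) : x - chrp x ∈ OS := (rp_spec x).2

theorem chr_int {x : FF} {y : E} (h : x - y ∈ OS) : IsIntegral ℤ (rp x - y) := by
  refine integral_of_mem (x := chrp x - y) ?_
  have h1 : ((chrp x - y : E) : FF) = (x - y) - (x - chrp x) := by
    push_cast
    ring
  rw [h1]
  exact OS.sub_mem h (chrp_spec x)

theorem Psi_eq {x : FF} {y : E} (h : x - y ∈ OS) : Psi x = psiV (x - y) := by
  have h1 : x - y = (x - rp x) + (rp x - y) := by ring
  rw [h1, psiV_add, psiV_integral (chr_int h), mul_one, Psi]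
theorem psiS_eq {x : FF} {y : E} (h : x - y ∈ OS) : psiS x = psiV (-y) := by
  have h1 : -(y : FF) = -rp x + (rp x - y) := by ring
  rw [h1, psiV_add, psiV_integral (chr_int h), mul_one, psiS]
theorem Psi_eq_mul (x : FF) : Psi x = psiV x * psiS x := by
  rw [Psi, psiS, sub_eq_add_neg, psiV_add]

theorem psiS_add (x y : FF) : psiS (x + y) = psiS x * psiS y := by
  have h1 : x + y - (chrp x + chrp y : E) ∈ OS := by
    have h2 : x + y - (chrp x + chrp y : E) = (x - chrp x) + (y - chrp y) := by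
      push_cast
      ring
    rw [h2]
    exact OS.add_mem (chrp_spec x) (chrp_spec y)
  rw [psiS_eq h1, Subring.coe_add, neg_add, psiV_add]
  rfl
theorem psiS_of_mem {x : FF} (h : x ∈ OS) : psiS x = 1 := by
  rw [psiS_eq (y := 0) (by simpa using h), Subring.coe_zero, neg_zero, psiV_zero]
theorem psiS_zero : psiS 0 = 1 := psiS_of_mem OS.zero_mem
theorem norm_psiS (x : FF) : ‖psiS x‖ = 1 := norm_psiV _
theorem psiS_neg (x : FF) : psiS (-x) = conj (psiS x) := by
  have h1 : -x - (-chrp x : E) ∈ OS := by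
    have h2 : -x - (-chrp x : E) = -(x - chrp x) := by
      push_cast
      ring
    rw [h2]
    exact OS.neg_mem (chrp_spec x)
  rw [psiS_eq h1, Subring.coe_neg, psiV_neg]
  rfl
theorem psiS_mul_conj (x : FF) : psiS x * conj (psiS x) = 1 := by
  rw [← psiS_neg, ← psiS_add, add_neg_cancel, psiS_zero]
theorem psiS_congr {x y : FF} (h : x - y ∈ OS) : psiS x = psiS y := by
  rw [show x = y + (x - y) by ring, psiS_add, psiS_of_mem h, mul_one]

theorem Psi_add (x y : FF) : Psi (x + y) = Psi x * Psi y := by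
  simp only [Psi_eq_mul, psiV_add, psiS_add]
  ring
theorem Psi_zero : Psi 0 = 1 := by rw [Psi_eq_mul, psiV_zero, psiS_zero, mul_one]
theorem norm_Psi (x : FF) : ‖Psi x‖ = 1 := norm_psiV _
theorem Psi_neg (x : FF) : Psi (-x) = conj (Psi x) := by
  simp only [Psi_eq_mul, psiV_neg, psiS_neg, map_mul]
theorem Psi_coe (x : E) : Psi x = 1 := by
  rw [Psi_eq (y := x) (by rw [sub_self]; exact OS.zero_mem), sub_self, psiV_zero]

theorem chr_w : IsIntegral ℤ σ.w :=
  ⟨Polynomial.X ^ 2 + Polynomial.X + 1, by monicity!, by simpa using σ.hw⟩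

theorem chr_ne : (1 + 2 * σ.w : FF) ≠ 0 := fun h => by
  have h1 : (3 : FF) = 0 := by linear_combination 4 * σ.hw - (1 + 2 * σ.w) * h
  exact three_ne_zero h1

theorem Dl.integral {ξ : FF} (h : Dl ξ) : IsIntegral ℤ (ss * ξ) := by
  have h1 := σ.dual (ξ / (1 + 2 * σ.w)) fun y hy => by
    rw [div_mul_eq_mul_div]
    exact (psiV_eq_one_iff _).1 (h y hy)
  have h2 : IsIntegral ℤ (1 + 2 * σ.w : FF) := by
    rw [two_mul]
    exact isIntegral_one.add (chr_w.add chr_w)
  have h3 := h1.mul h2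
  rwa [mul_assoc, div_mul_cancel₀ _ chr_ne] at h3

theorem chr_mem {ξ : FF} (h : Dl ξ) : ξ ∈ RR FF σ.s := ⟨1, by rw [pow_one]; exact h.integral⟩

theorem mem_of_Psi {x : FF} (h : ∀ y : E, Psi (y * x) = 1) : x ∈ RR FF σ.s := by
  have h1 : Dl (x - chrp x) := fun y hy => by
    have h2 : (x - chrp x) * y = y * x - (⟨y, mem_E_of_integral hy⟩ * chrp x : E) := by
      push_cast
      ring
    rw [← h ⟨y, mem_E_of_integral hy⟩, h2]
    refine (Psi_eq ?_).symm
    rw [← h2]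
    exact OS.mul_mem (chrp_spec x) (mem_OS_of_integral hy)
  have h3 := (RR FF σ.s).add_mem (chr_mem h1) (chrp x).2
  rwa [sub_add_cancel] at h3

/-- The inverse different at `S`. -/
def ChrL (x : FF) : Prop := ∀ y ∈ OS, psiS (x * y) = 1

theorem ChrL.of_mem {x : FF} (h : x ∈ OS) : ChrL x := fun _ hy => psiS_of_mem (OS.mul_mem h hy)

theorem ChrL.mul {x z : FF} (h : ChrL x) (hz : z ∈ OS) : ChrL (x * z) := fun y hy => by
  rw [mul_assoc]
  exact h _ (OS.mul_mem hz hy)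

theorem ChrL.sum {ι : Type*} (T : Finset ι) {f : ι → FF} (h : ∀ i, ChrL (f i)) :
    ChrL (∑ i ∈ T, f i) := by
  induction T using Finset.induction_on with
  | empty => exact ChrL.of_mem OS.zero_mem
  | insert i T hi ih =>
    intro y hy
    rw [Finset.sum_insert hi, add_mul, psiS_add, h i y hy, ih y hy, mul_one]

theorem ChrL.ss_mul {x : FF} (h : ChrL x) : ss * x ∈ OS := by
  have h1 : Dl (chrp x) := fun y hy => by
    have h2 : x * y - (chrp x * ⟨y, mem_E_of_integral hy⟩ : E) = (x - chrp x) * y := by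
      push_cast
      ring
    have h3 := psiS_eq (h2 ▸ OS.mul_mem (chrp_spec x) (mem_OS_of_integral hy))
    rw [h y (mem_OS_of_integral hy), psiV_neg] at h3
    have h4 := congrArg conj h3
    rw [map_one, conj_conj] at h4
    exact h4.symm
  have h5 : ss * x = ss * (x - chrp x) + ss * chrp x := by ring
  rw [h5]
  exact OS.add_mem (OS.mul_mem ss_mem_OS (chrp_spec x)) (mem_OS_of_integral h1.integral)

theorem chr_min (v : SP) : ∃ z : FF, ChrL z ∧ z ≠ 0 ∧ ∀ x, ChrL x → OG v.1 (ord v.1 z) x := by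
  obtain ⟨n, ⟨z, hz, hz0, rfl⟩, hn⟩ := Int.exists_least_of_bdd
    (P := fun n => ∃ z, ChrL z ∧ z ≠ 0 ∧ ord v.1 z = n)
    ⟨-ord v.1 ss, by
      rintro n ⟨z, hz, hz0, rfl⟩
      have h1 := (mem_OS_iff.1 hz.ss_mul v).le (mul_ne_zero ss_ne_zero hz0)
      rw [ord_mul _ ss_ne_zero hz0] at h1
      linarith⟩
    ⟨_, 1, ChrL.of_mem OS.one_mem, one_ne_zero, rfl⟩
  refine ⟨z, hz, hz0, fun x hx => ?_⟩
  by_cases hx0 : x = 0
  · exact Or.inl hx0
  · exact Or.inr (hn _ ⟨x, hx, hx0, rfl⟩)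

theorem chr_exists : ∃ δ : FF, δ ≠ 0 ∧ ∀ x : FF, (∀ y ∈ OS, psiS (x * y) = 1) ↔ x * δ ∈ OS := by
  choose z hz hz0 hmin using chr_min
  choose u hu0 hu using fun v : SP => exists_ord_S fun v1 => if v1 = v then 0 else 1
  have hu0' : ∀ v, (u v : FF) ≠ 0 := fun v h => hu0 v (Subtype.ext h)
  have hum : ∀ v, (u v : FF) ∈ OS := fun v => mem_OS_iff.2 fun v1 => Or.inr (by
    rw [hu]; split_ifs <;> norm_num)
  have hL : ChrL (∑ v, z v * u v) := ChrL.sum _ fun v => (hz v).mul (hum v)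
  have hx0 : ∀ v : SP, (∑ v, z v * u v) ≠ 0 ∧ ord v.1 (∑ v, z v * u v) = ord v.1 (z v) := by
    intro v
    have h1 : ord v.1 (z v * u v) = ord v.1 (z v) := by
      rw [ord_mul _ (hz0 v) (hu0' v), hu, if_pos rfl, add_zero]
    rw [← h1]
    refine ord_eq_of_OG (mul_ne_zero (hz0 v) (hu0' v)) ?_
    rw [h1, ← Finset.sum_erase_eq_sub (Finset.mem_univ v)]
    refine OG.sum _ _ fun v1 hv1 => (hmin v _ (hz v1)).mul (Or.inr ?_)
    rw [hu, if_neg (Finset.ne_of_mem_erase hv1).symm]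
  obtain ⟨b, hb0, hb⟩ := exists_ord_S fun v => ord v.1 (z v)
  have hb0' : (b : FF) ≠ 0 := fun h => hb0 (Subtype.ext h)
  refine ⟨(b : FF)⁻¹, inv_ne_zero hb0', fun x => ?_⟩
  rw [← div_eq_mul_inv, div_mem_OS_iff hb0']
  refine ⟨fun h v => hb v ▸ hmin v x h, fun h => ?_⟩
  by_cases h0 : (∑ v, z v * u v) = 0
  · exact ChrL.of_mem (mem_OS_iff.2 fun v => absurd h0 (hx0 v).1)
  · have h1 := hL.mul ((div_mem_OS_iff (x := x) h0).2 fun v => by
      rw [(hx0 v).2, ← hb v]; exact h v)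
    rwa [mul_div_cancel₀ _ h0] at h1

theorem del_spec : del ≠ 0 ∧ ∀ x : FF, (∀ y ∈ OS, psiS (x * y) = 1) ↔ x * del ∈ OS := by
  rw [del, dif_pos chr_exists]
  exact chr_exists.choose_spec
theorem del_ne_zero : del ≠ 0 := del_spec.1
theorem del_mem : del ∈ OS := by
  have h := (del_spec.2 1).1 (ChrL.of_mem OS.one_mem)
  rwa [one_mul] at h
theorem ss_div_del_mem : ss / del ∈ OS := by
  rw [div_eq_mul_inv]
  refine ChrL.ss_mul ((del_spec.2 _).2 ?_)
  rw [inv_mul_cancel₀ del_ne_zero]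
  exact OS.one_mem
theorem psiS_of_del {x : FF} (h : x * del ∈ OS) : psiS x = 1 := by
  have h1 := (del_spec.2 x).2 h 1 OS.one_mem
  rwa [mul_one] at h1
theorem psiS_congr_del {x y : FF} (h : (x - y) * del ∈ OS) : psiS x = psiS y := by
  rw [show x = y + (x - y) by ring, psiS_add, psiS_of_del h, mul_one]
theorem exists_psiS_ne {x : FF} (h : x * del ∉ OS) : ∃ y ∈ OS, psiS (x * y) ≠ 1 := by
  by_contra h1
  push Not at h1
  exact h ((del_spec.2 x).1 h1)
theorem Dl_iff {ξ : FF} : Dl ξ ↔ ξ ∈ RR FF σ.s ∧ ξ * del ∈ OS := by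
  refine ⟨fun h => ⟨chr_mem h, (del_spec.2 ξ).1 fun y hy => ?_⟩, fun h y hy => ?_⟩
  · obtain ⟨x, -, hx⟩ := exists_approx_E (q := 1) one_ne_zero 0 y ss_ne_zero
    have hs := ss_ne_zero
    have h1 : (x : FF) ∈ OS := by
      have h2 : (x : FF) = y + ss * ((x - y) / ss) := by
        field_simp
        ring
      rw [h2]
      exact OS.add_mem hy (OS.mul_mem ss_mem_OS hx)
    have h3 : ξ * y - (⟨ξ, chr_mem h⟩ * x : E) ∈ OS := by
      have h2 : ξ * y - (⟨ξ, chr_mem h⟩ * x : E) = -(ss * ξ * ((x - y) / ss)) := by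
        push_cast
        field_simp
        ring
      rw [h2]
      exact OS.neg_mem (OS.mul_mem (mem_OS_of_integral h.integral) hx)
    rw [psiS_eq h3, psiV_neg]
    have h4 : psiV ((⟨ξ, chr_mem h⟩ * x : E) : FF) = 1 := h x (integral_of_mem h1)
    rw [h4, map_one]
  · have h1 := Psi_coe (⟨ξ, h.1⟩ * ⟨y, mem_E_of_integral hy⟩)
    rw [Psi_eq_mul] at h1
    have h2 := (del_spec.2 ξ).2 h.2 y (mem_OS_of_integral hy)
    change psiV (ξ * y) * psiS (ξ * y) = 1 at h1
    rwa [h2, mul_one] at h1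
theorem psf_eq (A B : E) : psf A B = psiV (A / B) * psiS (A / B) := Psi_eq_mul _

end NQ
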