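import Vale.Agent.NQ.B1
import Vale.Agent.P026.Cnt

noncomputable section
namespace NQ
open Complex MeasureTheory NumberField Filter
open scoped ComplexConjugate Classical ContDiff Topology

variable [σ : St]

theorem lat0_lat {n : ℕ} {b : Fin n → 𝓞 FF} {B : Module.Basis (Fin n) ℝ (Pl → ℂ)}
    (hB : ∀ i w, B i w = em w (b i : FF)) (k : Fin n → ℤ) :
    B.equivFunL.symm (fun i => (k i : ℝ)) =
      fun w => em w ((∑ i, (k i : 𝓞 FF) * b i : 𝓞 FF) : FF) := by
  have : B.equivFunL.symm (fun i => (k i : ℝ)) = ∑ i, (k i : ℝ) • B i := B.equivFun_symm_apply _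
  ext w
  rw [this, Finset.sum_apply]
  simp [hB]

/-- An integral basis is a real basis of the product of the complex places. -/
theorem exists_latBasis : ∃ (n : ℕ) (b : Fin n → 𝓞 FF) (B : Module.Basis (Fin n) ℝ (Pl → ℂ)),
    n = 2 * rk ∧ (∀ i w, B i w = em w (b i : FF)) ∧
    Function.Bijective (fun k : Fin n → ℤ => ∑ i, (k i : 𝓞 FF) * b i) ∧
    ZLattice.covolume latO = (volume (ZSpan.fundamentalDomain B)).toReal ∧
    0 < ZLattice.covolume latO := by
  have hc : Fintype.card (Module.Free.ChooseBasisIndex ℤ (𝓞 FF)) = 2 * rk := by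
    rw [← Module.finrank_eq_card_chooseBasisIndex, RingOfIntegers.rank, two_mul_rk]
  let e := Fintype.equivFinOfCardEq hc
  let b := (RingOfIntegers.basis FF).reindex e
  have hli : LinearIndependent ℝ fun (i : Fin (2 * rk)) (w : Pl) => em w (b i : FF) := by
    rw [Fintype.linearIndependent_iff]
    intro g hg
    have h1 : ∀ w : Pl, ∑ i, (g i : ℂ) * em w (b i : FF) = 0 := fun w => by
      have := congrFun hg w
      rwa [Finset.sum_apply] at this
    have h2 := Fintype.linearIndependent_iff.1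
      ((canonicalEmbedding.latticeBasis FF).reindex e).linearIndependent (fun i => (g i : ℂ)) (by
        ext φ
        have h3 : ∀ i, ((canonicalEmbedding.latticeBasis FF).reindex e) i φ = φ (b i : FF) := by
          intro i
          rw [Module.Basis.reindex_apply, canonicalEmbedding.latticeBasis_apply,
            canonicalEmbedding.apply_at, integralBasis_apply, Module.Basis.reindex_apply]
        rw [Finset.sum_apply]
        simp only [Pi.smul_apply, h3, smul_eq_mul, Pi.zero_apply]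
        obtain ⟨w | w, rfl⟩ := plEquiv.surjective φ
        · simp only [plEquiv_inl, h1]
        · have := congrArg conj (h1 w)
          simpa only [plEquiv_inr, map_sum, map_mul, Complex.conj_ofReal, map_zero] using this)
    exact fun i => Complex.ofReal_eq_zero.1 (h2 i)
  have : Nonempty (Fin (2 * rk)) := ⟨⟨0, by have := rk_pos; omega⟩⟩
  let B := basisOfLinearIndependentOfCardEqFinrank hli (by
    rw [Module.finrank_pi_fintype, Fintype.card_fin]
    simp [rk, mul_comm])
  have hB : ∀ i w, B i w = em w (b i : FF) := fun i w => by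
    simp only [B, coe_basisOfLinearIndependentOfCardEqFinrank]
  have hbij : Function.Bijective (fun k : Fin (2 * rk) → ℤ => ∑ i, (k i : 𝓞 FF) * b i) := by
    have : (fun k : Fin (2 * rk) → ℤ => ∑ i, (k i : 𝓞 FF) * b i) = b.equivFun.symm := by
      funext k
      rw [b.equivFun_symm_apply]
      simp
    rw [this]; exact b.equivFun.symm.bijective
  have hO : latO = Submodule.span ℤ (Set.range B) := by
    apply le_antisymm
    · rw [latO, Submodule.span_le]
      rintro _ ⟨x, rfl⟩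
      obtain ⟨k, rfl⟩ := hbij.2 x
      have h1 : (fun w => em w ((∑ i, (k i : 𝓞 FF) * b i : 𝓞 FF) : FF)) = ∑ i, k i • B i := by
        ext w
        rw [Finset.sum_apply]
        simp [hB]
      change (fun w => em w ((∑ i, (k i : 𝓞 FF) * b i : 𝓞 FF) : FF)) ∈ _
      rw [h1]
      exact Submodule.sum_mem _ fun i _ =>
        Submodule.smul_mem _ _ (Submodule.subset_span ⟨i, rfl⟩)
    · refine Submodule.span_mono ?_
      rintro _ ⟨i, rfl⟩
      exact ⟨b i, funext fun w => (hB i w).symm⟩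
  refine ⟨_, b, B, rfl, hB, hbij, ?_, ?_⟩
  · rw [hO]
    exact ZLattice.covolume_eq_measure_fundamentalDomain _ _ (ZSpan.isAddFundamentalDomain B _)
  · rw [hO]
    exact ZLattice.covolume_pos _ _

theorem kap_pos : 0 < kap := by
  obtain ⟨-, -, -, -, -, -, -, h⟩ := exists_latBasis
  unfold kap
  positivity

theorem card_int_box_le : ∃ C : ℝ, 0 < C ∧ ∀ (R : ℝ) (c : Pl → ℂ) (T : Finset (𝓞 FF)), 0 ≤ R →
    (∀ x ∈ T, ∀ w, ‖em w (x : FF) - c w‖ ≤ R) → (T.card : ℝ) ≤ C * (1 + R) ^ (2 * rk) := by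
  obtain ⟨n, b, B, hn, hB, hL, -, -⟩ := exists_latBasis
  obtain ⟨K, hK0, hK⟩ : ∃ K : ℝ, 0 ≤ K ∧ ∀ z, ‖B.equivFunL z‖ ≤ K * ‖z‖ :=
    ⟨_, norm_nonneg _, (B.equivFunL : (Pl → ℂ) →L[ℝ] (Fin n → ℝ)).le_opNorm⟩
  refine ⟨(2 * K + 1) ^ n, by positivity, fun R c T hR hT => ?_⟩
  let U := Fintype.piFinset fun i =>
    Finset.Icc ⌈B.equivFunL c i - K * R⌉ ⌊B.equivFunL c i + K * R⌋
  have h1 : T ⊆ U.image fun k : Fin n → ℤ => ∑ i, (k i : 𝓞 FF) * b i := by
    intro x hx
    obtain ⟨k, rfl⟩ := hL.2 x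
    refine Finset.mem_image_of_mem _ (Fintype.mem_piFinset.2 fun i => ?_)
    have h2 : ‖B.equivFunL.symm (fun i => (k i : ℝ)) - c‖ ≤ R := by
      rw [lat0_lat hB]
      exact (pi_norm_le_iff_of_nonneg hR).2 (hT _ hx)
    have h3 := (norm_le_pi_norm _ i).trans ((hK _).trans (mul_le_mul_of_nonneg_left h2 hK0))
    rw [map_sub, ContinuousLinearEquiv.apply_symm_apply, Pi.sub_apply, Real.norm_eq_abs,
      abs_le] at h3
    rw [Finset.mem_Icc, Int.ceil_le, Int.le_floor]
    constructor <;> linarith [h3.1, h3.2]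
  have h2 : (U.card : ℝ) ≤ ∏ _i : Fin n, (2 * K + 1) * (1 + R) := by
    rw [Fintype.card_piFinset, Nat.cast_prod]
    refine Finset.prod_le_prod (fun i _ => Nat.cast_nonneg _) fun i _ => ?_
    have h3 := Int.le_ceil (B.equivFunL c i - K * R)
    have h4 := Int.floor_le (B.equivFunL c i + K * R)
    have h5 := mul_nonneg hK0 hR
    rw [Int.card_Icc, ← Int.cast_natCast, Int.toNat_eq_max]
    push_cast
    refine max_le ?_ (by positivity)
    nlinarith
  rw [Finset.prod_const, Finset.card_univ, Fintype.card_fin, mul_pow] at h2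
  rw [← hn]
  exact (Nat.cast_le.2 ((Finset.card_le_card h1).trans Finset.card_image_le)).trans h2

theorem card_int_box_ge : ∃ c R0 : ℝ, 0 < c ∧ ∀ R : ℝ, R0 ≤ R → ∃ T : Finset (𝓞 FF),
    (∀ x ∈ T, x ≠ 0 ∧ ∀ w, ‖em w (x : FF)‖ ≤ R) ∧ c * R ^ (2 * rk) ≤ T.card := by
  obtain ⟨n, b, B, hn, hB, hL, -, -⟩ := exists_latBasis
  obtain ⟨K, hK0, hK⟩ : ∃ K : ℝ, 0 < K ∧ ∀ z, ‖B.equivFunL.symm z‖ ≤ K * ‖z‖ :=
    (B.equivFunL.symm : (Fin n → ℝ) →L[ℝ] (Pl → ℂ)).bound
  refine ⟨(2 * K)⁻¹ ^ n, 2 * K, by positivity, fun R hR => ?_⟩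
  have hR0 : 0 ≤ R / K := div_nonneg (by linarith) hK0.le
  have hR2 : 2 ≤ R / K := by rw [le_div_iff₀ hK0]; exact hR
  refine ⟨(Fintype.piFinset fun _ => Finset.Icc (1 : ℤ) ⌊R / K⌋₊).image
    fun k : Fin n → ℤ => ∑ i, (k i : 𝓞 FF) * b i, ?_, ?_⟩
  · intro x hx
    obtain ⟨k, hk, rfl⟩ := Finset.mem_image.1 hx
    have hk' := fun i => Finset.mem_Icc.1 (Fintype.mem_piFinset.1 hk i)
    constructor
    · intro h0
      have h1 : k = 0 := hL.1 (by simpa using h0)
      have h2 := (hk' ⟨0, by have := rk_pos; omega⟩).1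
      rw [h1] at h2
      simp at h2
    · intro w
      have h1 : ‖fun i => (k i : ℝ)‖ ≤ R / K := by
        refine (pi_norm_le_iff_of_nonneg hR0).2 fun i => ?_
        have h2 : (1 : ℝ) ≤ k i := by exact_mod_cast (hk' i).1
        have h3 : (k i : ℝ) ≤ ⌊R / K⌋₊ := by exact_mod_cast (hk' i).2
        rw [Real.norm_eq_abs, abs_of_nonneg (by linarith)]
        exact h3.trans (Nat.floor_le hR0)
      have h2 := (hK _).trans (mul_le_mul_of_nonneg_left h1 hK0.le)
      rw [lat0_lat hB, mul_div_cancel₀ _ hK0.ne'] at h2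
      exact (norm_le_pi_norm _ w).trans h2
  · rw [Finset.card_image_of_injective _ hL.1, Fintype.card_piFinset, Finset.prod_const,
      Finset.card_univ, Fintype.card_fin, Int.card_Icc, ← hn, ← mul_pow]
    simp only [add_sub_cancel_right, Int.toNat_natCast, Nat.cast_pow]
    have h1 := Nat.lt_floor_add_one (R / K)
    have h2 : (2 * K)⁻¹ * R = R / K / 2 := by field_simp
    rw [h2]
    gcongr
    linarith

omit σ in
theorem lat0_near (z : ℂ) : ∃ m : QRH.E, ‖z - QRH.toC m‖ ≤ 2 := by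
  have h3 : (√3 : ℝ) ≠ 0 := by positivity
  obtain ⟨u, v, rfl⟩ : ∃ u v : ℝ, z = u + v * omC :=
    ⟨z.re + z.im / √3, 2 * z.im / √3, by
      apply Complex.ext
      · simp [QRH.omC]; field_simp; ring
      · simp [QRH.omC]; field_simp⟩
  refine ⟨⟨⌊u⌋, ⌊v⌋⟩, ?_⟩
  have e : (u : ℂ) + v * omC - QRH.toC ⟨⌊u⌋, ⌊v⌋⟩ =
      ((Int.fract u : ℝ) : ℂ) + ((Int.fract v : ℝ) : ℂ) * omC := by
    rw [QRH.toC_apply, Int.fract, Int.fract]
    push_cast
    ring
  rw [e]
  refine (norm_add_le _ _).trans ?_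
  rw [norm_mul, QRH.norm_omC, mul_one, Complex.norm_real, Complex.norm_real,
    Real.norm_of_nonneg (Int.fract_nonneg _), Real.norm_of_nonneg (Int.fract_nonneg _)]
  linarith [Int.fract_lt_one u, Int.fract_lt_one v]

omit σ in
theorem lat0_peetre {z m : ℂ} {θ : ℝ} (hθ : 0 ≤ θ) (h : ‖z - m‖ ≤ 2) :
    (1 + ‖z‖) ^ (-θ) ≤ 3 ^ θ * (1 + ‖m‖) ^ (-θ) := by
  have h1 : ‖m‖ ≤ ‖z‖ + 2 := by
    have := norm_sub_le z (z - m)
    rw [sub_sub_cancel] at this
    linarith
  have h2 : (1 + ‖m‖) / 3 ≤ 1 + ‖z‖ := by linarith [norm_nonneg z]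
  refine (Real.rpow_le_rpow_of_nonpos (by positivity) h2 (by linarith)).trans (le_of_eq ?_)
  rw [Real.div_rpow (by positivity) (by positivity), Real.rpow_neg (x := 3) (by positivity),
    div_inv_eq_mul, mul_comm]

/-- Summability over the integers of a product of decaying factors. -/
theorem summable_int_decay {θ : ℝ} (hθ : 2 < θ) (a c : Pl → ℂ) (ha : ∀ w, a w ≠ 0) :
    Summable fun x : 𝓞 FF => ∏ w, (1 + ‖a w * em w (x : FF) + c w‖) ^ (-θ) := by
  obtain ⟨C, hC, hcard⟩ := card_int_box_le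
  choose r hr using lat0_near
  let g : QRH.E → ℝ := fun m => 3 ^ θ * (1 + ‖QRH.toC m‖) ^ (-θ)
  have hg0 : ∀ m, 0 ≤ g m := fun m => by positivity
  have hg : Summable g := by
    have := QRH.summable_shift_decay hθ one_ne_zero 0
    simp only [one_mul, add_zero] at this
    exact this.mul_left _
  let m : 𝓞 FF → Pl → QRH.E := fun x w => r (a w * em w (x : FF) + c w)
  let R : ℝ := ∑ w, 2 / ‖a w‖
  have hR : 0 ≤ R := Finset.sum_nonneg fun w _ => by positivity
  refine summable_of_sum_le (c := C * (1 + R) ^ (2 * rk) * ∏ _w : Pl, ∑' t, g t)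
    (fun x => Finset.prod_nonneg fun w _ => by positivity) fun s => ?_
  have h1 : ∑ x ∈ s, ∏ w, (1 + ‖a w * em w (x : FF) + c w‖) ^ (-θ) ≤ ∑ x ∈ s, ∏ w, g (m x w) :=
    Finset.sum_le_sum fun x _ => Finset.prod_le_prod (fun w _ => by positivity)
      fun w _ => lat0_peetre (by linarith) (hr _)
  have h2 : ∑ x ∈ s, ∏ w, g (m x w) ≤
      ∑ t ∈ s.image m, C * (1 + R) ^ (2 * rk) * ∏ w, g (t w) := by
    rw [Finset.sum_comp (fun t : Pl → QRH.E => ∏ w, g (t w)) m]
    refine Finset.sum_le_sum fun t _ => ?_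
    rw [nsmul_eq_mul]
    refine mul_le_mul_of_nonneg_right (hcard R (fun w => (QRH.toC (t w) - c w) / a w) _ hR
      fun x hx w => ?_) (Finset.prod_nonneg fun w _ => hg0 _)
    have h3 := hr (a w * em w (x : FF) + c w)
    have h4 : r (a w * em w (x : FF) + c w) = t w := congrFun (Finset.mem_filter.1 hx).2 w
    have e : em w (x : FF) - (QRH.toC (t w) - c w) / a w =
        (a w * em w (x : FF) + c w - QRH.toC (t w)) / a w := by
      have := ha w
      field_simp
      ring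
    rw [h4] at h3
    rw [e, norm_div]
    refine le_trans (by gcongr) (Finset.single_le_sum (f := fun w => 2 / ‖a w‖)
      (fun w _ => by positivity) (Finset.mem_univ w))
  have h3 : ∑ t ∈ s.image m, ∏ w, g (t w) ≤ ∏ _w : Pl, ∑' t, g t := by
    have h4 : s.image m ⊆ Fintype.piFinset fun w => s.image fun x => m x w := by
      intro t ht
      obtain ⟨x, hx, rfl⟩ := Finset.mem_image.1 ht
      exact Fintype.mem_piFinset.2 fun w => Finset.mem_image_of_mem _ hx
    refine (Finset.sum_le_sum_of_subset_of_nonneg h4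
      fun t _ _ => Finset.prod_nonneg fun w _ => hg0 _).trans ?_
    rw [← Finset.prod_univ_sum]
    exact Finset.prod_le_prod (fun w _ => Finset.sum_nonneg fun t _ => hg0 t)
      fun w _ => hg.sum_le_tsum _ fun t _ => hg0 t
  rw [← Finset.mul_sum] at h2
  exact h1.trans (h2.trans (mul_le_mul_of_nonneg_left h3 (by positivity)))

end NQ
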