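import Vale.Agent.NQ.Unit
import Vale.Agent.NQ.Lat0

noncomputable section
namespace NQ
open Complex MeasureTheory NumberField Filter
open scoped ComplexConjugate Classical ContDiff Topology

variable [σ : St]

theorem cnt_coe_ne {x : E} (hx : x ≠ 0) : (x : FF) ≠ 0 := fun h => hx (Subtype.ext h)

theorem cnt_box_fin (b : FF) (hb : b ≠ 0) (T : Pl → ℝ) :
    {x : E | x ≠ 0 ∧ (x : FF) / b ∈ OS ∧ ∀ w, ‖em w x‖ ^ 2 ≤ T w}.Finite := by
  obtain ⟨k, hk⟩ := exists_pow_mem_OS b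
  refine Set.Finite.of_injOn (f := fun x : E => ss ^ k * (x : FF)) (fun x hx => ?_)
    (fun x _ y _ h => Subtype.ext (mul_left_cancel₀ (pow_ne_zero k ss_ne_zero) h))
    (finite_int_box (∑ w, ‖em w (ss ^ k)‖ * √(T w)))
  obtain ⟨-, h1, h2⟩ := hx
  refine ⟨?_, fun w => ?_⟩
  · have h3 : (((σ.s : E) ^ k * x : E) : FF) = ss ^ k * (x : FF) := by
      rw [Subring.coe_mul, Subring.coe_pow, coe_s]
    show IsIntegral ℤ (ss ^ k * (x : FF))
    rw [← h3]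
    refine integral_of_mem ?_
    have h4 : ss ^ k * (x : FF) = ss ^ k * b * ((x : FF) / b) := by field_simp
    rw [h3, h4]
    exact OS.mul_mem hk h1
  · refine le_trans ?_ (Finset.single_le_sum (f := fun w => ‖em w (ss ^ k)‖ * √(T w))
      (fun _ _ => by positivity) (Finset.mem_univ w))
    rw [map_mul, norm_mul]
    exact mul_le_mul_of_nonneg_left (Real.le_sqrt_of_sq_le (h2 w)) (norm_nonneg _)

theorem mem_box {b : FF} (hb : b ≠ 0) {T : Pl → ℝ} {x : E} :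
    x ∈ box b T ↔ x ≠ 0 ∧ (x : FF) / b ∈ OS ∧ ∀ w, ‖em w x‖ ^ 2 ≤ T w := by
  rw [box, dif_pos (cnt_box_fin b hb T), Set.Finite.mem_toFinset]
  rfl

theorem nm_le_of_mem_box {b : FF} (hb : b ≠ 0) {T : Pl → ℝ} {x : E} (h : x ∈ box b T) :
    (nm x : ℝ) ≤ sS b * ∏ w, T w := by
  obtain ⟨h1, h2, h3⟩ := (mem_box hb).1 h
  refine (nm_le_box hb h1 h2).trans (mul_le_mul_of_nonneg_left ?_ (sS_pos b).le)
  exact Finset.prod_le_prod (fun _ _ => by positivity) fun w _ => h3 w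

theorem cnt_int : ∃ C : ℝ, 0 < C ∧ ∀ (R : ℝ) (J : Finset E), 1 ≤ R →
    (∀ y ∈ J, (y : FF) ∈ OS ∧ ∀ w, ‖em w y‖ ^ 2 ≤ R) → (J.card : ℝ) ≤ C * R ^ rk := by
  obtain ⟨C, hC, h⟩ := card_int_box_le
  refine ⟨C * 4 ^ rk, by positivity, fun R J hR hJ => ?_⟩
  have hi : Function.Injective toE := fun x y e => by
    have := congrArg (fun z : E => (z : FF)) e
    simp only [coe_toE] at this
    exact RingOfIntegers.ext this
  have h1 : J ⊆ (J.preimage toE hi.injOn).image toE := fun y hy =>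
    Finset.mem_image.2 ⟨⟨y, integral_of_mem (hJ y hy).1⟩,
      Finset.mem_preimage.2 (by
        rwa [show toE ⟨y, integral_of_mem (hJ y hy).1⟩ = y from Subtype.ext (coe_toE _)]),
      Subtype.ext (coe_toE _)⟩
  have h2 := h √R 0 (J.preimage toE hi.injOn) (Real.sqrt_nonneg _) fun x hx w => by
    have := (hJ _ (Finset.mem_preimage.1 hx)).2 w
    rw [coe_toE] at this
    simpa using Real.le_sqrt_of_sq_le this
  have h3 : (J.card : ℝ) ≤ (J.preimage toE hi.injOn).card := by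
    exact_mod_cast (Finset.card_le_card h1).trans Finset.card_image_le
  refine h3.trans (h2.trans ?_)
  rw [mul_assoc, ← mul_pow, pow_mul]
  refine mul_le_mul_of_nonneg_left (pow_le_pow_left₀ (by positivity) ?_ _) hC.le
  have h4 : 1 ≤ √R := Real.one_le_sqrt.2 hR
  have h5 := Real.mul_self_sqrt (zero_le_one.trans hR)
  nlinarith

theorem cnt_coe_mul (e : Eˣ) (n : ℕ) (x : E) :
    ((e ^ n * x : E) : FF) = ((e : E) : FF) ^ n * x := by
  rw [Subring.coe_mul, Subring.coe_pow]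

theorem card_box_le : ∃ C : ℝ, 0 < C ∧ ∀ (b : FF) (T : Pl → ℝ), b ≠ 0 → (∀ w, 0 < T w) →
    ((box b T).card : ℝ) ≤ C * (sS b * ∏ w, T w) := by
  obtain ⟨C, hC, h⟩ := cnt_int
  obtain ⟨A, K, hK, hA, hn⟩ := exists_norm
  refine ⟨C * K ^ rk, by positivity, fun b T hb hT => ?_⟩
  have hz : 0 < sS b * ∏ w, T w := mul_pos (sS_pos b) (Finset.prod_pos fun w _ => hT w)
  rcases (box b T).eq_empty_or_nonempty with h0 | ⟨x0, h0⟩
  · rw [h0, Finset.card_empty, Nat.cast_zero]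
    positivity
  have h1 : 1 ≤ sS b * ∏ w, T w :=
    (one_le_nmR ((mem_box hb).1 h0).1).trans (nm_le_of_mem_box hb h0)
  obtain ⟨e, a0, ha, hc, hw⟩ := hn ⟨b, T⟩ ⟨hb, hT⟩
  simp only [Sc.sz] at hc hw
  have hi : Function.Injective fun x : E => (e : E) ^ 6 * x := fun x y hxy =>
    mul_left_cancel₀ (pow_ne_zero 6 e.ne_zero) hxy
  have h2 := h (K * (sS b * ∏ w, T w) ^ (1 / rk : ℝ)) ((box b T).image fun x => (e : E) ^ 6 * x)
    (one_le_mul_of_one_le_of_one_le hK (Real.one_le_rpow h1 (by positivity))) fun y hy => by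
      obtain ⟨x, hx, rfl⟩ := Finset.mem_image.1 hy
      obtain ⟨-, a2, a3⟩ := (mem_box hb).1 hx
      rw [cnt_coe_mul]
      refine ⟨?_, fun w => le_trans ?_ (hw w).2⟩
      · have a4 : ((e : E) : FF) ^ 6 * x =
            a0 * (((e : E) : FF) ^ 6 * b / a0) * ((x : FF) / b) := by
          have := (hA a0 ha).1
          field_simp
        rw [a4]
        exact OS.mul_mem (OS.mul_mem (hA a0 ha).2 hc.div_mem) a2
      · rw [map_mul, norm_mul, mul_pow]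
        exact mul_le_mul_of_nonneg_left (a3 w) (by positivity)
  rwa [Finset.card_image_of_injective _ hi, mul_pow, rpow_rk hz.le, ← mul_assoc] at h2

/-- Generators of one ideal, of one type, in one window. -/
theorem card_window_le (A : ℝ) (hA : 0 ≤ A) :
    ∃ C : ℝ, 0 < C ∧ ∀ (b : FF) (T : Pl → ℝ) (x : E) (J : Finset E),
    b ≠ 0 → (∀ y ∈ J, y ≠ 0 ∧ Associated y x ∧ (y : FF) / b ∈ OS ∧ b / y ∈ OS ∧
      ∀ w, T w ≤ ‖em w y‖ ^ 2 ∧ ‖em w y‖ ^ 2 ≤ A * T w) → (J.card : ℝ) ≤ C := by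
  refine ⟨(finite_int_box √A).toFinset.card + 1, by positivity, fun b T x J hb hJ => ?_⟩
  rcases J.eq_empty_or_nonempty with h0 | ⟨y0, h0⟩
  · rw [h0, Finset.card_empty, Nat.cast_zero]
    positivity
  obtain ⟨a1, a2, -, a4, a5⟩ := hJ y0 h0
  have a6 := cnt_coe_ne a1
  have h1 : J.card ≤ (finite_int_box √A).toFinset.card := by
    refine Finset.card_le_card_of_injOn (fun y : E => (y : FF) / y0) (fun y hy => ?_)
      fun y _ z _ h => Subtype.ext ((div_left_inj' a6).1 h)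
    obtain ⟨-, b2, b3, -, b5⟩ := hJ y hy
    obtain ⟨u, hu⟩ := a2.trans b2.symm
    have b6 : (y : FF) / y0 = (u : E) := by
      rw [← hu, Subring.coe_mul, mul_div_cancel_left₀ _ a6]
    refine Finset.mem_coe.2 ((Set.Finite.mem_toFinset _).2 ⟨?_, fun w => ?_⟩)
    · show IsIntegral ℤ ((y : FF) / y0)
      rw [b6]
      refine integral_of_mem ?_
      have b7 : (y : FF) / y0 = (y : FF) / b * (b / y0) := by field_simp
      rw [← b6, b7]
      exact OS.mul_mem b3 a4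
    · refine Real.le_sqrt_of_sq_le ?_
      show ‖em w ((y : FF) / y0)‖ ^ 2 ≤ A
      rw [map_div₀, norm_div, div_pow, div_le_iff₀ (em_sq_pos w a6)]
      exact (b5 w).2.trans (mul_le_mul_of_nonneg_left (a5 w).1 hA)
  have h2 : (J.card : ℝ) ≤ (finite_int_box √A).toFinset.card := by exact_mod_cast h1
  linarith

theorem cnt_bal : ∃ K : ℝ, 1 ≤ K ∧ ∃ φ : E → Eˣ, ∀ (x : E) (N : ℝ), x ≠ 0 → (nm x : ℝ) ≤ N →
    φ x ^ 6 * x ∈ box 1 (fun _ => K * N ^ (1 / rk : ℝ)) := by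
  obtain ⟨A, K, hK, hA, h⟩ := exists_bal
  choose! φ a ha hc hw using h
  refine ⟨K, hK, φ, fun x N hx hN => (mem_box one_ne_zero).2
    ⟨mul_ne_zero (pow_ne_zero 6 (φ x).ne_zero) hx, ?_, fun w => (hw x hx w).2.trans ?_⟩⟩
  · have h1 := OS.mul_mem (hA _ (ha x hx)).2 (hc x hx).div_mem
    rwa [mul_div_cancel₀ _ (hA _ (ha x hx)).1, ← div_one ((φ x ^ 6 * x : E) : FF)] at h1
  · exact mul_le_mul_of_nonneg_left (Real.rpow_le_rpow (Nat.cast_nonneg _) hN (by positivity))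
      (by positivity)

theorem cnt_assoc (e : Eˣ) (n : ℕ) (x : E) : Associated x (e ^ n * x) :=
  ⟨e ^ n, by rw [Units.val_pow_eq_pow_val, mul_comm]⟩

theorem cnt_prim_fin (R : ℝ) : {x : E | Prim x ∧ (nm x : ℝ) ≤ R}.Finite := by
  obtain ⟨K, -, φ, h⟩ := cnt_bal
  refine Set.Finite.of_injOn (f := fun x : E => φ x ^ 6 * x) (fun x hx => ?_)
    (fun x hx y hy e => prim_unique hx.1 hy.1 ?_)
    (box 1 (fun _ => K * R ^ (1 / rk : ℝ))).finite_toSet
  · exact h x R hx.1.1 hx.2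
  · have h1 := cnt_assoc (φ x) 6 x
    rw [show (φ x : E) ^ 6 * x = φ y ^ 6 * y from e] at h1
    exact h1.trans (cnt_assoc (φ y) 6 y).symm

theorem mem_prim {R : ℝ} {x : E} : x ∈ prim R ↔ Prim x ∧ (nm x : ℝ) ≤ R := by
  rw [prim, dif_pos (cnt_prim_fin R), Set.Finite.mem_toFinset]
  rfl

theorem cnt_fin {n : ℕ} (hn : n ≠ 0) (R : ℝ) :
    {x : E | x ≠ 0 ∧ (nm x : ℝ) ≤ R ∧ IsU n (un x)}.Finite := by
  refine (((finite_isU hn).prod (cnt_prim_fin R)).image fun p => p.1 * p.2).subset fun x hx => ?_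
  refine ⟨(un x, pm x), ⟨hx.2.2, prim_pm x, ?_⟩, un_mul_pm hx.1⟩
  show (nm (pm x) : ℝ) ≤ R
  rw [← nm_assoc (assoc_pm hx.1)]
  exact hx.2.1

theorem mem_ball {R : ℝ} {x : E} : x ∈ ball R ↔ x ≠ 0 ∧ (nm x : ℝ) ≤ R ∧ IsU 6 (un x) := by
  rw [ball, dif_pos (cnt_fin (by norm_num) R), Set.Finite.mem_toFinset]
  rfl

theorem mem_sqf {R : ℝ} {s : Finset P} : s ∈ sqf R ↔ Ns s ≤ R := by
  have h : {s : Finset P | Ns s ≤ R}.Finite :=
    Set.Finite.of_injOn (f := pr) (fun s hs => And.intro (prim_pr s) hs) pr_inj.injOn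
      (cnt_prim_fin R)
  rw [sqf, dif_pos h, Set.Finite.mem_toFinset]
  rfl

theorem mem_calA {A : ℝ} {a : E} : a ∈ calA A ↔ IsA a ∧ (nm a : ℝ) ≤ A := by
  have h : {a : E | IsA a ∧ (nm a : ℝ) ≤ A}.Finite :=
    (cnt_fin two_ne_zero A).subset fun a ha => ⟨ha.1.1.ne_zero, ha.2, ha.1.2⟩
  rw [calA, dif_pos h, Set.Finite.mem_toFinset]
  rfl

theorem prim_subset_ball (R : ℝ) : prim R ⊆ ball R := fun x hx => by
  obtain ⟨h1, h2⟩ := mem_prim.1 hx
  exact mem_ball.2 ⟨h1.1, h2, h1.un_eq ▸ isU_one 6⟩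

theorem ball_mono {R R' : ℝ} (h : R ≤ R') : ball R ⊆ ball R' := fun _ hx =>
  mem_ball.2 ⟨(mem_ball.1 hx).1, (mem_ball.1 hx).2.1.trans h, (mem_ball.1 hx).2.2⟩

theorem prim_mono {R R' : ℝ} (h : R ≤ R') : prim R ⊆ prim R' := fun _ hx =>
  mem_prim.2 ⟨(mem_prim.1 hx).1, (mem_prim.1 hx).2.trans h⟩

theorem sqf_mono {R R' : ℝ} (h : R ≤ R') : sqf R ⊆ sqf R' := fun _ hx =>
  mem_sqf.2 ((mem_sqf.1 hx).trans h)

theorem ball_eq_empty {R : ℝ} (h : R < 1) : ball R = ∅ :=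
  Finset.eq_empty_of_forall_notMem fun _ hx => by
    linarith [one_le_nmR (mem_ball.1 hx).1, (mem_ball.1 hx).2.1]

theorem prim_eq_empty {R : ℝ} (h : R < 1) : prim R = ∅ :=
  Finset.subset_empty.1 (ball_eq_empty h ▸ prim_subset_ball R)

theorem sqf_eq_empty {R : ℝ} (h : R < 1) : sqf R = ∅ :=
  Finset.eq_empty_of_forall_notMem fun s hs => by linarith [one_le_Ns s, mem_sqf.1 hs]

theorem cnt_un (e : Eˣ) (n : ℕ) {x : E} (hx : x ≠ 0) : un (e ^ n * x) = e ^ n * un x := by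
  rw [un_mul (pow_ne_zero n e.ne_zero) hx, un_unit (e.isUnit.pow n)]

theorem exists_ball_rep {x : E} (hx : x ≠ 0) {R : ℝ} (h : (nm x : ℝ) ≤ R) :
    ∃ e : Eˣ, e ^ 6 * x ∈ ball R := by
  obtain ⟨e, u, hu, h1⟩ := exists_isU 6 (isUnit_un hx)
  refine ⟨e⁻¹, mem_ball.2 ⟨mul_ne_zero (pow_ne_zero 6 (e⁻¹).ne_zero) hx, ?_, ?_⟩⟩
  · rwa [← nm_assoc (cnt_assoc e⁻¹ 6 x)]
  · rwa [cnt_un _ _ hx, h1, ← mul_assoc, ← mul_pow, Units.inv_mul, one_pow, one_mul]

theorem ball_rep_unique {R R' : ℝ} {x y : E} (hx : x ∈ ball R) (hy : y ∈ ball R') (e : Eˣ)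
    (h : y = e ^ 6 * x) : y = x := by
  obtain ⟨a1, -, a3⟩ := mem_ball.1 hx
  obtain ⟨b1, -, b3⟩ := mem_ball.1 hy
  have h1 : un y = un x := isU_unique a3 b3 e (by rw [h, cnt_un _ _ a1])
  have h2 : pm y = pm x := by rw [h, ← pm_assoc (cnt_assoc e 6 x)]
  rw [← un_mul_pm b1, h1, h2, un_mul_pm a1]

theorem cnt_ball_box : ∃ K : ℝ, 1 ≤ K ∧ ∀ (N : ℝ) (F : E → ℝ), (∀ x, 0 ≤ F x) →
    (∀ (e : Eˣ) (x : E), F (e ^ 6 * x) = F x) →
    ∑ x ∈ ball N, F x ≤ ∑ x ∈ box 1 (fun _ => K * N ^ (1 / rk : ℝ)), F x := by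
  obtain ⟨K, hK, φ, h⟩ := cnt_bal
  refine ⟨K, hK, fun N F h0 h1 => ?_⟩
  have hi : Set.InjOn (fun x : E => (φ x : E) ^ 6 * x) (ball N) := fun x hx y hy e => by
    refine ball_rep_unique hy hx ((φ x)⁻¹ * φ y) ?_
    rw [Units.val_mul, mul_pow, mul_assoc, ← show (φ x : E) ^ 6 * x = φ y ^ 6 * y from e,
      ← mul_assoc, ← mul_pow, Units.inv_mul, one_pow, one_mul]
  rw [← Finset.sum_congr rfl fun x _ => h1 (φ x) x, ← Finset.sum_image (f := F) hi]
  refine Finset.sum_le_sum_of_subset_of_nonneg (fun y hy => ?_) fun x _ _ => h0 x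
  obtain ⟨x, hx, rfl⟩ := Finset.mem_image.1 hy
  exact h x N (mem_ball.1 hx).1 (mem_ball.1 hx).2.1

theorem exists_Kb : ∃ K : ℝ, 1 ≤ K ∧ (∀ R : ℝ, 0 ≤ R → ((ball R).card : ℝ) ≤ K * R) ∧
    ∀ (R : ℝ) (x : E), (((ball R).filter fun y => Associated y x).card : ℝ) ≤ K := by
  obtain ⟨K, hK, h⟩ := cnt_ball_box
  obtain ⟨C, hC, h1⟩ := card_box_le
  have hU := finite_isU (n := 6) (by norm_num)
  have hK0 : 0 ≤ C * K ^ rk := by positivity
  have hU0 : (0 : ℝ) ≤ hU.toFinset.card := Nat.cast_nonneg _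
  refine ⟨1 + C * K ^ rk + hU.toFinset.card, by linarith, fun R hR => ?_, fun R x => ?_⟩
  · rcases hR.eq_or_lt with rfl | hR'
    · rw [ball_eq_empty zero_lt_one, Finset.card_empty, Nat.cast_zero, mul_zero]
    have h2 := h R (fun _ => 1) (fun _ => zero_le_one) fun _ _ => rfl
    have h3 := h1 1 (fun _ => K * R ^ (1 / rk : ℝ)) one_ne_zero fun _ => by positivity
    rw [sS_one, one_mul, prod_const_Pl, mul_pow, rpow_rk hR, ← mul_assoc] at h3
    simp only [Finset.sum_const, nsmul_eq_mul, mul_one] at h2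
    exact h2.trans (h3.trans (mul_le_mul_of_nonneg_right (by linarith) hR))
  · have h2 : ((ball R).filter fun y => Associated y x).card ≤ hU.toFinset.card := by
      refine Finset.card_le_card_of_injOn un (fun y hy => ?_) fun y hy z hz e => ?_
      · exact Finset.mem_coe.2 ((Set.Finite.mem_toFinset _).2
          (mem_ball.1 (Finset.mem_filter.1 hy).1).2.2)
      · obtain ⟨a1, a2⟩ := Finset.mem_filter.1 hy
        obtain ⟨b1, b2⟩ := Finset.mem_filter.1 hz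
        rw [← un_mul_pm (mem_ball.1 a1).1, e, pm_assoc (a2.trans b2.symm),
          un_mul_pm (mem_ball.1 b1).1]
    have h3 : (((ball R).filter fun y => Associated y x).card : ℝ) ≤ hU.toFinset.card := by
      exact_mod_cast h2
    linarith

/-- The counting constant (it replaces `12` and `6`). -/
def Kb : ℝ := exists_Kb.choose
theorem one_le_Kb : 1 ≤ Kb := exists_Kb.choose_spec.1
theorem card_ball_le {R : ℝ} (hR : 0 ≤ R) : ((ball R).card : ℝ) ≤ Kb * R :=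
  exists_Kb.choose_spec.2.1 R hR
theorem card_ball_assoc (R : ℝ) (x : E) :
    (((ball R).filter fun y => Associated y x).card : ℝ) ≤ Kb := exists_Kb.choose_spec.2.2 R x

theorem card_prim_le {R : ℝ} (hR : 0 ≤ R) : ((prim R).card : ℝ) ≤ Kb * R :=
  le_trans (by exact_mod_cast Finset.card_le_card (prim_subset_ball R)) (card_ball_le hR)

theorem cnt_sqf {R : ℝ} (g : E → ℝ) (hg : ∀ x, 0 ≤ g x) :
    ∑ s ∈ sqf R, g (pr s) ≤ ∑ x ∈ ball R, g x := by
  rw [← Finset.sum_image (f := g) pr_inj.injOn]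
  refine Finset.sum_le_sum_of_subset_of_nonneg (fun x hx => ?_) fun x _ _ => hg x
  obtain ⟨s, hs, rfl⟩ := Finset.mem_image.1 hx
  exact prim_subset_ball R (mem_prim.2 ⟨prim_pr s, mem_sqf.1 hs⟩)

theorem card_sqf_le {R : ℝ} (hR : 0 ≤ R) : ((sqf R).card : ℝ) ≤ Kb * R := by
  have := cnt_sqf (R := R) (fun _ => 1) fun _ => zero_le_one
  simp only [Finset.sum_const, nsmul_eq_mul, mul_one] at this
  exact this.trans (card_ball_le hR)

theorem cnt_shell {T : Finset E} {R M : ℝ} (hR : 0 ≤ R) (hM : 0 ≤ M) (f : E → ℝ)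
    (hT : T ⊆ ball R) (hf : ∀ x ∈ T, f x ≤ M) : ∑ x ∈ T, f x ≤ Kb * R * M := by
  refine (Finset.sum_le_card_nsmul _ _ _ hf).trans ?_
  rw [nsmul_eq_mul]
  refine mul_le_mul_of_nonneg_right (le_trans ?_ (card_ball_le hR)) hM
  exact_mod_cast Finset.card_le_card hT

/-- Power sums over a ball. -/
theorem sum_ball_rpow {θ : ℝ} (hθ : -1 < θ) : ∃ C : ℝ, 0 < C ∧ ∀ R : ℝ, 0 ≤ R →
    ∑ x ∈ ball R, (nm x : ℝ) ^ θ ≤ C * R ^ (1 + θ) := by
  set q : ℝ := (1 / 2) ^ (1 + θ) with hq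
  have hq1 : q < 1 := Real.rpow_lt_one (by norm_num) (by norm_num) (by linarith)
  have hC : 0 < 2 * Kb / (1 - q) := div_pos (by linarith [one_le_Kb]) (by linarith)
  have key : ∀ n : ℕ, ∀ R : ℝ, 0 ≤ R → R < 2 ^ n →
      ∑ x ∈ ball R, (nm x : ℝ) ^ θ ≤ 2 * Kb / (1 - q) * R ^ (1 + θ) := by
    intro n
    induction n with
    | zero =>
      intro R h0 h1
      rw [ball_eq_empty (by simpa using h1), Finset.sum_empty]
      positivity
    | succ n ih =>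
      intro R h0 h1
      rcases h0.eq_or_lt with rfl | h0'
      · rw [ball_eq_empty (by norm_num), Finset.sum_empty]
        positivity
      have a1 := ih (R / 2) (by positivity) (by rw [pow_succ] at h1; linarith)
      have a2 : ball (R / 2) ⊆ ball R := ball_mono (by linarith)
      rw [← Finset.sum_sdiff a2]
      have a3 : ∑ x ∈ ball R \ ball (R / 2), (nm x : ℝ) ^ θ ≤ Kb * R * (2 * R ^ θ) := by
        refine cnt_shell h0 (by positivity) _ Finset.sdiff_subset fun x hx => ?_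
        obtain ⟨b1, b2⟩ := Finset.mem_sdiff.1 hx
        obtain ⟨b3, b4, b9⟩ := mem_ball.1 b1
        have b5 : R / 2 ≤ nm x := le_of_lt (lt_of_not_ge fun h => b2 (mem_ball.2 ⟨b3, h, b9⟩))
        have b6 : (0 : ℝ) < nm x := by linarith
        have b7 : (nm x : ℝ) ^ (θ + 1) ≤ R ^ (θ + 1) := Real.rpow_le_rpow b6.le b4 (by linarith)
        rw [Real.rpow_add_one b6.ne', Real.rpow_add_one h0'.ne'] at b7
        have b8 : 0 < R ^ θ := Real.rpow_pos_of_pos h0' θ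
        refine le_of_mul_le_mul_right (b7.trans ?_) b6
        nlinarith
      have a4 : (R / 2) ^ (1 + θ) = R ^ (1 + θ) * q := by
        rw [hq, ← Real.mul_rpow h0 (by norm_num), mul_one_div]
      have a5 : R ^ (1 + θ) = R * R ^ θ := by rw [Real.rpow_add h0', Real.rpow_one]
      have a6 : 2 * Kb / (1 - q) * (1 - q) = 2 * Kb := div_mul_cancel₀ _ (by linarith)
      rw [a4] at a1
      have a7 : 2 * Kb / (1 - q) * R ^ (1 + θ) =
          2 * Kb * R ^ (1 + θ) + 2 * Kb / (1 - q) * (R ^ (1 + θ) * q) := by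
        linear_combination R ^ (1 + θ) * a6
      rw [a7]
      rw [a5] at a1 ⊢
      linarith
  refine ⟨_, hC, fun R hR => ?_⟩
  obtain ⟨n, hn⟩ := pow_unbounded_of_one_lt R (one_lt_two (α := ℝ))
  exact key n R hR hn

theorem sum_ball_inv {ε : ℝ} (hε : 0 < ε) : ∃ C : ℝ, 0 < C ∧ ∀ R : ℝ, 0 ≤ R →
    ∑ x ∈ ball R, (nm x : ℝ)⁻¹ ≤ C * R ^ ε := by
  obtain ⟨C, hC, h⟩ := sum_ball_rpow (θ := ε - 1) (by linarith)
  refine ⟨C, hC, fun R hR => ?_⟩
  have := h R hR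
  rw [add_sub_cancel] at this
  refine le_trans (Finset.sum_le_sum fun x hx => ?_) this
  rw [← Real.rpow_neg_one]
  exact Real.rpow_le_rpow_of_exponent_le (one_le_nmR (mem_ball.1 hx).1) (by linarith)

theorem sum_sqf_rpow {θ : ℝ} (hθ : -1 < θ) : ∃ C : ℝ, 0 < C ∧ ∀ R : ℝ, 0 ≤ R →
    ∑ s ∈ sqf R, Ns s ^ θ ≤ C * R ^ (1 + θ) := by
  obtain ⟨C, hC, h⟩ := sum_ball_rpow hθ
  exact ⟨C, hC, fun R hR =>
    (cnt_sqf (fun x => (nm x : ℝ) ^ θ) fun x => by positivity).trans (h R hR)⟩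

theorem sum_sqf_inv {ε : ℝ} (hε : 0 < ε) : ∃ C : ℝ, 0 < C ∧ ∀ R : ℝ, 0 ≤ R →
    ∑ s ∈ sqf R, (Ns s)⁻¹ ≤ C * R ^ ε := by
  obtain ⟨C, hC, h⟩ := sum_ball_inv hε
  exact ⟨C, hC, fun R hR =>
    (cnt_sqf (fun x => (nm x : ℝ)⁻¹) fun x => by positivity).trans (h R hR)⟩

theorem cnt_tail {θ : ℝ} (hθ : 1 < θ) : ∃ C : ℝ, 0 < C ∧ ∀ R : ℝ, 0 < R →
    ∀ T : Finset E, (∀ x ∈ T, Prim x ∧ R ≤ nm x) →
    ∑ x ∈ T, (nm x : ℝ) ^ (-θ) ≤ C * R ^ (1 - θ) := by
  set q : ℝ := 2 ^ (1 - θ) with hq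
  have hq1 : q < 1 := Real.rpow_lt_one_of_one_lt_of_neg (by norm_num) (by linarith)
  have hC : 0 < 2 * Kb / (1 - q) := div_pos (by linarith [one_le_Kb]) (by linarith)
  have key : ∀ n : ℕ, ∀ R : ℝ, 0 < R → ∀ T : Finset E, (∀ x ∈ T, Prim x ∧ R ≤ nm x) →
      (∀ x ∈ T, (nm x : ℝ) < R * 2 ^ n) →
      ∑ x ∈ T, (nm x : ℝ) ^ (-θ) ≤ 2 * Kb / (1 - q) * R ^ (1 - θ) := by
    intro n
    induction n with
    | zero =>
      intro R h0 T h1 h2
      rw [Finset.eq_empty_of_forall_notMem (s := T) fun x hx => by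
        linarith [(h1 x hx).2, h2 x hx], Finset.sum_empty]
      positivity
    | succ n ih =>
      intro R h0 T h1 h2
      rw [← Finset.sum_filter_add_sum_filter_not T fun x => 2 * R ≤ (nm x : ℝ)]
      have a1 := ih (2 * R) (by positivity) (T.filter fun x => 2 * R ≤ (nm x : ℝ))
        (fun x hx => ⟨(h1 x (Finset.mem_filter.1 hx).1).1, (Finset.mem_filter.1 hx).2⟩)
        fun x hx => by
          have := h2 x (Finset.mem_filter.1 hx).1
          rw [pow_succ] at this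
          linarith
      have a3 : ∑ x ∈ T.filter fun x => ¬ 2 * R ≤ (nm x : ℝ), (nm x : ℝ) ^ (-θ) ≤
          Kb * (2 * R) * R ^ (-θ) := by
        refine cnt_shell (by positivity) (by positivity) _ (fun x hx => ?_) fun x hx => ?_
        · obtain ⟨b1, b2⟩ := Finset.mem_filter.1 hx
          exact prim_subset_ball _ (mem_prim.2 ⟨(h1 x b1).1, le_of_lt (lt_of_not_ge b2)⟩)
        · exact Real.rpow_le_rpow_of_nonpos h0 (h1 x (Finset.mem_filter.1 hx).1).2 (by linarith)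
      have a4 : (2 * R) ^ (1 - θ) = q * R ^ (1 - θ) := Real.mul_rpow (by norm_num) h0.le
      have a5 : R ^ (1 - θ) = R * R ^ (-θ) := by
        rw [sub_eq_add_neg, Real.rpow_add h0, Real.rpow_one]
      have a6 : 2 * Kb / (1 - q) * (1 - q) = 2 * Kb := div_mul_cancel₀ _ (by linarith)
      rw [a4] at a1
      have a7 : 2 * Kb / (1 - q) * R ^ (1 - θ) =
          2 * Kb * R ^ (1 - θ) + 2 * Kb / (1 - q) * (q * R ^ (1 - θ)) := by
        linear_combination R ^ (1 - θ) * a6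
      rw [a7]
      rw [a5] at a1 ⊢
      linarith
  refine ⟨_, hC, fun R hR T hT => ?_⟩
  obtain ⟨n, hn⟩ := pow_unbounded_of_one_lt ((∑ x ∈ T, (nm x : ℝ)) / R) (one_lt_two (α := ℝ))
  refine key n R hR T hT fun x hx => ?_
  rw [div_lt_iff₀ hR, mul_comm] at hn
  exact (Finset.single_le_sum (f := fun x => (nm x : ℝ)) (fun _ _ => Nat.cast_nonneg _) hx).trans_lt
    hn

theorem sum_prim_rpow_le {θ : ℝ} (hθ : 1 < θ) : ∃ C : ℝ, 0 < C ∧ ∀ T : Finset E, (∀ x ∈ T, Prim x) →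
    ∑ x ∈ T, (nm x : ℝ) ^ (-θ) ≤ C := by
  obtain ⟨C, hC, h⟩ := cnt_tail hθ
  refine ⟨C, hC, fun T hT => ?_⟩
  have := h 1 one_pos T fun x hx => ⟨hT x hx, one_le_nmR (hT x hx).1⟩
  rwa [Real.one_rpow, mul_one] at this

theorem cnt_summable {ι : Type*} {θ : ℝ} (hθ : 1 < θ) (f : ι → E) (hi : Function.Injective f)
    (hf : ∀ i, Prim (f i)) : Summable fun i => (nm (f i) : ℝ) ^ (-θ) := by
  obtain ⟨C, -, h⟩ := sum_prim_rpow_le hθ
  refine summable_of_sum_le (c := C) (fun i => by positivity) fun T => ?_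
  rw [← Finset.sum_image (f := fun x => (nm x : ℝ) ^ (-θ)) hi.injOn]
  refine h _ fun x hx => ?_
  obtain ⟨i, -, rfl⟩ := Finset.mem_image.1 hx
  exact hf i

theorem summable_Ns_rpow {θ : ℝ} (hθ : 1 < θ) : Summable fun s : Finset P => Ns s ^ (-θ) :=
  cnt_summable hθ pr pr_inj prim_pr

theorem summable_P_rpow {θ : ℝ} (hθ : 1 < θ) : Summable fun p : P => (nm p.1 : ℝ) ^ (-θ) :=
  cnt_summable hθ _ Subtype.val_injective prim_P

/-- From a ball to a box of integers. -/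
theorem sum_ball_le_box : ∃ K : ℝ, 1 ≤ K ∧ ∀ (N : ℝ) (F : E → ℝ), 0 < N → (∀ x, 0 ≤ F x) →
    (∀ (e : Eˣ) (x : E), F (e ^ 6 * x) = F x) →
    ∑ x ∈ ball N, F x ≤ ∑ x ∈ box 1 (fun _ => K * N ^ (1 / rk : ℝ)), F x := by
  obtain ⟨K, hK, h⟩ := cnt_ball_box
  exact ⟨K, hK, fun N F _ => h N F⟩

end NQ
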