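import Vale.Agent.P026.Stm2

/-! Quasi Riemann hypothesis for Dedekind zeta functions: arithmetic definitions.
This is the number field version of `Vale/Agent/P026/Defs.lean`. -/

noncomputable section
namespace NQ
open Complex MeasureTheory NumberField IsDedekindDomain
open scoped ComplexConjugate Classical

export QRH (omC psi ft ft2 Vg beta w0 a0 b0 kk V1 V0 wt sm Adm DB wtau Fint Ia Ka cDel)

section Generic
variable {F : Type} [Field F] [NumberField F]

/-- Finite places. -/
abbrev HS (F : Type) [Field F] [NumberField F] := HeightOneSpectrum (𝓞 F)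
/-- The additive valuation (junk value `0` at `0`). -/
def ord (v : HS F) (x : F) : ℤ := -WithZero.log (v.valuation F x)
/-- The valuation is at least `n`. -/
def OG (v : HS F) (n : ℤ) (x : F) : Prop := x = 0 ∨ n ≤ ord v x
/-- The size of the residue field. -/
def qv (v : HS F) : ℕ := Ideal.absNorm v.asIdeal

/-- The ring `O[1/s]`. -/
def RR (F : Type) [Field F] (s : ℕ) : Subring F where
  carrier := {x | ∃ k : ℕ, IsIntegral ℤ ((s : F) ^ k * x)}
  mul_mem' := by
    rintro a b ⟨k, hk⟩ ⟨l, hl⟩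
    exact ⟨k + l, by rw [pow_add, mul_mul_mul_comm]; exact hk.mul hl⟩
  one_mem' := ⟨0, by simpa using isIntegral_one⟩
  add_mem' := by
    rintro a b ⟨k, hk⟩ ⟨l, hl⟩
    have hs : IsIntegral ℤ (s : F) := by simpa using isIntegral_algebraMap (R := ℤ) (A := F) (x := s)
    refine ⟨k + l, ?_⟩
    have : (s : F) ^ (k + l) * (a + b) = (s : F) ^ l * ((s : F) ^ k * a) + (s : F) ^ k * ((s : F) ^ l * b) := by
      ring
    rw [this]
    exact ((hs.pow l).mul hk).add ((hs.pow k).mul hl)
  zero_mem' := ⟨0, by simpa using isIntegral_zero⟩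
  neg_mem' := by
    rintro a ⟨k, hk⟩
    exact ⟨k, by rw [mul_neg]; exact hk.neg⟩

/-- The ring of elements whose denominator is prime to `s`. -/
def OO (F : Type) [Field F] (s : ℕ) : Subring F where
  carrier := {x | ∃ d : ℕ, d.Coprime s ∧ IsIntegral ℤ ((d : F) * x)}
  mul_mem' := by
    rintro a b ⟨k, hk1, hk⟩ ⟨l, hl1, hl⟩
    exact ⟨k * l, Nat.Coprime.mul_left hk1 hl1, by
      rw [Nat.cast_mul, mul_mul_mul_comm]; exact hk.mul hl⟩
  one_mem' := ⟨1, Nat.coprime_one_left _, by simpa using isIntegral_one⟩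
  add_mem' := by
    rintro a b ⟨k, hk1, hk⟩ ⟨l, hl1, hl⟩
    have hs : ∀ n : ℕ, IsIntegral ℤ (n : F) := fun n => by
      simpa using isIntegral_algebraMap (R := ℤ) (A := F) (x := n)
    refine ⟨k * l, Nat.Coprime.mul_left hk1 hl1, ?_⟩
    have : ((k * l : ℕ) : F) * (a + b) = (l : F) * ((k : F) * a) + (k : F) * ((l : F) * b) := by
      push_cast; ring
    rw [this]
    exact ((hs l).mul hk).add ((hs k).mul hl)
  zero_mem' := ⟨1, Nat.coprime_one_left _, by simpa using isIntegral_zero⟩
  neg_mem' := by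
    rintro a ⟨k, hk1, hk⟩
    exact ⟨k, hk1, by rw [mul_neg]; exact hk.neg⟩

end Generic

/-- The standing data: a number field with a cube root of unity, and an integer `s` such that
`O[1/s]` is principal and unramified. -/
class St where
  F : Type
  [fld : Field F]
  [nf : NumberField F]
  s : ℕ
  w : F
  hw : w ^ 2 + w + 1 = 0
  s_pos : 0 < s
  twelve : 12 ∣ s
  small : ∀ p : ℕ, p.Prime → p ≤ Module.finrank ℚ F → p ∣ s
  pid : IsPrincipalIdealRing (RR F s)
  dual : ∀ x : F, (∀ y : F, IsIntegral ℤ y → ∃ n : ℤ, Algebra.trace ℚ F (x * y) = n) →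
    IsIntegral ℤ ((s : F) * x)

variable [σ : St]

/-- The field. -/
abbrev FF : Type := σ.F
instance : Field FF := σ.fld
instance : NumberField FF := σ.nf
/-- The integer `s` as an element of the field. -/
def ss : FF := (σ.s : FF)
/-- The ring `O[1/s]`; it replaces the Eisenstein integers. -/
abbrev E : Type := RR FF σ.s
instance : IsPrincipalIdealRing E := σ.pid
/-- The ring of `S`-adically integral elements. -/
def OS : Subring FF := OO FF σ.s
/-- The cube root of unity. -/
def om : E := ⟨σ.w, 0, by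
  rw [pow_zero, one_mul]
  refine ⟨Polynomial.X ^ 2 + Polynomial.X + 1, by monicity!, ?_⟩
  simpa using σ.hw⟩
/-- The complex places: embeddings that send `w` to `omC`. -/
abbrev Pl : Type := {φ : FF →+* ℂ // φ σ.w = omC}
/-- The embedding at a place. -/
def em (w : Pl) : FF →+* ℂ := w.1
/-- The number of complex places. -/
def rk : ℕ := Fintype.card Pl
/-- The absolute value of the norm. -/
def Ninf (x : FF) : ℝ := ∏ w : Pl, ‖em w x‖ ^ 2
/-- The places dividing `s`. -/
abbrev SP : Type := {v : HS FF // (σ.s : 𝓞 FF) ∈ v.asIdeal}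
instance : Finite SP := by
  have h : (Ideal.span {(σ.s : 𝓞 FF)} : Ideal (𝓞 FF)) ≠ 0 := by
    simpa using σ.s_pos.ne'
  exact ((Ideal.finite_factors h).subset fun v (hv : _ ∈ v.asIdeal) =>
    Ideal.dvd_span_singleton.2 hv).to_subtype
instance : Fintype SP := Fintype.ofFinite _
/-- The product of the `S`-adic absolute values (junk value `1` at `0`). -/
def sS (x : FF) : ℝ := ∏ v : SP, (qv v.1 : ℝ) ^ (-ord v.1 x)
/-- The norm away from `S`. -/
def nm (x : E) : ℕ := Nat.card (E ⧸ Ideal.span {x})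
/-- `c` lies in the class of `a`: `c / a = 1` modulo `s ^ 2`, `S`-adically. -/
def Cl (a c : FF) : Prop := a ≠ 0 ∧ (c / a - 1) / ss ^ 2 ∈ OS

/-- The archimedean additive character, trivial on the integers. -/
def psiV (x : FF) : ℂ := ∏ w : Pl, psi (em w x)
/-- A principal part at `S`. -/
def rp (x : FF) : FF := if h : ∃ y : E, x - y ∈ OS then (h.choose : FF) else 0
/-- The additive character that is trivial on `E`. -/
def Psi (x : FF) : ℂ := psiV (x - rp x)
/-- The `S`-adic additive character; `Psi = psiV * psiS`. -/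
def psiS (x : FF) : ℂ := psiV (-rp x)
/-- `Psi (A / B)`. -/
def psf (A B : E) : ℂ := Psi ((A : FF) / (B : FF))
/-- A generator of the `S`-adic different. -/
def del : FF :=
  if h : ∃ δ : FF, δ ≠ 0 ∧ ∀ x : FF, (∀ y ∈ OS, psiS (x * y) = 1) ↔ x * δ ∈ OS then h.choose else 1
/-- The lattice of integers. -/
def latO : Submodule ℤ (Pl → ℂ) :=
  Submodule.span ℤ (Set.range fun x : 𝓞 FF => fun w : Pl => em w (x : FF))
/-- The inverse covolume for the self-dual measure. -/
def kap : ℝ := ((2 / √3) ^ rk * ZLattice.covolume latO)⁻¹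

/-- Chosen prime elements, one for each prime ideal of `E`. -/
abbrev P : Type := {p : E // Prime p ∧ Quot.out (Associates.mk p) = p}

/-- Exact quotient `x / y` (junk `0` if `y` does not divide `x`). -/
def dv (x y : E) : E := if h : y ∣ x then h.choose else 0
/-- An inverse of `x` modulo `m` (junk `0` if there is none). -/
def inv (m x : E) : E := if h : ∃ y, m ∣ x * y - 1 then h.choose else 0
/-- The `p`-adic valuation (junk for `x = 0`). -/
def vp (p x : E) : ℕ := multiplicity p x
/-- The part of `x` prime to `p`. -/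
def up (p x : E) : E := dv x (p ^ vp p x)
/-- The chosen primes dividing `c` (empty for `c = 0`). -/
def fac (c : E) : Finset P :=
  if h : c ≠ 0 ∧ {p : P | p.1 ∣ c}.Finite then h.2.toFinset else ∅
/-- The squarefree element attached to a finite set of chosen primes. -/
def pr (s : Finset P) : E := ∏ p ∈ s, p.1
/-- Its norm, as a real number. -/
def Ns (s : Finset P) : ℝ := nm (pr s)
/-- The primary part: the product of chosen primes associated to `x`. -/
def pm (x : E) : E := ∏ p ∈ fac x, p.1 ^ vp p.1 x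
/-- The unit part. -/
def un (x : E) : E := dv x (pm x)
/-- Primary elements: products of chosen primes. -/
def Prim (x : E) : Prop := x ≠ 0 ∧ pm x = x
/-- Representatives of the units modulo `n`-th powers; `1` is one of them. -/
def IsU (n : ℕ) (u : E) : Prop :=
  IsUnit u ∧ (if ∃ e : Eˣ, u = e ^ n then u = 1
    else u = Quot.out (Quot.mk (fun x y : E => ∃ e : Eˣ, y = e ^ n * x) u))
/-- Representatives of the nonzero elements of norm at most `R` modulo sixth powers of units. -/
def ball (R : ℝ) : Finset E :=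
  if h : {x : E | x ≠ 0 ∧ (nm x : ℝ) ≤ R ∧ IsU 6 (un x)}.Finite then h.toFinset else ∅
/-- Primary elements of norm at most `R`. -/
def prim (R : ℝ) : Finset E :=
  if h : {x : E | Prim x ∧ (nm x : ℝ) ≤ R}.Finite then h.toFinset else ∅
/-- Squarefree primary elements of norm at most `R`. -/
def sqf (R : ℝ) : Finset (Finset P) :=
  if h : {s : Finset P | Ns s ≤ R}.Finite then h.toFinset else ∅
/-- Nonzero elements of `E ∩ b OS` in a box. -/
def box (b : FF) (T : Pl → ℝ) : Finset E :=
  if h : {x : E | x ≠ 0 ∧ (x : FF) / b ∈ OS ∧ ∀ w, ‖em w x‖ ^ 2 ≤ T w}.Finite then h.toFinset else ∅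

/-- `f` is periodic modulo `c`. -/
def Per (c : E) (f : E → ℂ) : Prop := ∀ x y, c ∣ x - y → f x = f y
/-- `F` is periodic modulo `c` in both variables. -/
def Per2 (c : E) (F : E → E → ℂ) : Prop :=
  ∀ x x' y y', c ∣ x - x' → c ∣ y - y' → F x y = F x' y'
/-- A system of representatives modulo `c`. -/
def reps (c : E) : Finset E :=
  if h : (Set.range fun x : E ⧸ Ideal.span {c} => Quotient.out x).Finite then h.toFinset else ∅
/-- Sum over the residues modulo `c`. -/
def rsum (c : E) (f : E → ℂ) : ℂ := ∑ x ∈ reps c, f x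
/-- Double sum over the residues modulo `c`. -/
def rsum2 (c : E) (F : E → E → ℂ) : ℂ := rsum c fun x => rsum c fun y => F x y

/-- Cubic residue symbol. -/
def c3 (p : P) (x : E) : ℂ :=
  if p.1 ∣ x then 0
  else if p.1 ∣ x ^ ((nm p.1 - 1) / 3) - 1 then 1
  else if p.1 ∣ x ^ ((nm p.1 - 1) / 3) - om then omC else omC ^ 2
/-- Quadratic residue symbol. -/
def c2 (p : P) (x : E) : ℂ :=
  if p.1 ∣ x then 0 else if ∃ y, p.1 ∣ x - y ^ 2 then 1 else -1
/-- Sextic residue symbol (`c6^2 = c3`, `c6^3 = c2`). -/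
def c6 (p : P) (x : E) : ℂ := c3 p x ^ 2 * c2 p x
/-- Complex conjugate family. -/
def cj (χ : P → E → ℂ) (p : P) (x : E) : ℂ := conj (χ p x)

/-- `f` is a multiplicative character modulo the prime `p` (possibly the trivial one). -/
structure Mc (p : P) (f : E → ℂ) : Prop where
  mul : ∀ x y, f (x * y) = f x * f y
  per : Per p.1 f
  zero : ∀ x, p.1 ∣ x → f x = 0
  norm : ∀ x, ¬ p.1 ∣ x → ‖f x‖ = 1
/-- `f` is nontrivial modulo `p`. -/
def Nt (p : P) (f : E → ℂ) : Prop := ∃ x, ¬ p.1 ∣ x ∧ f x ≠ 1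
/-- A family of nontrivial characters. -/
structure Ch (χ : P → E → ℂ) : Prop where
  mc : ∀ p, Mc p (χ p)
  nt : ∀ p : P, Nt p (χ p)

/-- Jacobi type symbol with squarefree denominator. -/
def xs (χ : P → E → ℂ) (s : Finset P) (n : E) : ℂ := ∏ p ∈ s, χ p n
/-- Jacobi type symbol with arbitrary denominator. -/
def xv (χ : P → E → ℂ) (c n : E) : ℂ := ∏ p ∈ fac c, χ p n ^ vp p.1 c
/-- Gauss sum for a generator `c` of the ideal of `s`. -/
def gsE (χ : P → E → ℂ) (s : Finset P) (c : E) : ℂ := rsum c fun y => xs χ s y * psf y c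
/-- Gauss sum. -/
def gs (χ : P → E → ℂ) (s : Finset P) : ℂ := gsE χ s (pr s)
/-- Normalised Gauss sum for a generator `c`. -/
def gamE (χ : P → E → ℂ) (s : Finset P) (c : E) : ℂ := gsE χ s c / (√(Ns s) : ℝ)
/-- Reciprocity in the form used after Poisson summation. -/
def Rec (χ : P → E → ℂ) : Prop :=
  ∀ (c c' : Finset P) (x x' : E), Disjoint c c' → Associated x (pr c) → Associated x' (pr c') →
    Cl x x' → xs χ c x' * conj (xs χ c' x) * xs χ c' (-1) = 1
/-- The symbols do not see units in the trivial class. -/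
def Uni (χ : P → E → ℂ) : Prop := ∀ (s : Finset P) (u : E), IsUnit u → Cl 1 u → xs χ s u = 1
/-- Moebius function. -/
def mu (s : Finset P) : ℂ := (-1) ^ s.card

/-- The `q`-component of `Psi (A / B)`, `q` a prime. -/
def psq (q A B : E) : ℂ := psf (A * inv (q ^ vp q B) (up q B)) (q ^ vp q B)
/-- Tame cubic Hilbert symbol. -/
def hs (p : P) (a b : E) : ℂ :=
  c3 p (up p.1 b) ^ vp p.1 a * conj (c3 p (up p.1 a)) ^ vp p.1 b
/-- Product of the tame symbols. -/
def H (a b : E) : ℂ := ∏ p ∈ fac (a * b), hs p a b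
/-- The conjugate cubic Gauss sum at a prime. -/
def G3 (p : P) : ℂ := rsum p.1 fun y => conj (c3 p y) * psf y p.1
/-- Local theta coefficient. -/
def Tp (p : P) (c x : E) : ℂ :=
  if vp p.1 c % 3 = 2 ∨ ¬ p.1 ^ (2 * (vp p.1 c / 3) + vp p.1 c % 3) ∣ x then 0
  else (nm p.1 : ℂ) ^ (2 * (vp p.1 c / 3)) *
    (if vp p.1 c % 3 = 0 then 1 else conj (c3 p (up p.1 c)) * G3 p)
/-- Local theta section. -/
def phip (p : P) (c d x : E) : ℂ :=
  if d = 0 ∨ vp p.1 c ≤ vp p.1 d then Tp p c x
  else hs p c d * psq p.1 (x ^ 3) (c * d) * Tp p d x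
/-- Global theta section. -/
def phig (c d x : E) : ℂ := ∏ p ∈ fac c, phip p c d x
/-- Theta coefficient. -/
def Tg (c : E) : ℂ := phig c 0 0

/-- Locally constant compactly supported functions at `S`, of level `k`. -/
def SB (k : ℕ) (f : FF → ℂ) : Prop :=
  (∀ x, f x ≠ 0 → ss ^ k * x ∈ OS) ∧ ∀ x y, (x - y) / ss ^ k ∈ OS → f x = f y
/-- The same in two variables. -/
def SB2 (k : ℕ) (f : FF → FF → ℂ) : Prop :=
  (∀ x y, f x y ≠ 0 → ss ^ k * x ∈ OS ∧ ss ^ k * y ∈ OS) ∧
    ∀ x x' y y', (x - x') / ss ^ k ∈ OS → (y - y') / ss ^ k ∈ OS → f x y = f x' y'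
/-- Representatives of `s^(-k) O / s^k O`. -/
def sreps (k : ℕ) : Finset FF :=
  if h : (Set.range fun x : 𝓞 FF ⧸ Ideal.span {(σ.s : 𝓞 FF) ^ (2 * k)} =>
      ((Quotient.out x : 𝓞 FF) : FF) / ss ^ k).Finite then h.toFinset else ∅
/-- The `S`-adic integral, `OS` has mass one (junk `0` if `f` has no level). -/
def sint (f : FF → ℂ) : ℂ :=
  if h : ∃ k, SB k f then (sS (ss ^ Nat.find h) : ℝ) * ∑ x ∈ sreps (Nat.find h), f x else 0
/-- The double `S`-adic integral. -/
def sint2 (f : FF → FF → ℂ) : ℂ := sint fun x => sint fun y => f x y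
/-- The self-dual `S`-adic Fourier transform. -/
def fts (f : FF → ℂ) (ξ : FF) : ℂ := (kap : ℝ) * sint fun y => f y * psiS (-(y * ξ))
/-- The same in two variables. -/
def fts2 (f : FF → FF → ℂ) (ξ η : FF) : ℂ :=
  ((kap ^ 2 : ℝ) : ℂ) * sint2 fun y z => f y z * psiS (-(y * ξ + z * η))
/-- Indicator of `b OS`. -/
def il (b x : FF) : ℂ := if x / b ∈ OS then 1 else 0
/-- Indicator of a class. -/
def ic (a x : FF) : ℂ := if Cl a x then 1 else 0

end NQ
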