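import Vale.Agent.NQ.Stm1

/-! Definitions: scales, smooth sums, the Voronoi transform, the mean values. -/

noncomputable section
namespace NQ
open Complex MeasureTheory NumberField
open scoped ComplexConjugate Classical ContDiff

variable [σ : St]

/-- A scale: a class `a` and a size `T w` at each complex place. -/
structure Sc where
  a : FF
  T : Pl → ℝ
/-- Valid scales. -/
def Sc.OK (X : Sc) : Prop := X.a ≠ 0 ∧ ∀ w, 0 < X.T w
/-- The size of a scale (the typical norm). -/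
def Sc.sz (X : Sc) : ℝ := sS X.a * ∏ w, X.T w
/-- Division of a scale by an element. -/
def Sc.dv (X : Sc) (y : FF) : Sc := ⟨X.a / y, fun w => X.T w / ‖em w y‖ ^ 2⟩
/-- `16 ^ rk`. -/
def cW : ℝ := 16 ^ rk
/-- The weight of an element. -/
def Kx (X : Sc) (z : Pl → ℂ) (c : E) : ℂ := ic X.a c * ∏ w, wt (‖em w c‖ ^ 2 / X.T w) (z w)
/-- A finite set that contains the support of the weight. -/
def bx (X : Sc) : Finset E := box X.a fun w => 16 * X.T w
/-- The weight of a squarefree ideal: the sum over its generators. -/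
def Kw (X : Sc) (z : Pl → ℂ) (s : Finset P) : ℂ := ∑ c ∈ bx X with Associated c (pr s), Kx X z c
/-- Smooth sum over squarefree elements of a class. -/
def S (β : Finset P → ℂ) (X : Sc) (z : Pl → ℂ) : ℂ :=
  ∑ c ∈ bx X with Squarefree c, β (fac c) * Kx X z c
/-- The ideal of `s` has a generator in the class of `a`. -/
def HasCl (a : FF) (s : Finset P) : Prop := ∃ c : E, Associated c (pr s) ∧ Cl a c
/-- A generator in the class of `a`, if there is one. -/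
def el (a : FF) (s : Finset P) : E := if h : HasCl a s then h.choose else pr s
/-- Normalised Gauss sum for a generator in the class of `a`. -/
def gamA (χ : P → E → ℂ) (a : FF) (s : Finset P) : ℂ := gamE χ s (el a s)
/-- Size of the spectral parameter. -/
def Tb (z : Pl → ℂ) : ℝ := ∏ w, (1 + ‖z w‖)
/-- Purely imaginary parameter. -/
def iT (τ : Pl → ℝ) : Pl → ℂ := fun w => τ w * I
/-- An element of `E` in the class of `a`. -/
def ce (a : FF) : E := if h : ∃ c : E, Cl a c then h.choose else 0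

/-- Standing hypotheses of the Voronoi formula. -/
structure VP (a b : FF) (q u η β : E) (w : Pl → ℂ → ℂ) (Y : Pl → ℝ) : Prop where
  ha : a ≠ 0
  hb : b ≠ 0
  hab : b ^ 3 / a ∈ OS
  hq : q ≠ 0
  det : u * η - β * q = 1
  adm : ∀ v, Adm (w v)
  hY : ∀ v, 0 < Y v
/-- The sum on the left of the Voronoi formula. -/
def VL (a : FF) (f : E → ℂ) (w : Pl → ℂ → ℂ) (Y : Pl → ℝ) : ℂ :=
  ∑ c ∈ box a (fun v => 4 * Y v ^ 2), ic a c * f c *
    ((∏ v, w v (em v c / Y v) * kk (em v c / Y v)) * Tg c / (nm c : ℂ))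
def Sig (a b : FF) (q u : E) (w : Pl → ℂ → ℂ) (Y : Pl → ℝ) (X : ℝ) : ℂ :=
  ∑ c ∈ box a (fun v => 4 * Y v ^ 2), ic a c * psf (c * u) q * (∏ v, w v (em v c / Y v)) *
    ∑' x : E × E, phig c x.1 x.2 * (ic 1 x.1 * il b x.2) *
      ∏ v, a0 (em v x.1 / ((X ^ 3 / Y v : ℝ) : ℂ)) * b0 (em v x.2 / X)
        * psi (-(em v x.2 ^ 3 / (em v c * em v x.1)))
/-- The lattice of the dual variable. -/
def Bd (b : FF) : FF := 1 / (3 * b * del)
def G1 (a b : FF) (q u : E) (w : Pl → ℂ → ℂ) (Y : Pl → ℝ) (X : ℝ) (d δ ξ : E) : ℂ :=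
  ic 1 d * (nm d : ℂ)⁻¹ * phig d δ ξ * fts (ic a) (-((u * d + q * δ : E) / (d * q : FF)))
    * il (Bd b) ξ * ∏ v, a0 (em v d / ((X ^ 3 / Y v : ℝ) : ℂ))
      * ft (w v) (-(Y v * em v ((u * d + q * δ : E) / (d * q : FF)))) * ft b0 (3 * X * em v (ξ / d))
/-- The `S`-adic oscillatory integral. -/
def Lt (B q C δ ζ : FF) : ℂ :=
  sint2 fun d ξ => ic 1 d * il B ξ * psiS ((ξ ^ 3 * q / d + d * δ / q - 3 * ξ * ζ) / C)
/-- The dual variable. -/
def zd (q : E) (Y : Pl → ℝ) (δ : E) (v : Pl) : ℂ := em v δ * Y v / em v q ^ 2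
def G2 (a b : FF) (q : E) (w : Pl → ℂ → ℂ) (Y : Pl → ℝ) (X : ℝ) (δ C ζ : E) : ℂ :=
  if C = 0 then 0 else
    H C q * fts (ic a) (-(C / q)) * Lt (Bd b) q C δ ζ * phig C δ ζ / (nm C : ℂ)
      * ∏ v, Ia (w v) (em v C / (em v q * ((X ^ 3 / Y v ^ 2 : ℝ) : ℂ))) (zd q Y δ v)
          (em v ζ / (em v q * ((X / Y v : ℝ) : ℂ)))
/-- The `S`-adic weight after the last swap. -/
def Al (a b : FF) (q δ : E) (C ζ : FF) : ℂ :=
  H (ce C) (q * δ) * fts (ic a) (-(C / q)) * Lt (Bd b) q C δ ζ * psiS (ζ ^ 3 / (C * δ))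
    / (sS C : ℝ)
/-- Normalised finite Fourier transform. -/
def fh (q : E) (f : E → ℂ) (u : E) : ℂ :=
  (nm q : ℂ)⁻¹ * rsum q fun y => f y * psf (-(y * u)) q
/-- `f` is periodic with Fourier transform supported on the units. -/
def Good (q : E) (f : E → ℂ) : Prop := Per q f ∧ ∀ u, ¬ IsCoprime u q → fh q f u = 0
/-- The finite dual of `f`. -/
def Dq (q : E) (f : E → ℂ) (δ : E) : ℂ :=
  rsum q fun u => fh q f u * xv c3 q u * psf (-(inv q u * δ)) q

/-- Norm of the radical. -/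
def Rr (ρ : E) : ℝ := Ns (fac ρ)
def cA (ρ n : E) (s : Finset P) : ℂ := mu s * xs c6 s n * conj (xs c6 s ρ)
def cAK (ρ : E) (K : Finset P) (n : E) (s : Finset P) : ℂ := if Disjoint s K then cA ρ n s else 0
def cH (a : FF) (ρ m : E) (s : Finset P) : ℂ :=
  mu s * gamA c6 a s * conj (xs c6 s m) * conj (xs c6 s ρ)
def cB (a : FF) (ρ : E) (K : Finset P) (t m : E) (s : Finset P) : ℂ :=
  if Disjoint s K then cH a ρ m s * xs c6 s t else 0
/-- Twisted sums of theta coefficients. -/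
def Th (n : E) (X : Sc) (z : Pl → ℂ) : ℂ :=
  ∑ c ∈ bx X, Tg c * ang c / (√(nm c : ℝ) : ℝ) * conj (xv c6 c n) * Kx X z c
/-- Coefficients after Poisson summation; `a` is the class of the new variable. -/
def dual (χ : P → E → ℂ) (β : Finset P → ℂ) (a : FF) (d f e : Finset P) (m : E) (c : Finset P) :
    ℂ :=
  if Disjoint c (d ∪ e) then
    β (d ∪ e ∪ c) * xs χ c (pr f) * gamA χ a c * xs χ e (el a c) * xs χ c (pr e) * conj (xs χ c m)
  else 0
/-- The scale of the new variable. -/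
def Sc.de (X : Sc) (d e : Finset P) : Sc := X.dv (pr d * pr e : E)
/-- Dual length. -/
def M0 (X N : ℝ) (d f : Finset P) : ℝ := (X / Ns d) ^ 2 * Ns f / N
/-- The dual lattice and the dual lengths at the places. -/
def Sc.du (X : Sc) (N1 : ℝ) (d f : Finset P) : Sc :=
  ⟨(X.a / pr d) ^ 2 * pr f / del,
    fun w => (X.T w / ‖em w (pr d)‖ ^ 2) ^ 2 * ‖em w (pr f)‖ ^ 2 / N1⟩
def bil (χ : P → E → ℂ) (β : Finset P → ℂ) (d f e : Finset P) (m : E) (X : Sc) (N1 : ℝ)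
    (z : Pl → ℂ) : ℂ :=
  ∑ c ∈ bx (X.de d e) with Squarefree c, ∑ c' ∈ bx (X.de d e) with Squarefree c',
    dual χ β (X.de d e).a d f e m (fac c) * Kx (X.de d e) (fun w => z w - 1 / 2) c
      * conj (dual χ β (X.de d e).a d f e m (fac c') * Kx (X.de d e) (fun w => z w - 1 / 2) c')
      * ∏ w, sm 1 (fun v => (Vg (Real.exp v) : ℝ)) (Real.log (‖em w m‖ ^ 2 / (X.du N1 d f).T w
          / (‖em w c‖ ^ 2 / (X.de d e).T w * (‖em w c'‖ ^ 2 / (X.de d e).T w))))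
/-- The sum over the Poisson parameters, with its weight. -/
def PSum (X N : ℝ) (F : Finset P → Finset P → Finset P → ℝ) : ℝ :=
  ∑ d ∈ sqf (cW * X), ∑ f ∈ d.powerset, ∑ e ∈ sqf (cW * X) with Disjoint d e,
    N * Ns d / (X * Ns f) * F d f e

/-- Representatives of the nonzero elements modulo squares. -/
def IsA (a : E) : Prop := Squarefree a ∧ IsU 2 (un a)
def calA (A : ℝ) : Finset E :=
  if h : {a : E | IsA a ∧ (nm a : ℝ) ≤ A}.Finite then h.toFinset else ∅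
/-- The measure of the set of `y` with `y ^ 2 / x` in `OS`. -/
def vl (x : FF) : ℝ := ∏ v : SP, (qv v.1 : ℝ) ^ (-((ord v.1 x + 1) / 2))
def Del (x : FF) (u : Pl → ℝ) : ℝ :=
  (∑' y : E, if y ≠ 0 ∧ (y : FF) ^ 2 / x ∈ OS then ∏ w, Vg (u w * ‖em w y‖ ^ 4) else 0)
    - kap * vl x * ∏ w, cDel * u w ^ (-(1 / 2) : ℝ)
/-- Indicator of coprimality. -/
def cop (d : Finset P) (n : E) : ℂ := if ∀ p ∈ d, ¬ p.1 ∣ n then 1 else 0
/-- The Gaussian weight on a lattice. -/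
def Gw (b : FF) (t : Pl → ℝ) (m : E) : ℂ := il b m * ∏ w, ((Vg (‖em w m‖ ^ 2 / t w) : ℝ) : ℂ)
def T1 (b : FF) (t : Pl → ℝ) (d c c' : Finset P) : ℂ :=
  ∑' m : E, if m = 0 then 0 else Gw b t m * (cop d m * xs c2 c m * xs c2 c' m)
def T2 (A : ℝ) (b : FF) (t : Pl → ℝ) (d c c' : Finset P) : ℂ :=
  ∑ a ∈ calA A, ∑' y : E, if y = 0 then 0 else Gw b t (a * y ^ 2)
    * (cop d (a * y ^ 2) * xs c2 c (a * y ^ 2) * xs c2 c' (a * y ^ 2))
/-- `k` is the modulus, a generator of the ideal of `c ∪ c'`. -/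
def E1 (A : ℝ) (b : FF) (t : Pl → ℝ) (d c c' : Finset P) (k : FF) : ℂ :=
  ∑ f ∈ d.powerset, mu f * ((kap * sS b * (∏ w, t w) / (Ns f * √(Ns c * Ns c')) : ℝ) : ℂ) *
    ∑ a ∈ calA A, xs c2 c a * xs c2 c' a * ∑ e1 ∈ c.powerset, ∑ e2 ∈ c'.powerset, mu e1 * mu e2 *
      (Del (k * (pr f : FF) ^ 2 / (b * del * a * ((pr (f \ fac a) * pr e1 * pr e2 : E) : FF) ^ 2))
        (fun w => ‖em w a‖ ^ 2 * ‖em w (pr (f \ fac a) * pr e1 * pr e2 : E)‖ ^ 4 * t w
          / (‖em w (pr f)‖ ^ 4 * ‖em w k‖ ^ 2)) : ℝ)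
def E2 (A : ℝ) (b : FF) (t : Pl → ℝ) (d c c' : Finset P) (_k : FF) : ℂ :=
  ∑ a ∈ calA A, cop d a * xs c2 c a * xs c2 c' a *
    ∑ e0 ∈ d.powerset, ∑ e1 ∈ c.powerset, ∑ e2 ∈ c'.powerset, mu e0 * mu e1 * mu e2 *
      (Del (b / (a * ((pr e0 * pr e1 * pr e2 : E) : FF) ^ 2))
        (fun w => ‖em w a‖ ^ 2 * ‖em w (pr e0 * pr e1 * pr e2 : E)‖ ^ 4 / t w) : ℝ)

/-- The logarithmic embedding. -/
def lg (x : FF) : Pl → ℝ := fun w => Real.log (‖em w x‖ ^ 2)
/-- The gamma factor of one complex place. -/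
def GG (z : ℂ) : ℂ := ((2 * Real.pi / √3 : ℝ) : ℂ) ^ (-z) * Complex.Gamma z

end NQ

noncomputable section
namespace NQ
open Complex NumberField

/-- The Dedekind zeta function, as a Dirichlet series. -/
def zeta (F : Type) [Field F] [NumberField F] (z : ℂ) : ℂ :=
  ∑' J : {J : Ideal (𝓞 F) // J ≠ ⊥}, (Ideal.absNorm J.1 : ℂ) ^ (-z)
/-- The smoothing kernel. -/
def kw (y : ℝ) : ℝ := Real.exp (-(Real.log y) ^ 2 / 4)
/-- The main term. -/
def mm (x : ℝ) : ℝ := ∫ y in Set.Ioi (1 : ℝ), kw (y / x)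
/-- The smoothed Chebyshev function. -/
def cheb (F : Type) [Field F] [NumberField F] (x : ℝ) : ℝ :=
  ∑' i : HS F × ℕ, Real.log (qv i.1) * kw ((qv i.1 : ℝ) ^ (i.2 + 1) / x)

end NQ
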