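import Vale.Agent.NQ.Plc

noncomputable section
namespace NQ
open Complex MeasureTheory NumberField Filter
open scoped ComplexConjugate Classical ContDiff Topology

variable [σ : St]

/-- `f` has some level. -/
def HSB (f : FF → ℂ) : Prop := ∃ k, SB k f
def HSB2 (f : FF → FF → ℂ) : Prop := ∃ k, SB2 k f
/-- `g` is uniformly locally constant on bounded sets. -/
def LCb (g : FF → ℂ) : Prop := ∀ j : ℕ, ∃ k : ℕ, ∀ x y, ss ^ j * x ∈ OS → ss ^ j * y ∈ OS →
  (x - y) / ss ^ k ∈ OS → g x = g y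

theorem SInt_pow_ne (k : ℕ) : (ss : FF) ^ k ≠ 0 := pow_ne_zero _ ss_ne_zero

theorem SInt_div_mono {k l : ℕ} {x : FF} (h : x / ss ^ l ∈ OS) (hkl : k ≤ l) : x / ss ^ k ∈ OS := by
  refine div_mem_OS_trans (SInt_pow_ne l) h ?_
  obtain ⟨d, rfl⟩ := Nat.exists_eq_add_of_le hkl
  have : (ss : FF) ^ (k + d) / ss ^ k = ss ^ d := by
    rw [pow_add, mul_div_cancel_left₀ _ (SInt_pow_ne k)]
  rw [this]
  exact OS.pow_mem ss_mem_OS d

theorem SInt_symm {x y b : FF} (h : (x - y) / b ∈ OS) : (y - x) / b ∈ OS := by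
  have : (y - x) / b = -((x - y) / b) := by ring
  rw [this]
  exact OS.neg_mem h

theorem SInt_trans {x y z b : FF} (h : (x - y) / b ∈ OS) (h' : (y - z) / b ∈ OS) :
    (x - z) / b ∈ OS := by
  have : (x - z) / b = (x - y) / b + (y - z) / b := by ring
  rw [this]
  exact OS.add_mem h h'

theorem SInt_refl (x b : FF) : (x - x) / b ∈ OS := by
  rw [sub_self, zero_div]
  exact OS.zero_mem

theorem SInt_exists_div (c : FF) : ∃ k : ℕ, ∀ l, k ≤ l → ss ^ l / c ∈ OS := by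
  obtain ⟨k, hk⟩ := exists_pow_mem_OS c⁻¹
  exact ⟨k, fun l hl => by rw [div_eq_mul_inv]; exact pow_mul_mem_OS hk hl⟩

theorem SB.mono {k l : ℕ} {f : FF → ℂ} (h : SB k f) (hkl : k ≤ l) : SB l f :=
  ⟨fun x hx => pow_mul_mem_OS (h.1 x hx) hkl, fun x y hxy => h.2 x y (SInt_div_mono hxy hkl)⟩
theorem SB2.mono {k l : ℕ} {f : FF → FF → ℂ} (h : SB2 k f) (hkl : k ≤ l) : SB2 l f :=
  ⟨fun x y hx => ⟨pow_mul_mem_OS (h.1 x y hx).1 hkl, pow_mul_mem_OS (h.1 x y hx).2 hkl⟩,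
    fun x x' y y' hx hy => h.2 x x' y y' (SInt_div_mono hx hkl) (SInt_div_mono hy hkl)⟩

theorem SInt_level {b c : FF} (hb : b ≠ 0) : ∃ k : ℕ, (∀ x, x / b ∈ OS → ss ^ k * x ∈ OS) ∧
    ∀ x, x / ss ^ k ∈ OS → x / c ∈ OS := by
  obtain ⟨k1, hk1⟩ := exists_pow_mem_OS b
  obtain ⟨k2, hk2⟩ := SInt_exists_div c
  refine ⟨max k1 k2, fun x hx => ?_, fun x hx => ?_⟩
  · have : ss ^ max k1 k2 * x = (ss ^ max k1 k2 * b) * (x / b) := by field_simp
    rw [this]
    exact OS.mul_mem (pow_mul_mem_OS hk1 (le_max_left _ _)) hx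
  · exact div_mem_OS_trans (SInt_pow_ne _) hx (hk2 _ (le_max_right _ _))

/-- A convenient criterion. -/
theorem hSB_of {f : FF → ℂ} {b c : FF} (hb : b ≠ 0) (hc : c ≠ 0) (h1 : ∀ x, f x ≠ 0 → x / b ∈ OS)
    (h2 : ∀ x y, (x - y) / c ∈ OS → f x ≠ 0 → f y = f x) : HSB f := by
  have _ := hc
  obtain ⟨k, hk1, hk2⟩ := SInt_level (c := c) hb
  refine ⟨k, fun x hx => hk1 x (h1 x hx), fun x y hxy => ?_⟩
  have hc' := hk2 _ hxy
  by_cases hx : f x = 0
  · by_cases hy : f y = 0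
    · rw [hx, hy]
    · exact h2 y x (SInt_symm hc') hy
  · exact (h2 x y hc' hx).symm
theorem hSB2_of {f : FF → FF → ℂ} {b c : FF} (hb : b ≠ 0) (hc : c ≠ 0)
    (h1 : ∀ x y, f x y ≠ 0 → x / b ∈ OS ∧ y / b ∈ OS)
    (h2 : ∀ x x' y y', (x - x') / c ∈ OS → (y - y') / c ∈ OS → f x y ≠ 0 → f x' y' = f x y) :
    HSB2 f := by
  have _ := hc
  obtain ⟨k, hk1, hk2⟩ := SInt_level (c := c) hb
  refine ⟨k, fun x y hx => ⟨hk1 x (h1 x y hx).1, hk1 y (h1 x y hx).2⟩, fun x x' y y' hx hy => ?_⟩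
  have hx' := hk2 _ hx
  have hy' := hk2 _ hy
  by_cases h : f x y = 0
  · by_cases h' : f x' y' = 0
    · rw [h, h']
    · exact h2 x' x y' y (SInt_symm hx') (SInt_symm hy') h'
  · exact (h2 x x' y y' hx' hy' h).symm

theorem SInt_il_ne {b x : FF} (h : il b x ≠ 0) : x / b ∈ OS := by
  unfold il at h
  by_contra h'
  exact h (if_neg h')

theorem SInt_il_congr {b x y : FF} (h : (x - y) / b ∈ OS) : il b x = il b y := by
  unfold il
  refine if_congr ⟨fun hx => ?_, fun hy => ?_⟩ rfl rfl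
  · have : y / b = x / b - (x - y) / b := by ring
    rw [this]
    exact OS.sub_mem hx h
  · have : x / b = y / b + (x - y) / b := by ring
    rw [this]
    exact OS.add_mem hy h

theorem hSB_il {b : FF} (hb : b ≠ 0) : HSB (il b) :=
  hSB_of hb hb (fun _ hx => SInt_il_ne hx) fun _ _ h _ => (SInt_il_congr h).symm

theorem HSB.affine {f : FF → ℂ} (hf : HSB f) {a : FF} (ha : a ≠ 0) (c : FF) :
    HSB fun x => f (a * x + c) := by
  obtain ⟨k, hk⟩ := hf
  obtain ⟨l, hl⟩ := exists_pow_mem_OS c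
  refine hSB_of (b := (ss ^ max k l * a)⁻¹) (c := ss ^ k / a)
    (inv_ne_zero (mul_ne_zero (SInt_pow_ne _) ha)) (div_ne_zero (SInt_pow_ne _) ha)
    (fun x hx => ?_) fun x y hxy _ => ?_
  · have h1 := pow_mul_mem_OS (hk.1 _ hx) (le_max_left k l)
    have h2 := pow_mul_mem_OS hl (le_max_right k l)
    have : x / (ss ^ max k l * a)⁻¹ = ss ^ max k l * (a * x + c) - ss ^ max k l * c := by
      rw [div_inv_eq_mul]; ring
    rw [this]
    exact OS.sub_mem h1 h2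
  · refine (hk.2 _ _ ?_).symm
    have : (a * x + c - (a * y + c)) / ss ^ k = (x - y) / (ss ^ k / a) := by
      have := SInt_pow_ne k
      field_simp
      ring
    rw [this]
    exact hxy

theorem ic_eq_il {a : FF} (ha : a ≠ 0) (x : FF) : ic a x = il (a * ss ^ 2) (x - a) := by
  unfold ic il
  exact if_congr (Cl_iff_sub ha) rfl rfl

theorem SInt_hSB_zero : HSB fun _ => 0 := ⟨0, fun _ h => (h rfl).elim, fun _ _ _ => rfl⟩

theorem hSB_ic (a : FF) : HSB (ic a) := by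
  by_cases ha : a = 0
  · have : ic a = fun _ => 0 := by
      funext x
      unfold ic
      exact if_neg fun h => h.1 ha
    rw [this]
    exact SInt_hSB_zero
  · have : ic a = fun x => il (a * ss ^ 2) (1 * x + -a) := by
      funext x
      rw [ic_eq_il ha, one_mul, sub_eq_add_neg]
    rw [this]
    exact (hSB_il (mul_ne_zero ha (SInt_pow_ne 2))).affine one_ne_zero _

theorem norm_il_le (b x : FF) : ‖il b x‖ ≤ 1 := by
  unfold il
  split_ifs <;> simp
theorem norm_ic_le (a x : FF) : ‖ic a x‖ ≤ 1 := by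
  unfold ic
  split_ifs <;> simp

theorem SInt_common {f g : FF → ℂ} (hf : HSB f) (hg : HSB g) : ∃ k, SB k f ∧ SB k g := by
  obtain ⟨k, hk⟩ := hf
  obtain ⟨l, hl⟩ := hg
  exact ⟨max k l, hk.mono (le_max_left _ _), hl.mono (le_max_right _ _)⟩

theorem SInt_SB_add {k : ℕ} {f g : FF → ℂ} (hf : SB k f) (hg : SB k g) :
    SB k fun x => f x + g x := by
  refine ⟨fun x hx => ?_, fun x y hxy => by simp only [hf.2 x y hxy, hg.2 x y hxy]⟩
  by_cases h : f x = 0
  · exact hg.1 x fun h' => hx (by simp only [h, h', add_zero])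
  · exact hf.1 x h

theorem SInt_SB_smul {k : ℕ} {f : FF → ℂ} (hf : SB k f) (c : ℂ) : SB k fun x => c * f x :=
  ⟨fun x hx => hf.1 x (right_ne_zero_of_mul hx), fun x y hxy => by simp only [hf.2 x y hxy]⟩

theorem HSB.add {f g : FF → ℂ} (hf : HSB f) (hg : HSB g) : HSB fun x => f x + g x := by
  obtain ⟨k, h1, h2⟩ := SInt_common hf hg
  exact ⟨k, SInt_SB_add h1 h2⟩

theorem HSB.mul_lcb {f g : FF → ℂ} (hf : HSB f) (hg : LCb g) : HSB fun x => f x * g x := by
  obtain ⟨k, hk⟩ := hf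
  obtain ⟨l, hl⟩ := hg k
  refine hSB_of (b := (ss ^ k)⁻¹) (c := ss ^ max k l) (inv_ne_zero (SInt_pow_ne _)) (SInt_pow_ne _)
    (fun x hx => ?_) fun x y hxy hx => ?_
  · rw [div_inv_eq_mul, mul_comm]
    exact hk.1 x (left_ne_zero_of_mul hx)
  · have h1 := hk.2 x y (SInt_div_mono hxy (le_max_left _ _))
    have h0 := left_ne_zero_of_mul hx
    have h2 := hl x y (hk.1 x h0) (hk.1 y (h1 ▸ h0)) (SInt_div_mono hxy (le_max_right _ _))
    simp only [h1, h2]

theorem HSB.lcb {f : FF → ℂ} (hf : HSB f) : LCb f := by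
  obtain ⟨k, hk⟩ := hf
  exact fun _ => ⟨k, fun x y _ _ h => hk.2 x y h⟩

theorem SB2.right {k : ℕ} {f : FF → FF → ℂ} (h : SB2 k f) (x : FF) : SB k (f x) :=
  ⟨fun y hy => (h.1 x y hy).2, fun y y' hy => h.2 x x y y' (SInt_refl _ _) hy⟩
theorem SB2.flip {k : ℕ} {f : FF → FF → ℂ} (h : SB2 k f) : SB2 k fun x y => f y x :=
  ⟨fun x y hx => (h.1 y x hx).symm, fun x x' y y' hx hy => h.2 y y' x x' hy hx⟩

theorem HSB.prod2 {f g : FF → ℂ} (hf : HSB f) (hg : HSB g) : HSB2 fun x y => f x * g y := by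
  obtain ⟨k, h1, h2⟩ := SInt_common hf hg
  exact ⟨k, fun x y h => ⟨h1.1 x (left_ne_zero_of_mul h), h2.1 y (right_ne_zero_of_mul h)⟩,
    fun x x' y y' hx hy => by simp only [h1.2 x x' hx, h2.2 y y' hy]⟩

theorem SInt_exists_int {x c : FF} (hx : x ∈ OS) (hc : c ∈ OS) (hc0 : c ≠ 0) :
    ∃ y : 𝓞 FF, (x - y) / c ∈ OS := by
  obtain ⟨y, -, hy⟩ := exists_approx_E (q := 1) one_ne_zero 0 x hc0
  have hy' : (y : FF) ∈ OS := by
    have : (y : FF) = x + c * ((y - x) / c) := by field_simp; ring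
    rw [this]
    exact OS.add_mem hx (OS.mul_mem hc hy)
  exact ⟨⟨y, integral_of_mem hy'⟩, SInt_symm hy⟩

theorem SInt_fin (k : ℕ) : (Set.range fun x : 𝓞 FF ⧸ Ideal.span {(σ.s : 𝓞 FF) ^ (2 * k)} =>
    ((Quotient.out x : 𝓞 FF) : FF) / ss ^ k).Finite := by
  have h : (Ideal.span {(σ.s : 𝓞 FF) ^ (2 * k)} : Ideal (𝓞 FF)) ≠ ⊥ := by
    rw [Ne, Ideal.span_singleton_eq_bot]
    exact pow_ne_zero _ (by exact_mod_cast σ.s_pos.ne')
  have := Ideal.finiteQuotientOfFreeOfNeBot _ h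
  exact Set.finite_range _

theorem SInt_mem_sreps {k : ℕ} {x : FF} : x ∈ sreps k ↔
    ∃ q : 𝓞 FF ⧸ Ideal.span {(σ.s : 𝓞 FF) ^ (2 * k)}, ((Quotient.out q : 𝓞 FF) : FF) / ss ^ k = x := by
  unfold sreps
  rw [dif_pos (SInt_fin k), Set.Finite.mem_toFinset]
  rfl

theorem SInt_span_iff {k : ℕ} {u : 𝓞 FF} :
    u ∈ Ideal.span {(σ.s : 𝓞 FF) ^ k} ↔ (u : FF) / ss ^ k ∈ OS := by
  have hs : (((σ.s : 𝓞 FF) ^ k : 𝓞 FF) : FF) = ss ^ k := by
    simp [ss]
  rw [Ideal.mem_span_singleton']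
  constructor
  · rintro ⟨a, rfl⟩
    have : ((a * (σ.s : 𝓞 FF) ^ k : 𝓞 FF) : FF) / ss ^ k = a := by
      rw [← hs]
      push_cast
      rw [mul_div_assoc, div_self, mul_one]
      have := SInt_pow_ne k
      rw [← hs] at this
      simpa using this
    rw [this]
    exact mem_OS_of_integral a.isIntegral_coe
  · intro h
    have hE : (u : FF) / ss ^ k ∈ RR FF σ.s := ⟨k, by
      have : (σ.s : FF) ^ k * ((u : FF) / ss ^ k) = u := mul_div_cancel₀ _ (SInt_pow_ne k)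
      rw [this]
      exact u.isIntegral_coe⟩
    obtain ⟨a, ha⟩ : ∃ a : 𝓞 FF, (a : FF) = (u : FF) / ss ^ k :=
      ⟨⟨_, integral_of_mem (x := ⟨_, hE⟩) h⟩, rfl⟩
    refine ⟨a, ?_⟩
    apply RingOfIntegers.coe_injective
    rw [map_mul]
    change (a : FF) * (((σ.s : 𝓞 FF) ^ k : 𝓞 FF) : FF) = (u : FF)
    rw [hs, ha, div_mul_cancel₀ _ (SInt_pow_ne k)]

theorem mem_sreps_lat {k : ℕ} {x : FF} (h : x ∈ sreps k) : IsIntegral ℤ (ss ^ k * x) := by
  obtain ⟨q, rfl⟩ := SInt_mem_sreps.1 h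
  rw [mul_div_cancel₀ _ (SInt_pow_ne k)]
  exact RingOfIntegers.isIntegral_coe _

theorem exists_srep {k : ℕ} {x : FF} (h : ss ^ k * x ∈ OS) : ∃ y ∈ sreps k, (x - y) / ss ^ k ∈ OS := by
  obtain ⟨y, hy⟩ := SInt_exists_int h (OS.pow_mem ss_mem_OS (2 * k)) (SInt_pow_ne _)
  set q : 𝓞 FF ⧸ Ideal.span {(σ.s : 𝓞 FF) ^ (2 * k)} := Ideal.Quotient.mk _ y with hq
  refine ⟨_, SInt_mem_sreps.2 ⟨q, rfl⟩, ?_⟩
  have h1 : y - Quotient.out q ∈ Ideal.span {(σ.s : 𝓞 FF) ^ (2 * k)} := by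
    rw [← Ideal.Quotient.eq, Ideal.Quotient.mk_out]
  have h2 := SInt_span_iff.1 h1
  rw [RingOfIntegers.coe_eq_algebraMap, map_sub] at h2
  have h3 := SInt_trans hy h2
  have : (x - ((Quotient.out q : 𝓞 FF) : FF) / ss ^ k) / ss ^ k
      = (ss ^ k * x - algebraMap (𝓞 FF) FF (Quotient.out q)) / ss ^ (2 * k) := by
    have := SInt_pow_ne k
    rw [show ss ^ (2 * k) = ss ^ k * ss ^ k by ring, ← RingOfIntegers.coe_eq_algebraMap]
    field_simp
  rw [this]
  exact h3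

theorem srep_unique {k : ℕ} {x y : FF} (hx : x ∈ sreps k) (hy : y ∈ sreps k)
    (h : (x - y) / ss ^ k ∈ OS) : x = y := by
  obtain ⟨q, rfl⟩ := SInt_mem_sreps.1 hx
  obtain ⟨r, rfl⟩ := SInt_mem_sreps.1 hy
  have h1 : Quotient.out q - Quotient.out r ∈ Ideal.span {(σ.s : 𝓞 FF) ^ (2 * k)} := by
    rw [SInt_span_iff]
    have : ((Quotient.out q - Quotient.out r : 𝓞 FF) : FF) / ss ^ (2 * k)
        = (((Quotient.out q : 𝓞 FF) : FF) / ss ^ k - ((Quotient.out r : 𝓞 FF) : FF) / ss ^ k)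
          / ss ^ k := by
      have := SInt_pow_ne k
      rw [show ss ^ (2 * k) = ss ^ k * ss ^ k by ring]
      push_cast
      field_simp
    rw [this]
    exact h
  rw [← Ideal.Quotient.eq, Ideal.Quotient.mk_out, Ideal.Quotient.mk_out] at h1
  rw [h1]

theorem HSB.bdd {f : FF → ℂ} (hf : HSB f) : ∃ M : ℝ, ∀ x, ‖f x‖ ≤ M := by
  obtain ⟨k, hk⟩ := hf
  refine ⟨∑ y ∈ sreps k, ‖f y‖, fun x => ?_⟩
  by_cases hx : f x = 0
  · rw [hx, norm_zero]
    exact Finset.sum_nonneg fun _ _ => norm_nonneg _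
  · obtain ⟨y, hy, hxy⟩ := exists_srep (hk.1 x hx)
    rw [hk.2 x y hxy]
    exact Finset.single_le_sum (f := fun y => ‖f y‖) (fun _ _ => norm_nonneg _) hy

theorem HSB2.bdd {f : FF → FF → ℂ} (hf : HSB2 f) : ∃ M : ℝ, ∀ x y, ‖f x y‖ ≤ M := by
  obtain ⟨k, hk⟩ := hf
  refine ⟨∑ p ∈ sreps k ×ˢ sreps k, ‖f p.1 p.2‖, fun x y => ?_⟩
  by_cases hx : f x y = 0
  · rw [hx, norm_zero]
    exact Finset.sum_nonneg fun _ _ => norm_nonneg _
  · obtain ⟨x', hx', hxx⟩ := exists_srep (hk.1 x y hx).1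
    obtain ⟨y', hy', hyy⟩ := exists_srep (hk.1 x y hx).2
    rw [hk.2 x x' y y' hxx hyy]
    exact Finset.single_le_sum (f := fun p : FF × FF => ‖f p.1 p.2‖) (a := (x', y'))
      (fun _ _ => norm_nonneg _) (Finset.mem_product.2 ⟨hx', hy'⟩)

/-- A system of representatives modulo `b OS` that covers the support of `f`. -/
def SIntSys {ι : Type*} (f : FF → ℂ) (b : FF) (T : Finset ι) (g : ι → FF) : Prop :=
  (∀ i ∈ T, ∀ j ∈ T, (g i - g j) / b ∈ OS → i = j) ∧ ∀ x, f x ≠ 0 → ∃ i ∈ T, (x - g i) / b ∈ OS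

theorem SIntSys.sum_eq {ι κ : Type*} {f : FF → ℂ} {b : FF} {T : Finset ι} {g : ι → FF}
    {U : Finset κ} {h : κ → FF} (hp : ∀ x y, (x - y) / b ∈ OS → f x = f y)
    (h1 : SIntSys f b T g) (h2 : SIntSys f b U h) : ∑ i ∈ T, f (g i) = ∑ j ∈ U, f (h j) := by
  refine Finset.sum_bij_ne_zero (fun i _ hi => (h2.2 _ hi).choose)
    (fun i _ hi => (h2.2 _ hi).choose_spec.1) (fun i hiT hi j hjT hj hij => ?_)
    (fun j hjU hj => ?_) (fun i _ hi => hp _ _ (h2.2 _ hi).choose_spec.2)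
  · refine h1.1 i hiT j hjT (SInt_trans (h2.2 _ hi).choose_spec.2 ?_)
    have := (h2.2 _ hj).choose_spec.2
    rw [← hij] at this
    exact SInt_symm this
  · obtain ⟨i, hiT, hi⟩ := h1.2 _ hj
    have hi0 : f (g i) ≠ 0 := by rwa [← hp _ _ hi]
    refine ⟨i, hiT, hi0, h2.1 _ (h2.2 _ hi0).choose_spec.1 _ hjU ?_⟩
    exact SInt_symm (SInt_trans hi (h2.2 _ hi0).choose_spec.2)

/-- The index of `c OS` in `OS`. -/
theorem SInt_index {c : FF} (hc : c ∈ OS) (hc0 : c ≠ 0) : ∃ R : Finset FF, (∀ t ∈ R, t ∈ OS) ∧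
    (∀ t ∈ R, ∀ u ∈ R, (t - u) / c ∈ OS → t = u) ∧ (∀ x ∈ OS, ∃ t ∈ R, (x - t) / c ∈ OS) ∧
    sS c * R.card = 1 := by
  set T : Finset (HS FF) := Finset.univ.map ⟨Subtype.val, Subtype.val_injective⟩ (α := SP) with hT
  set I : Ideal (𝓞 FF) := ∏ v ∈ T, v.asIdeal ^ (ord v c).toNat with hI
  have hord : ∀ v : SP, (((ord v.1 c).toNat : ℕ) : ℤ) = ord v.1 c := fun v =>
    Int.toNat_of_nonneg ((mem_OS_iff.1 hc v).le hc0)
  have hmem : ∀ u : 𝓞 FF, u ∈ I ↔ (u : FF) / c ∈ OS := fun u => by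
    rw [hI, mem_prod_pow_iff, div_mem_OS_iff hc0]
    constructor
    · intro h v
      rw [← hord v]
      exact h v.1 (Finset.mem_map.2 ⟨v, Finset.mem_univ _, rfl⟩)
    · intro h v hv
      obtain ⟨v, -, rfl⟩ := Finset.mem_map.1 hv
      have := h v
      rw [← hord v] at this
      exact this
  have hI0 : I ≠ ⊥ := by
    rw [hI]
    exact Finset.prod_ne_zero_iff.2 fun v _ => pow_ne_zero _ v.ne_bot
  have := Ideal.finiteQuotientOfFreeOfNeBot _ hI0
  have := Fintype.ofFinite (𝓞 FF ⧸ I)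
  have hinj : ∀ q r : 𝓞 FF ⧸ I,
      (((Quotient.out q : 𝓞 FF) : FF) - ((Quotient.out r : 𝓞 FF) : FF)) / c ∈ OS → q = r := by
    intro q r h
    have h1 : Quotient.out q - Quotient.out r ∈ I := by
      rw [hmem]
      push_cast
      exact h
    rwa [← Ideal.Quotient.eq, Ideal.Quotient.mk_out, Ideal.Quotient.mk_out] at h1
  refine ⟨Finset.univ.image fun q : 𝓞 FF ⧸ I => ((Quotient.out q : 𝓞 FF) : FF), ?_, ?_, ?_, ?_⟩
  · intro t ht
    obtain ⟨q, -, rfl⟩ := Finset.mem_image.1 ht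
    exact mem_OS_of_integral (RingOfIntegers.isIntegral_coe _)
  · intro t ht u hu h
    obtain ⟨q, -, rfl⟩ := Finset.mem_image.1 ht
    obtain ⟨r, -, rfl⟩ := Finset.mem_image.1 hu
    rw [hinj q r h]
  · intro x hx
    obtain ⟨y, hy⟩ := SInt_exists_int hx hc hc0
    refine ⟨_, Finset.mem_image.2 ⟨Ideal.Quotient.mk I y, Finset.mem_univ _, rfl⟩, SInt_trans hy ?_⟩
    have h1 : y - Quotient.out (Ideal.Quotient.mk I y) ∈ I := by
      rw [← Ideal.Quotient.eq, Ideal.Quotient.mk_out]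
    have h2 := (hmem _).1 h1
    push_cast at h2
    exact h2
  · rw [Finset.card_image_of_injective _ fun q r h => hinj q r (by rw [h]; exact SInt_refl _ _),
      Finset.card_univ, ← Nat.card_eq_fintype_card, ← Submodule.cardQuot_apply, ← Ideal.absNorm_apply,
      hI, map_prod, hT, Finset.prod_map]
    unfold sS
    push_cast
    rw [← Finset.prod_mul_distrib]
    refine Finset.prod_eq_one fun v _ => ?_
    have h0 : (qv v.1 : ℝ) ≠ 0 := by
      have := two_le_qv v.1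
      positivity
    simp only [Function.Embedding.coeFn_mk, map_pow]
    push_cast
    change (qv v.1 : ℝ) ^ (-ord v.1 c) * (qv v.1 : ℝ) ^ (ord v.1 c).toNat = 1
    rw [← zpow_natCast, hord v, ← zpow_add₀ h0, neg_add_cancel, zpow_zero]

theorem SIntSys.refine {ι : Type*} {f : FF → ℂ} {b c : FF} {T : Finset ι} {g : ι → FF}
    (hb : b ≠ 0) (hc0 : c ≠ 0) (hcb : c / b ∈ OS) (hp : ∀ x y, (x - y) / b ∈ OS → f x = f y)
    (h1 : SIntSys f b T g) : ∃ (U : Finset (ι × FF)) (h : ι × FF → FF), SIntSys f c U h ∧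
      ((sS c : ℝ) : ℂ) * ∑ j ∈ U, f (h j) = (sS b : ℝ) * ∑ i ∈ T, f (g i) := by
  obtain ⟨R, hR1, hR2, hR3, hR4⟩ := SInt_index hcb (div_ne_zero hc0 hb)
  refine ⟨T ×ˢ R, fun p => g p.1 + b * p.2, ⟨?_, ?_⟩, ?_⟩
  · rintro ⟨i, t⟩ hp1 ⟨j, u⟩ hp2 h
    rw [Finset.mem_product] at hp1 hp2
    have h' := div_mem_OS_trans hc0 h hcb
    have hij : i = j := by
      refine h1.1 i hp1.1 j hp2.1 ?_
      have : (g i - g j) / b = (g i + b * t - (g j + b * u)) / b - t + u := by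
        field_simp
        ring
      rw [this]
      exact OS.add_mem (OS.sub_mem h' (hR1 t hp1.2)) (hR1 u hp2.2)
    subst hij
    have htu : t = u := by
      refine hR2 t hp1.2 u hp2.2 ?_
      have : (t - u) / (c / b) = (g i + b * t - (g i + b * u)) / c := by
        field_simp
        ring
      rw [this]
      exact h
    rw [htu]
  · intro x hx
    obtain ⟨i, hi, hxi⟩ := h1.2 x hx
    obtain ⟨t, ht, hxt⟩ := hR3 _ hxi
    refine ⟨(i, t), Finset.mem_product.2 ⟨hi, ht⟩, ?_⟩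
    have : (x - (g i + b * t)) / c = ((x - g i) / b - t) / (c / b) := by
      field_simp
      ring
    rw [this]
    exact hxt
  · rw [Finset.sum_product]
    have : ∀ i ∈ T, ∑ t ∈ R, f (g i + b * t) = R.card * f (g i) := fun i _ => by
      rw [Finset.sum_congr rfl (g := fun _ => f (g i)), Finset.sum_const, nsmul_eq_mul]
      intro t ht
      refine hp _ _ ?_
      rw [add_sub_cancel_left, mul_div_cancel_left₀ _ hb]
      exact hR1 t ht
    rw [Finset.sum_congr rfl this, ← Finset.mul_sum, ← mul_assoc]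
    congr 1
    rw [sS_div hc0 hb] at hR4
    have h0 := (sS_pos b).ne'
    have : sS c * R.card = sS b := by
      field_simp at hR4
      exact hR4
    exact_mod_cast this

theorem SIntSys.val_eq {ι κ : Type*} {f : FF → ℂ} {b c : FF} {T : Finset ι} {g : ι → FF}
    {U : Finset κ} {h : κ → FF} (hb : b ≠ 0) (hc : c ≠ 0)
    (hpb : ∀ x y, (x - y) / b ∈ OS → f x = f y) (hpc : ∀ x y, (x - y) / c ∈ OS → f x = f y)
    (h1 : SIntSys f b T g) (h2 : SIntSys f c U h) :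
    ((sS b : ℝ) : ℂ) * ∑ i ∈ T, f (g i) = (sS c : ℝ) * ∑ j ∈ U, f (h j) := by
  obtain ⟨k, hk⟩ := SInt_exists_div b
  obtain ⟨l, hl⟩ := SInt_exists_div c
  have hk' := hk _ (le_max_left k l)
  obtain ⟨T1, g1, h3, e1⟩ := h1.refine hb (SInt_pow_ne _) hk' hpb
  obtain ⟨U1, g2, h4, e2⟩ := h2.refine hc (SInt_pow_ne _) (hl _ (le_max_right k l)) hpc
  rw [← e1, ← e2, h3.sum_eq (fun x y hxy => hpb x y (div_mem_OS_trans (SInt_pow_ne _) hxy hk')) h4]

theorem SB.sys {k : ℕ} {f : FF → ℂ} (h : SB k f) : SIntSys f (ss ^ k) (sreps k) id :=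
  ⟨fun _ hx _ hy hxy => srep_unique hx hy hxy, fun x hx => exists_srep (h.1 x hx)⟩

theorem SIntSys.sint_eq {ι : Type*} {f : FF → ℂ} {b : FF} {T : Finset ι} {g : ι → FF} (hf : HSB f)
    (hb : b ≠ 0) (hp : ∀ x y, (x - y) / b ∈ OS → f x = f y) (h : SIntSys f b T g) :
    sint f = (sS b : ℝ) * ∑ i ∈ T, f (g i) := by
  unfold sint
  have hf' : ∃ k, SB k f := hf
  rw [dif_pos hf']
  exact (Nat.find_spec hf').sys.val_eq (SInt_pow_ne _) hb (Nat.find_spec hf').2 hp h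

theorem SInt_of_not {f : FF → ℂ} (hf : ¬ HSB f) : sint f = 0 := dif_neg hf

/-- Any system of representatives of `a OS / b OS` computes the integral. -/
theorem sint_eq_sum {ι : Type*} {f : FF → ℂ} {a b : FF} (ha : a ≠ 0) (hb : b ≠ 0)
    (h1 : ∀ x, f x ≠ 0 → x / a ∈ OS) (h2 : ∀ x y, (x - y) / b ∈ OS → f x = f y) (T : Finset ι)
    (g : ι → FF) (hinj : ∀ i ∈ T, ∀ j ∈ T, (g i - g j) / b ∈ OS → i = j)
    (hsurj : ∀ x, x / a ∈ OS → ∃ i ∈ T, (x - g i) / b ∈ OS) :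
    sint f = (sS b : ℝ) * ∑ i ∈ T, f (g i) :=
  SIntSys.sint_eq (hSB_of ha hb h1 fun x y h _ => (h2 x y h).symm) hb h2
    ⟨hinj, fun x hx => hsurj x (h1 x hx)⟩
theorem sint_eq {k : ℕ} {f : FF → ℂ} (h : SB k f) :
    sint f = (sS (ss ^ k) : ℝ) * ∑ x ∈ sreps k, f x :=
  h.sys.sint_eq ⟨k, h⟩ (SInt_pow_ne _) h.2
theorem sint_zero : sint (fun _ => 0) = 0 := by
  obtain ⟨k, hk⟩ := SInt_hSB_zero
  rw [sint_eq hk]
  simp
theorem exists_ne_of_sint {f : FF → ℂ} (h : sint f ≠ 0) : ∃ x, f x ≠ 0 := by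
  by_contra h'
  push Not at h'
  rw [funext h'] at h
  exact h sint_zero
theorem SB2.sint {k : ℕ} {f : FF → FF → ℂ} (h : SB2 k f) : SB k fun x => sint (f x) := by
  refine ⟨fun x hx => ?_, fun x x' hx => ?_⟩
  · obtain ⟨y, hy⟩ := exists_ne_of_sint hx
    exact (h.1 x y hy).1
  · have : f x = f x' := funext fun y => h.2 x x' y y hx (SInt_refl _ _)
    simp only [this]
theorem sint2_eq {k : ℕ} {f : FF → FF → ℂ} (h : SB2 k f) :
    sint2 f = ((sS (ss ^ k) : ℝ) : ℂ) ^ 2 * ∑ x ∈ sreps k, ∑ y ∈ sreps k, f x y := by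
  unfold sint2
  rw [sint_eq h.sint, Finset.sum_congr rfl fun x _ => sint_eq (h.right x), ← Finset.mul_sum]
  ring
theorem sint2_comm {f : FF → FF → ℂ} (h : HSB2 f) : sint2 f = sint2 fun x y => f y x := by
  obtain ⟨k, hk⟩ := h
  rw [sint2_eq hk, sint2_eq hk.flip, Finset.sum_comm]
theorem sint_add {f g : FF → ℂ} (hf : HSB f) (hg : HSB g) :
    sint (fun x => f x + g x) = sint f + sint g := by
  obtain ⟨k, h1, h2⟩ := SInt_common hf hg
  rw [sint_eq h1, sint_eq h2, sint_eq (SInt_SB_add h1 h2), Finset.sum_add_distrib, mul_add]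
theorem sint_mul_left (c : ℂ) (f : FF → ℂ) : sint (fun x => c * f x) = c * sint f := by
  by_cases hf : HSB f
  · obtain ⟨k, hk⟩ := hf
    rw [sint_eq hk, sint_eq (SInt_SB_smul hk c), ← Finset.mul_sum]
    ring
  · by_cases hc : c = 0
    · simp only [hc, zero_mul]
      exact sint_zero
    · rw [SInt_of_not hf, mul_zero]
      refine SInt_of_not fun ⟨k, hk⟩ => hf ⟨k, ?_⟩
      have := SInt_SB_smul hk c⁻¹
      simpa only [inv_mul_cancel_left₀ hc] using this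
theorem sint2_mul_left (c : ℂ) (f : FF → FF → ℂ) : sint2 (fun x y => c * f x y) = c * sint2 f := by
  unfold sint2
  simp only [sint_mul_left]
theorem sint2_prod (f g : FF → ℂ) : sint2 (fun x y => f x * g y) = sint f * sint g := by
  unfold sint2
  simp only [sint_mul_left]
  rw [mul_comm, ← sint_mul_left]
  simp only [mul_comm]
theorem sint2_sub {f g : FF → FF → ℂ} (hf : HSB2 f) (hg : HSB2 g) :
    sint2 (fun x y => f x y - g x y) = sint2 f - sint2 g := by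
  obtain ⟨k, hk⟩ := hf
  obtain ⟨l, hl⟩ := hg
  have h1 := hk.mono (le_max_left k l)
  have h2 := hl.mono (le_max_right k l)
  have h3 : SB2 (max k l) fun x y => f x y - g x y := by
    refine ⟨fun x y h => ?_, fun x x' y y' hx hy => by
      simp only [h1.2 x x' y y' hx hy, h2.2 x x' y y' hx hy]⟩
    by_cases h0 : f x y = 0
    · exact h2.1 x y fun h' => h (by simp only [h0, h', sub_zero])
    · exact h1.1 x y h0
  rw [sint2_eq h1, sint2_eq h2, sint2_eq h3]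
  simp only [Finset.sum_sub_distrib, mul_sub]
theorem sint_affine (f : FF → ℂ) {a : FF} (ha : a ≠ 0) (c : FF) :
    sint (fun x => f (a * x + c)) = ((sS a)⁻¹ : ℝ) * sint f := by
  by_cases hf : HSB f
  · obtain ⟨k, hk⟩ := id hf
    have hs := SInt_pow_ne k
    have e1 : ∀ x y : FF, (x - y) / (ss ^ k / a) = (a * x + c - (a * y + c)) / ss ^ k :=
      fun x y => by
        field_simp
        ring
    have e2 : ∀ y : FF, a * ((y - c) / a) + c = y := fun y => by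
      field_simp
      ring
    have hsys : SIntSys (fun x => f (a * x + c)) (ss ^ k / a) (sreps k) fun y => (y - c) / a := by
      refine ⟨fun x hx y hy h => srep_unique hx hy ?_, fun x hx => ?_⟩
      · rwa [e1, e2, e2] at h
      · obtain ⟨y, hy, h⟩ := exists_srep (hk.1 _ hx)
        exact ⟨y, hy, by rwa [e1, e2]⟩
    rw [hsys.sint_eq (hf.affine ha c) (div_ne_zero hs ha)
      (fun x y h => hk.2 _ _ (by rwa [e1] at h)), sint_eq hk, sS_div hs ha]
    simp only [e2]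
    push_cast
    ring
  · rw [SInt_of_not hf, mul_zero]
    refine SInt_of_not fun h => hf ?_
    have := h.affine (inv_ne_zero ha) (-c / a)
    have e : ∀ x : FF, a * (a⁻¹ * x + -c / a) + c = x := fun x => by
      field_simp
      ring
    simpa only [e] using this
theorem sint_il {b : FF} (hb : b ≠ 0) : sint (il b) = (sS b : ℝ) := by
  rw [sint_eq_sum (f := il b) hb hb (fun _ h => SInt_il_ne h) (fun _ _ h => SInt_il_congr h)
    ({()} : Finset Unit) (fun _ => 0) (fun _ _ _ _ _ => rfl)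
    fun x hx => ⟨(), Finset.mem_singleton_self _, by rwa [sub_zero]⟩]
  simp [il, OS.zero_mem]

theorem SInt_shift (f : FF → ℂ) (c : FF) : sint (fun x => f (x + c)) = sint f := by
  have := sint_affine f one_ne_zero c
  simpa [sS_one] using this

theorem SInt_hSB_shift {f : FF → ℂ} (hf : HSB f) (c : FF) : HSB fun x => f (x + c) := by
  simpa using hf.affine one_ne_zero c

theorem sint_ic {a : FF} (ha : a ≠ 0) : sint (ic a) = (sS (a * ss ^ 2) : ℝ) := by
  have : ic a = fun x => il (a * ss ^ 2) (x + -a) := by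
    funext x
    rw [ic_eq_il ha, sub_eq_add_neg]
  rw [this, SInt_shift, sint_il (mul_ne_zero ha (SInt_pow_ne 2))]

theorem SInt_norm_le {f F : FF → ℂ} (hF : HSB F) (h : ∀ x, ‖f x‖ ≤ (F x).re) :
    ‖sint f‖ ≤ (sint F).re := by
  have key : ∀ f : FF → ℂ, HSB f → (∀ x, ‖f x‖ ≤ (F x).re) → ‖sint f‖ ≤ (sint F).re := by
    intro f hf h
    obtain ⟨k, h1, h2⟩ := SInt_common hf hF
    rw [sint_eq h1, sint_eq h2, norm_mul, Complex.re_ofReal_mul, Complex.norm_real,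
      Real.norm_of_nonneg (sS_pos _).le, Complex.re_sum]
    exact mul_le_mul_of_nonneg_left ((norm_sum_le _ _).trans (Finset.sum_le_sum fun x _ => h x))
      (sS_pos _).le
  by_cases hf : HSB f
  · exact key f hf h
  · rw [SInt_of_not hf, ← sint_zero]
    exact key _ SInt_hSB_zero fun x => by
      rw [norm_zero]
      exact (norm_nonneg _).trans (h x)

theorem SInt_sum {ι : Type*} (T : Finset ι) (f : ι → FF → ℂ) (h : ∀ i ∈ T, HSB (f i)) :
    HSB (fun x => ∑ i ∈ T, f i x) ∧ sint (fun x => ∑ i ∈ T, f i x) = ∑ i ∈ T, sint (f i) := by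
  induction T using Finset.induction_on with
  | empty => exact ⟨by simpa using SInt_hSB_zero, by simpa using sint_zero⟩
  | insert i T hi ih =>
    have h1 := h i (Finset.mem_insert_self _ _)
    obtain ⟨h2, h3⟩ := ih fun j hj => h j (Finset.mem_insert_of_mem hj)
    simp only [Finset.sum_insert hi]
    exact ⟨h1.add h2, by rw [sint_add h1 h2, h3]⟩

/-- The support is covered by translates of a lattice. -/
theorem norm_sint_le_cover {ι : Type*} {f : FF → ℂ} {M : ℝ} (hM : 0 ≤ M) (h : ∀ x, ‖f x‖ ≤ M)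
    (T : Finset ι) (c : ι → FF) {b : FF} (hb : b ≠ 0)
    (hs : ∀ x, f x ≠ 0 → ∃ i ∈ T, (x - c i) / b ∈ OS) : ‖sint f‖ ≤ T.card * M * sS b := by
  have h0 : ∀ i ∈ T, HSB fun x => (M : ℂ) * il b (x + -c i) := fun i _ => by
    obtain ⟨k, hk⟩ := SInt_hSB_shift (hSB_il hb) (-c i)
    exact ⟨k, SInt_SB_smul hk _⟩
  obtain ⟨h1, h2⟩ := SInt_sum T _ h0
  have h3 : ∀ i x, 0 ≤ ((M : ℂ) * il b (x + -c i)).re := fun i x => by
    unfold il
    split_ifs <;> simp [hM]
  refine (SInt_norm_le h1 fun x => ?_).trans (le_of_eq ?_)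
  · rw [Complex.re_sum]
    by_cases hx : f x = 0
    · rw [hx, norm_zero]
      exact Finset.sum_nonneg fun i _ => h3 i x
    · obtain ⟨i, hi, hxi⟩ := hs x hx
      refine (h x).trans (le_trans (le_of_eq ?_)
        (Finset.single_le_sum (f := fun i => ((M : ℂ) * il b (x + -c i)).re) (fun i _ => h3 i x) hi))
      unfold il
      rw [← sub_eq_add_neg, if_pos hxi]
      simp
  · rw [h2]
    simp only [sint_mul_left, SInt_shift (il b), sint_il hb]
    simp [mul_assoc]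
theorem norm_sint_le {f : FF → ℂ} {M : ℝ} (hM : 0 ≤ M) (h : ∀ x, ‖f x‖ ≤ M) {b : FF} (hb : b ≠ 0)
    (hs : ∀ x, f x ≠ 0 → x / b ∈ OS) : ‖sint f‖ ≤ M * sS b := by
  have := norm_sint_le_cover hM h ({()} : Finset Unit) (fun _ => 0) hb
    fun x hx => ⟨(), Finset.mem_singleton_self _, by rw [sub_zero]; exact hs x hx⟩
  simpa using this

theorem SInt_lcb_ite {j : FF} (hj : j ≠ 0) (u : FF) (a b : ℂ) :
    LCb fun x => if (x - u) / j ∈ OS then a else b := by
  obtain ⟨k, hk⟩ := SInt_exists_div j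
  refine fun _ => ⟨k, fun x y _ _ h => ?_⟩
  have h' := div_mem_OS_trans (SInt_pow_ne k) h (hk k le_rfl)
  have _ := hj
  exact if_congr ⟨fun hx => SInt_trans (SInt_symm h') hx, fun hy => SInt_trans h' hy⟩ rfl rfl

theorem SInt_cancel {j : FF} (hj : j ≠ 0) (U : Finset FF) : ∀ φ : FF → ℂ, HSB φ →
    (∀ x, φ x ≠ 0 → ∃ (c : ℂ) (t : FF), c ≠ 1 ∧ t / j ∈ OS ∧
      ∀ y, (y - x) / j ∈ OS → φ (y + t) = c * φ y) →
    (∀ x, φ x ≠ 0 → ∃ u ∈ U, (x - u) / j ∈ OS) → sint φ = 0 := by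
  induction U using Finset.induction_on with
  | empty =>
    intro φ _ _ h
    by_contra h0
    obtain ⟨x, hx⟩ := exists_ne_of_sint h0
    obtain ⟨u, hu, -⟩ := h x hx
    simp at hu
  | insert u U _ ih =>
    intro φ hφ hc hU
    have hsh : ∀ y t : FF, t / j ∈ OS → ((y + t - u) / j ∈ OS ↔ (y - u) / j ∈ OS) := by
      intro y t ht
      have h1 : (y + t - y) / j ∈ OS := by rwa [add_sub_cancel_left]
      exact ⟨fun h => SInt_trans (SInt_symm h1) h, fun h => SInt_trans h1 h⟩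
    have h1 := hφ.mul_lcb (SInt_lcb_ite hj u 1 0)
    have h2 := hφ.mul_lcb (SInt_lcb_ite hj u 0 1)
    have e : φ = fun x => φ x * (if (x - u) / j ∈ OS then 1 else 0)
        + φ x * (if (x - u) / j ∈ OS then 0 else 1) := by
      funext x
      split_ifs <;> simp
    rw [e, sint_add h1 h2, ih _ h2 ?_ ?_, add_zero]
    · by_contra h0
      obtain ⟨x, hx⟩ := exists_ne_of_sint h0
      have hxu : (x - u) / j ∈ OS := by
        by_contra h
        exact hx (by simp [h])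
      obtain ⟨c, t, hc1, ht, hy⟩ := hc x (left_ne_zero_of_mul hx)
      have h3 := SInt_shift (fun x => φ x * (if (x - u) / j ∈ OS then 1 else 0)) t
      have h4 : (fun y => φ (y + t) * (if (y + t - u) / j ∈ OS then (1 : ℂ) else 0))
          = fun y => c * (φ y * (if (y - u) / j ∈ OS then 1 else 0)) := by
        funext y
        by_cases hyu : (y - u) / j ∈ OS
        · rw [if_pos hyu, if_pos ((hsh y t ht).2 hyu), hy y (SInt_trans hyu (SInt_symm hxu)),
            mul_assoc]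
        · rw [if_neg hyu, if_neg fun h => hyu ((hsh y t ht).1 h)]
          simp
      rw [h4, sint_mul_left] at h3
      exact hc1 (mul_right_cancel₀ h0 (h3.trans (one_mul _).symm))
    · intro x hx
      obtain ⟨c, t, hc1, ht, hy⟩ := hc x (left_ne_zero_of_mul hx)
      refine ⟨c, t, hc1, ht, fun y hyx => ?_⟩
      rw [hy y hyx, if_congr (hsh y t ht) rfl rfl, mul_assoc]
    · intro x hx
      obtain ⟨v, hv, hxv⟩ := hU x (left_ne_zero_of_mul hx)
      rcases Finset.mem_insert.1 hv with rfl | hv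
      · exact (hx (by simp [hxv])).elim
      · exact ⟨v, hv, hxv⟩

/-- Cancellation on each coset of `j OS` on which `P0` fails. -/
theorem sint_local {f : FF → ℂ} (hf : HSB f) {j : FF} (hj : j ≠ 0) (P0 : FF → Prop)
    (hP : ∀ x y, (x - y) / j ∈ OS → f x ≠ 0 → P0 x → P0 y)
    (hs : ∀ x y, (x - y) / j ∈ OS → f x ≠ 0 → f y ≠ 0)
    (h : ∀ x, f x ≠ 0 → ¬ P0 x → ∃ (c : ℂ) (t : FF), c ≠ 1 ∧ t / j ∈ OS ∧
      ∀ y, (y - x) / j ∈ OS → f (y + t) = c * f y) :
    sint f = sint fun x => if P0 x then f x else 0 := by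
  obtain ⟨k0, hk0⟩ := id hf
  obtain ⟨l, hl⟩ := SInt_exists_div j
  have hk := hk0.mono (le_max_left k0 l)
  have hkj := hl _ (le_max_right k0 l)
  set k := max k0 l
  have hd : ∀ x : FF, x / ss ^ k ∈ OS → x / j ∈ OS := fun x hx =>
    div_mem_OS_trans (SInt_pow_ne k) hx hkj
  have hn : ∀ x y, (x - y) / j ∈ OS → f x ≠ 0 → ¬ P0 x → ¬ P0 y := fun x y hxy hx hp hy =>
    hp (hP y x (SInt_symm hxy) (hs x y hxy hx) hy)
  have hsup : ∀ x, f x ≠ 0 → x / (ss ^ k)⁻¹ ∈ OS := fun x hx => by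
    rw [div_inv_eq_mul, mul_comm]
    exact hk.1 x hx
  have h0 : HSB fun x => if P0 x then f x else 0 := by
    refine hSB_of (inv_ne_zero (SInt_pow_ne k)) (SInt_pow_ne k) (fun x hx => hsup x fun h => ?_)
      fun x y hxy hx => ?_
    · exact hx (by simp [h])
    · have hp : P0 x := by
        by_contra hp
        exact hx (if_neg hp)
      rw [if_pos hp] at hx
      rw [if_pos hp, if_pos (hP x y (hd _ hxy) hx hp), hk.2 x y hxy]
  have hne : ∀ x, (if P0 x then 0 else f x) ≠ 0 → f x ≠ 0 ∧ ¬ P0 x := fun x hx => by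
    by_cases hp : P0 x
    · exact (hx (if_pos hp)).elim
    · rw [if_neg hp] at hx
      exact ⟨hx, hp⟩
  have h1 : HSB fun x => if P0 x then 0 else f x := by
    refine hSB_of (inv_ne_zero (SInt_pow_ne k)) (SInt_pow_ne k) (fun x hx => hsup x (hne x hx).1)
      fun x y hxy hx => ?_
    obtain ⟨hx, hp⟩ := hne x hx
    rw [if_neg hp, if_neg (hn x y (hd _ hxy) hx hp), hk.2 x y hxy]
  have e : f = fun x => (if P0 x then f x else 0) + if P0 x then 0 else f x := by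
    funext x
    split_ifs <;> simp
  have hz := SInt_cancel hj (sreps k) _ h1 (fun x hx => ?_) fun x hx => ?_
  · conv_lhs => rw [e]
    rw [sint_add h0 h1, hz, add_zero]
  · obtain ⟨hx, hp⟩ := hne x hx
    obtain ⟨c, t, hc, ht, hy⟩ := h x hx hp
    refine ⟨c, t, hc, ht, fun y hyx => ?_⟩
    have h2 : (y + t - y) / j ∈ OS := by rwa [add_sub_cancel_left]
    rw [if_neg (hn x y (SInt_symm hyx) hx hp),
      if_neg (hn x (y + t) (SInt_symm (SInt_trans h2 hyx)) hx hp), hy y hyx]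
  · obtain ⟨u, hu, hxu⟩ := exists_srep (hk.1 x (hne x hx).1)
    exact ⟨u, hu, hd _ hxu⟩

end NQ
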