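import Vale.Agent.NQ.Vl
import Vale.Agent.NQ.SInt
import Vale.Agent.NQ.Chr
import Vale.Agent.NQ.Rsum
import Vale.Agent.P026.Del

noncomputable section
namespace NQ
open Complex MeasureTheory NumberField Filter
open scoped ComplexConjugate Classical ContDiff Topology

variable [σ : St]

omit σ in
theorem Del_ft {s : ℝ} (hs : 0 < s) (ξ : ℂ) :
    ft (fun z => QRH.dl_g (z / s)) ξ = ((s ^ 2 : ℝ) : ℂ) * ft QRH.dl_g (s * ξ) := by
  rw [QRH.ft_scale QRH.dl_g (ofReal_ne_zero.2 hs.ne'), Complex.norm_real, Real.norm_eq_abs, sq_abs]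

omit σ in
theorem Del_dec {s : ℝ} (hs : 0 < s) : ∃ M : ℝ, 0 ≤ M ∧ Dec M (fun z => QRH.dl_g (z / s)) ∧
    Dec M (ft fun z => QRH.dl_g (z / s)) := by
  obtain ⟨K1, hK1, H1⟩ := QRH.dl_g_le
  obtain ⟨K2, hK2, H2⟩ := QRH.dl_ft_le
  have hsc : (s : ℂ) ≠ 0 := ofReal_ne_zero.2 hs.ne'
  obtain ⟨M1, hM1, B1⟩ := QRH.dl_aff hK1 H1 (inv_ne_zero hsc) 1
  obtain ⟨M2, hM2, B2⟩ := QRH.dl_aff hK2 H2 hsc ((s ^ 2 : ℝ) : ℂ)
  simp only [one_mul, inv_mul_eq_div] at B1
  refine ⟨M1 + M2, by positivity, fun z => (B1 z).trans (mul_le_mul_of_nonneg_right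
    (le_add_of_nonneg_right hM2) (by positivity)), fun z => ?_⟩
  rw [Del_ft hs]
  exact (B2 z).trans (mul_le_mul_of_nonneg_right (le_add_of_nonneg_left hM1) (by positivity))

theorem Del_split {F G : E → ℂ} {a : ℂ} (hG : Summable G) (h0 : F 0 = a) (hG0 : G 0 = 0)
    (h : ∀ y, y ≠ 0 → F y = G y) : ∑' y, F y = a + ∑' y, G y := by
  have e : F = fun y => (if y = 0 then a else 0) + G y := by
    funext y
    split_ifs with hy
    · rw [hy, h0, hG0, add_zero]
    · rw [h y hy, zero_add]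
  rw [e, (hasSum_ite_eq (0 : E) a).summable.tsum_add hG, tsum_ite_eq]

theorem Del_small (h : PSL) : ∃ C : ℝ, 0 < C ∧ ∀ (x : FF) (u : Pl → ℝ), x ≠ 0 → (∀ w, 0 < u w) →
    |Del x u| ≤ C := by
  obtain ⟨K, hK, H⟩ := QRH.dl_ft_le
  obtain ⟨C, hC, HC⟩ := Lat_nz (β := 3) (by norm_num)
  have hk := kap_pos
  have hd := sS_pos del
  refine ⟨1 + kap * (K ^ rk * (C / sS del)), by positivity, fun x u hx hu => ?_⟩
  obtain ⟨y0, h0, h1, h2⟩ := exists_sqrt_lat hx
  choose s s0 s2 s4 using fun w => Vl_root (hu w)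
  choose M hM d1 d2 using fun w => Del_dec (s0 w)
  have hle : ∀ w, M w ≤ ∑ w, M w := fun w =>
    Finset.single_le_sum (fun w _ => hM w) (Finset.mem_univ w)
  have cg := QRH.dl_smooth.continuous
  have key := h 1 (fun _ => 1) y0 (fun w z => QRH.dl_g (z / s w)) (∑ w, M w) one_ne_zero
    (fun _ _ _ => rfl) h0 (fun w => by fun_prop)
    (fun w z => (d1 w z).trans (mul_le_mul_of_nonneg_right (hle w) (by positivity)))
    (fun w z => (d2 w z).trans (mul_le_mul_of_nonneg_right (hle w) (by positivity)))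
  simp only [psf_of_dvd (one_dvd _), rsum_const one_ne_zero, nm_one, OneMemClass.coe_one, one_mul,
    div_one, Nat.cast_one, Del_ft (s0 _), h1] at key
  have hb : 1 / (y0 * del) ≠ 0 := one_div_ne_zero (mul_ne_zero h0 del_ne_zero)
  obtain ⟨H1, H2⟩ := HC _ (fun w => (s w)⁻¹) hb fun w => inv_pos.2 (s0 w)
  obtain ⟨G, hG⟩ : ∃ G : E → ℂ, ∀ m, G m = if m ≠ 0 ∧ (m : FF) / (1 / (y0 * del)) ∈ OS then
    ∏ w, ((s w ^ 2 : ℝ) : ℂ) * ft QRH.dl_g (s w * em w m) else 0 := ⟨_, fun _ => rfl⟩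
  have hP : 0 < ∏ w, s w ^ 2 := Finset.prod_pos fun w _ => pow_pos (s0 w) 2
  have b1 : ∀ m, ‖G m‖ ≤ (∏ w, s w ^ 2) * K ^ rk * if m ≠ 0 ∧ (m : FF) / (1 / (y0 * del)) ∈ OS then
      ∏ w, (1 + ‖em w m‖ / (s w)⁻¹) ^ (-3 : ℝ) else 0 := by
    intro m
    rw [hG]
    split_ifs
    · rw [norm_prod, ← prod_const_Pl, ← Finset.prod_mul_distrib, ← Finset.prod_mul_distrib]
      refine Finset.prod_le_prod (fun w _ => norm_nonneg _) fun w _ => ?_
      have := H (s w * em w m)
      rw [norm_mul, Complex.norm_real, Real.norm_of_nonneg (s0 w).le] at this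
      rw [norm_mul, Complex.norm_real, Real.norm_of_nonneg (sq_nonneg _), mul_assoc, div_inv_eq_mul,
        mul_comm ‖em w m‖]
      exact mul_le_mul_of_nonneg_left this (sq_nonneg _)
    · simp
  have b2 : ‖∑' m, G m‖ ≤ K ^ rk * (C / sS del) / vl x := by
    refine (tsum_of_norm_bounded (H1.mul_left _).hasSum b1).trans ?_
    rw [tsum_mul_left]
    refine (mul_le_mul_of_nonneg_left H2 (by positivity)).trans_eq ?_
    have := vl_pos x
    simp only [one_div, sS_inv, sS_mul h0 del_ne_zero, h1, inv_pow, Finset.prod_inv_distrib]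
    field_simp
  rw [Del_split (a := 1) (Complex.summable_ofReal.2 (summable_Del hx hu))
      (by simp [il, QRH.dl_g, QRH.Vg, OS.zero_mem]) (by simp) (fun y hy => ?_),
    ← Complex.ofReal_tsum, Del_split (a := ∏ w, ((s w ^ 2 : ℝ) : ℂ) * cDel)
      (.of_norm_bounded (H1.mul_left _) b1)
      (by simp [il, QRH.dl_ft_zero, OS.zero_mem]) (by simp [hG]) (fun y hy => ?_)] at key
  · have e2 : (Del x u : ℂ) = -1 + ((kap * vl x : ℝ) : ℂ) * ∑' m, G m := by
      unfold Del
      simp only [← s2, mul_comm cDel]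
      push_cast at key ⊢
      linear_combination key
    rw [← Real.norm_eq_abs, ← Complex.norm_real, e2]
    refine (norm_add_le _ _).trans (add_le_add (by simp) ?_)
    have := vl_pos x
    rw [norm_mul, Complex.norm_real, Real.norm_of_nonneg (by positivity)]
    refine (mul_le_mul_of_nonneg_left b2 (by positivity)).trans_eq ?_
    field_simp
  · simp only [hG, il, ne_eq, hy, not_false_eq_true, true_and, ite_mul, one_mul, zero_mul]
  · simp only [il, ne_eq, hy, not_false_eq_true, true_and, ite_mul, one_mul, zero_mul, h2]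
    split_ifs
    · rw [Complex.ofReal_prod]
      refine Finset.prod_congr rfl fun w _ => ?_
      rw [QRH.dl_g, norm_div, Complex.norm_real, Real.norm_of_nonneg (s0 w).le, s4]
    · rfl

theorem Del_cont {x : FF} (hx : x ≠ 0) : ContinuousOn (Del x) {u | ∀ w, 0 < u w} := by
  intro u hu
  refine ContinuousAt.continuousWithinAt ?_
  have h1 : ContinuousOn (fun v : Pl → ℝ => ∑' y : E, if y ≠ 0 ∧ (y : FF) ^ 2 / x ∈ OS then
      ∏ w, Vg (v w * ‖em w y‖ ^ 4) else 0) (Set.Ici fun w => u w / 2) := by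
    refine continuousOn_tsum (fun y => ?_) (summable_Del hx fun w => half_pos (hu w))
      fun y v hv => ?_
    · split_ifs
      · unfold QRH.Vg
        fun_prop
      · exact continuousOn_const
    · split_ifs
      · rw [Real.norm_of_nonneg (Finset.prod_nonneg fun w _ => Vl_Vg _)]
        refine Finset.prod_le_prod (fun w _ => Vl_Vg _) fun w _ => ?_
        unfold QRH.Vg
        rw [Real.exp_le_exp, neg_mul, neg_mul, neg_le_neg_iff]
        have := hv w
        gcongr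
      · simp
  refine (h1.continuousAt (pi_Ici_mem_nhds fun w => half_lt_self (hu w))).sub
    (continuousAt_const.mul (tendsto_finsetProd _ fun w _ => ?_))
  exact continuousAt_const.mul ((continuous_apply w).continuousAt.rpow_const (Or.inl (hu w).ne'))

theorem delB (h : PSL) : DelB := by
  obtain ⟨C1, hC1, H1⟩ := Vl_sum
  obtain ⟨C2, hC2, H2⟩ := Del_small h
  have hk := kap_pos
  refine ⟨fun x hx => Del_cont hx, C1 + kap * |cDel| ^ rk + C2, by positivity,
    fun x u hx hu => ⟨(H2 x u hx hu).trans (le_add_of_nonneg_left (by positivity)), ?_⟩⟩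
  have hv := vl_pos x
  have hP : 0 ≤ ∏ w, u w ^ (-(1 / 2) : ℝ) :=
    Finset.prod_nonneg fun w _ => Real.rpow_nonneg (hu w).le _
  have h1 : vl x * ∏ w, u w ^ (-(1 / 2) : ℝ) ≤ ((∏ w, u w) / sS x) ^ (-(1 / 2) : ℝ) := by
    rw [Real.div_rpow (Finset.prod_nonneg fun w _ => (hu w).le) (sS_pos x).le,
      Real.finsetProd_rpow _ _ (fun w _ => (hu w).le), Real.rpow_neg (sS_pos x).le,
      div_inv_eq_mul, ← Real.sqrt_eq_rpow, mul_comm]
    exact mul_le_mul_of_nonneg_left (vl_le hx)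
      (Real.rpow_nonneg (Finset.prod_nonneg fun w _ => (hu w).le) _)
  have h2 : |Del x u| ≤ (C1 + kap * |cDel| ^ rk) * (vl x * ∏ w, u w ^ (-(1 / 2) : ℝ)) := by
    unfold Del
    rw [add_mul]
    refine (abs_sub _ _).trans (add_le_add (H1 x u hx hu).2 (le_of_eq ?_))
    rw [Finset.prod_mul_distrib, prod_const_Pl, abs_mul, abs_mul, abs_mul, abs_pow, abs_of_pos hk,
      abs_of_pos hv, abs_of_nonneg hP]
    ring
  exact h2.trans (mul_le_mul (le_add_of_nonneg_right hC2.le) h1 (by positivity) (by positivity))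

end NQ
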