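import Vale.Agent.NQ.Gauss

noncomputable section
namespace NQ
open Complex MeasureTheory NumberField Filter
open scoped ComplexConjugate Classical ContDiff Topology

variable [σ : St]

theorem du_dvd {q a b : E} (h : q ∣ a) (e : a = b) : q ∣ b := e ▸ h

theorem Dq_per (q : E) (f : E → ℂ) : Per q (Dq q f) := fun x y h => by
  refine Finset.sum_congr rfl fun u _ => ?_
  beta_reduce
  rw [psf_congr (A' := -(inv q u * y))]
  exact du_dvd ((h.mul_left (inv q u)).neg_right) (by ring)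
theorem fh_per (q : E) (f : E → ℂ) : Per q (fh q f) := fun x y h => by
  simp only [fh]
  refine congrArg _ (Finset.sum_congr rfl fun u _ => ?_)
  beta_reduce
  rw [psf_congr (A' := -(u * y))]
  exact du_dvd ((h.mul_left u).neg_right) (by ring)
theorem good_one : Good 1 fun _ => 1 :=
  ⟨fun _ _ _ => rfl, fun _ h => absurd isCoprime_one_right h⟩
theorem Dq_one (δ : E) : Dq 1 (fun _ => 1) δ = 1 := by
  simp only [Dq, fh, psf_of_dvd (one_dvd _), xv_unit isUnit_one, rsum_const one_ne_zero, nm_one]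
  simp

theorem du_xv_per {q : E} (hq : q ≠ 0) : Per q (xv c3 q) := (xv_per ch_c3 hq).mono (pr_fac_dvd hq)

theorem du_cop {x y q : E} (h : q ∣ x * y - 1) : IsCoprime x q := by
  obtain ⟨k, hk⟩ := h
  exact ⟨y, -k, by linear_combination hk⟩

theorem du_cop_congr {x y q : E} (h : q ∣ x - y) (hx : IsCoprime x q) : IsCoprime y q := by
  obtain ⟨k, hk⟩ := h
  obtain ⟨u, v, huv⟩ := hx
  exact ⟨u, v + u * k, by linear_combination huv - u * hk⟩

theorem du_fh_mul {q1 q2 a' b' : E} (h1 : q1 ≠ 0) (h2 : q2 ≠ 0) (h : IsCoprime q1 q2)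
    (ha : q2 ∣ q1 * a' - 1) (hb : q1 ∣ q2 * b' - 1) {f1 f2 : E → ℂ} (g1 : Per q1 f1)
    (g2 : Per q2 f2) (u : E) :
    fh (q1 * q2) (fun c => f1 c * f2 c) u = fh q1 f1 (b' * u) * fh q2 f2 (a' * u) := by
  have p : ∀ {q : E} {f : E → ℂ} (t : E), Per q f → Per q fun y => f y * psf (-(y * t)) q :=
    fun {q f} t hf => hf.mul (by simpa only [mul_neg] using per_psf (-t) q)
  have e := rsum_crt h1 h2 h (p (b' * u) g1) (p (a' * u) g2)
  simp only [fh]
  rw [mul_mul_mul_comm, ← e, nm_mul, Nat.cast_mul, mul_inv]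
  refine congrArg _ (Finset.sum_congr rfl fun y _ => ?_)
  beta_reduce
  rw [psf_crt h1 h2 h ha hb, show -(y * u) * b' = -(y * (b' * u)) by ring,
    show -(y * u) * a' = -(y * (a' * u)) by ring]
  ring

/-- The summand of `Dq`. -/
def duT (q : E) (f : E → ℂ) (δ u : E) : ℂ :=
  fh q f u * xv c3 q u * psf (-(inv q u * δ)) q

theorem duT_eq {q u y : E} (h : q ∣ u * y - 1) (f : E → ℂ) (δ : E) :
    duT q f δ u = fh q f u * xv c3 q u * psf (-(y * δ)) q := by
  have h1 := inv_spec (du_cop h)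
  rw [duT, psf_congr (A' := -(y * δ))]
  exact du_dvd (dvd_sub (h.mul_left (inv q u * δ)) (h1.mul_left (y * δ))) (by ring)

theorem duT_zero {q u : E} {f : E → ℂ} (g : Good q f) (h : ¬ IsCoprime u q) (δ : E) :
    duT q f δ u = 0 := by
  rw [duT, g.2 u h, zero_mul, zero_mul]

theorem duT_per {q : E} (hq : q ≠ 0) {f : E → ℂ} (g : Good q f) (δ : E) :
    Per q (duT q f δ) := fun x y h => by
  by_cases hx : IsCoprime x q
  · have h1 := inv_spec hx
    have h2 : q ∣ y * inv q x - 1 := by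
      exact du_dvd (dvd_sub h1 (h.mul_left (inv q x))) (by ring)
    rw [duT_eq h1, duT_eq h2, fh_per q f x y h, du_xv_per hq x y h]
  · rw [duT_zero g hx, duT_zero g fun hy => hx (du_cop_congr (dvd_sub_comm.1 h) hy)]

theorem Good.mul {q1 q2 : E} (h1 : q1 ≠ 0) (h2 : q2 ≠ 0) (h : IsCoprime q1 q2) {f1 f2 : E → ℂ}
    (g1 : Good q1 f1) (g2 : Good q2 f2) : Good (q1 * q2) fun c => f1 c * f2 c := by
  refine ⟨(g1.1.mono (dvd_mul_right _ _)).mul (g2.1.mono (dvd_mul_left _ _)), fun u hu => ?_⟩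
  rw [du_fh_mul h1 h2 h (inv_spec h) (inv_spec h.symm) g1.1 g2.1]
  by_cases h3 : IsCoprime u q1
  · rw [g2.2 _ fun h4 => hu (h3.mul_right h4.of_mul_left_right), mul_zero]
  · rw [g1.2 _ fun h4 => h3 h4.of_mul_left_right, zero_mul]

theorem du_half {q1 q2 b' u y δ δ1 : E} (h1 : q1 ≠ 0) (hb : q1 ∣ q2 * b' - 1)
    (hy : q1 ∣ u * y - 1) (hδ : q1 ∣ q2 ^ 2 * δ1 - δ) (f1 : E → ℂ) :
    xv c3 q1 q2 * duT q1 f1 δ1 (b' * u) =
      fh q1 f1 (b' * u) * xv c3 q1 u * psf (-(y * δ) * b') q1 := by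
  have e1 : q1 ∣ (b' * u) * (y * q2) - 1 := by
    exact du_dvd (dvd_add (hb.mul_left (u * y)) hy) (by ring)
  have e2 : xv c3 q1 q2 * xv c3 q1 (b' * u) = xv c3 q1 u := by
    rw [← xv_mul ch_c3]
    refine du_xv_per h1 _ _ ?_
    exact du_dvd (hb.mul_left u) (by ring)
  have e3 : psf (-(y * q2 * δ1)) q1 = psf (-(y * δ) * b') q1 := by
    refine psf_congr ?_
    exact du_dvd (dvd_sub (hb.mul_left (y * q2 * δ1)) (hδ.mul_left (y * b'))) (by ring)
  rw [duT_eq e1, e3, ← e2]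
  ring

theorem Dq_mul {q1 q2 : E} (h1 : q1 ≠ 0) (h2 : q2 ≠ 0) (h : IsCoprime q1 q2)
    {f1 f2 : E → ℂ} (g1 : Good q1 f1) (g2 : Good q2 f2) {δ δ1 δ2 : E}
    (hδ1 : q1 ∣ q2 ^ 2 * δ1 - δ) (hδ2 : q2 ∣ q1 ^ 2 * δ2 - δ) :
    Dq (q1 * q2) (fun c => f1 c * f2 c) δ
      = xv c3 q1 q2 * xv c3 q2 q1 * Dq q1 f1 δ1 * Dq q2 f2 δ2 := by
  have ha := inv_spec h
  have hb := inv_spec h.symm
  generalize inv q2 q1 = a' at ha
  generalize inv q1 q2 = b' at hb
  have p : ∀ {q : E} {F : E → ℂ} (k : ℂ) (t : E), Per q F → Per q fun u => k * F (t * u) :=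
    fun {q F} k t hF x y hxy => congrArg _ (hF _ _ (by rw [← mul_sub]; exact hxy.mul_left t))
  have e := rsum_crt h1 h2 h (p (xv c3 q1 q2) b' (duT_per h1 g1 δ1))
    (p (xv c3 q2 q1) a' (duT_per h2 g2 δ2))
  rw [rsum_mul_left, rsum_mul_left,
    rsum_mul_unit h1 (duT_per h1 g1 δ1) (du_cop (y := q2) (by rwa [mul_comm])),
    rsum_mul_unit h2 (duT_per h2 g2 δ2) (du_cop (y := q1) (by rwa [mul_comm]))] at e
  refine Eq.trans (Finset.sum_congr rfl fun u _ => ?_) (e.trans (by unfold Dq duT; ring))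
  change duT (q1 * q2) (fun c => f1 c * f2 c) δ u = _
  beta_reduce
  by_cases hu : IsCoprime u (q1 * q2)
  · have hy := inv_spec hu
    rw [duT_eq hy, du_half h1 hb ((dvd_mul_right _ _).trans hy) hδ1,
      du_half h2 ha ((dvd_mul_left _ _).trans hy) hδ2, du_fh_mul h1 h2 h ha hb g1.1 g2.1,
      xv_mul_left h1 h2, psf_crt h1 h2 h ha hb]
    ring
  · rw [duT_zero (Good.mul h1 h2 h g1 g2) hu]
    by_cases h3 : IsCoprime u q1
    · rw [duT_zero g2 fun h4 => hu (h3.mul_right h4.of_mul_left_right)]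
      simp
    · rw [duT_zero g1 fun h4 => h3 h4.of_mul_left_right]
      simp

theorem du_fh_unit (q : E) (f : E → ℂ) (e : Eˣ) (u : E) :
    fh (e * q) f u = fh q f ((e⁻¹ : Eˣ) * u) := by
  have h : Associated ((e : E) * q) q := associated_unit_mul_left q e e.isUnit
  simp only [fh]
  rw [nm_assoc h, rsum_assoc h]
  refine congrArg _ (Finset.sum_congr rfl fun y _ => ?_)
  beta_reduce
  rw [← psf_scale e.ne_zero _ q]
  congr 2
  linear_combination (y * u) * e.mul_inv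

theorem Good.unit {q : E} (hq : q ≠ 0) {f : E → ℂ} (g : Good q f) (e : Eˣ) : Good (e * q) f := by
  refine ⟨g.1.mono (dvd_mul_left _ _), fun u hu => ?_⟩
  rw [du_fh_unit, g.2 _ fun h => hu ?_]
  exact (isCoprime_mul_unit_left_right e.isUnit _ _).2 h.of_mul_left_right

theorem Dq_unit {q : E} (hq : q ≠ 0) {f : E → ℂ} (g : Good q f) (e : Eˣ) (δ : E) :
    Dq (e * q) f δ = xv c3 q e * Dq q f ((e⁻¹ : Eˣ) ^ 2 * δ) := by
  have h : Associated ((e : E) * q) q := associated_unit_mul_left q e e.isUnit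
  have hq' : (e : E) * q ≠ 0 := mul_ne_zero e.ne_zero hq
  have hc : IsCoprime (e : E) ((e : E) * q) := ⟨(e⁻¹ : Eˣ), 0, by simp⟩
  change rsum _ (duT _ f δ) = _ * rsum q (duT q f _)
  rw [← rsum_mul_unit hq' (duT_per hq' (g.unit hq e) δ) hc, rsum_assoc h, ← rsum_mul_left]
  refine Finset.sum_congr rfl fun v _ => ?_
  beta_reduce
  by_cases hv : IsCoprime v q
  · have hy := inv_spec hv
    rw [duT_eq hy, duT_eq (y := (e⁻¹ : Eˣ) * inv q v) (h.dvd_iff_dvd_left.2 (du_dvd hy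
      (by linear_combination (-v * inv q v) * e.mul_inv))), du_fh_unit, e.inv_mul_cancel_left,
      xv_assoc h, xv_mul ch_c3, ← psf_scale e.ne_zero _ q,
      show (e : E) * -(inv q v * (((e⁻¹ : Eˣ) : E) ^ 2 * δ)) = -((e⁻¹ : Eˣ) * inv q v * δ) by
        linear_combination (-(e⁻¹ : Eˣ) * inv q v * δ) * e.mul_inv]
    ring
  · rw [duT_zero g hv, duT_zero (g.unit hq e) fun h0 =>
      hv h0.of_mul_left_right.of_mul_right_right, mul_zero]

/-- The mean value of `f` modulo `p`. -/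
def mv (p : P) (f : E → ℂ) : ℂ := rsum p.1 f / (nm p.1 : ℂ)
theorem norm_mv_le {p : P} {f : E → ℂ} (h : Mc p f) : ‖mv p f‖ ≤ 1 := by
  have h0 : (0 : ℝ) < nm p.1 := lt_of_lt_of_le one_pos (one_le_nmR p.ne_zero)
  rw [mv, norm_div, Complex.norm_natCast, div_le_one h0]
  simpa using norm_rsum_le p.ne_zero h.norm_le

theorem du_nm_ne {q : E} (hq : q ≠ 0) : (nm q : ℂ) ≠ 0 :=
  Nat.cast_ne_zero.2 fun h => hq (nm_eq_zero.1 h)

theorem du_mul_mv (p : P) (f : E → ℂ) : (nm p.1 : ℂ) * mv p f = rsum p.1 f :=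
  mul_div_cancel₀ _ (du_nm_ne p.ne_zero)

theorem good_sub_mv {p : P} {f : E → ℂ} (h : Mc p f) : Good p.1 fun c => f c - mv p f := by
  refine ⟨fun x y hxy => by beta_reduce; rw [h.per x y hxy], fun u hu => ?_⟩
  have hu' : p.1 ∣ u := by
    by_contra h0
    exact hu ((isCoprime_prime p.2.1).2 h0)
  have e : ∀ y, psf (-(y * u)) p.1 = 1 := fun y => psf_of_dvd (hu'.mul_left y).neg_right
  simp only [fh, e, mul_one]
  rw [rsum_sub, rsum_const p.ne_zero, du_mul_mv, sub_self, mul_zero]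

theorem du_fh_cov {p : P} {f : E → ℂ} (h : Mc p f) {t : E} (ht : ¬ p.1 ∣ t) (v : E) :
    fh p.1 (fun c => f c - mv p f) (t * v) = conj (f t) * fh p.1 (fun c => f c - mv p f) v := by
  have hc := (isCoprime_prime p.2.1).2 ht
  have hm : f t * mv p f = mv p f := by
    have := rsum_mul_unit p.ne_zero h.per hc
    simp only [h.mul, rsum_mul_left] at this
    rw [mv, ← mul_div_assoc, this]
  have hp : Per p.1 fun y => (f y - mv p f) * psf (-(y * v)) p.1 :=
    (good_sub_mv h).1.mul (by simpa only [mul_neg] using per_psf (-v) p.1)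
  simp only [fh]
  rw [← rsum_mul_unit p.ne_zero hp hc, mul_left_comm, ← rsum_mul_left p.1 (conj (f t))]
  refine congrArg _ (Finset.sum_congr rfl fun y _ => ?_)
  beta_reduce
  rw [h.mul, show y * (t * v) = t * y * v by ring]
  linear_combination (-psf (-(t * y * v)) p.1 * (f y - mv p f)) * h.mul_conj ht -
    (conj (f t) * psf (-(t * y * v)) p.1) * hm

theorem Dq_prime_cov {p : P} {f : E → ℂ} (h : Mc p f) {t : E} (ht : ¬ p.1 ∣ t) (δ : E) :
    Dq p.1 (fun c => f c - mv p f) (t * δ)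
      = conj (f t) * c3 p t * Dq p.1 (fun c => f c - mv p f) δ := by
  have hc := (isCoprime_prime p.2.1).2 ht
  have g := good_sub_mv h
  change rsum p.1 (duT p.1 _ (t * δ)) = _ * rsum p.1 (duT p.1 _ δ)
  rw [← rsum_mul_unit p.ne_zero (duT_per p.ne_zero g (t * δ)) hc, ← rsum_mul_left]
  refine Finset.sum_congr rfl fun v _ => ?_
  beta_reduce
  by_cases hv : IsCoprime v p.1
  · have hy := inv_spec (hc.mul_left hv)
    have hy' : p.1 ∣ v * (inv p.1 (t * v) * t) - 1 := by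
      exact du_dvd (hy) (by ring)
    rw [duT_eq hy, duT_eq hy', du_fh_cov h ht, xv_prime, xv_prime, (c3_mc p).mul,
      mul_assoc (inv _ _) t δ]
    ring
  · rw [duT_zero g hv, duT_zero g fun h0 => hv h0.of_mul_left_right, mul_zero]

theorem du_count (p : P) : ∑ y ∈ reps p.1, (if p.1 ∣ y then (0 : ℝ) else 1) = nm p.1 - 1 := by
  have h1 : rsum p.1 (fun y => if p.1 ∣ y then 1 else 0) = 1 := by
    rw [rsum_single p.ne_zero (fun x y hxy => ?_) 0 fun x hx => if_neg (by simpa using hx)]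
    · simp
    · simp only [(dvd_iff_dvd_of_dvd_sub hxy)]
  have h2 : ∑ y ∈ reps p.1, (if p.1 ∣ y then (1 : ℝ) else 0) = 1 := by
    apply Complex.ofReal_injective
    rw [Complex.ofReal_one, ← h1, Complex.ofReal_sum]
    exact Finset.sum_congr rfl fun y _ => by beta_reduce; split_ifs <;> simp
  have h3 : ∑ _y ∈ reps p.1, (1 : ℝ) = nm p.1 := by simp [card_reps p.ne_zero]
  have h4 : ∑ y ∈ reps p.1, (if p.1 ∣ y then (0 : ℝ) else 1) +
      ∑ y ∈ reps p.1, (if p.1 ∣ y then (1 : ℝ) else 0) = ∑ _y ∈ reps p.1, (1 : ℝ) := by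
    rw [← Finset.sum_add_distrib]
    exact Finset.sum_congr rfl fun y _ => by split_ifs <;> simp
  linarith

theorem du_var {p : P} {f : E → ℂ} (h : Mc p f) :
    ∑ y ∈ reps p.1, ‖f y - mv p f‖ ^ 2 ≤ nm p.1 - 1 := by
  have h1 : ∑ y ∈ reps p.1, ‖f y‖ ^ 2 = nm p.1 - 1 := by
    rw [← du_count]
    refine Finset.sum_congr rfl fun y _ => ?_
    split_ifs with hy
    · simp [h.zero y hy]
    · simp [h.norm y hy]
  have h2 : ∑ y ∈ reps p.1, (f y * conj (mv p f)).re = nm p.1 * ‖mv p f‖ ^ 2 := by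
    rw [← Complex.re_sum, ← Finset.sum_mul]
    change (rsum p.1 f * _).re = _
    rw [← du_mul_mv, mul_assoc, Complex.mul_conj, Complex.normSq_eq_norm_sq, ← Complex.ofReal_natCast,
      ← Complex.ofReal_mul, Complex.ofReal_re]
  simp only [← Complex.normSq_eq_norm_sq, Complex.normSq_sub] at h1 h2 ⊢
  rw [Finset.sum_sub_distrib, Finset.sum_add_distrib, ← Finset.mul_sum, h1, h2, Finset.sum_const,
    card_reps p.ne_zero, nsmul_eq_mul]
  have : 0 ≤ (nm p.1 : ℝ) * Complex.normSq (mv p f) :=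
    mul_nonneg (Nat.cast_nonneg _) (Complex.normSq_nonneg _)
  linarith

theorem du_inv_zero {p : P} {y : E} (hy : p.1 ∣ y) : inv p.1 y = 0 := by
  refine dif_neg fun ⟨z, hz⟩ => p.not_dvd_unit isUnit_one ?_
  exact du_dvd (dvd_sub (hy.mul_right z) hz) (by ring)

theorem du_inv_spec {p : P} {y : E} (hy : ¬ p.1 ∣ y) :
    p.1 ∣ y * inv p.1 y - 1 :=
  inv_spec ((isCoprime_prime p.2.1).2 hy)

theorem du_inv_inj (p : P) (x y : E)
    (h : p.1 ∣ inv p.1 x - inv p.1 y) : p.1 ∣ x - y := by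
  have k : ∀ {x y : E}, ¬ p.1 ∣ x → p.1 ∣ y →
      ¬ p.1 ∣ inv p.1 x - inv p.1 y := fun {x y} hx hy h => by
    rw [du_inv_zero hy, sub_zero] at h
    refine p.not_dvd_unit isUnit_one ?_
    exact du_dvd (dvd_sub (h.mul_left x) (du_inv_spec hx)) (by ring)
  by_cases hx : p.1 ∣ x <;> by_cases hy : p.1 ∣ y
  · exact dvd_sub hx hy
  · exact absurd (dvd_sub_comm.1 h) (k hy hx)
  · exact absurd h (k hx hy)
  · exact du_dvd (dvd_sub (dvd_sub ((du_inv_spec hx).mul_left y) ((du_inv_spec hy).mul_left x))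
      (h.mul_left (x * y))) (by ring)

theorem du_parseval {p : P} {g : E → ℂ} (hg : Good p.1 g) :
    ∑ δ ∈ reps p.1, ‖Dq p.1 g δ‖ ^ 2 ≤ ∑ y ∈ reps p.1, ‖g y‖ ^ 2 := by
  have h0 : (0 : ℝ) < nm p.1 := lt_of_lt_of_le one_pos (one_le_nmR p.ne_zero)
  have e1 : ∀ δ, Dq p.1 g δ = rsum p.1 fun y => (fh p.1 g (-inv p.1 y) *
      c3 p (-inv p.1 y)) * psf (y * δ) p.1 := fun δ => by
    refine (rsum_bij p.ne_zero (duT_per p.ne_zero hg δ) (fun y => -inv p.1 y)
      fun x y h => du_inv_inj p x y ?_).symm.trans (Finset.sum_congr rfl fun y _ => ?_)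
    · exact du_dvd (h.neg_right) (by ring)
    · beta_reduce
      by_cases hy : p.1 ∣ y
      · rw [du_inv_zero hy, neg_zero, duT, xv_prime, (c3_mc p).zero 0 (dvd_zero _)]
        simp
      · rw [duT_eq (y := -y) (du_dvd (du_inv_spec hy) (by ring)), xv_prime, neg_mul, neg_neg]
  have hR : Per p.1 fun u => ((‖rsum p.1 fun y => g y * psf (y * u) p.1‖ ^ 2 : ℝ) : ℂ) :=
    fun x y h => by
      have : ∀ z, psf (z * x) p.1 = psf (z * y) p.1 := fun z =>
        psf_congr (by rw [← mul_sub]; exact h.mul_left z)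
      simp only [this]
  have e2 : ∑ y ∈ reps p.1, ‖rsum p.1 fun z => g z * psf (z * inv p.1 y) p.1‖ ^ 2 =
      nm p.1 * ∑ y ∈ reps p.1, ‖g y‖ ^ 2 := by
    rw [← parseval p.ne_zero]
    apply Complex.ofReal_injective
    rw [Complex.ofReal_sum, Complex.ofReal_sum]
    exact rsum_bij p.ne_zero hR (fun y => inv p.1 y) (du_inv_inj p)
  simp only [e1]
  rw [parseval p.ne_zero]
  refine le_of_mul_le_mul_left ?_ h0
  rw [← e2, ← mul_assoc, Finset.mul_sum]
  refine Finset.sum_le_sum fun y _ => ?_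
  have k := (c3_mc p).norm_le (-inv p.1 y)
  simp only [fh, mul_neg, neg_neg, norm_mul, norm_inv, Complex.norm_natCast]
  generalize ‖rsum p.1 fun z => g z * psf (z * inv p.1 y) p.1‖ = R
  have k2 := pow_le_one₀ (n := 2) (norm_nonneg _) k
  refine le_trans (le_of_eq ?_) (mul_le_of_le_one_right (sq_nonneg R) k2)
  field_simp

theorem norm_Dq_prime {p : P} {f : E → ℂ} (h : Mc p f) (δ : E) :
    ‖Dq p.1 (fun c => f c - mv p f) δ‖ ≤ if p.1 ∣ δ then √(nm p.1 : ℝ) else 1 := by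
  have h1 := (du_parseval (good_sub_mv h)).trans (du_var h)
  split_ifs with hδ
  · obtain ⟨r, hr, hr'⟩ := exists_rep p.ne_zero δ
    have h2 := Finset.single_le_sum (f := fun δ => ‖Dq p.1 (fun c => f c - mv p f) δ‖ ^ 2)
      (fun _ _ => sq_nonneg _) hr
    rw [Dq_per _ _ δ r hr']
    exact Real.le_sqrt_of_sq_le (by linarith)
  · have k : ∀ t, ¬ p.1 ∣ t → ‖Dq p.1 (fun c => f c - mv p f) t‖ =
        ‖Dq p.1 (fun c => f c - mv p f) 1‖ := fun t ht => by
      have := Dq_prime_cov h ht 1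
      rw [mul_one] at this
      rw [this, norm_mul, norm_mul, RCLike.norm_conj, h.norm t ht, (c3_mc p).norm t ht, one_mul,
        one_mul]
    have h2 : ∑ t ∈ reps p.1, (if p.1 ∣ t then (0 : ℝ) else 1) *
        ‖Dq p.1 (fun c => f c - mv p f) 1‖ ^ 2 ≤
        ∑ t ∈ reps p.1, ‖Dq p.1 (fun c => f c - mv p f) t‖ ^ 2 :=
      Finset.sum_le_sum fun t _ => by
        split_ifs with ht
        · rw [zero_mul]; positivity
        · rw [one_mul, k t ht]
    rw [← Finset.sum_mul, du_count] at h2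
    have h4 : (4 : ℝ) ≤ nm p.1 := by exact_mod_cast p.four_le_nm
    rw [k δ hδ]
    refine (sq_le_one_iff₀ (norm_nonneg _)).1 (le_of_mul_le_mul_left ?_
      (by linarith : (0 : ℝ) < nm p.1 - 1))
    linarith
theorem mv_c6 (p : P) : mv p (fun c => conj (c6 p c)) = 0 := by
  rw [mv, (c6_mc p).conj.rsum_eq_zero (c6_nt p).conj, zero_div]
theorem Dq_c6 (p : P) (δ : E) :
    Dq p.1 (fun c => conj (c6 p c) - mv p fun c => conj (c6 p c)) δ
      = c2 p δ * Dq p.1 (fun c => conj (c6 p c) - mv p fun c => conj (c6 p c)) 1 := by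
  have k : ∀ t, ¬ p.1 ∣ t → ∀ x,
      Dq p.1 (fun c => conj (c6 p c) - mv p fun c => conj (c6 p c)) (t * x) =
        c2 p t * Dq p.1 (fun c => conj (c6 p c) - mv p fun c => conj (c6 p c)) x := by
    intro t ht x
    rw [Dq_prime_cov (c6_mc p).conj ht, Complex.conj_conj, ← c6_sq, ← c6_cube]
    ring
  by_cases hδ : p.1 ∣ δ
  · obtain ⟨t, ht, ht'⟩ := c2_nt p
    have h0 := k t ht 0
    rw [mul_zero] at h0
    rw [Dq_per _ _ δ 0 (by simpa using hδ), (c2_mc p).zero δ hδ, zero_mul]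
    by_contra h1
    exact ht' (mul_right_cancel₀ h1 (h0.symm.trans (one_mul _).symm))
  · simpa using k δ hδ 1

theorem du_prod (r : Finset P) (f : P → E → ℂ) (hf : ∀ p ∈ r, Mc p (f p)) :
    Good (pr r) (fun c => ∏ p ∈ r, (f p c - mv p (f p))) ∧
    ∃ e : ℂ, ‖e‖ ≤ 1 ∧ ∀ δ, Dq (pr r) (fun c => ∏ p ∈ r, (f p c - mv p (f p))) δ
        = e * ∏ p ∈ r, Dq p.1 (fun c => f p c - mv p (f p)) δ := by
  induction r using Finset.induction_on with
  | empty =>
    simp only [pr_empty, Finset.prod_empty]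
    exact ⟨good_one, 1, by simp, fun δ => by rw [Dq_one, one_mul]⟩
  | insert p r hp ih =>
    obtain ⟨G, e, he, hD⟩ := ih fun s hs => hf s (Finset.mem_insert_of_mem hs)
    have hm := hf p (Finset.mem_insert_self _ _)
    have hpQ : IsCoprime p.1 (pr r) :=
      ((isCoprime_prime p.2.1).2 fun h0 => hp (dvd_pr_iff.1 h0)).symm
    simp only [pr_insert hp, Finset.prod_insert hp]
    refine ⟨Good.mul p.ne_zero (pr_ne_zero r) hpQ (good_sub_mv hm) G, ?_⟩
    have ht := inv_spec (hpQ.symm.pow_left (m := 2))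
    have hs := inv_spec (hpQ.pow_left (m := 2))
    generalize inv p.1 (pr r ^ 2) = t at ht
    generalize inv (pr r) (p.1 ^ 2) = s at hs
    have nd : ∀ {π : P} {x y : E}, π.1 ∣ x * y - 1 → ¬ π.1 ∣ y := fun {π x y} h1 h2 =>
      π.not_dvd_unit isUnit_one (du_dvd (dvd_sub (h2.mul_left x) h1) (by ring))
    refine ⟨xv c3 p.1 (pr r) * xv c3 (pr r) p.1 * (conj (f p t) * c3 p t) *
      (e * ∏ π ∈ r, conj (f π s) * c3 π s), ?_, fun δ => ?_⟩
    · have k : ∀ π ∈ insert p r, ∀ x, ‖conj (f π x) * c3 π x‖ ≤ 1 := fun π hπ x => by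
        rw [norm_mul, RCLike.norm_conj]
        exact mul_le_one₀ ((hf π hπ).norm_le x) (norm_nonneg _) ((c3_mc π).norm_le x)
      have k2 : ‖∏ π ∈ r, conj (f π s) * c3 π s‖ ≤ 1 := by
        rw [norm_prod]
        exact Finset.prod_le_one (fun _ _ => norm_nonneg _)
          fun π hπ => k π (Finset.mem_insert_of_mem hπ) s
      rw [norm_mul, norm_mul, norm_mul, norm_mul e]
      exact mul_le_one₀ (mul_le_one₀ (mul_le_one₀ (norm_xv_le ch_c3 _ _) (norm_nonneg _)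
        (norm_xv_le ch_c3 _ _)) (norm_nonneg _) (k p (Finset.mem_insert_self _ _) t))
        (by positivity) (mul_le_one₀ he (norm_nonneg _) k2)
    · rw [Dq_mul p.ne_zero (pr_ne_zero r) hpQ (good_sub_mv hm) G (δ1 := t * δ) (δ2 := s * δ)
        (du_dvd (ht.mul_left δ) (by ring)) (du_dvd (hs.mul_left δ) (by ring)),
        Dq_prime_cov hm (nd ht), hD (s * δ),
        Finset.prod_congr rfl fun π hπ => Dq_prime_cov (hf π (Finset.mem_insert_of_mem hπ))
          (nd ((dvd_pr_iff.2 hπ).trans hs)) δ, Finset.prod_mul_distrib]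
      ring

/-- The dual of a product of local functions. -/
theorem Dq_prod (r : Finset P) (f : P → E → ℂ) (hf : ∀ p ∈ r, Mc p (f p)) {q : E}
    (hq : Associated q (pr r)) :
    Good q (fun c => ∏ p ∈ r, (f p c - mv p (f p))) ∧
    ∃ e : ℂ, ‖e‖ ≤ 1 ∧ ∀ δ, Dq q (fun c => ∏ p ∈ r, (f p c - mv p (f p))) δ
        = e * ∏ p ∈ r, Dq p.1 (fun c => f p c - mv p (f p)) δ := by
  obtain ⟨u, rfl⟩ := hq.symm
  obtain ⟨G, e, he, hD⟩ := du_prod r f hf
  rw [mul_comm]
  have ht : IsUnit (((u⁻¹ : Eˣ) : E) ^ 2) := (u⁻¹).isUnit.pow 2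
  refine ⟨G.unit (pr_ne_zero r) u, xv c3 (pr r) u * (e * ∏ p ∈ r,
    conj (f p ((u⁻¹ : Eˣ) ^ 2)) * c3 p ((u⁻¹ : Eˣ) ^ 2)), ?_, fun δ => ?_⟩
  · rw [norm_mul, norm_mul, norm_prod]
    refine mul_le_one₀ (norm_xv_le ch_c3 _ _) (by positivity) (mul_le_one₀ he (by positivity)
      (Finset.prod_le_one (fun _ _ => norm_nonneg _) fun p hp => ?_))
    rw [norm_mul, RCLike.norm_conj]
    exact mul_le_one₀ ((hf p hp).norm_le _) (norm_nonneg _) ((c3_mc p).norm_le _)
  · rw [Dq_unit (pr_ne_zero r) G, hD, Finset.prod_congr rfl fun p hp =>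
      Dq_prime_cov (hf p hp) (p.not_dvd_unit ht) δ, Finset.prod_mul_distrib]
    ring

end NQ
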