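import Vale.Agent.NQ.Dvs
import Vale.Agent.P026.Rearr

noncomputable section
namespace NQ
open Complex MeasureTheory NumberField Filter
open scoped ComplexConjugate Classical ContDiff Topology

variable [σ : St]

export QRH (minkowski norm_sum_sq_le duality sum_dyadic exists_dyadic log_le_rpow Vg_le_rpow)

theorem rr_mem {R : ℝ} {d c : Finset P} (h : Disjoint c d) :
    c ∈ sqf (R / Ns d) ↔ d ∪ c ∈ sqf R := by
  rw [mem_sqf, mem_sqf, Ns_union h.symm, le_div_iff₀ (Ns_pos d), mul_comm]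

theorem rr_sub {R : ℝ} {d n : Finset P} (h : d ⊆ n) (hn : n ∈ sqf R) : d ∈ sqf R :=
  mem_sqf.2 ((Ns_mono h).trans (mem_sqf.1 hn))

theorem rr_sup (R : ℝ) (d : Finset P) (F : Finset P → ℂ) :
    ∑ c ∈ sqf (R / Ns d) with Disjoint c d, F c = ∑ n ∈ sqf R with d ⊆ n, F (n \ d) := by
  refine Finset.sum_bij' (fun c _ => d ∪ c) (fun n _ => n \ d) ?_ ?_ ?_ ?_ ?_
  · intro c hc
    rw [Finset.mem_filter] at hc ⊢
    exact ⟨(rr_mem hc.2).1 hc.1, Finset.subset_union_left⟩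
  · intro n hn
    rw [Finset.mem_filter] at hn ⊢
    refine ⟨(rr_mem Finset.sdiff_disjoint).2 ?_, Finset.sdiff_disjoint⟩
    rw [Finset.union_sdiff_of_subset hn.2]
    exact hn.1
  · intro c hc
    rw [Finset.mem_filter] at hc
    exact Finset.union_sdiff_cancel_left hc.2.symm
  · intro n hn
    rw [Finset.mem_filter] at hn
    exact Finset.union_sdiff_of_subset hn.2
  · intro c hc
    rw [Finset.mem_filter] at hc
    rw [Finset.union_sdiff_cancel_left hc.2.symm]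

theorem rr_step1 (R : ℝ) (Ψ : Finset P → Finset P → Finset P → ℂ) :
    ∑ n ∈ sqf R, ∑ n' ∈ sqf R, Ψ (n ∩ n') (n \ n') (n' \ n)
      = ∑ d ∈ sqf R, ∑ c ∈ sqf (R / Ns d) with Disjoint c d,
          ∑ c' ∈ sqf (R / Ns d) with Disjoint c' d, if Disjoint c c' then Ψ d c c' else 0 := by
  simp_rw [rr_sup]
  simp_rw [Finset.sum_filter]
  have e1 : ∀ d n : Finset P, (if d ⊆ n then ∑ n' ∈ sqf R, (if d ⊆ n' then
      (if Disjoint (n \ d) (n' \ d) then Ψ d (n \ d) (n' \ d) else 0) else 0) else 0)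
      = ∑ n' ∈ sqf R, if d = n ∩ n' then Ψ d (n \ d) (n' \ d) else 0 := by
    intro d n
    by_cases h : d ⊆ n
    · rw [if_pos h]
      refine Finset.sum_congr rfl fun n' _ => ?_
      by_cases h' : d ⊆ n'
      · rw [if_pos h']
        refine if_congr ?_ rfl rfl
        constructor
        · intro hd
          refine Finset.Subset.antisymm (Finset.subset_inter h h') fun p hp => ?_
          by_contra hpd
          rw [Finset.mem_inter] at hp
          exact Finset.disjoint_left.1 hd (Finset.mem_sdiff.2 ⟨hp.1, hpd⟩)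
            (Finset.mem_sdiff.2 ⟨hp.2, hpd⟩)
        · rintro rfl
          rw [Finset.disjoint_left]
          intro p hp hp'
          rw [Finset.mem_sdiff] at hp hp'
          exact hp.2 (Finset.mem_inter.2 ⟨hp.1, hp'.1⟩)
      · rw [if_neg h', if_neg]
        rintro rfl
        exact h' Finset.inter_subset_right
    · rw [if_neg h]
      refine (Finset.sum_eq_zero fun n' _ => if_neg ?_).symm
      rintro rfl
      exact h Finset.inter_subset_left
  simp_rw [e1]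
  symm
  rw [Finset.sum_comm]
  refine Finset.sum_congr rfl fun n hn => ?_
  rw [Finset.sum_comm]
  refine Finset.sum_congr rfl fun n' _ => ?_
  rw [Finset.sum_ite_eq', if_pos (rr_sub Finset.inter_subset_left hn),
    Finset.sdiff_inter_self_left, Finset.sdiff_inter_self_right]

theorem rr_mu {R : ℝ} {c : Finset P} (hc : c ∈ sqf R) (c' : Finset P) (z : ℂ) :
    (if Disjoint c c' then z else 0)
      = ∑ e ∈ sqf R, if e ⊆ c ∧ e ⊆ c' then mu e * z else 0 := by
  rw [← Finset.sum_filter, ← Finset.sum_mul]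
  have : (sqf R).filter (fun e => e ⊆ c ∧ e ⊆ c') = (c ∩ c').powerset := by
    ext e
    rw [Finset.mem_filter, Finset.mem_powerset, Finset.subset_inter_iff]
    exact ⟨fun h => h.2, fun h => ⟨rr_sub h.1 hc, h⟩⟩
  rw [this, sum_mu, ite_mul, one_mul, zero_mul]
  exact if_congr Finset.disjoint_iff_inter_eq_empty rfl rfl

theorem rr_down {R : ℝ} {d c : Finset P} (hc : c ∈ sqf (R / Ns d)) : c ∈ sqf R := by
  rw [mem_sqf] at hc ⊢
  rw [le_div_iff₀ (Ns_pos d)] at hc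
  nlinarith [one_le_Ns d, one_le_Ns c]

/-- The same with the full cofactors as variables. -/
theorem rearr2 (R : ℝ) (Ψ : Finset P → Finset P → Finset P → ℂ) :
    ∑ n ∈ sqf R, ∑ n' ∈ sqf R, Ψ (n ∩ n') (n \ n') (n' \ n)
      = ∑ d ∈ sqf R, ∑ e ∈ sqf R, mu e *
          ∑ c ∈ sqf (R / Ns d) with Disjoint c d ∧ e ⊆ c,
            ∑ c' ∈ sqf (R / Ns d) with Disjoint c' d ∧ e ⊆ c', Ψ d c c' := by
  rw [rr_step1]
  refine Finset.sum_congr rfl fun d _ => ?_
  rw [Finset.sum_congr rfl fun c hc => Finset.sum_congr rfl fun c' _ =>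
    rr_mu (rr_down (Finset.mem_filter.1 hc).1) c' (Ψ d c c')]
  rw [Finset.sum_congr rfl fun c _ => Finset.sum_comm, Finset.sum_comm]
  refine Finset.sum_congr rfl fun e _ => ?_
  simp_rw [← Finset.filter_filter, Finset.mul_sum]
  rw [Finset.sum_filter (fun c => e ⊆ c)]
  refine Finset.sum_congr rfl fun c _ => ?_
  by_cases h : e ⊆ c
  · rw [if_pos h, Finset.sum_filter (fun c => e ⊆ c)]
    refine Finset.sum_congr rfl fun c' _ => if_congr (by simp [h]) rfl rfl
  · rw [if_neg h]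
    exact Finset.sum_eq_zero fun c' _ => if_neg fun h' => h h'.1

theorem rr_shift (R : ℝ) {d e : Finset P} (h : Disjoint d e) (F : Finset P → ℂ) :
    ∑ c ∈ sqf (R / Ns d) with Disjoint c d ∧ e ⊆ c, F c
      = ∑ c ∈ sqf (R / (Ns d * Ns e)) with Disjoint c (d ∪ e), F (e ∪ c) := by
  rw [← div_div]
  refine Finset.sum_bij' (fun n _ => n \ e) (fun c _ => e ∪ c) ?_ ?_ ?_ ?_ ?_
  · intro n hn
    rw [Finset.mem_filter] at hn ⊢
    refine ⟨(rr_mem Finset.sdiff_disjoint).2 ?_, Finset.disjoint_union_right.2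
      ⟨hn.2.1.mono_left Finset.sdiff_subset, Finset.sdiff_disjoint⟩⟩
    rw [Finset.union_sdiff_of_subset hn.2.2]
    exact hn.1
  · intro c hc
    rw [Finset.mem_filter] at hc ⊢
    have hc2 := Finset.disjoint_union_right.1 hc.2
    exact ⟨(rr_mem hc2.2).1 hc.1, Finset.disjoint_union_left.2 ⟨h.symm, hc2.1⟩,
      Finset.subset_union_left⟩
  · intro n hn
    rw [Finset.mem_filter] at hn
    exact Finset.union_sdiff_of_subset hn.2.2
  · intro c hc
    rw [Finset.mem_filter] at hc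
    exact Finset.union_sdiff_cancel_left (Finset.disjoint_union_right.1 hc.2).2.symm
  · intro n hn
    rw [Finset.mem_filter] at hn
    rw [Finset.union_sdiff_of_subset hn.2.2]

/-- Pairs of squarefree elements: common part, and Moebius inversion for coprimality. -/
theorem rearr (R : ℝ) (Ψ : Finset P → Finset P → Finset P → ℂ) :
    ∑ n ∈ sqf R, ∑ n' ∈ sqf R, Ψ (n ∩ n') (n \ n') (n' \ n)
      = ∑ d ∈ sqf R, ∑ e ∈ sqf R with Disjoint d e, mu e *
          ∑ c ∈ sqf (R / (Ns d * Ns e)) with Disjoint c (d ∪ e),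
            ∑ c' ∈ sqf (R / (Ns d * Ns e)) with Disjoint c' (d ∪ e), Ψ d (e ∪ c) (e ∪ c') := by
  rw [rearr2]
  refine Finset.sum_congr rfl fun d _ => ?_
  rw [Finset.sum_filter (fun e => Disjoint d e)]
  refine Finset.sum_congr rfl fun e _ => ?_
  by_cases h : Disjoint d e
  · rw [if_pos h, rr_shift R h]
    simp_rw [rr_shift R h]
  · rw [if_neg h, Finset.sum_eq_zero, mul_zero]
    intro c hc
    rw [Finset.mem_filter] at hc
    exact absurd (hc.2.1.mono_left hc.2.2).symm h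

/-- Splitting off the part supported on `K`. -/
theorem sum_sqf_split (R : ℝ) (K : Finset P) (F : Finset P → ℂ) :
    ∑ s ∈ sqf R, F s = ∑ d ∈ K.powerset, ∑ c ∈ sqf (R / Ns d) with Disjoint c K, F (d ∪ c) := by
  rw [← Finset.sum_fiberwise_of_maps_to (s := sqf R) (t := K.powerset) (g := fun s => s ∩ K)
    fun s _ => Finset.mem_powerset.2 Finset.inter_subset_right]
  refine Finset.sum_congr rfl fun d hd => ?_
  rw [Finset.mem_powerset] at hd
  have key : ∀ s : Finset P, s ∩ K ∪ s \ K = s := fun s => by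
    rw [Finset.union_comm, Finset.sdiff_union_inter]
  refine Finset.sum_bij' (fun n _ => n \ K) (fun c _ => d ∪ c) ?_ ?_ ?_ ?_ ?_
  · intro n hn
    rw [Finset.mem_filter] at hn ⊢
    refine ⟨(rr_mem (Finset.sdiff_disjoint.mono_right hd)).2 ?_, Finset.sdiff_disjoint⟩
    rw [← hn.2, key]
    exact hn.1
  · intro c hc
    rw [Finset.mem_filter] at hc ⊢
    refine ⟨(rr_mem (hc.2.mono_right hd)).1 hc.1, ?_⟩
    rw [Finset.union_inter_distrib_right, Finset.disjoint_iff_inter_eq_empty.1 hc.2,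
      Finset.union_empty, Finset.inter_eq_left.2 hd]
  · intro n hn
    rw [Finset.mem_filter] at hn
    rw [← hn.2, key]
  · intro c hc
    rw [Finset.mem_filter] at hc
    rw [Finset.union_sdiff_distrib, Finset.sdiff_eq_empty_iff_subset.2 hd, Finset.empty_union,
      Finset.sdiff_eq_self_of_disjoint hc.2]
  · intro n hn
    rw [Finset.mem_filter] at hn
    rw [← hn.2, key]

theorem rr_card (T : Finset (Finset P)) (n : Finset P) :
    ∑ d ∈ T, (if d ⊆ n then (1 : ℝ) else 0) ≤ 2 ^ n.card := by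
  rw [Finset.sum_boole]
  have : (T.filter fun d => d ⊆ n).card ≤ n.powerset.card := Finset.card_le_card fun d hd =>
    Finset.mem_powerset.2 (Finset.mem_filter.1 hd).2
  rw [Finset.card_powerset] at this
  exact_mod_cast this

theorem rr_count (T : Finset (Finset P)) (n : Finset P) :
    ∑ d ∈ T, ∑ r ∈ T, ∑ e ∈ T, (if d ∪ r ∪ e ⊆ n then (2 : ℝ) ^ d.card else 0)
      ≤ 16 ^ n.card := by
  have h0 : 0 ≤ ∑ d ∈ T, (if d ⊆ n then (1 : ℝ) else 0) :=
    Finset.sum_nonneg fun d _ => by positivity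
  calc _ ≤ ∑ d ∈ T, ∑ r ∈ T, ∑ e ∈ T, 2 ^ n.card * ((if d ⊆ n then (1 : ℝ) else 0) *
        ((if r ⊆ n then (1 : ℝ) else 0) * (if e ⊆ n then (1 : ℝ) else 0))) := by
        refine Finset.sum_le_sum fun d _ => Finset.sum_le_sum fun r _ =>
          Finset.sum_le_sum fun e _ => ?_
        by_cases h : d ∪ r ∪ e ⊆ n
        · have h' := h
          rw [Finset.union_subset_iff, Finset.union_subset_iff] at h'
          rw [if_pos h, if_pos h'.1.1, if_pos h'.1.2, if_pos h'.2, mul_one, mul_one, mul_one]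
          exact pow_le_pow_right₀ one_le_two (Finset.card_le_card h'.1.1)
        · rw [if_neg h]
          positivity
    _ = 2 ^ n.card * ((∑ d ∈ T, (if d ⊆ n then (1 : ℝ) else 0)) *
        ((∑ d ∈ T, (if d ⊆ n then (1 : ℝ) else 0)) *
          (∑ d ∈ T, (if d ⊆ n then (1 : ℝ) else 0)))) := by
        simp_rw [← Finset.mul_sum, ← Finset.sum_mul]
    _ ≤ 2 ^ n.card * (2 ^ n.card * (2 ^ n.card * 2 ^ n.card)) := by
        have := rr_card T n
        gcongr
    _ = 16 ^ n.card := by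
        rw [← mul_pow, ← mul_pow, ← mul_pow]
        norm_num

theorem comb {ε : ℝ} (hε : 0 < ε) : ∃ C : ℝ, 0 < C ∧ ∀ (N : ℝ) (α : Finset P → ℂ), 1 ≤ N →
    ∑ d ∈ sqf N, ∑ r ∈ sqf N, 2 ^ d.card *
      (∑ e ∈ sqf N, √((∑ n ∈ sqf N with d ∪ r ∪ e ⊆ n, ‖α n‖ ^ 2) / Ns e)) ^ 2
      ≤ C * N ^ ε * ∑ n ∈ sqf N, ‖α n‖ ^ 2 := by
  obtain ⟨C1, hC1, h1⟩ := sum_sqf_inv (half_pos hε)
  obtain ⟨C2, hC2, h2⟩ := pow_card_le (A := 16) (by norm_num) (half_pos hε)
  refine ⟨C1 * C2, mul_pos hC1 hC2, fun N α hN => ?_⟩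
  have hN0 : 0 < N := by linarith
  have hS := h1 N hN0.le
  have cs : ∀ d r : Finset P,
      (∑ e ∈ sqf N, √((∑ n ∈ sqf N with d ∪ r ∪ e ⊆ n, ‖α n‖ ^ 2) / Ns e)) ^ 2
        ≤ (∑ e ∈ sqf N, ∑ n ∈ sqf N with d ∪ r ∪ e ⊆ n, ‖α n‖ ^ 2) * (C1 * N ^ (ε / 2)) := by
    intro d r
    have hA : ∀ e : Finset P, 0 ≤ ∑ n ∈ sqf N with d ∪ r ∪ e ⊆ n, ‖α n‖ ^ 2 := fun e =>
      Finset.sum_nonneg fun _ _ => by positivity
    refine (Finset.sum_sq_le_sum_mul_sum_of_sq_le_mul _ (fun e _ => hA e)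
      (fun e _ => (inv_pos.2 (Ns_pos e)).le) fun e _ => ?_).trans
      (mul_le_mul_of_nonneg_left hS (Finset.sum_nonneg fun e _ => hA e))
    rw [Real.sq_sqrt (div_nonneg (hA e) (Ns_pos e).le), div_eq_mul_inv]
  calc _ ≤ ∑ d ∈ sqf N, ∑ r ∈ sqf N, 2 ^ d.card *
        ((∑ e ∈ sqf N, ∑ n ∈ sqf N with d ∪ r ∪ e ⊆ n, ‖α n‖ ^ 2) * (C1 * N ^ (ε / 2))) :=
        Finset.sum_le_sum fun d _ => Finset.sum_le_sum fun r _ =>
          mul_le_mul_of_nonneg_left (cs d r) (by positivity)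
    _ = C1 * N ^ (ε / 2) * ∑ n ∈ sqf N, ‖α n‖ ^ 2 * ∑ d ∈ sqf N, ∑ r ∈ sqf N, ∑ e ∈ sqf N,
        (if d ∪ r ∪ e ⊆ n then (2 : ℝ) ^ d.card else 0) := by
        simp_rw [Finset.mul_sum, Finset.sum_filter, Finset.sum_mul, Finset.mul_sum]
        symm
        rw [Finset.sum_comm]
        refine Finset.sum_congr rfl fun d _ => ?_
        rw [Finset.sum_comm]
        refine Finset.sum_congr rfl fun r _ => ?_
        rw [Finset.sum_comm]
        refine Finset.sum_congr rfl fun e _ => Finset.sum_congr rfl fun n _ => ?_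
        split_ifs <;> ring
    _ ≤ C1 * N ^ (ε / 2) * ∑ n ∈ sqf N, ‖α n‖ ^ 2 * (C2 * N ^ (ε / 2)) := by
        refine mul_le_mul_of_nonneg_left (Finset.sum_le_sum fun n hn =>
          mul_le_mul_of_nonneg_left ((rr_count _ n).trans ((h2 n).trans ?_)) (by positivity))
          (by positivity)
        exact mul_le_mul_of_nonneg_left
          (Real.rpow_le_rpow (Ns_pos n).le (mem_sqf.1 hn) (half_pos hε).le) hC2.le
    _ = C1 * C2 * N ^ ε * ∑ n ∈ sqf N, ‖α n‖ ^ 2 := by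
        rw [← Finset.sum_mul]
        have : N ^ ε = N ^ (ε / 2) * N ^ (ε / 2) := by rw [← Real.rpow_add hN0, add_halves]
        rw [this]
        ring

theorem rr_un {u : E} (hu : IsUnit u) (s : Finset P) : un (u * pr s) = u := by
  rw [un_mul hu.ne_zero (pr_ne_zero s), un_unit hu, (prim_pr s).un_eq, mul_one]

theorem rr_fac {u : E} (hu : IsUnit u) (s : Finset P) : fac (u * pr s) = s := by
  rw [fac_mul hu.ne_zero (pr_ne_zero s), fac_unit hu, fac_pr, Finset.empty_union]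

theorem rr_nm {u : E} (hu : IsUnit u) (s : Finset P) : (nm (u * pr s) : ℝ) = Ns s := by
  rw [nm_mul, isUnit_iff.1 hu, one_mul, Ns]

theorem rr_sqf {a : E} (ha : Squarefree a) : un a * pr (fac a) = a := by
  rw [← prim_unique (prim_pm a) (prim_pr (fac a))
    ((assoc_pm ha.ne_zero).symm.trans (squarefree_iff_assoc.1 ha)), un_mul_pm ha.ne_zero]

theorem rr_isA {a : E} : IsA a ↔ ∃ (s : Finset P) (u : E), IsU 2 u ∧ a = u * pr s := by
  constructor
  · rintro ⟨h1, h2⟩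
    exact ⟨fac a, un a, h2, (rr_sqf h1).symm⟩
  · rintro ⟨s, u, hu, rfl⟩
    refine ⟨?_, by rwa [rr_un hu.1]⟩
    exact (associated_unit_mul_left (pr s) u hu.1).symm.squarefree_iff.1 (squarefree_pr s)

/-- Every nonzero element is `a b^2` in exactly two ways. -/
theorem exists_isA {m : E} (hm : m ≠ 0) : ∃ a b, IsA a ∧ b ≠ 0 ∧ m = a * b ^ 2 := by
  refine induction_nz (M := fun m => ∃ a b, IsA a ∧ b ≠ 0 ∧ m = a * b ^ 2) ?_ ?_ hm
  · intro u hu
    obtain ⟨e, u0, h0, rfl⟩ := exists_isU 2 hu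
    exact ⟨_, e, rr_isA.2 ⟨∅, u0, h0, rfl⟩, e.ne_zero, by rw [pr_empty]; ring⟩
  · rintro p x - ⟨a, b, ha, hb, rfl⟩
    obtain ⟨s, u, hu, rfl⟩ := rr_isA.1 ha
    by_cases hp : p ∈ s
    · refine ⟨_, p.1 * b, rr_isA.2 ⟨s.erase p, u, hu, rfl⟩, mul_ne_zero p.ne_zero hb, ?_⟩
      have : pr s = p.1 * pr (s.erase p) := by
        rw [← pr_insert (Finset.notMem_erase p s), Finset.insert_erase hp]
      rw [this]
      ring
    · exact ⟨_, b, rr_isA.2 ⟨insert p s, u, hu, rfl⟩, hb, by rw [pr_insert hp]; ring⟩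

theorem IsA.ne_zero {a : E} (ha : IsA a) : a ≠ 0 := ha.1.ne_zero

theorem IsA.vp_le {a : E} (ha : IsA a) (p : P) : vp p.1 a ≤ 1 :=
  (squarefree_iff_vp ha.ne_zero).1 ha.1 p

theorem isA_unique {a a1 b b1 : E} (ha : IsA a) (ha1 : IsA a1) (hb : b ≠ 0)
    (h : a * b ^ 2 = a1 * b1 ^ 2) : a = a1 ∧ (b = b1 ∨ b = -b1) := by
  have hb1 : b1 ≠ 0 := by
    rintro rfl
    exact mul_ne_zero ha.ne_zero (pow_ne_zero 2 hb) (by rw [h]; ring)
  have key : ∀ q : P, vp q.1 a + 2 * vp q.1 b = vp q.1 a1 + 2 * vp q.1 b1 := fun q => by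
    rw [← vp_pow q.prime hb, ← vp_pow q.prime hb1,
      ← vp_mul q.prime ha.ne_zero (pow_ne_zero 2 hb),
      ← vp_mul q.prime ha1.ne_zero (pow_ne_zero 2 hb1), h]
  have e1 : Associated a a1 := assoc_of_vp ha.ne_zero ha1.ne_zero fun p => by
    have := key p
    have := ha.vp_le p
    have := ha1.vp_le p
    omega
  have e2 : Associated b1 b := assoc_of_vp hb1 hb fun p => by
    have := key p
    have := ha.vp_le p
    have := ha1.vp_le p
    omega
  obtain ⟨e, rfl⟩ := e2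
  have h1 : a1 = (e : E) ^ 2 * a :=
    mul_right_cancel₀ (pow_ne_zero 2 hb1) (by linear_combination -h)
  have h2 : un a1 = (e : E) ^ 2 * un a := by
    rw [h1, un_mul (pow_ne_zero 2 e.ne_zero) ha.ne_zero, un_unit (e.isUnit.pow 2)]
  have h3 : a = a1 := by
    rw [← un_mul_pm ha.ne_zero, ← un_mul_pm ha1.ne_zero, isU_unique ha.2 ha1.2 e h2, pm_assoc e1]
  subst h3
  exact ⟨rfl, sq_eq_sq_iff_eq_or_eq_neg.1 (mul_left_cancel₀ ha.ne_zero h)⟩

theorem one_le_Rr (ρ : E) : 1 ≤ Rr ρ := one_le_Ns _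
theorem Rr_mul_le {ρ x : E} (hρ : ρ ≠ 0) (hx : x ≠ 0) : Rr (ρ * x) ≤ Rr ρ * Rr x := by
  unfold Rr
  rw [fac_mul hρ hx]
  exact Ns_union_le _ _
theorem isA_pr (s : Finset P) : IsA (pr s) := rr_isA.2 ⟨s, 1, isU_one 2, (one_mul _).symm⟩

theorem rr_half {F : E → ℂ} (hF : Summable F) (g : E → E × E)
    (h1 : ∀ m, (g m).1 * (g m).2 ^ 2 = m) (h2 : ∀ m, m ≠ 0 → IsA (g m).1 ∧ (g m).2 ≠ 0) :
    HasSum (fun x : E × E => if x = g (x.1 * x.2 ^ 2) then
      (if IsA x.1 ∧ x.2 ≠ 0 then F (x.1 * x.2 ^ 2) else 0) else 0)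
      (∑' m : E, if m = 0 then 0 else F m) := by
  have hg : Function.Injective g := fun m m' h => by rw [← h1 m, h, h1]
  have hs : Summable fun m : E => if m = 0 then 0 else F m := by
    refine (hF.indicator {m | m ≠ 0}).congr fun m => ?_
    by_cases hm : m = 0 <;> simp [hm]
  refine (hg.hasSum_iff fun x hx => if_neg fun h => hx ⟨_, h.symm⟩).1 ?_
  refine Eq.mpr (congrArg (fun f => HasSum f _) (funext fun m => ?_)) hs.hasSum
  simp only [Function.comp_apply, h1, if_true]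
  by_cases hm : m = 0
  · rw [if_pos hm, if_neg]
    intro h
    exact mul_ne_zero h.1.ne_zero (pow_ne_zero 2 h.2) ((h1 m).trans hm)
  · rw [if_neg hm, if_pos (h2 m hm)]

theorem tsum_isA {F : E → ℂ} (hF : Summable F) :
    Summable (fun x : E × E => if IsA x.1 ∧ x.2 ≠ 0 then F (x.1 * x.2 ^ 2) else 0) ∧
    ∑' x : E × E, (if IsA x.1 ∧ x.2 ≠ 0 then F (x.1 * x.2 ^ 2) else 0)
      = 2 * ∑' m : E, if m = 0 then 0 else F m := by
  have ex : ∀ m : E, ∃ a b : E, a * b ^ 2 = m ∧ (m ≠ 0 → IsA a ∧ b ≠ 0) := fun m => by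
    by_cases hm : m = 0
    · exact ⟨0, 0, by simp [hm], fun h => absurd hm h⟩
    · obtain ⟨a, b, ha, hb, h⟩ := exists_isA hm
      exact ⟨a, b, h.symm, fun _ => ⟨ha, hb⟩⟩
  choose a b h1 h2 using ex
  have s1 := rr_half hF (fun m => (a m, b m)) h1 h2
  have s2 := rr_half hF (fun m => (a m, -b m)) (fun m => by rw [neg_sq]; exact h1 m)
    fun m hm => ⟨(h2 m hm).1, neg_ne_zero.2 (h2 m hm).2⟩
  have s3 : HasSum (fun x : E × E => if IsA x.1 ∧ x.2 ≠ 0 then F (x.1 * x.2 ^ 2) else 0)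
      (2 * ∑' m : E, if m = 0 then 0 else F m) := by
    rw [two_mul]
    refine Eq.mpr (congrArg (fun f => HasSum f _) (funext fun x => ?_)) (s1.add s2)
    by_cases hx : IsA x.1 ∧ x.2 ≠ 0
    · have hm : x.1 * x.2 ^ 2 ≠ 0 := mul_ne_zero hx.1.ne_zero (pow_ne_zero 2 hx.2)
      have hb := (h2 _ hm).2
      obtain ⟨u1, u2⟩ := isA_unique hx.1 (h2 _ hm).1 hx.2 (h1 _).symm
      have hne : b (x.1 * x.2 ^ 2) ≠ -b (x.1 * x.2 ^ 2) := fun h =>
        mul_ne_zero isUnit_two.ne_zero hb (by linear_combination h)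
      rcases u2 with u2 | u2
      · rw [if_pos (Prod.ext u1 u2), if_neg fun h => hne (u2.symm.trans (congrArg Prod.snd h)),
          add_zero]
      · rw [if_neg fun h => hne ((congrArg Prod.snd h).symm.trans u2), if_pos (Prod.ext u1 u2),
          zero_add]
    · simp only [if_neg hx, ite_self, add_zero]
  exact ⟨s3.summable, s3.tsum_eq⟩

/-- Sums over the representatives modulo squares. -/
theorem sum_calA : ∃ U : Finset E, (∀ u ∈ U, IsUnit u) ∧ ∀ (A : ℝ) (F : E → ℝ),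
    ∑ a ∈ calA A, F a = ∑ u ∈ U, ∑ s ∈ sqf A, F (u * pr s) := by
  refine ⟨(finite_isU two_ne_zero).toFinset,
    fun u hu => ((Set.Finite.mem_toFinset _).1 hu).1, fun A F => ?_⟩
  rw [← Finset.sum_product']
  refine Finset.sum_bij' (fun a _ => (un a, fac a)) (fun x _ => x.1 * pr x.2) ?_ ?_ ?_ ?_ ?_
  · intro a ha
    obtain ⟨h1, h2⟩ := mem_calA.1 ha
    exact Finset.mem_product.2 ⟨(Set.Finite.mem_toFinset _).2 h1.2,
      mem_sqf.2 ((Ns_fac_le h1.ne_zero).trans h2)⟩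
  · intro x hx
    obtain ⟨h1, h2⟩ := Finset.mem_product.1 hx
    have hu : IsU 2 x.1 := (finite_isU two_ne_zero).mem_toFinset.1 h1
    exact mem_calA.2 ⟨rr_isA.2 ⟨_, _, hu, rfl⟩, by rw [rr_nm hu.1]; exact mem_sqf.1 h2⟩
  · intro a ha
    exact rr_sqf (mem_calA.1 ha).1.1
  · intro x hx
    have hu : IsU 2 x.1 := (finite_isU two_ne_zero).mem_toFinset.1 (Finset.mem_product.1 hx).1
    exact Prod.ext (rr_un hu.1 _) (rr_fac hu.1 _)
  · intro a ha
    rw [rr_sqf (mem_calA.1 ha).1.1]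

end NQ
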