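import Vale.Agent.NQ.Gauss
import Vale.Agent.NQ.Rearr

noncomputable section
namespace NQ
open Complex MeasureTheory NumberField Filter
open scoped ComplexConjugate Classical ContDiff Topology

variable [σ : St]

/-- Coefficient of `HA` without the character in `n`. -/
def bA (ρ : E) (s : Finset P) : ℂ := mu s * conj (xs c6 s ρ)
/-- Coefficient of `HB` without the character in `m`. -/
def bB (a : FF) (ρ : E) (K : Finset P) (t : E) (s : Finset P) : ℂ :=
  if Disjoint s K then mu s * gamA c6 a s * conj (xs c6 s ρ) * xs c6 s t else 0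

theorem dc_pr_iff {c d : Finset P} : (∀ p ∈ c, ¬ p.1 ∣ pr d) ↔ Disjoint c d := by
  simp only [dvd_pr_iff, Finset.disjoint_left]

theorem dc_zero {c d : Finset P} (h : ¬ Disjoint c d) : xs c6 c (pr d) = 0 := by
  rw [xs_eq_zero_iff ch_c6]
  simpa only [← dc_pr_iff, not_forall, not_not, exists_prop] using h

theorem dc_one {c d : Finset P} (h : Disjoint c d) {y : E} (hy : Associated y (pr d)) :
    xs c6 c y * conj (xs c6 c y) = 1 := by
  rw [xs_mul_conj ch_c6, if_pos fun p hp h1 => dc_pr_iff.2 h p hp (h1.trans hy.dvd)]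

theorem dc_four (s : Finset P) (n : E) : conj (xs c6 s n) ^ 4 = xs c6 s n ^ 2 := by
  have h := xs_six s n
  rw [xs_pow ch_c6] at h
  rw [conj_xs_c6, xs_pow ch_c6]
  split_ifs at h with h1
  · linear_combination (xs c6 s n ^ 14 + xs c6 s n ^ 8 + xs c6 s n ^ 2) * h
  · rw [pow_eq_zero_iff (by norm_num)] at h
    simp [h]

omit σ in
theorem dc_norm_mul {x y : ℂ} (hx : ‖x‖ ≤ 1) (hy : ‖y‖ ≤ 1) : ‖x * y‖ ≤ 1 := by
  rw [norm_mul]
  exact mul_le_one₀ hx (norm_nonneg _) hy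

theorem dc_norm_conj (s : Finset P) (n : E) : ‖conj (xs c6 s n)‖ ≤ 1 := by
  rw [Complex.norm_conj]
  exact norm_xs_le ch_c6 s n

/-- Reciprocity inside a class. -/
theorem dc_rec (hR : XR c6) {a : FF} (ha : a ≠ 0) (e : Finset P) : ∃ κ : ℂ, ‖κ‖ ≤ 1 ∧
    ∀ c, HasCl a c → xs c6 e (el a c) = κ * xs c6 c (pr e) := by
  obtain ⟨κ, h1, h2⟩ := hR a (pr e) ha (pr_ne_zero e)
  refine ⟨conj κ, by rw [Complex.norm_conj, h1], fun c hc => ?_⟩
  have h3 := h2 _ (el_cl hc)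
  rw [xv_assoc (el_assoc a c), xv_pr, xv_pr] at h3
  have h4 : conj κ * κ = 1 := by
    rw [Complex.conj_mul', h1]
    simp
  rw [h3, ← mul_assoc, h4, one_mul]

/-- The symbol at `-1` is constant on a class. -/
theorem dc_neg (hR : XR c6) {a : FF} (ha : a ≠ 0) : ∃ ν : ℂ, ‖ν‖ ≤ 1 ∧
    ∀ c, HasCl a c → xs c6 c (-1) = ν := by
  obtain ⟨κ, h1, h2⟩ := hR a (-1) ha (by simp)
  refine ⟨κ, h1.le, fun c hc => ?_⟩
  have h3 := h2 _ (el_cl hc)
  rwa [xv_assoc (el_assoc a c), xv_pr, xv_unit isUnit_one.neg, mul_one] at h3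

theorem cA_eq (ρ n : E) : cA ρ n = fun s => bA ρ s * xs c6 s n := by
  funext s
  simp only [cA, bA]
  ring
theorem cB_eq (a : FF) (ρ : E) (K : Finset P) (t m : E) :
    cB a ρ K t m = fun s => bB a ρ K t s * xs (cj c6) s m := by
  funext s
  simp only [cB, bB, cH, xs_cj]
  split_ifs
  · ring
  · rw [zero_mul]
theorem cB_triv (a : FF) (ρ m : E) : cB a ρ ∅ 1 m = cH a ρ m := by
  funext s
  rw [cB, if_pos (Finset.disjoint_empty_right s), xs_one ch_c6, mul_one]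
theorem cAK_empty (ρ n : E) : cAK ρ ∅ n = cA ρ n := by
  funext s
  rw [cAK, if_pos (Finset.disjoint_empty_right s)]
theorem norm_bA_le (ρ : E) (s : Finset P) : ‖bA ρ s‖ ≤ 1 :=
  dc_norm_mul (norm_mu s).le (dc_norm_conj _ _)
theorem norm_bB_le (a : FF) (ρ : E) (K : Finset P) (t : E) (s : Finset P) : ‖bB a ρ K t s‖ ≤ 1 := by
  rw [bB]
  split_ifs
  · exact dc_norm_mul (dc_norm_mul (dc_norm_mul (norm_mu s).le (norm_gamA ch_c6 a s).le)
      (dc_norm_conj _ _)) (norm_xs_le ch_c6 _ _)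
  · simp
theorem norm_dual_le {β : Finset P → ℂ} (hβ : ∀ s, ‖β s‖ ≤ 1) (a : FF) (d f e : Finset P) (m : E)
    (c : Finset P) : ‖dual c6 β a d f e m c‖ ≤ 1 := by
  rw [dual]
  split_ifs
  · exact dc_norm_mul (dc_norm_mul (dc_norm_mul (dc_norm_mul (dc_norm_mul (hβ _)
      (norm_xs_le ch_c6 _ _)) (norm_gamA ch_c6 a c).le) (norm_xs_le ch_c6 _ _))
      (norm_xs_le ch_c6 _ _)) (dc_norm_conj _ _)
  · simp
theorem cB_eq_cH (a : FF) (ρ m : E) (d f e : Finset P) :
    cB a ρ d (pr f * pr e ^ 2) m = cH a (ρ * (pr f ^ 5 * pr e ^ 4 * pr d ^ 6)) m := by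
  funext s
  simp only [cB, cH, xs_mul ch_c6, ← conj_xs_c6, xs_six, dc_pr_iff, map_mul, Complex.conj_conj]
  rw [xs_pow ch_c6 s (pr e) 4, xs_pow ch_c6 s (pr e) 2, map_pow, dc_four]
  split_ifs
  · rw [map_one]
    ring
  · simp
theorem dual_bA (hR : XR c6) {a : FF} (ha : a ≠ 0) (ρ : E) (d f e : Finset P)
    (hde : Disjoint d e) : ∃ κ : ℂ, ‖κ‖ ≤ 1 ∧ ∀ m c, HasCl a c →
      dual c6 (bA ρ) a d f e m c = κ * cB a ρ d (pr f * pr e ^ 2) m c := by
  have _ := hde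
  obtain ⟨κ, k1, k2⟩ := dc_rec hR ha e
  refine ⟨mu (d ∪ e) * conj (xs c6 (d ∪ e) ρ) * κ,
    dc_norm_mul (dc_norm_mul (norm_mu _).le (dc_norm_conj _ _)) k1, fun m c hc => ?_⟩
  simp only [dual, cB, cH, bA, xs_mul ch_c6, xs_pow ch_c6]
  by_cases h1 : Disjoint c (d ∪ e)
  · rw [if_pos h1, if_pos (Finset.disjoint_union_right.1 h1).1,
      mu_union h1.symm, xs_union h1.symm, map_mul, k2 c hc]
    ring
  · rw [if_neg h1]
    split_ifs with h2
    · rw [dc_zero (d := e) fun h => h1 (Finset.disjoint_union_right.2 ⟨h2, h⟩)]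
      simp
    · simp
theorem dual_bB (hR : XR c6) (hu : Uni c6) {a : FF} (ha : a ≠ 0) (ρ : E) (K : Finset P) (t : E)
    {d f e : Finset P} (hf : f ⊆ d) (hde : Disjoint d e) : ∃ κ : ℂ, ‖κ‖ ≤ 1 ∧
      ∀ n c, HasCl (a / (pr d * pr e : E)) c →
        dual (cj c6) (bB a ρ K t) (a / (pr d * pr e : E)) d f e n c
          = κ * cAK ρ (K ∪ e) (n * t * pr d * pr (d \ f)) c := by
  by_cases hK : Disjoint (d ∪ e) K
  swap
  · refine ⟨0, by simp, fun m c _ => ?_⟩
    have : ¬ Disjoint (d ∪ e ∪ c) K := fun h => hK (Finset.disjoint_union_left.1 h).1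
    simp only [dual, bB, if_neg this, zero_mul, ite_self]
  rw [← pr_union hde]
  have h0 : ((pr (d ∪ e) : E) : FF) ≠ 0 := by exact_mod_cast pr_ne_zero (d ∪ e)
  have ha1 : a / ((pr (d ∪ e) : E) : FF) ≠ 0 := div_ne_zero ha h0
  have hcl : ∀ y : E, Cl (a / ((pr (d ∪ e) : E) : FF)) y → Cl a ((pr (d ∪ e) * y : E) : FF) :=
    fun y hy => by
      rw [Subring.coe_mul]
      exact (Cl_div_iff h0).1 hy
  generalize a / ((pr (d ∪ e) : E) : FF) = a1 at ha1 hcl ⊢
  obtain ⟨κ, k1, k2⟩ := dc_rec hR ha1 d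
  obtain ⟨ν, hν1, hν⟩ := dc_neg hR ha1
  refine ⟨mu (d ∪ e) * gamE c6 (d ∪ e) (pr (d ∪ e)) * conj (xs c6 (d ∪ e) ρ) * xs c6 (d ∪ e) t *
    κ * ν, dc_norm_mul (dc_norm_mul (dc_norm_mul (dc_norm_mul (dc_norm_mul (norm_mu _).le
      (norm_gamE ch_c6 (Associated.refl _)).le) (dc_norm_conj _ _)) (norm_xs_le ch_c6 _ _))
      k1) hν1, fun n c hc => ?_⟩
  simp only [dual, cAK, cA, bB, xs_mul ch_c6, xs_cj, Complex.conj_conj]
  by_cases h1 : Disjoint c (d ∪ e)
  · obtain ⟨hcd, hce⟩ := Finset.disjoint_union_right.1 h1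
    rw [if_pos h1]
    by_cases h3 : Disjoint c K
    · have e0 : gamA c6 a (d ∪ e ∪ c) = gamE c6 (d ∪ e ∪ c) (pr (d ∪ e) * el a1 c) :=
        gamA_eq ch_c6 hu (by
          rw [pr_union h1.symm]
          exact (el_assoc a1 c).mul_left _) (hcl _ (el_cl hc))
      rw [if_pos (Finset.disjoint_union_left.2 ⟨hK, h3⟩),
        if_pos (Finset.disjoint_union_right.2 ⟨h3, hce⟩), mu_union h1.symm, e0,
        gamE_union ch_c6 h1.symm (Associated.refl _) (el_assoc a1 c), xs_union h1.symm ρ,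
        xs_union h1.symm t, map_mul, xs_union hde (el a1 c), gamA]
      have e1 := k2 c hc
      have e2 := gamE_mul_cj ch_c6 (el_assoc a1 c)
      have e3 := dc_one hce (Associated.refl _)
      have e4 := dc_one hce.symm (el_assoc a1 c)
      have e5 := dc_one (Finset.disjoint_of_subset_right hf hcd) (Associated.refl _)
      have e6 : xs c6 c (pr d) = xs c6 c (pr f) * xs c6 c (pr (d \ f)) := by
        rw [← xs_mul ch_c6, ← pr_union Finset.disjoint_sdiff, Finset.union_sdiff_of_subset hf]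
      have e7 : xs c6 c (pr (d ∪ e)) = xs c6 c (pr d) * xs c6 c (pr e) := by
        rw [pr_union hde, xs_mul ch_c6]
      rw [hν c hc] at e2
      rw [e7, e1, ← e2]
      nth_rewrite 2 [e6]
      generalize xs c6 c (pr f) = x1 at e5 ⊢
      generalize xs c6 c (pr e) = x2 at e3 ⊢
      generalize xs c6 e (el a1 c) = x3 at e4 ⊢
      trans (x1 * conj x1) * (x2 * conj x2) * (x3 * conj x3) * (mu (d ∪ e) *
        gamE c6 (d ∪ e) (pr (d ∪ e)) * conj (xs c6 (d ∪ e) ρ) * xs c6 (d ∪ e) t * κ *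
        (gamE c6 c (el a1 c) * gamE (cj c6) c (el a1 c)) * (mu c *
          (xs c6 c n * xs c6 c t * xs c6 c (pr d) * xs c6 c (pr (d \ f))) * conj (xs c6 c ρ)))
      · ring
      · rw [e3, e4, e5, one_mul, one_mul, one_mul]
    · rw [if_neg fun h => h3 (Finset.disjoint_union_left.1 h).2,
        if_neg fun h => h3 (Finset.disjoint_union_right.1 h).1]
      simp
  · rw [if_neg h1]
    split_ifs with h2
    · rw [dc_zero (d := d) fun h =>
        h1 (Finset.disjoint_union_right.2 ⟨h, (Finset.disjoint_union_right.1 h2).2⟩)]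
      simp
    · simp

end NQ
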