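import Vale.Agent.NQ.Defs2

/-! Statements of the analytic results. Each is proved in its own file. -/

noncomputable section
namespace NQ
open Complex MeasureTheory NumberField Filter
open scoped ComplexConjugate Classical ContDiff Topology

export QRH (SepQ IBd KFacts)

section
variable [σ : St]

/-- Separation of variables on a compact window, bilinear form. -/
def SepW : Prop := ∀ (A : ℝ) (B : ℕ), 1 ≤ A → ∃ C : ℝ, 0 < C ∧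
  ∀ (ι κ : Type) (I : Finset ι) (J J' : ι → Finset κ) (G : ι → (Pl → ℝ) → ℂ) (g : ι → ℝ) (K : ℝ)
    (x x' : ι → κ → ℂ) (a b : ι → κ → Pl → ℝ),
    (∀ i ∈ I, Continuous (G i)) →
    (∀ i ∈ I, ∀ u : Pl → ℝ, (∀ w, |u w| ≤ 2 * Real.log A + 2) → ‖G i u‖ ≤ g i) →
    (∀ i ∈ I, ∀ j ∈ J i, x i j ≠ 0 → ∀ w, 1 ≤ a i j w ∧ a i j w ≤ A) →
    (∀ i ∈ I, ∀ j ∈ J' i, x' i j ≠ 0 → ∀ w, 1 ≤ b i j w ∧ b i j w ≤ A) →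
    (∀ τ : Pl → ℝ, ∑ i ∈ I, g i * ‖∑ j ∈ J i, x i j * ∏ w, (a i j w : ℂ) ^ iT τ w‖
        * ‖∑ j ∈ J' i, x' i j * ∏ w, (b i j w : ℂ) ^ iT τ w‖ ≤ K * Tb (iT τ) ^ B) →
    ∑ i ∈ I, ‖∑ j ∈ J i, ∑ j' ∈ J' i, x i j * x' i j' *
        ∫ v : Pl → ℝ, (∏ w, ((beta (v w) * Real.exp (v w) : ℝ) : ℂ)) *
          G i (fun w => v w - Real.log (a i j w) - Real.log (b i j' w))‖ ≤ C * K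
/-- Separation of variables, quadratic form, several places. -/
def SepM : Prop := ∀ A : ℝ, ∃ C : ℝ, 0 < C ∧
  ∀ (ι κ : Type) (I : Finset ι) (J : Finset κ) (G : Pl → ℝ → ℂ) (θ g : Pl → ℝ) (K : ℝ)
    (s : Pl → ℂ) (x : ι → κ → ℂ) (a : κ → Pl → ℝ) (b : ι → Pl → ℝ),
    (∀ w, |(s w).re - θ w| ≤ A) → (∀ w, Integrable (fun v => G w v * (Real.exp (θ w * v) : ℝ))) →
    (∀ w, ∫ v, ‖G w v‖ * Real.exp (θ w * v) ≤ g w) → (∀ j ∈ J, ∀ w, 0 < a j w) →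
    (∀ i ∈ I, ∀ w, 0 < b i w) →
    (∀ τ : Pl → ℝ, ∑ i ∈ I, (∏ w, b i w ^ (-(2 * θ w))) *
        ‖∑ j ∈ J, x i j * ∏ w, (a j w : ℂ) ^ (-(θ w + τ w * Complex.I))‖ ^ 2 ≤ K) →
    ∑ i ∈ I, ‖∑ j ∈ J, x i j * ∏ w, sm (s w) (G w) (Real.log (a j w * b i w))‖ ^ 2
      ≤ C * (∏ w, g w) ^ 2 * K
/-- Rescaling. -/
def Resc : Prop := ∀ (A : ℝ) (B : ℕ), 1 ≤ A → ∃ C : ℝ, 0 < C ∧
  ∀ (ι : Type) (J : Finset ι) (γ : ι → Finset P → ℂ) (a : FF) (Ti : ι → Pl → ℝ) (T : Pl → ℝ)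
    (K : ℝ) (s : Pl → ℂ), a ≠ 0 → (∀ w, 0 < T w) → (∀ w, |(s w).re| ≤ 3) →
    (∀ i ∈ J, ∀ w, T w ≤ Ti i w ∧ Ti i w ≤ A * T w) →
    (∀ T' τ : Pl → ℝ, (∀ w, T w / 16 ≤ T' w ∧ T' w ≤ 16 * A * T w) →
      ∑ i ∈ J, ‖S (γ i) ⟨a, T'⟩ (iT τ)‖ ^ 2 ≤ K * Tb (iT τ) ^ B) →
    ∑ i ∈ J, ‖S (γ i) ⟨a, Ti i⟩ s‖ ^ 2 ≤ C * K * Tb s ^ B

/-- Size and support of the `S`-adic oscillatory integral. -/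
def LtB : Prop := ∀ B q c0 : FF, B ≠ 0 → q ≠ 0 → c0 ≠ 0 → ∃ (K : ℝ) (z0 δ1 : FF), 0 < K ∧ z0 ≠ 0 ∧
  δ1 ≠ 0 ∧ ∀ C δ ζ : FF, C ≠ 0 → C / c0 ∈ OS →
    ‖Lt B q C δ ζ‖ ≤ K * sS C ^ (1 / 4 : ℝ) ∧ (Lt B q C δ ζ ≠ 0 → ζ / z0 ∈ OS ∧ δ / δ1 ∈ OS)
def VorA : Prop := ∀ a b q u η β w Y, VP a b q u η β w Y →
  Tendsto (fun X : ℝ => Sig a b q u w Y X / ((∏ v, (X ^ 3 / Y v) ^ 2 * X ^ 2 : ℝ) : ℂ)) atTop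
    (𝓝 (((kap ^ 2 * sS (ss ^ 2) * sS b : ℝ) : ℂ) * VL a (fun c => psf (c * u) q) w Y))
def VorB : Prop := ∀ a b q u η β w Y, VP a b q u η β w Y → ∀ X : ℝ, 0 < X →
  Summable (fun x : E × E × E => G1 a b q u w Y X x.1 x.2.1 x.2.2) ∧
  Sig a b q u w Y X = ((kap * sS b * ∏ v, X ^ 2 * Y v ^ 2 : ℝ) : ℂ)
    * ∑' x : E × E × E, G1 a b q u w Y X x.1 x.2.1 x.2.2
def VorC : Prop := ∀ a b q u η β w Y, VP a b q u η β w Y → ∀ X : ℝ, 0 < X →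
  Summable (fun x : E × E × E => G1 a b q u w Y X x.1 x.2.1 x.2.2) →
  Summable (fun x : E × E × E => G2 a b q w Y X x.1 x.2.1 x.2.2) →
  ∑' x : E × E × E, G1 a b q u w Y X x.1 x.2.1 x.2.2
    = xv c3 q u * (((kap ^ 2 * ∏ v, (X ^ 3 / Y v) ^ 2 / (9 * X ^ 2) : ℝ) : ℂ) / (nm q : ℂ))
      * ∑' x : E × E × E, psf (-(η * x.1)) q * G2 a b q w Y X x.1 x.2.1 x.2.2
def VorS : Prop := ∀ a b q u η β w Y, VP a b q u η β w Y → ∀ X : ℝ, 0 < X →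
  Summable (fun x : E × E × E => G2 a b q w Y X x.1 x.2.1 x.2.2)
def VorD : Prop := ∀ a b q0 : FF, a ≠ 0 → b ≠ 0 → q0 ≠ 0 → ∃ (C : ℝ) (δ1 : FF) (bb : E → ℂ), 0 < C ∧
  δ1 ≠ 0 ∧ (∀ δ, ‖bb δ‖ ≤ C * ‖Tg δ‖ / nm δ) ∧ (∀ δ, bb δ ≠ 0 → (δ : FF) / δ1 ∈ OS) ∧
  ∀ q u η β w Y, VP a b q u η β w Y → Cl q0 q → ∀ δ : E, δ ≠ 0 →
    Tendsto (fun X : ℝ => ((∏ v, Y v ^ 2 / X ^ 2 : ℝ) : ℂ) / (nm q : ℂ)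
        * ∑' x : E × E, G2 a b q w Y X δ x.1 x.2) atTop
      (𝓝 (bb δ * ∏ v, Ka (w v) (zd q Y δ v)))
def VorE0 : Prop := ∀ a b q u η β w Y, VP a b q u η β w Y →
  Tendsto (fun X : ℝ => ((∏ v, Y v ^ 2 / X ^ 2 : ℝ) : ℂ) / (nm q : ℂ)
      * ∑' x : E × E, G2 a b q w Y X 0 x.1 x.2) atTop (𝓝 0)
def VorE : Prop := ∀ a b q u η β w Y, VP a b q u η β w Y →
  ∃ g : E → ℝ, Summable g ∧ ∀ X : ℝ, 1 ≤ X → ∀ δ : E, δ ≠ 0 →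
    ‖((∏ v, Y v ^ 2 / X ^ 2 : ℝ) : ℂ) / (nm q : ℂ)
      * ∑' x : E × E, G2 a b q w Y X δ x.1 x.2‖ ≤ g δ
/-- The Voronoi formula for additive twists. -/
def Vor0 : Prop := ∀ a q0 : FF, a ≠ 0 → q0 ≠ 0 → ∃ (C : ℝ) (δ1 : FF) (bb : E → ℂ), 0 < C ∧
  δ1 ≠ 0 ∧ (∀ δ, ‖bb δ‖ ≤ C * ‖Tg δ‖ / nm δ) ∧ (∀ δ, bb δ ≠ 0 → (δ : FF) / δ1 ∈ OS) ∧
  ∀ (q u η : E) (w : Pl → ℂ → ℂ) (Y : Pl → ℝ), Cl q0 q → q ∣ u * η - 1 → (∀ v, Adm (w v)) →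
    (∀ v, 0 < Y v) → VL a (fun c => psf (c * u) q) w Y
      = xv c3 q u * ∑' δ : E, bb δ * psf (-(η * δ)) q * ∏ v, Ka (w v) (zd q Y δ v)
/-- The Voronoi formula for a class and a periodic twist. -/
def Vor2 : Prop := ∀ a q0 : FF, a ≠ 0 → q0 ≠ 0 → ∃ (C : ℝ) (δ1 : FF) (bb : E → ℂ), 0 < C ∧
  δ1 ≠ 0 ∧ (∀ δ, ‖bb δ‖ ≤ C * ‖Tg δ‖ / nm δ) ∧ (∀ δ, bb δ ≠ 0 → (δ : FF) / δ1 ∈ OS) ∧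
  ∀ (q : E) (f : E → ℂ) (w : Pl → ℂ → ℂ) (Y : Pl → ℝ), Cl q0 q → Good q f → (∀ v, Adm (w v)) →
    (∀ v, 0 < Y v) → VL a f w Y = ∑' δ : E, bb δ * Dq q f δ * ∏ v, Ka (w v) (zd q Y δ v)
/-- The twisted Voronoi formula. -/
def VorT : Prop := ∀ (a : FF) (T : Finset FF), a ≠ 0 → (∀ q0 ∈ T, q0 ≠ 0) →
  ∃ (C : ℝ) (δ1 : FF), 0 < C ∧ δ1 ≠ 0 ∧ ∀ ρ : E, ρ ≠ 0 → ∃ B : Finset P → FF → E → ℂ,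
    (∀ r ⊆ fac ρ, ∀ q0 ∈ T, ∀ δ, ‖B r q0 δ‖ ≤ C * ‖Tg δ‖ / nm δ * √(Ns (fac δ ∩ fac ρ)) ∧
      (B r q0 δ ≠ 0 → (δ : FF) / δ1 ∈ OS)) ∧
    ∀ (t : Finset P) (q : Finset P → E) (q0 : Finset P → FF), Disjoint t (fac ρ) →
      (∀ r ⊆ fac ρ, Associated (q r) (pr (t ∪ r)) ∧ q0 r ∈ T ∧ Cl (q0 r) (q r)) →
      ∃ e : Finset P → ℂ, (∀ r, ‖e r‖ ≤ 1) ∧
        ∀ (w : Pl → ℂ → ℂ) (Y : Pl → ℝ), (∀ v, Adm (w v)) → (∀ v, 0 < Y v) →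
          VL a (fun c => conj (xv c6 c (pr t * ρ))) w Y
            = ∑ r ∈ (fac ρ).powerset, e r *
                ∑' δ : E, B r (q0 r) δ * xs c2 t δ * ∏ v, Ka (w v) (zd (q r) Y δ v)

/-- The quadratic large sieve. -/
def QLS : Prop := ∀ ε : ℝ, 0 < ε → ∃ C : ℝ, 0 < C ∧ ∀ (M N : ℝ) (α : Finset P → ℂ), 1 ≤ M → 1 ≤ N →
  ∑ m ∈ sqf M, ‖∑ n ∈ sqf N, α n * xs c2 m (pr n)‖ ^ 2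
    ≤ C * (M * N) ^ ε * (M + N) * ∑ n ∈ sqf N, ‖α n‖ ^ 2
def QS (ξ : ℝ) : Prop := ∀ ε : ℝ, 0 < ε → ∃ C : ℝ, 0 < C ∧
  ∀ (M N : ℝ) (α : Finset P → ℂ), 1 ≤ M → 1 ≤ N →
  ∑ m ∈ sqf M, ‖∑ n ∈ sqf N, α n * xs c2 n (pr m)‖ ^ 2
    ≤ C * (M * N) ^ ε * (M + N ^ ξ) * ∑ n ∈ sqf N, ‖α n‖ ^ 2
/-- Coefficients in a dyadic range, with generators in one class and one window. -/
def Dy (W N : ℝ) (α : Finset P → ℂ) (g : Finset P → E) : Prop :=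
  ∃ X : Sc, X.OK ∧ ∀ n, α n ≠ 0 → N / 2 < Ns n ∧ Associated (g n) (pr n) ∧ Cl X.a (g n) ∧
    ∀ w, X.T w ≤ ‖em w (g n)‖ ^ 2 ∧ ‖em w (g n)‖ ^ 2 ≤ W * X.T w
def QSd (ξ : ℝ) : Prop := ∀ W ε : ℝ, 1 ≤ W → 0 < ε → ∃ C : ℝ, 0 < C ∧
  ∀ (M N : ℝ) (α : Finset P → ℂ) (g : Finset P → E), 1 ≤ N → N ^ ξ ≤ M → Dy W N α g →
  ∑ m ∈ sqf M, ‖∑ n ∈ sqf N, α n * xs c2 n (pr m)‖ ^ 2
    ≤ C * (M * N) ^ ε * M * ∑ n ∈ sqf N, ‖α n‖ ^ 2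
def QD (ξ : ℝ) : Prop := ∀ ε : ℝ, 0 < ε → ∃ C : ℝ, 0 < C ∧
  ∀ (A L : ℝ) (T : Finset (Finset P)) (g : Finset P) (x : Finset P → ℂ), 0 ≤ A → 0 ≤ L →
  (∀ c ∈ T, x c ≠ 0 → g ⊆ c ∧ Ns c ≤ L * Ns g) →
  ∑ a ∈ calA A, ‖∑ c ∈ T, x c * xs c2 c a‖ ^ 2
    ≤ C * (A * L) ^ ε * (L + A ^ ξ) * ∑ c ∈ T, ‖x c‖ ^ 2
def DelB : Prop := (∀ x : FF, x ≠ 0 → ContinuousOn (Del x) {u | ∀ w, 0 < u w}) ∧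
  ∃ C : ℝ, 0 < C ∧ ∀ (x : FF) (u : Pl → ℝ), x ≠ 0 → (∀ w, 0 < u w) →
    |Del x u| ≤ C ∧ |Del x u| ≤ C * ((∏ w, u w) / sS x) ^ (-(1 / 2) : ℝ)
def QPair : Prop := ∀ B : ℝ, 1 < B → ∃ C : ℝ, 0 < C ∧
  ∀ (A : ℝ) (b : FF) (t : Pl → ℝ) (d c c' : Finset P) (x x' : E), 0 < A → b ≠ 0 → (∀ w, 0 < t w) →
  Disjoint d c → Disjoint d c' → Disjoint c c' → Associated x (pr c) → Associated x' (pr c') →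
  Cl x x' →
  ‖2 * T1 b t d c c' - (kap * sS b : ℝ) * T2 A (1 / (b * del)) t d c c'
      - (E1 A b t d c c' (x * x') - (kap * sS b : ℝ) * E2 A (1 / (b * del)) t d c c' (x * x'))‖
    ≤ C * 2 ^ d.card * ((if c ∪ c' = ∅ then sS b * ∏ w, t w + (1 + sS b) else 0)
      + (sS b * ∏ w, t w) * A * (A * (sS b * ∏ w, t w) / (Ns d ^ 2 * (Ns c * Ns c'))) ^ (-B))
def QE (Ei : ℝ → FF → (Pl → ℝ) → Finset P → Finset P → Finset P → FF → ℂ) (ξ : ℝ) : Prop :=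
  ∀ (b : FF) (K W ε : ℝ), b ≠ 0 → 1 ≤ K → 1 ≤ W → 0 < ε → ∃ C : ℝ, 0 < C ∧
  ∀ (M N : ℝ) (α : Finset P → ℂ) (g : Finset P → E), 1 ≤ N → N ^ (2 - 1 / ξ) ≤ M → Dy W N α g →
  ‖∑ n ∈ sqf N, ∑ n' ∈ sqf N, α n * conj (α n') * ∫ v : Pl → ℝ, (∏ w, ((beta (v w) : ℝ) : ℂ)) *
      Ei (N ^ 2 * (M * N) ^ ε / M) b (fun w => K * M ^ (1 / rk : ℝ) * Real.exp (v w))
        (n ∩ n') (n \ n') (n' \ n) (g n * g n' / (pr (n ∩ n') : FF) ^ 2)‖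
    ≤ C * (M * N) ^ (3 * ε) * M * ∑ n ∈ sqf N, ‖α n‖ ^ 2

def HA (η : ℝ) : Prop := ∀ ε : ℝ, 0 < ε → ∃ (B : ℕ) (C : ℝ), 0 < C ∧
  ∀ (Z N : ℝ) (X : Sc) (τ : Pl → ℝ) (ρ : E), X.OK → 1 ≤ X.sz → X.sz ≤ Z → 1 ≤ N → N ≤ Z → ρ ≠ 0 →
  Rr ρ ≤ Z →
  ∑ n ∈ ball N, ‖S (cA ρ n) X (iT τ)‖ ^ 2
    ≤ C * Z ^ ε * Tb (iT τ) ^ B * (X.sz * (N + X.sz ^ (1 + η) * Rr ρ))
def HAs (η : ℝ) : Prop := ∀ ε : ℝ, 0 < ε → ∃ (B : ℕ) (C : ℝ), 0 < C ∧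
  ∀ (ι : Type) (J : Finset ι) (n : ι → E) (Xi : ι → Sc) (μ Z X N : ℝ) (s : Pl → ℂ) (ρ : E)
    (K : Finset P), 0 < X → X ≤ Z → 1 ≤ N → N ≤ Z → (∀ w, |(s w).re| ≤ 3) → ρ ≠ 0 → Rr ρ ≤ Z →
  Ns K ≤ Z →
  (∀ i ∈ J, n i ≠ 0 ∧ (nm (n i) : ℝ) ≤ N ∧ (Xi i).OK ∧ X ≤ (Xi i).sz ∧ (Xi i).sz ≤ 2 * X) →
  (∀ n0, ((J.filter fun i => Associated (n i) n0).card : ℝ) ≤ μ) →
  ∑ i ∈ J, ‖S (cAK ρ K (n i)) (Xi i) s‖ ^ 2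
    ≤ C * μ * Z ^ ε * Tb s ^ B * (X * (N + X ^ (1 + η) * Rr ρ))
def HB (η : ℝ) : Prop := ∀ ε : ℝ, 0 < ε → ∃ (B : ℕ) (C : ℝ), 0 < C ∧
  ∀ (Z M T : ℝ) (X : Sc) (τ : Pl → ℝ) (ρ : E) (K : Finset P) (F : Finset E), X.OK → 1 ≤ X.sz →
  X.sz ≤ Z → 1 ≤ M → M ≤ Z → 1 ≤ T → T ≤ Z → ρ ≠ 0 → Rr ρ ≤ Z → Ns K ≤ Z → F ⊆ ball T →
  ∑ t ∈ F, ∑ m ∈ ball M, ‖S (cB X.a ρ K t m) X (iT τ)‖ ^ 2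
    ≤ C * Z ^ ε * Tb (iT τ) ^ B
      * (F.card * X.sz * M + X.sz ^ 2 * T + M * X.sz ^ (1 + η) * Rr ρ)
def HBs (η : ℝ) : Prop := ∀ ε : ℝ, 0 < ε → ∃ (B : ℕ) (C : ℝ), 0 < C ∧
  ∀ (ι : Type) (J : Finset ι) (t : ι → E) (Xi : ι → Sc) (Z X M T : ℝ) (s : Pl → ℂ) (ρ : E)
    (K : Finset P), 0 < X → X ≤ Z → 1 ≤ M → M ≤ Z → 1 ≤ T → T ≤ Z → (∀ w, |(s w).re| ≤ 3) →
  ρ ≠ 0 → Rr ρ ≤ Z → Ns K ≤ Z → Set.InjOn t J →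
  (∀ i ∈ J, t i ∈ ball T ∧ (Xi i).OK ∧ X ≤ (Xi i).sz ∧ (Xi i).sz ≤ 2 * X) →
  ∑ i ∈ J, ∑ m ∈ ball M, ‖S (cB (Xi i).a ρ K (t i) m) (Xi i) s‖ ^ 2
    ≤ C * Z ^ ε * Tb s ^ B * (J.card * X * M + X ^ 2 * T + M * X ^ (1 + η) * Rr ρ)
def HH (η : ℝ) : Prop := ∀ ε : ℝ, 0 < ε → ∃ (B : ℕ) (C : ℝ), 0 < C ∧
  ∀ (Z M : ℝ) (X : Sc) (τ : Pl → ℝ) (ρ : E), X.OK → 1 ≤ X.sz → X.sz ≤ Z → 1 ≤ M → M ≤ Z → ρ ≠ 0 →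
  Rr ρ ≤ Z →
  ∑ m ∈ ball M, ‖S (cH X.a ρ m) X (iT τ)‖ ^ 2
    ≤ C * Z ^ ε * Tb (iT τ) ^ B * (X.sz * (M * Rr ρ) ^ (1 + η))
def HHs (η : ℝ) : Prop := ∀ ε : ℝ, 0 < ε → ∃ (B : ℕ) (C : ℝ), 0 < C ∧
  ∀ (Z M : ℝ) (X : Sc) (s : Pl → ℂ) (ρ : E), X.OK → X.sz ≤ Z → 1 ≤ M → M ≤ Z →
  (∀ w, |(s w).re| ≤ 3) → ρ ≠ 0 → Rr ρ ≤ Z →
  ∑ m ∈ ball M, ‖S (cH X.a ρ m) X s‖ ^ 2
    ≤ C * Z ^ ε * Tb s ^ B * (X.sz * (M * Rr ρ) ^ (1 + η))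
def VB0 : Prop := ∀ ε : ℝ, 0 < ε → ∃ (B : ℕ) (C : ℝ), 0 < C ∧
  ∀ (Z M : ℝ) (X : Sc) (τ : Pl → ℝ) (ρ : E), X.OK → 1 ≤ X.sz → X.sz ≤ Z → 1 ≤ M → M ≤ Z → ρ ≠ 0 →
  Rr ρ ≤ Z →
  ∑ t ∈ sqf M with Disjoint t (fac ρ), ‖Th (pr t * ρ) X (iT τ)‖ ^ 2
    ≤ C * Z ^ ε * Tb (iT τ) ^ B * (X.sz * M + (M * Rr ρ) ^ 2)
def VB : Prop := ∀ ε : ℝ, 0 < ε → ∃ (B : ℕ) (C : ℝ), 0 < C ∧
  ∀ (Z M : ℝ) (X : Sc) (τ : Pl → ℝ) (ρ : E), X.OK → 1 ≤ X.sz → X.sz ≤ Z → 1 ≤ M → M ≤ Z → ρ ≠ 0 →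
  Rr ρ ≤ Z →
  ∑ m ∈ ball M, ‖Th (m * ρ) X (iT τ)‖ ^ 2
    ≤ C * Z ^ ε * Tb (iT τ) ^ B * (X.sz * M + (M * Rr ρ) ^ 2)
/-- The key estimate for a block of dual variables. -/
def VBk : Prop := ∀ (δ1 : FF) (ε : ℝ), δ1 ≠ 0 → 0 < ε → ∃ C : ℝ, 0 < C ∧
  ∀ (Z M : ℝ) (T : Pl → ℝ) (r : Finset P) (x : E → ℂ), 1 ≤ Z → 1 ≤ M → M ≤ Z → Ns r ≤ Z →
  (∀ w, 0 < T w) → (∀ δ, ‖x δ‖ ≤ ‖Tg δ‖ / nm δ * √(Ns (fac δ ∩ r))) →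
  ∑ t ∈ sqf M, ‖∑ δ ∈ box δ1 T, x δ * xs c2 t δ‖ ^ 2
    ≤ C * (Z * (1 + ∏ w, T w)) ^ ε * (M + ∏ w, T w)
/-- Poisson summation in the mean value: the exact step. -/
def PLa (χ : P → E → ℂ) : Prop := ∃ C K : ℝ, 0 < C ∧ 1 ≤ K ∧
  ∀ (β : Finset P → ℂ) (X : Sc) (N : ℝ) (τ : Pl → ℝ), X.OK → 1 ≤ X.sz → 1 ≤ N →
  (∀ s, ‖β s‖ ≤ 1) →
  (∀ d f e, Summable fun m : E => if m ≠ 0 ∧ m / (X.du (K * N ^ (1 / rk : ℝ)) d f).a ∈ OS then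
      ‖bil χ β d f e m X (K * N ^ (1 / rk : ℝ)) (iT τ)‖ else 0) ∧
  ∑ n ∈ ball N, ‖S (fun s => β s * xs χ s n) X (iT τ)‖ ^ 2
    ≤ C * (N * X.sz + PSum X.sz N fun d f e =>
        ∑' m : E, if m ≠ 0 ∧ m / (X.du (K * N ^ (1 / rk : ℝ)) d f).a ∈ OS then
          ‖bil χ β d f e m X (K * N ^ (1 / rk : ℝ)) (iT τ)‖ else 0)
/-- Poisson summation in the mean value. -/
def PL (χ : P → E → ℂ) : Prop := ∀ (ε : ℝ) (B : ℕ), 0 < ε → ∃ C : ℝ, 0 < C ∧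
  ∀ (ι : Type) (J : Finset ι) (β : ι → Finset P → ℂ) (X : Sc) (N K : ℝ) (τ : Pl → ℝ), X.OK →
  1 ≤ X.sz → 1 ≤ N → (∀ i ∈ J, ∀ s, ‖β i s‖ ≤ 1) →
  (∀ (j : ℕ) (s : Pl → ℂ), (∀ w, |(s w).re| ≤ 3) → ∑ i ∈ J, PSum X.sz N (fun d f e =>
      ∑ m ∈ ball (2 ^ j * M0 X.sz N d f),
        ‖S (dual χ (β i) (X.de d e).a d f e m) (X.de d e) s‖ ^ 2)
    ≤ K * 6 ^ j * Tb s ^ B) →
  ∑ i ∈ J, ∑ n ∈ ball N, ‖S (fun s => β i s * xs χ s n) X (iT τ)‖ ^ 2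
    ≤ C * (J.card * N * X.sz + X.sz ^ ε * K * Tb (iT τ) ^ B)
/-- The characters are trivial on sixth powers. -/
def Six (χ : P → E → ℂ) : Prop := ∀ (p : P) (x : E), ¬ p.1 ∣ x → χ p x ^ 6 = 1
/-- Cancellation in the Moebius function on classes. -/
def MoB (θ : ℝ) : Prop := ∀ τ : Pl → ℝ, ∃ C : ℝ, ∀ X : Sc, X.OK → 1 ≤ X.sz →
  ‖S mu X (iT τ)‖ ≤ C * X.sz ^ θ
/-- The Moebius series inverts the zeta function. -/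
def Euler : Prop := ∀ z : ℂ, 1 < z.re →
  (∑' s : Finset P, mu s * (Ns s : ℂ) ^ (-z)) * zeta FF z
    = ∏ v : SP, (1 - (qv v.1 : ℂ) ^ (-z))⁻¹
/-- The Moebius series continues to the half plane. -/
def MuC (θ : ℝ) : Prop := ∀ γ : ℝ, ∃ G : ℂ → ℂ, DifferentiableOn ℂ G {z | θ < z.re} ∧
  ∀ z : ℂ, 1 < z.re →
    G z = (∑' s : Finset P, mu s * (Ns s : ℂ) ^ (-z)) * mellin V0 (z - γ * I) ^ rk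
/-- The completed zeta function. -/
def IsLam (Λ : ℂ → ℂ) : Prop := Differentiable ℂ Λ ∧
  ∀ z : ℂ, 1 < z.re → Λ z = z * (z - 1) * GG z ^ rk * zeta FF z
/-- The zero free half plane. -/
def ZF : Prop := ∀ Λ : ℂ → ℂ, IsLam Λ → ∀ z : ℂ, 11 / 12 < z.re → z ≠ 1 → Λ z ≠ 0
/-- A partition of unity for the action of the units. -/
def IsPhi (φ : (Pl → ℝ) → ℝ) : Prop := Measurable φ ∧ (∀ u, 0 ≤ φ u ∧ φ u ≤ 1) ∧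
  (∀ u (t : ℝ), φ (fun w => u w + t) = φ u) ∧ (∃ K : ℝ, ∀ u, φ u ≠ 0 → ∀ w w', |u w - u w'| ≤ K) ∧
  ∀ u, HasSum (fun e : (𝓞 FF)ˣ => φ (u + lg ((e : 𝓞 FF) : FF))) 1
/-- Representatives of the ideal classes. -/
def IsA0 (A : Finset FF) : Prop := (∀ b ∈ A, b ≠ 0) ∧
  (∀ a : FF, a ≠ 0 → ∃ b ∈ A, ∃ e : Eˣ, (e : E) * a / b ∈ OS ∧ b / ((e : E) * a) ∈ OS) ∧
  ∀ b ∈ A, ∀ b' ∈ A, ∀ e : Eˣ, (e : E) * b / b' ∈ OS → b' / ((e : E) * b) ∈ OS → b = b'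
/-- The theta function without its constant term. -/
def Tht (b : FF) (u : Pl → ℝ) : ℝ :=
  ∑' x : E, if x ≠ 0 ∧ x / b ∈ OS then ∏ w, Vg (‖em w x‖ ^ 2 * Real.exp (u w)) else 0
/-- The logarithm of the norm scale. -/
def Tl (b : FF) (u : Pl → ℝ) : ℝ := ∑ w, u w - Real.log (sS b)
/-- Nonzero ideals are parametrised by a class representative and an element modulo units. -/
def IdB : Prop := ∀ A : Finset FF, IsA0 A → ∃ J : FF → E → Ideal (𝓞 FF),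
  (∀ (b : FF) (x : E), b ≠ 0 → x ≠ 0 → x / b ∈ OS →
    J b x ≠ ⊥ ∧ (Ideal.absNorm (J b x) : ℝ) = Ninf x * sS b) ∧
  (∀ b ∈ A, ∀ b' ∈ A, ∀ x x' : E, x ≠ 0 → x / b ∈ OS → x' ≠ 0 → x' / b' ∈ OS →
    (J b x = J b' x' ↔ b = b' ∧ ∃ e : (𝓞 FF)ˣ, (x' : FF) = (e : 𝓞 FF) * x)) ∧
  ∀ I0 : Ideal (𝓞 FF), I0 ≠ ⊥ → ∃ b ∈ A, ∃ x : E, x ≠ 0 ∧ x / b ∈ OS ∧ J b x = I0
/-- The image of the measure `φ du` under the sum of the coordinates. -/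
def PushF : Prop := ∀ φ : (Pl → ℝ) → ℝ, IsPhi φ → ∃ V : ℝ, 0 < V ∧ ∀ h : ℝ → ℂ, Integrable h →
  Integrable (fun u : Pl → ℝ => (φ u : ℂ) * h (∑ w, u w)) ∧
  ∫ u : Pl → ℝ, (φ u : ℂ) * h (∑ w, u w) = V * ∫ t, h t
/-- Unfolding. -/
def Unf : Prop := ∀ (φ : (Pl → ℝ) → ℝ) (A : Finset FF), IsPhi φ → IsA0 A → ∀ z : ℂ, 1 < z.re →
  (∀ b ∈ A, Integrable fun u => ((φ u * Tht b u : ℝ) : ℂ) * Complex.exp (z * Tl b u)) ∧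
  ∑ b ∈ A, ∫ u, ((φ u * Tht b u : ℝ) : ℂ) * Complex.exp (z * Tl b u) = GG z ^ rk * zeta FF z
/-- Analytic continuation with a uniform bound. -/
def Hecke : Prop := ∃ Λ : ℂ → ℂ, IsLam Λ ∧ Λ 1 ≠ 0 ∧ ∀ z : ℂ, -2 ≤ z.re → z.re ≤ 4 →
  ‖Λ z‖ ≤ 4 * (1 + ‖z‖) ^ 2 * kap⁻¹ ^ 6 * (zeta FF 2).re

end

/-- Euler product facts for the zeta function. -/
def ZetaF (F : Type) [Field F] [NumberField F] : Prop :=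
  (∀ θ : ℝ, 1 < θ →
    Summable fun i : HS F × ℕ => Real.log (qv i.1) * ((qv i.1 : ℝ) ^ (i.2 + 1)) ^ (-θ)) ∧
  (∀ z : ℂ, 1 < z.re → HasDerivAt (zeta F) (-(∑' i : HS F × ℕ, (Real.log (qv i.1) : ℂ) *
      (((qv i.1 : ℝ) ^ (i.2 + 1) : ℝ) : ℂ) ^ (-z)) * zeta F z) z) ∧
  (zeta F 2).re ≤ Real.exp (2 * Module.finrank ℚ F) ∧
  ∀ t : ℝ, Real.exp (-(2 * Module.finrank ℚ F)) ≤ ‖zeta F (2 + t * I)‖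
/-- Borel-Caratheodory bound for the logarithmic derivative. -/
def BC : Prop := ∃ C : ℝ, 0 < C ∧ ∀ (f : ℂ → ℂ) (c : ℂ) (L : ℝ), 1 ≤ L →
  DifferentiableOn ℂ f (Metric.ball c (13 / 12)) → (∀ z ∈ Metric.ball c (13 / 12), f z ≠ 0) →
  (∀ z ∈ Metric.ball c (13 / 12), ‖f z‖ ≤ Real.exp L * ‖f c‖) →
  ∀ z ∈ Metric.closedBall c (26 / 25), ‖deriv f z / f z‖ ≤ C * L
/-- The logarithmic derivative in the strip. -/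
def LDer : Prop := ∃ C : ℝ, 0 < C ∧ ∀ (r : ℕ) (L : ℝ) (Λ ζ D : ℂ → ℂ), 1 ≤ L → (r : ℝ) ≤ L →
  Differentiable ℂ Λ → (∀ z : ℂ, 11 / 12 < z.re → Λ z ≠ 0) →
  (∀ z : ℂ, 1 < z.re → Λ z = z * (z - 1) * GG z ^ r * ζ z) →
  (∀ z : ℂ, -2 ≤ z.re → z.re ≤ 4 → ‖Λ z‖ ≤ (1 + ‖z‖) ^ 2 * Real.exp L) →
  (∀ t : ℝ, Real.exp (-L) ≤ ‖ζ (2 + t * I)‖) →
  (∀ z : ℂ, 1 < z.re → HasDerivAt ζ (-D z * ζ z) z) →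
  ∃ h : ℂ → ℂ, DifferentiableOn ℂ h {z | 11 / 12 < z.re} ∧
    (∀ z : ℂ, 1 < z.re → h z = D z - 1 / (z - 1)) ∧
    ∀ z : ℂ, 24 / 25 ≤ z.re → z.re ≤ 2 → ‖h z‖ ≤ C * L * (1 + |z.im|)
/-- The smoothed prime number theorem from the logarithmic derivative. -/
def Cont : Prop := ∃ C : ℝ, 0 < C ∧ ∀ (ι : Type) (_ : Countable ι) (N c : ι → ℝ) (h : ℂ → ℂ) (L : ℝ),
  0 ≤ L → (∀ i, 0 < N i) → (∀ i, 0 ≤ c i) → Summable (fun i => c i * N i ^ (-2 : ℝ)) →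
  DifferentiableOn ℂ h {z | 11 / 12 < z.re} →
  (∀ t : ℝ, h (2 + t * I) = (∑' i, (c i : ℂ) * (N i : ℂ) ^ (-(2 + t * I))) - 1 / (2 + t * I - 1)) →
  (∀ z : ℂ, 24 / 25 ≤ z.re → z.re ≤ 2 → ‖h z‖ ≤ L * (1 + |z.im|)) →
  ∀ x : ℝ, 1 ≤ x → |∑' i, c i * kw (N i / x) - mm x| ≤ C * L * x ^ (24 / 25 : ℝ)
/-- Places of degree one, of norm at most `x ^ 2` and outside `T`. -/
def GoodP {F : Type} [Field F] [NumberField F] (T : Finset ℕ) (x : ℝ) (v : HS F) : Prop :=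
  (qv v).Prime ∧ (qv v : ℝ) ≤ x ^ 2 ∧ qv v ∉ T
/-- Only the good places matter. -/
def Cheb1 : Prop := ∃ C : ℝ, 0 < C ∧ ∀ (F : Type) [Field F] [NumberField F] (T : Finset ℕ) (x : ℝ),
  T.card ≤ 3 → 1 ≤ x → cheb F x ≤ (∑' v : HS F, if GoodP T x v then Real.log (qv v) * kw (qv v / x)
    else 0) + C * Module.finrank ℚ F * x ^ (3 / 5 : ℝ)
/-- Places that split give a lower bound. -/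
def Cheb2 : Prop := ∀ (F1 F2 : Type) [Field F1] [NumberField F1] [Field F2] [NumberField F2]
  (π : HS F2 → HS F1) (l : ℕ) (T : Finset ℕ) (x : ℝ), 0 < x →
  (∀ v, GoodP T x v → ∃ g : Fin l → HS F2, Function.Injective g ∧ ∀ i, qv (g i) = qv v ∧ π (g i) = v) →
  l * (∑' v : HS F1, if GoodP T x v then Real.log (qv v) * kw (qv v / x) else 0) ≤ cheb F2 x
/-- The Kummer extension. -/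
def Kum : Prop := ∀ l s p : ℕ, l.Prime → 0 < s → p.Prime → 3 < p → l ≠ p →
  ∃ (F1 F2 : Type) (_ : Field F1) (_ : NumberField F1) (_ : Field F2) (_ : NumberField F2)
    (w1 : F1) (w2 : F2) (π : HS F2 → HS F1), w1 ^ 2 + w1 + 1 = 0 ∧ w2 ^ 2 + w2 + 1 = 0 ∧
    Module.finrank ℚ F1 ≤ 3 * l ^ s ∧ Module.finrank ℚ F2 ≤ 3 * l ^ s * l ∧
    Submodule.span ℚ {y : F1 | IsIntegral ℤ y ∧ ∀ φ : F1 →+* ℂ, ‖φ y‖ ≤ p} = ⊤ ∧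
    Submodule.span ℚ {y : F2 | IsIntegral ℤ y ∧ ∀ φ : F2 →+* ℂ, ‖φ y‖ ≤ p} = ⊤ ∧
    ∀ v : HS F1, (qv v).Prime → qv v ∉ ({3, l, p} : Finset ℕ) → l ^ s ∣ qv v - 1 ∧
      ((∃ x : ZMod (qv v), x ^ l = p) →
        ∃ g : Fin l → HS F2, Function.Injective g ∧ ∀ i, qv (g i) = qv v ∧ π (g i) = v)
/-- The smoothed prime ideal theorem, uniformly in the field. -/
def PIT : Prop := ∃ C : ℝ, 0 < C ∧ ∀ (F : Type) [Field F] [NumberField F] (w : F) (H : ℝ),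
  w ^ 2 + w + 1 = 0 → 1 ≤ H →
  Submodule.span ℚ {y : F | IsIntegral ℤ y ∧ ∀ φ : F →+* ℂ, ‖φ y‖ ≤ H} = ⊤ →
  ∀ x : ℝ, 1 ≤ x → |cheb F x - mm x|
    ≤ C * ((Module.finrank ℚ F : ℝ) ^ 3 * (1 + Real.log H)) * x ^ (24 / 25 : ℝ)

end NQ
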