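import Vale.Agent.NQ.Ord
import Vale.Agent.NQ.Stm2

noncomputable section
namespace NQ
open Complex MeasureTheory NumberField Filter
open scoped ComplexConjugate Classical Topology

variable {F : Type} [Field F] [NumberField F]

theorem EulA_summable {θ : ℝ} (hθ : 1 < θ) : Summable fun n : ℕ => ((n + 2 : ℕ) : ℝ) ^ (-θ) :=
  (summable_nat_add_iff (f := fun n : ℕ => (n : ℝ) ^ (-θ)) 2).2
    (Real.summable_nat_rpow.2 (by linarith))

theorem sum_qv_le {θ : ℝ} (hθ : 1 < θ) (T : Finset (HS F)) :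
    ∑ v ∈ T, (qv v : ℝ) ^ (-θ) ≤ Module.finrank ℚ F * ∑' n : ℕ, ((n + 2 : ℕ) : ℝ) ^ (-θ) := by
  choose l f hl hf hm hq using fun v : HS F => exists_prime_below v
  have h1 : ∑ v ∈ T, (qv v : ℝ) ^ (-θ) ≤ ∑ v ∈ T, ((l v - 2 + 2 : ℕ) : ℝ) ^ (-θ) := by
    refine Finset.sum_le_sum fun v _ => ?_
    rw [Nat.sub_add_cancel (hl v).two_le]
    refine Real.rpow_le_rpow_of_nonpos (by exact_mod_cast (hl v).pos) ?_ (by linarith)
    rw [hq v]
    exact_mod_cast Nat.le_self_pow (hf v).ne' _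
  refine h1.trans ?_
  rw [Finset.sum_comp (fun n : ℕ => ((n + 2 : ℕ) : ℝ) ^ (-θ)) fun v => l v - 2]
  refine le_trans ?_ (mul_le_mul_of_nonneg_left
    ((EulA_summable hθ).sum_le_tsum (T.image fun v => l v - 2) fun _ _ => by positivity)
    (Nat.cast_nonneg _))
  rw [Finset.mul_sum]
  refine Finset.sum_le_sum fun n hn => ?_
  obtain ⟨v0, -, rfl⟩ := Finset.mem_image.1 hn
  rw [nsmul_eq_mul]
  refine mul_le_mul_of_nonneg_right ?_ (by positivity)
  refine Nat.cast_le.2 (card_above_le (hl v0) _ fun v hv => ?_)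
  have h2 := (Finset.mem_filter.1 hv).2
  have h3 := (hl v).two_le
  have h4 := (hl v0).two_le
  have : l v0 = l v := by omega
  rw [this]
  exact hm v

theorem summable_qv {θ : ℝ} (hθ : 1 < θ) : Summable fun v : HS F => (qv v : ℝ) ^ (-θ) :=
  summable_of_sum_le (fun _ => by positivity) (sum_qv_le hθ)

theorem tsum_qv_two_le : ∑' v : HS F, (qv v : ℝ) ^ (-2 : ℝ) ≤ Module.finrank ℚ F := by
  have h1 : ∀ n : ℕ, ∑ i ∈ Finset.range n, ((i + 2 : ℕ) : ℝ) ^ (-2 : ℝ) ≤ 1 - 1 / (n + 1 : ℝ) := by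
    intro n
    induction n with
    | zero => simp
    | succ n ih =>
      rw [Finset.sum_range_succ, Real.rpow_neg (Nat.cast_nonneg _), Real.rpow_two]
      have h2 : (((n + 2 : ℕ) : ℝ) ^ 2)⁻¹ ≤ 1 / (n + 1 : ℝ) - 1 / ((n + 1 : ℕ) + 1 : ℝ) := by
        push_cast
        rw [div_sub_div _ _ (by positivity) (by positivity), inv_eq_one_div,
          div_le_div_iff₀ (by positivity) (by positivity)]
        have : (0 : ℝ) ≤ n := Nat.cast_nonneg _
        nlinarith
      linarith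
  have h2 : ∑' n : ℕ, ((n + 2 : ℕ) : ℝ) ^ (-2 : ℝ) ≤ 1 := by
    refine Real.tsum_le_of_sum_range_le (fun _ => by positivity) fun n => (h1 n).trans ?_
    have : (0 : ℝ) ≤ 1 / (n + 1 : ℝ) := by positivity
    linarith
  refine Real.tsum_le_of_sum_le (fun _ => by positivity) fun T => ?_
  exact (sum_qv_le (θ := 2) (by norm_num) T).trans (mul_le_of_le_one_right (Nat.cast_nonneg _) h2)

theorem EulA_exists {J : Ideal (𝓞 F)} (h0 : J ≠ ⊥) (h1 : J ≠ ⊤) : ∃ v : HS F, v.asIdeal ∣ J := by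
  obtain ⟨M, hM, hJ⟩ := Ideal.exists_le_maximal J h1
  exact ⟨⟨M, hM.isPrime, fun h => h0 (le_bot_iff.1 (h ▸ hJ))⟩, Ideal.dvd_iff_le.2 hJ⟩

theorem EulA_dvd {v w : HS F} (h : w ≠ v) (J : Ideal (𝓞 F)) :
    w.asIdeal ∣ v.asIdeal * J ↔ w.asIdeal ∣ J := by
  refine ⟨fun h1 => (w.prime.dvd_or_dvd h1).resolve_left fun h2 => h ?_, fun h1 => h1.mul_left _⟩
  exact IsDedekindDomain.HeightOneSpectrum.ext
    (v.isMaximal.eq_of_le w.isPrime.ne_top (Ideal.dvd_iff_le.1 h2)).symm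

theorem EulA_half {θ : ℝ} (hθ : 1 < θ) (v : HS F) : (qv v : ℝ) ^ (-θ) ≤ 1 / 2 := by
  have h1 : (2 : ℝ) ≤ qv v := by exact_mod_cast two_le_qv v
  calc (qv v : ℝ) ^ (-θ) ≤ (qv v : ℝ) ^ (-1 : ℝ) :=
        Real.rpow_le_rpow_of_exponent_le (by linarith) (by linarith)
    _ ≤ 1 / 2 := by
        rw [Real.rpow_neg_one, inv_eq_one_div]
        exact one_div_le_one_div_of_le (by norm_num) h1

theorem EulA_bound {θ : ℝ} (hθ : 1 < θ) (U : Finset (HS F)) :
    ∀ T : Finset (Ideal (𝓞 F)), (∀ J ∈ T, J ≠ ⊥ ∧ ∀ w : HS F, w.asIdeal ∣ J → w ∈ U) →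
      ∑ J ∈ T, (Ideal.absNorm J : ℝ) ^ (-θ) ≤ ∏ v ∈ U, (1 + 2 * (qv v : ℝ) ^ (-θ)) := by
  induction U using Finset.induction_on with
  | empty =>
    intro T hT
    have h1 : T ⊆ {⊤} := fun J hJ => Finset.mem_singleton.2 (by
      by_contra h
      obtain ⟨v, hv⟩ := EulA_exists (hT J hJ).1 h
      simpa using (hT J hJ).2 v hv)
    refine (Finset.sum_le_sum_of_subset_of_nonneg h1 fun _ _ _ => by positivity).trans ?_
    simp
  | insert v U hv ih =>
    rw [Finset.prod_insert hv]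
    obtain ⟨P, hP⟩ : ∃ P, P = ∏ v ∈ U, (1 + 2 * (qv v : ℝ) ^ (-θ)) := ⟨_, rfl⟩
    rw [← hP] at ih ⊢
    have hP0 : 0 ≤ P := by simpa using ih ∅ (by simp)
    have hg := EulA_half hθ v
    have hg0 : 0 ≤ (qv v : ℝ) ^ (-θ) := by positivity
    have key : ∀ N : ℕ, ∀ T : Finset (Ideal (𝓞 F)), (∀ J ∈ T, Ideal.absNorm J ≤ N) →
        (∀ J ∈ T, J ≠ ⊥ ∧ ∀ w : HS F, w.asIdeal ∣ J → w ∈ insert v U) →
        ∑ J ∈ T, (Ideal.absNorm J : ℝ) ^ (-θ) ≤ (1 + 2 * (qv v : ℝ) ^ (-θ)) * P := by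
      intro N
      induction N with
      | zero =>
        intro T hN hT
        rw [Finset.sum_eq_zero]
        · positivity
        · intro J hJ
          exact absurd (Ideal.absNorm_eq_zero_iff.1 (Nat.le_zero.1 (hN J hJ))) (hT J hJ).1
      | succ N ihN =>
        intro T hN hT
        have hq : ∀ J : Ideal (𝓞 F), ∃ Q, v.asIdeal ∣ J → J = v.asIdeal * Q := fun J => by
          by_cases h : v.asIdeal ∣ J
          · obtain ⟨Q, hQ⟩ := h
            exact ⟨Q, fun _ => hQ⟩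
          · exact ⟨J, fun h' => absurd h' h⟩
        choose q hq using hq
        have h1 := ih (T.filter fun J => ¬ v.asIdeal ∣ J) fun J hJ => by
          obtain ⟨h2, h3⟩ := Finset.mem_filter.1 hJ
          refine ⟨(hT J h2).1, fun w hw => ?_⟩
          rcases Finset.mem_insert.1 ((hT J h2).2 w hw) with rfl | h4
          · exact absurd hw h3
          · exact h4
        have hn : ∀ J, v.asIdeal ∣ J → Ideal.absNorm J = qv v * Ideal.absNorm (q J) :=
          fun J hJ => by rw [qv, ← map_mul, ← hq J hJ]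
        have h2 := ihN ((T.filter fun J => v.asIdeal ∣ J).image q) (fun Q hQ => by
          obtain ⟨J, hJ, rfl⟩ := Finset.mem_image.1 hQ
          obtain ⟨h2, h3⟩ := Finset.mem_filter.1 hJ
          have h4 := hN J h2
          have h5 := two_le_qv v
          rw [hn J h3] at h4
          have h6 := Nat.mul_le_mul_right (Ideal.absNorm (q J)) h5
          omega) fun Q hQ => by
          obtain ⟨J, hJ, rfl⟩ := Finset.mem_image.1 hQ
          obtain ⟨h2, h3⟩ := Finset.mem_filter.1 hJ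
          refine ⟨fun h => (hT J h2).1 (by rw [hq J h3, h, Ideal.mul_bot]), fun w hw => ?_⟩
          exact (hT J h2).2 w (by rw [hq J h3]; exact hw.mul_left _)
        rw [Finset.sum_image fun J hJ J' hJ' h => by
          rw [hq J (Finset.mem_filter.1 hJ).2, hq J' (Finset.mem_filter.1 hJ').2, h]] at h2
        have h3 : ∑ J ∈ T.filter (fun J => v.asIdeal ∣ J), (Ideal.absNorm J : ℝ) ^ (-θ) =
            (qv v : ℝ) ^ (-θ) * ∑ J ∈ T.filter (fun J => v.asIdeal ∣ J),
              (Ideal.absNorm (q J) : ℝ) ^ (-θ) := by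
          rw [Finset.mul_sum]
          refine Finset.sum_congr rfl fun J hJ => ?_
          rw [hn J (Finset.mem_filter.1 hJ).2, Nat.cast_mul,
            Real.mul_rpow (Nat.cast_nonneg _) (Nat.cast_nonneg _)]
        rw [← Finset.sum_filter_add_sum_filter_not T fun J => v.asIdeal ∣ J, h3]
        have h4 := mul_le_mul_of_nonneg_left h2 hg0
        have h5 := mul_nonneg (mul_nonneg hg0 hP0) (sub_nonneg.2 hg)
        nlinarith
    intro T hT
    exact key (T.sup fun J => Ideal.absNorm J) T (fun J hJ => Finset.le_sup (f := fun J =>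
      Ideal.absNorm J) hJ) hT

theorem summable_ideal {θ : ℝ} (hθ : 1 < θ) :
    Summable fun J : {J : Ideal (𝓞 F) // J ≠ ⊥} => (Ideal.absNorm J.1 : ℝ) ^ (-θ) := by
  refine summable_of_sum_le (c := Real.exp (2 * ∑' v : HS F, (qv v : ℝ) ^ (-θ)))
    (fun _ => by positivity) fun T => ?_
  have h1 := EulA_bound hθ (T.biUnion fun J => (Ideal.finite_factors J.2).toFinset)
    (T.image Subtype.val) fun J hJ => by
      obtain ⟨J', hJ', rfl⟩ := Finset.mem_image.1 hJ
      exact ⟨J'.2, fun w hw => Finset.mem_biUnion.2 ⟨J', hJ', by simpa using hw⟩⟩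
  rw [Finset.sum_image fun _ _ _ _ h => Subtype.ext h] at h1
  refine h1.trans ?_
  generalize (T.biUnion fun J => (Ideal.finite_factors J.2).toFinset) = U
  calc ∏ v ∈ U, (1 + 2 * (qv v : ℝ) ^ (-θ)) ≤ ∏ v ∈ U, Real.exp (2 * (qv v : ℝ) ^ (-θ)) :=
        Finset.prod_le_prod (fun _ _ => by positivity) fun _ _ => by
          rw [add_comm]; exact Real.add_one_le_exp _
    _ = Real.exp (2 * ∑ v ∈ U, (qv v : ℝ) ^ (-θ)) := by rw [Finset.mul_sum, Real.exp_sum]
    _ ≤ _ := Real.exp_le_exp.2 (mul_le_mul_of_nonneg_left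
        ((summable_qv hθ).sum_le_tsum U fun _ _ => by positivity) (by norm_num))

/-- the terms of the series without prime factors in `U` -/
def EulA_a (z : ℂ) (U : Finset (HS F)) (J : {J : Ideal (𝓞 F) // J ≠ ⊥}) : ℂ :=
  if ∀ w ∈ U, ¬ w.asIdeal ∣ J.1 then (Ideal.absNorm J.1 : ℂ) ^ (-z) else 0

theorem EulA_norm (z : ℂ) (U : Finset (HS F)) (J : {J : Ideal (𝓞 F) // J ≠ ⊥}) :
    ‖EulA_a z U J‖ ≤ (Ideal.absNorm J.1 : ℝ) ^ (-z.re) := by
  unfold EulA_a
  split_ifs
  · rw [Complex.norm_natCast_cpow_of_pos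
      (Nat.pos_of_ne_zero fun h => J.2 (Ideal.absNorm_eq_zero_iff.1 h)), neg_re]
  · rw [norm_zero]
    positivity

theorem EulA_step {z : ℂ} (hz : 1 < z.re) {U : Finset (HS F)} {v : HS F} (hv : v ∉ U) :
    ∑' J, EulA_a z (insert v U) J = (1 - (qv v : ℂ) ^ (-z)) * ∑' J, EulA_a z U J := by
  have hs : ∀ U : Finset (HS F), Summable (EulA_a z U) := fun U =>
    Summable.of_norm_bounded (summable_ideal hz) (EulA_norm z U)
  have hm : Function.Injective fun J : {J : Ideal (𝓞 F) // J ≠ ⊥} =>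
      (⟨v.asIdeal * J.1, mul_ne_zero v.ne_bot J.2⟩ : {J : Ideal (𝓞 F) // J ≠ ⊥}) :=
    fun J J' h => Subtype.ext (mul_left_cancel₀ v.ne_bot (congrArg Subtype.val h))
  have h1 := hm.tsum_eq (f := fun J => EulA_a z U J - EulA_a z (insert v U) J) fun J hJ => by
    by_contra hr
    apply hJ
    have hd : ¬ v.asIdeal ∣ J.1 := by
      rintro ⟨Q, hQ⟩
      exact hr ⟨⟨Q, fun h => J.2 (by rw [hQ, h, Ideal.mul_bot])⟩, Subtype.ext hQ.symm⟩
    simp only [EulA_a, Finset.forall_mem_insert, hd, not_false_eq_true, true_and, sub_self]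
  rw [(hs U).tsum_sub (hs _)] at h1
  have h2 : ∀ J : {J : Ideal (𝓞 F) // J ≠ ⊥},
      EulA_a z U ⟨v.asIdeal * J.1, mul_ne_zero v.ne_bot J.2⟩ -
        EulA_a z (insert v U) ⟨v.asIdeal * J.1, mul_ne_zero v.ne_bot J.2⟩ =
      (qv v : ℂ) ^ (-z) * EulA_a z U J := by
    intro J
    have h3 : (∀ w ∈ U, ¬ w.asIdeal ∣ v.asIdeal * J.1) ↔ ∀ w ∈ U, ¬ w.asIdeal ∣ J.1 :=
      forall₂_congr fun w hw => not_congr (EulA_dvd (ne_of_mem_of_not_mem hw hv) _)
    simp only [EulA_a, Finset.forall_mem_insert, dvd_mul_right, not_true_eq_false, false_and,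
      if_false, sub_zero, h3]
    split_ifs
    · rw [map_mul, Nat.cast_mul, Complex.natCast_mul_natCast_cpow, qv]
    · rw [mul_zero]
  simp only [h2] at h1
  rw [tsum_mul_left] at h1
  linear_combination h1

/-- The Euler product. -/
theorem hasProd_zeta {z : ℂ} (hz : 1 < z.re) :
    HasProd (fun v : HS F => (1 - (qv v : ℂ) ^ (-z))⁻¹) (zeta F z) := by
  have h1 : ∀ U : Finset (HS F),
      ∑' J, EulA_a z U J = (∏ v ∈ U, (1 - (qv v : ℂ) ^ (-z))) * zeta F z := by
    intro U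
    induction U using Finset.induction_on with
    | empty => simp [EulA_a, zeta]
    | insert v U hv ih => rw [EulA_step hz hv, ih, Finset.prod_insert hv, mul_assoc]
  have h2 : Tendsto (fun U : Finset (HS F) => ∑' J, EulA_a z U J) atTop
      (𝓝 (∑' J : {J : Ideal (𝓞 F) // J ≠ ⊥}, if J = ⟨⊤, top_ne_bot⟩ then (1 : ℂ) else 0)) := by
    refine tendsto_tsum_of_dominated_convergence (summable_ideal hz) (fun J => ?_)
      (Eventually.of_forall fun U => EulA_norm z U)
    split_ifs with h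
    · refine tendsto_const_nhds.congr fun U => ?_
      rw [h, EulA_a, if_pos fun w _ hw => w.isPrime.ne_top (top_le_iff.1 (Ideal.dvd_iff_le.1 hw))]
      simp
    · obtain ⟨v, hv⟩ := EulA_exists J.2 fun h' => h (Subtype.ext h')
      refine tendsto_const_nhds.congr' ?_
      filter_upwards [eventually_ge_atTop {v}] with U hU
      rw [EulA_a, if_neg fun h' => h' v (hU (Finset.mem_singleton_self v)) hv]
  rw [tsum_ite_eq] at h2
  simp only [h1] at h2
  have h3 : zeta F z ≠ 0 := fun h => by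
    simp only [h, mul_zero] at h2
    exact zero_ne_one (tendsto_nhds_unique tendsto_const_nhds h2)
  have h4 := (h2.inv₀ one_ne_zero).mul_const (zeta F z)
  rw [inv_one, one_mul] at h4
  refine h4.congr fun U => ?_
  rw [mul_inv, mul_assoc, inv_mul_cancel₀ h3, mul_one, Finset.prod_inv_distrib]

theorem one_sub_ne (v : HS F) {z : ℂ} (hz : 0 < z.re) : 1 - (qv v : ℂ) ^ (-z) ≠ 0 := by
  intro h
  have h1 := congrArg norm (sub_eq_zero.1 h)
  have h2 := two_le_qv v
  rw [norm_one, Complex.norm_natCast_cpow_of_pos (by omega), neg_re] at h1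
  have h3 : (qv v : ℝ) ^ (-z.re) < 1 :=
    Real.rpow_lt_one_of_one_lt_of_neg (by exact_mod_cast h2) (by linarith)
  linarith

theorem zeta_real {θ : ℝ} (hθ : 1 < θ) : zeta F θ
    = ((∑' J : {J : Ideal (𝓞 F) // J ≠ ⊥}, (Ideal.absNorm J.1 : ℝ) ^ (-θ) : ℝ) : ℂ) := by
  have := hθ
  rw [Complex.ofReal_tsum, zeta]
  refine tsum_congr fun J => ?_
  rw [Complex.ofReal_cpow (Nat.cast_nonneg _), Complex.ofReal_neg, Complex.ofReal_natCast]

theorem one_le_zeta_two : 1 ≤ (zeta F 2).re := by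
  have h := zeta_real (F := F) (θ := 2) (by norm_num)
  rw [Complex.ofReal_ofNat] at h
  rw [h, Complex.ofReal_re]
  have h2 := (summable_ideal (F := F) (θ := 2) (by norm_num)).le_tsum ⟨⊤, top_ne_bot⟩
    fun _ _ => by positivity
  simpa using h2

theorem zeta_four_le : (zeta F 4).re ≤ (zeta F 2).re := by
  have h := zeta_real (F := F) (θ := 2) (by norm_num)
  have h' := zeta_real (F := F) (θ := 4) (by norm_num)
  rw [Complex.ofReal_ofNat] at h h'
  rw [h, h', Complex.ofReal_re, Complex.ofReal_re]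
  refine (summable_ideal (by norm_num)).tsum_le_tsum (fun J => ?_) (summable_ideal (by norm_num))
  refine Real.rpow_le_rpow_of_exponent_le ?_ (by norm_num)
  exact_mod_cast Nat.pos_of_ne_zero fun h => J.2 (Ideal.absNorm_eq_zero_iff.1 h)

end NQ
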