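import Vale.Agent.NQ.EulA

noncomputable section
namespace NQ
open Complex MeasureTheory NumberField Filter
open scoped ComplexConjugate Classical Topology

section
variable {F : Type} [Field F] [NumberField F]

/-- The norm of a prime power. -/
def EulB_N (i : HS F × ℕ) : ℝ := (qv i.1 : ℝ) ^ (i.2 + 1)

theorem EulB_two (v : HS F) : (2 : ℝ) ≤ qv v := by exact_mod_cast two_le_qv v

theorem EulB_pos (i : HS F × ℕ) : 0 < EulB_N i := by
  have := EulB_two i.1
  unfold EulB_N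
  positivity

theorem EulB_le (i : HS F × ℕ) : (qv i.1 : ℝ) ≤ EulB_N i :=
  le_self_pow₀ (by linarith [EulB_two i.1]) (Nat.succ_ne_zero _)

theorem EulB_rpow (i : HS F × ℕ) (θ : ℝ) :
    EulB_N i ^ (-θ) = ((qv i.1 : ℝ) ^ (-θ)) ^ (i.2 + 1) := by
  have := EulB_two i.1
  rw [EulB_N, ← Real.rpow_natCast, ← Real.rpow_natCast, ← Real.rpow_mul (by linarith),
    ← Real.rpow_mul (by linarith), mul_comm]

theorem EulB_half (v : HS F) {θ : ℝ} (hθ : 1 ≤ θ) : (qv v : ℝ) ^ (-θ) ≤ 1 / 2 := by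
  have h := EulB_two v
  calc (qv v : ℝ) ^ (-θ) ≤ (qv v : ℝ) ^ (-1 : ℝ) :=
        Real.rpow_le_rpow_of_exponent_le (by linarith) (by linarith)
    _ ≤ 1 / 2 := by
        rw [Real.rpow_neg_one, one_div]
        exact inv_anti₀ (by norm_num) h

theorem EulB_geom {r : ℝ} (h0 : 0 ≤ r) (h1 : r ≤ 1 / 2) :
    (Summable fun k : ℕ => r ^ (k + 1)) ∧ ∑' k : ℕ, r ^ (k + 1) ≤ 2 * r := by
  have h2 := (hasSum_geometric_of_lt_one h0 (by linarith)).mul_left r
  simp only [← pow_succ'] at h2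
  refine ⟨h2.summable, ?_⟩
  rw [h2.tsum_eq, ← div_eq_mul_inv, div_le_iff₀ (by linarith)]
  nlinarith

theorem EulB_sum {θ : ℝ} (hθ : 1 < θ) : (Summable fun i : HS F × ℕ => EulB_N i ^ (-θ)) ∧
    ∑' i : HS F × ℕ, EulB_N i ^ (-θ) ≤ 2 * ∑' v : HS F, (qv v : ℝ) ^ (-θ) := by
  have h0 : ∀ v : HS F, 0 ≤ (qv v : ℝ) ^ (-θ) := fun v => by positivity
  have h1 := fun v : HS F => EulB_geom (h0 v) (EulB_half v hθ.le)
  have h2 := (summable_qv (F := F) hθ).mul_left 2
  have h3 : Summable fun v : HS F => ∑' k : ℕ, ((qv v : ℝ) ^ (-θ)) ^ (k + 1) :=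
    Summable.of_nonneg_of_le (fun v => tsum_nonneg fun k => pow_nonneg (h0 v) _)
      (fun v => (h1 v).2) h2
  simp only [EulB_rpow]
  have h4 : Summable fun i : HS F × ℕ => ((qv i.1 : ℝ) ^ (-θ)) ^ (i.2 + 1) :=
    (summable_prod_of_nonneg fun i => pow_nonneg (h0 i.1) _).2 ⟨fun v => (h1 v).1, h3⟩
  refine ⟨h4, ?_⟩
  rw [h4.tsum_prod, ← tsum_mul_left]
  exact h3.tsum_le_tsum (fun v => (h1 v).2) h2

theorem EulB_log_nonneg (v : HS F) : 0 ≤ Real.log (qv v) :=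
  Real.log_nonneg (by linarith [EulB_two v])

theorem EulB_sum_log {θ : ℝ} (hθ : 1 < θ) :
    Summable fun i : HS F × ℕ => Real.log (qv i.1) * EulB_N i ^ (-θ) := by
  obtain ⟨δ, hδ, h1⟩ : ∃ δ : ℝ, 0 < δ ∧ 1 < θ - δ := ⟨(θ - 1) / 2, by linarith, by linarith⟩
  refine Summable.of_nonneg_of_le
    (fun i => mul_nonneg (EulB_log_nonneg _) (Real.rpow_nonneg (EulB_pos i).le _)) (fun i => ?_)
    ((EulB_sum (F := F) h1).1.mul_left δ⁻¹)
  have h2 := EulB_two i.1
  have h3 := EulB_pos i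
  have h4 : Real.log (qv i.1) ≤ EulB_N i ^ δ / δ :=
    (Real.log_le_log (by linarith) (EulB_le i)).trans (Real.log_le_rpow_div h3.le hδ)
  calc _ ≤ EulB_N i ^ δ / δ * EulB_N i ^ (-θ) :=
        mul_le_mul_of_nonneg_right h4 (Real.rpow_nonneg h3.le _)
    _ = _ := by
        rw [show -(θ - δ) = δ + -θ by ring, Real.rpow_add h3]
        ring

/-- The terms of the logarithm of the zeta function. -/
def EulB_g (i : HS F × ℕ) (z : ℂ) : ℂ := (EulB_N i : ℂ) ^ (-z) / ((i.2 : ℂ) + 1)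

theorem EulB_norm (i : HS F × ℕ) (z : ℂ) : ‖(EulB_N i : ℂ) ^ (-z)‖ = EulB_N i ^ (-z.re) := by
  rw [Complex.norm_cpow_eq_rpow_re_of_pos (EulB_pos i), neg_re]

theorem EulB_norm_g (i : HS F × ℕ) (z : ℂ) : ‖EulB_g i z‖ ≤ EulB_N i ^ (-z.re) := by
  rw [EulB_g, norm_div, EulB_norm]
  refine div_le_self (Real.rpow_nonneg (EulB_pos i).le _) ?_
  rw [show ((i.2 : ℂ) + 1) = ((i.2 + 1 : ℕ) : ℂ) by push_cast; rfl, Complex.norm_natCast]
  exact_mod_cast Nat.succ_pos _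

theorem EulB_summable_g {z : ℂ} (hz : 1 < z.re) : Summable fun i : HS F × ℕ => EulB_g i z :=
  Summable.of_norm_bounded (EulB_sum hz).1 fun i => EulB_norm_g i z

theorem EulB_cpow (i : HS F × ℕ) (z : ℂ) :
    (EulB_N i : ℂ) ^ (-z) = ((qv i.1 : ℂ) ^ (-z)) ^ (i.2 + 1) := by
  rw [EulB_N, ← Complex.cpow_nat_mul, Complex.natCast_cpow_natCast_mul]
  push_cast
  rfl

theorem EulB_exp {z : ℂ} (hz : 1 < z.re) : zeta F z = Complex.exp (∑' i : HS F × ℕ, EulB_g i z) := by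
  have h1 : ∀ v : HS F, HasSum (fun k : ℕ => EulB_g (v, k) z) (-Complex.log (1 - (qv v : ℂ) ^ (-z))) := by
    intro v
    have h2 : ‖(qv v : ℂ) ^ (-z)‖ < 1 := by
      have h3 := EulB_half v hz.le
      rw [Complex.norm_natCast_cpow_of_pos (by linarith [two_le_qv v]), neg_re]
      linarith
    simpa only [EulB_g, EulB_cpow] using Complex.hasSum_taylorSeries_neg_log' h2
  have h2 := ((EulB_summable_g (F := F) hz).hasSum.prod_fiberwise h1).cexp
  refine (hasProd_zeta hz).unique (h2.congr_fun fun v => ?_)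
  rw [Function.comp_apply, Complex.exp_neg, Complex.exp_log (one_sub_ne v (by linarith))]

theorem EulB_deriv_g (i : HS F × ℕ) (z : ℂ) :
    HasDerivAt (EulB_g i) (-((Real.log (qv i.1) : ℂ) * (EulB_N i : ℂ) ^ (-z))) z := by
  have h0 : (EulB_N i : ℂ) ≠ 0 := by exact_mod_cast (EulB_pos i).ne'
  have h1 := ((hasDerivAt_neg z).const_cpow (c := (EulB_N i : ℂ)) (Or.inl h0)).div_const
    ((i.2 : ℂ) + 1)
  refine h1.congr_deriv ?_
  have h2 : Complex.log (EulB_N i : ℂ) = ((i.2 : ℂ) + 1) * (Real.log (qv i.1) : ℂ) := by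
    rw [← Complex.ofReal_log (EulB_pos i).le, EulB_N, Real.log_pow]
    push_cast
    rfl
  have h3 : ((i.2 : ℂ) + 1) ≠ 0 := Nat.cast_add_one_ne_zero _
  rw [h2]
  field_simp

theorem EulB_deriv {z : ℂ} (hz : 1 < z.re) : HasDerivAt (zeta F)
    (-(∑' i : HS F × ℕ, (Real.log (qv i.1) : ℂ) * (EulB_N i : ℂ) ^ (-z)) * zeta F z) z := by
  obtain ⟨θ, h1, h2⟩ := exists_between hz
  have ho : IsOpen {y : ℂ | θ < y.re} := isOpen_lt continuous_const Complex.continuous_re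
  have h3 := hasDerivAt_tsum_of_isPreconnected (EulB_sum_log (F := F) h1) ho
    (convex_halfSpace_re_gt θ).isPreconnected (fun i y _ => EulB_deriv_g i y)
    (fun i y hy => by
      rw [norm_neg, norm_mul, EulB_norm, Complex.norm_real,
        Real.norm_of_nonneg (EulB_log_nonneg _)]
      refine mul_le_mul_of_nonneg_left (Real.rpow_le_rpow_of_exponent_le ?_ ?_) (EulB_log_nonneg _)
      · linarith [EulB_two i.1, EulB_le i]
      · exact neg_le_neg (le_of_lt hy)) h2 (EulB_summable_g hz) h2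
  have h4 : zeta F =ᶠ[𝓝 z] fun y => Complex.exp (∑' i : HS F × ℕ, EulB_g i y) :=
    Filter.mem_of_superset (ho.mem_nhds h2) fun y hy => EulB_exp (h1.trans hy)
  refine (h3.cexp.congr_of_eventuallyEq h4).congr_deriv ?_
  rw [tsum_neg, ← EulB_exp hz, mul_comm]

theorem EulB_bound {z : ℂ} (hz : z.re = 2) :
    ‖∑' i : HS F × ℕ, EulB_g i z‖ ≤ 2 * Module.finrank ℚ F := by
  have h1 := EulB_sum (F := F) (θ := 2) (by norm_num)
  refine (tsum_of_norm_bounded h1.1.hasSum fun i => hz ▸ EulB_norm_g i z).trans (h1.2.trans ?_)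
  exact mul_le_mul_of_nonneg_left tsum_qv_two_le (by norm_num)

end

theorem zetaF (F : Type) [Field F] [NumberField F] : ZetaF F := by
  refine ⟨fun θ hθ => EulB_sum_log hθ, fun z hz => EulB_deriv hz, ?_, fun t => ?_⟩
  · have h1 : (2 : ℂ).re = 2 := by simp
    refine (Complex.re_le_norm _).trans ?_
    rw [EulB_exp (by rw [h1]; norm_num), Complex.norm_exp]
    exact Real.exp_le_exp.2 ((Complex.re_le_norm _).trans (EulB_bound h1))
  · have h1 : (2 + t * I : ℂ).re = 2 := by simp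
    rw [EulB_exp (by rw [h1]; norm_num), Complex.norm_exp]
    refine Real.exp_le_exp.2 ?_
    have h2 := (Complex.abs_re_le_norm _).trans (EulB_bound (F := F) h1)
    exact (abs_le.1 h2).1

end NQ
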