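import Vale.Agent.NQ.EulA
import Vale.Agent.NQ.Cnt
import Vale.Agent.P026.Wt

noncomputable section
namespace NQ
open Complex MeasureTheory NumberField Filter
open scoped ComplexConjugate Classical ContDiff Topology

variable [σ : St]

theorem Euler_term (z : ℂ) (s : Finset P) :
    ∏ p ∈ s, -((nm p.1 : ℂ) ^ (-z)) = mu s * (Ns s : ℂ) ^ (-z) := by
  rw [Ns, Complex.ofReal_natCast]
  induction s using Finset.induction_on with
  | empty => simp [mu_empty, pr_empty, nm_one]
  | insert p s hp ih =>
    rw [Finset.prod_insert hp, ih, pr_insert hp, nm_mul, Nat.cast_mul,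
      natCast_mul_natCast_cpow, mu, mu, Finset.card_insert_of_notMem hp]
    ring

theorem euler : Euler := by
  intro z hz
  have hs : Summable fun p : P => ‖-((nm p.1 : ℂ) ^ (-z))‖ := by
    refine (summable_P_rpow hz).congr fun p => ?_
    rw [norm_neg, norm_natCast_cpow_of_pos (by have := p.four_le_nm; omega), neg_re]
  have h1 := hasProd_one_add_of_hasSum_prod (summable_finsetProd_of_summable_norm hs).hasSum
  simp only [Euler_term] at h1
  have h2 : HasProd (fun v : HS FF => if (σ.s : 𝓞 FF) ∈ v.asIdeal then 1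
      else 1 - (qv v : ℂ) ^ (-z)) (∑' s : Finset P, mu s * (Ns s : ℂ) ^ (-z)) := by
    refine (pv_inj.hasProd_iff fun v hv => if_pos ?_).1 ?_
    · by_contra h
      exact hv (exists_pv h)
    · refine h1.congr fun T => Finset.prod_congr rfl fun p _ => ?_
      rw [Function.comp_apply, if_neg (s_not_mem_pv p), ← nm_P, sub_eq_add_neg]
  have h3 : HasProd (fun v : HS FF => if (σ.s : 𝓞 FF) ∈ v.asIdeal then (1 - (qv v : ℂ) ^ (-z))⁻¹
      else 1) (∏ v : SP, (1 - (qv v.1 : ℂ) ^ (-z))⁻¹) := by
    refine ((Subtype.val_injective (p := fun v : HS FF => (σ.s : 𝓞 FF) ∈ v.asIdeal)).hasProd_iff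
      fun v hv => if_neg fun h => hv ⟨⟨v, h⟩, rfl⟩).1 ?_
    refine (hasProd_fintype fun v : SP => (1 - (qv v.1 : ℂ) ^ (-z))⁻¹).congr fun T =>
      Finset.prod_congr rfl fun v _ => ?_
    rw [Function.comp_apply, if_pos v.2]
  refine (h2.mul (hasProd_zeta hz)).unique (h3.congr fun T => Finset.prod_congr rfl fun v _ => ?_)
  beta_reduce
  split_ifs
  · rw [one_mul]
  · rw [mul_inv_cancel₀ (one_sub_ne v (by linarith))]

omit σ in
theorem Euler_base : ((2 * Real.pi / √3 : ℝ) : ℂ) ≠ 0 := by
  have : (0 : ℝ) < 2 * Real.pi / √3 := by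
    have := Real.pi_pos
    positivity
  exact_mod_cast this.ne'

theorem differentiableOn_GG : DifferentiableOn ℂ GG {z | 0 < z.re} := by
  intro z hz
  refine (DifferentiableAt.mul (differentiableAt_id.neg.const_cpow (Or.inl Euler_base))
    (Complex.differentiableAt_Gamma z fun m h => ?_)).differentiableWithinAt
  have h1 : 0 < z.re := hz
  rw [h] at h1
  simp only [neg_re, natCast_re] at h1
  linarith [Nat.cast_nonneg (α := ℝ) m]

theorem GG_ne_zero {z : ℂ} (hz : 0 < z.re) : GG z ≠ 0 :=
  mul_ne_zero (Complex.cpow_ne_zero_iff.2 (Or.inl Euler_base)) (Complex.Gamma_ne_zero_of_re_pos hz)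

theorem zF (hE : Euler) (h : ∀ θ : ℝ, 11 / 12 < θ → MuC θ) : ZF := by
  intro Λ hΛ s hs h1 hz
  obtain ⟨θ, h2, h3⟩ := exists_between hs
  obtain ⟨G, dG, hG⟩ := h θ h2 s.im
  have h0 : 0 < s.re := by linarith
  have dP : Differentiable ℂ fun w : ℂ => ∏ v : SP, (1 - (qv v.1 : ℂ) ^ (-w)) := by
    refine Differentiable.fun_finsetProd fun v _ => (differentiable_const _).sub ?_
    refine differentiable_id.neg.const_cpow (Or.inl ?_)
    have := two_le_qv v.1
    exact_mod_cast (by omega : qv v.1 ≠ 0)
  have hd : DifferentiableOn ℂ (fun w => G w * Λ w * ∏ v : SP, (1 - (qv v.1 : ℂ) ^ (-w)))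
      {w | θ < w.re} := (dG.mul hΛ.1.differentiableOn).mul dP.differentiableOn
  have hd' : DifferentiableOn ℂ
      (fun w => w * (w - 1) * GG w ^ rk * mellin V0 (w - s.im * I) ^ rk) {w | θ < w.re} := by
    refine DifferentiableOn.mul (DifferentiableOn.mul
      (differentiable_id.mul (differentiable_id.sub_const 1)).differentiableOn
      ((differentiableOn_GG.mono fun w hw => ?_).pow _))
      ((QRH.differentiable_mellin_V0.comp (differentiable_id.sub_const _)).pow _).differentiableOn
    have h4 : θ < w.re := hw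
    change 0 < w.re
    linarith
  have ho : IsOpen {w : ℂ | θ < w.re} := isOpen_lt continuous_const continuous_re
  have key := (hd.analyticOnNhd ho).eqOn_of_preconnected_of_eventuallyEq
    (hd'.analyticOnNhd ho) (convex_halfSpace_re_gt θ).isPreconnected
    (z₀ := s + 1) (by
      change θ < (s + 1).re
      rw [add_re, one_re]
      linarith) (by
      filter_upwards [(isOpen_lt continuous_const continuous_re).mem_nhds
        (show 1 < (s + 1).re by simpa using h0)] with w hw
      have hw' : 1 < w.re := hw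
      have e := hE w hw'
      have e2 : (∏ v : SP, (1 - (qv v.1 : ℂ) ^ (-w))⁻¹) *
          ∏ v : SP, (1 - (qv v.1 : ℂ) ^ (-w)) = 1 := by
        rw [← Finset.prod_mul_distrib]
        exact Finset.prod_eq_one fun v _ => inv_mul_cancel₀ (one_sub_ne v.1 (by linarith))
      rw [← e] at e2
      rw [hG w hw', hΛ.2 w hw']
      linear_combination (w * (w - 1) * GG w ^ rk * mellin V0 (w - s.im * I) ^ rk) * e2) h3
  simp only [hz, mul_zero, zero_mul] at key
  refine mul_ne_zero (mul_ne_zero (mul_ne_zero ?_ (sub_ne_zero.2 h1))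
    (pow_ne_zero _ (GG_ne_zero h0))) (pow_ne_zero _ ?_) key.symm
  · rintro rfl
    simp at h0
  · rw [show s - s.im * I = (s.re : ℂ) by apply Complex.ext <;> simp]
    exact QRH.mellin_V0_ne _

end NQ
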