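import Vale.Agent.NQ.ASb

noncomputable section
namespace NQ
open NumberField IsDedekindDomain Polynomial
open scoped Classical

section
variable {A K : Type} [CommRing A] [IsDomain A] [Field K] [Algebra A K] [IsFractionRing A K]

theorem ExCh_clear (p : K[X]) :
    ∃ (c : A) (q : A[X]), c ≠ 0 ∧ q.map (algebraMap A K) = C (algebraMap A K c) * p := by
  obtain ⟨c, hc, h⟩ := IsLocalization.integerNormalization_spec (nonZeroDivisors A) p
  exact ⟨c, _, nonZeroDivisors.ne_zero hc, by rw [h, ← smul_eq_C_mul, algebraMap_smul]⟩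

omit [IsDomain A] in
theorem ExCh_unit {c : A} (hc : c ≠ 0) : IsUnit (C (algebraMap A K c)) :=
  isUnit_C.2 (IsUnit.mk0 _ ((map_ne_zero_iff _ (IsFractionRing.injective A K)).2 hc))

theorem ExCh_dvd {h u : A[X]} (hp : Prime h) (hd : 0 < h.natDegree)
    (h1 : h.map (algebraMap A K) ∣ u.map (algebraMap A K)) : h ∣ u := by
  obtain ⟨p, h1⟩ := h1
  obtain ⟨c, q, h2, h3⟩ := ExCh_clear (A := A) p
  have h4 : C c * u = h * q := map_injective _ (IsFractionRing.injective A K) (by
    rw [Polynomial.map_mul, Polynomial.map_mul, h1, h3, map_C, mul_left_comm])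
  refine (hp.dvd_or_dvd ⟨q, h4⟩).resolve_left fun h5 => ?_
  simpa [hd.ne'] using natDegree_le_of_dvd h5 (C_ne_zero.2 h2)

theorem ExCh_prime {h : A[X]} (hp : Prime h) (hd : 0 < h.natDegree) :
    Prime (h.map (algebraMap A K)) := by
  have hi := IsFractionRing.injective A K
  refine ⟨(Polynomial.map_ne_zero_iff hi).2 hp.ne_zero, fun h1 => ?_, fun a b h1 => ?_⟩
  · have := natDegree_eq_zero_of_isUnit h1
    rw [natDegree_map_eq_of_injective hi] at this
    omega
  obtain ⟨c, a', h2, h3⟩ := ExCh_clear (A := A) a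
  obtain ⟨d, b', h4, h5⟩ := ExCh_clear (A := A) b
  have h6 : h ∣ a' * b' := ExCh_dvd (K := K) hp hd (by
    rw [Polynomial.map_mul, h3, h5, mul_mul_mul_comm]
    exact h1.mul_left _)
  refine (hp.dvd_or_dvd h6).imp (fun h7 => ?_) fun h7 => ?_
  · exact (ExCh_unit h2).dvd_mul_left.1 (h3 ▸ Polynomial.map_dvd _ h7)
  · exact (ExCh_unit h4).dvd_mul_left.1 (h5 ▸ Polynomial.map_dvd _ h7)

end

theorem ExCh_two {s : ℕ} (hs : 0 < s) (K : Type) [Field K] [CharZero K] [Algebra (AS s) K]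
    [IsFractionRing (AS s) K] : Module.finrank ℚ K = 2 := by
  have := AS_dom hs
  let φ : QRH.E →+* K := (algebraMap (AS s) K).comp (algebraMap QRH.E (AS s))
  have h1 : φ QRH.om ^ 2 + φ QRH.om + 1 = 0 := by
    simpa using congrArg φ QRH.om_rel
  have h2 : LinearIndependent ℚ ![1, φ QRH.om] := by
    refine LinearIndependent.pair_iff.2 fun a b h => ?_
    rw [Rat.smul_def, Rat.smul_def] at h
    have h3 : ((a ^ 2 - a * b + b ^ 2 : ℚ) : K) = 0 := by
      push_cast
      linear_combination (a - b - b * φ QRH.om) * h + (b : K) ^ 2 * h1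
    rw [Rat.cast_eq_zero] at h3
    constructor <;> nlinarith [sq_nonneg (a - b), sq_nonneg a, sq_nonneg b]
  refine (Module.finrank_eq_card_basis (Module.Basis.mk h2 fun x _ => ?_)).trans (by simp)
  obtain ⟨a, b, hb, rfl⟩ := IsFractionRing.div_surjective (AS s) x
  obtain ⟨n, h3, c, h4⟩ := AS_dvd_nat hs (nonZeroDivisors.ne_zero hb)
  obtain ⟨k, y, h5⟩ := AS_surj (a * c)
  have h6 := congrArg (algebraMap (AS s) K) h4
  have h7 : _ = φ y := congrArg (algebraMap (AS s) K) h5
  have h8 : y = y.re + y.im * QRH.om := by ext <;> simp [QRH.om]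
  rw [h8] at h7
  simp only [map_natCast, map_mul, map_pow, map_add, map_intCast] at h6 h7
  refine (Submodule.mem_span_range_iff_exists_fun ℚ).2 ⟨![y.re / (n * s ^ k), y.im / (n * s ^ k)], ?_⟩
  have h9 : (n : K) ≠ 0 := Nat.cast_ne_zero.2 h3
  have h10 : (s : K) ≠ 0 := Nat.cast_ne_zero.2 hs.ne'
  have h11 : algebraMap (AS s) K b ≠ 0 := left_ne_zero_of_mul (h6 ▸ h9)
  simp only [Fin.sum_univ_two, Matrix.cons_val_zero, Matrix.cons_val_one, Rat.smul_def]
  push_cast
  field_simp
  linear_combination (s : K) ^ k * algebraMap (AS s) K a * (-h6) - algebraMap (AS s) K b * h7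

theorem Chart.finrank {s : ℕ} {F : Type} [Field F] [NumberField F] {w : 𝓞 F} {h : (AS s)[X]}
    {ev : (AS s)[X] →+* F} (hc : Chart s h F w ev) (hs : 0 < s) (h0 : h ≠ 0) :
    Module.finrank ℚ F = 2 * h.natDegree := by
  have := AS_dom hs
  have := AS_char hs
  have h1 : Function.Injective (ev.comp C) := (injective_iff_map_eq_zero _).2 fun c h1 => by
    by_contra h2
    obtain ⟨n, h3, d, h4⟩ := AS_dvd_nat hs h2
    have h5 := congrArg (ev.comp C) h4
    rw [map_mul, h1, zero_mul, map_natCast] at h5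
    exact h3 (Nat.cast_eq_zero.1 h5)
  let K := FractionRing (AS s)
  let _ : Algebra K F := (IsFractionRing.lift h1).toAlgebra
  have h2 : ∀ u : (AS s)[X], aeval (ev X) (u.map (algebraMap (AS s) K)) = ev u := fun u =>
    RingHom.congr_fun (f := (aeval (R := K) (ev X)).toRingHom.comp (mapRingHom (algebraMap _ K)))
      (ringHom_ext (fun c => by simpa using! IsFractionRing.lift_algebraMap h1 c) (by simp)) u
  have h3 : Function.Surjective (aeval (R := K) (ev X)) := fun y => by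
    obtain ⟨c, h3, u, h4⟩ := hc.gen y
    refine ⟨C (c : K)⁻¹ * u.map (algebraMap _ _), ?_⟩
    rw [map_mul, h2, h4, aeval_C, map_inv₀, map_natCast,
      inv_mul_cancel_left₀ (Nat.cast_ne_zero.2 h3)]
  have h4 : RingHom.ker (aeval (R := K) (ev X)) = Ideal.span {h.map (algebraMap (AS s) K)} := by
    refine le_antisymm (fun p hp => ?_) ((Ideal.span_singleton_le_iff_mem _).2
      ((h2 h).trans ((hc.ker h).2 dvd_rfl)))
    obtain ⟨c, q, h4, h5⟩ := ExCh_clear (A := AS s) p
    have h6 : h ∣ q := (hc.ker q).1 (by rw [← h2, h5, map_mul, (RingHom.mem_ker.1 hp :), mul_zero])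
    exact Ideal.mem_span_singleton.2 ((ExCh_unit h4).dvd_mul_left.1 (h5 ▸ Polynomial.map_dvd _ h6))
  rw [← Module.finrank_mul_finrank ℚ K F, ExCh_two hs K,
    ← (Ideal.quotientKerAlgEquivOfSurjective h3).toLinearEquiv.finrank_eq,
    (Ideal.quotientEquivAlgOfEq K h4).toLinearEquiv.finrank_eq,
    finrank_quotient_span_eq_natDegree, natDegree_map_eq_of_injective (IsFractionRing.injective _ _)]

theorem ExCh_nf {K : Type} (F : Type) [Field K] [CharZero K] [Field F] [Algebra K F]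
    [FiniteDimensional K F] (h : Module.finrank ℚ K = 2) : NumberField F := by
  have := charZero_of_injective_algebraMap (algebraMap K F).injective
  have : FiniteDimensional ℚ K := Module.finite_of_finrank_pos (by omega)
  exact { to_finiteDimensional := Module.Finite.trans K F }

theorem exCh : ExCh := by
  intro s h hs hp hd
  have := AS_dom hs
  have := AS_char hs
  let K := FractionRing (AS s)
  have h1 := ExCh_prime (K := K) hp hd
  have := Fact.mk h1.irreducible
  have := (AdjoinRoot.powerBasis h1.ne_zero).finite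
  have := ExCh_nf (AdjoinRoot (h.map (algebraMap (AS s) K))) (ExCh_two hs K)
  let ev := (AdjoinRoot.mk (h.map (algebraMap (AS s) K))).comp (mapRingHom (algebraMap (AS s) K))
  have h2 : ev (wP s) ^ 2 + ev (wP s) + 1 = 0 := by
    rw [← map_pow, ← map_add, ← map_one ev, ← map_add, wP_rel, map_zero]
  have hc : Chart s h _ ⟨ev (wP s), X ^ 2 + X + 1, by monicity!, by simpa using h2⟩ ev := by
    refine ⟨fun u => AdjoinRoot.mk_eq_zero.trans ⟨ExCh_dvd hp hd, Polynomial.map_dvd _⟩, rfl,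
      fun y => ?_⟩
    obtain ⟨p, rfl⟩ := AdjoinRoot.mk_surjective y
    obtain ⟨c, q, h3, h4⟩ := ExCh_clear (A := AS s) p
    obtain ⟨n, h5, d, h6⟩ := AS_dvd_nat hs h3
    refine ⟨n, h5, C d * q, ?_⟩
    change AdjoinRoot.mk _ (Polynomial.map _ _) = _
    rw [Polynomial.map_mul, h4, map_C, ← mul_assoc, ← C_mul, ← map_mul, mul_comm d, ← h6,
      map_natCast, map_natCast, map_mul, map_natCast]
  exact ⟨_, inferInstance, inferInstance, _, ev, hc.rel, hc, hc.finrank hs hp.ne_zero⟩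

theorem ExCh_zq {s : ℕ} {f1 f2 u g : (AS s)[X]} (hs : 0 < s) (h3 : 3 ∣ s) (hf : f1 * f2 ≠ 0)
    (h : ∀ h, Prime h → h ∣ f1 * f2 → ¬ h ∣ u) (ht : Ideal.span {f1 * f2, u, g} = ⊤) :
    zq (wP s) g (Ideal.span {f1 * f2, u}) =
      zq (wP s) g (Ideal.span {f1, u}) + zq (wP s) g (Ideal.span {f2, u}) := by
  have h1 := qok_poly hs h3 hf h ht
  simp only [Ideal.span_insert, sup_comm _ (Ideal.span {u})] at h1 ⊢
  exact zq_mul h1 fun x hx => Ideal.mem_span_singleton.2 (regular_of hs (left_ne_zero_of_mul hf)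
    (fun p hp hd => h p hp (hd.mul_right _)) (Ideal.mem_span_singleton.1 hx))

theorem dzAdd : DzAdd := by
  intro s f u1 u2 hs h3
  have := AS_dom hs
  have := AS_pid hs
  have h1 : ∀ f1 f2, f1 * f2 ≠ 0 → (∀ h, Prime h → h ∣ f1 * f2 → ¬ h ∣ u1 ∧ ¬ h ∣ u2) →
      Ideal.span {f1 * f2, u1, u2} = ⊤ →
      Dz s (f1 * f2) u1 u2 = Dz s f1 u1 u2 + Dz s f2 u1 u2 := fun f1 f2 a1 a2 a3 => by
    simp only [Dz, ExCh_zq hs h3 a1 (fun p hp hd => (a2 p hp hd).1) a3,
      ExCh_zq hs h3 a1 (fun p hp hd => (a2 p hp hd).2) (span_top_perm a3).2.2.1]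
    ring
  refine fun a1 a2 a3 => ⟨by rintro f1 f2 rfl; exact h1 f1 f2 a1 a2 a3, fun a4 => ?_⟩
  induction f using UniqueFactorizationMonoid.induction_on_prime with
  | h₁ => exact absurd rfl a1
  | h₂ x hx => exact Dz_unit hx _ _
  | h₃ a p ha hp ih =>
    obtain ⟨x, y, z, a5⟩ := span_top_iff.1 a3
    rw [h1 p a a1 a2 a3, a4 p hp (dvd_mul_right _ _), ih ha (fun q hq hd => a2 q hq (hd.mul_left _))
      (span_top_iff.2 ⟨x * p, y, z, by rw [mul_assoc, a5]⟩)
      fun q hq hd => a4 q hq (hd.mul_left _), add_zero]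

end NQ
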