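import Vale.Agent.NQ.B1
import Vale.Agent.P026.Eis2

noncomputable section
namespace NQ
open Complex MeasureTheory NumberField Filter
open scoped ComplexConjugate Classical ContDiff Topology

variable [σ : St]

theorem NK_mul (x y : FF) : NK (x * y) = NK x * NK y := by
  simp only [NK, map_mul, Finset.prod_mul_distrib]
theorem NK_natCast (n : ℕ) : NK (n : FF) = (n : ℂ) ^ rk := by
  simp only [NK, map_natCast, Finset.prod_const, Finset.card_univ, rk]
theorem norm_NK (x : FF) : ‖NK x‖ ^ 2 = Ninf x := by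
  rw [NK, norm_prod, ← Finset.prod_pow, Ninf]
/-- The map from the Eisenstein integers. -/
def ofE (x : QRH.E) : E := (x.re : E) + (x.im : E) * om
theorem ofE_mul (x y : QRH.E) : ofE (x * y) = ofE x * ofE y := by
  simp only [ofE, QuadraticAlgebra.re_mul, QuadraticAlgebra.im_mul]
  push_cast
  linear_combination (-(x.im : E) * y.im) * om_rel
theorem ofE_add (x y : QRH.E) : ofE (x + y) = ofE x + ofE y := by
  simp only [ofE, QuadraticAlgebra.re_add, QuadraticAlgebra.im_add]
  push_cast
  ring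
theorem em_ofE (w : Pl) (x : QRH.E) : em w (ofE x) = QRH.toC x := by
  rw [QRH.toC_apply, ← em_w w, ofE]
  push_cast
  rw [coe_om, map_add, map_mul, map_intCast, map_intCast]

/-- The map from the Eisenstein integers as a ring homomorphism. -/
def nkHom : QRH.E →+* E where
  toFun := ofE
  map_one' := by simp [ofE, QuadraticAlgebra.re_one, QuadraticAlgebra.im_one]
  map_mul' := ofE_mul
  map_zero' := by simp [ofE]
  map_add' := ofE_add

/-- The embedding of the fraction field of the Eisenstein integers. -/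
def nkC : FractionRing QRH.E →+* ℂ := IsFractionRing.lift QRH.toC_inj

omit σ in
theorem nkC_alg (x : QRH.E) : nkC (algebraMap _ _ x) = QRH.toC x :=
  IsFractionRing.lift_algebraMap QRH.toC_inj x

omit σ in
theorem nk_int {y : FractionRing QRH.E} (h : IsIntegral ℤ (nkC y)) :
    ∃ z : QRH.E, algebraMap _ _ z = y := by
  let f : FractionRing QRH.E →ₐ[ℤ] ℂ := { nkC with commutes' := fun n => by simp }
  have h1 : IsIntegral ℤ y := (isIntegral_algHom_iff f nkC.injective).1 h
  exact IsIntegrallyClosed.isIntegral_iff.1 (h1.tower_top (A := QRH.E))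

omit σ in
theorem nk_dvd {x y : QRH.E} (hy : y ≠ 0) (h : IsIntegral ℤ (QRH.toC x / QRH.toC y)) : y ∣ x := by
  rw [← nkC_alg, ← nkC_alg, ← map_div₀] at h
  obtain ⟨z, hz⟩ := nk_int h
  refine ⟨z, QRH.toC_inj ?_⟩
  have h1 := congrArg nkC hz
  rw [map_div₀, nkC_alg, nkC_alg, nkC_alg] at h1
  rw [map_mul, h1, mul_div_cancel₀ _ (QRH.toC_ne_zero hy)]

theorem dvd_of_integral {x : QRH.E} {n : ℕ} (hn : n ≠ 0) (h : IsIntegral ℤ (QRH.toC x / n)) :
    (n : QRH.E) ∣ x :=
  nk_dvd (by exact_mod_cast hn) (by rwa [map_natCast])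

theorem nk_em {x : FF} (h : IsIntegral ℤ x) (w : Pl) : IsIntegral ℤ (em w x) :=
  h.map (em w).toIntAlgHom

theorem exists_NK {x : FF} (h : IsIntegral ℤ x) : ∃ ν : QRH.E, QRH.toC ν = NK x := by
  let K := FractionRing QRH.E
  let g : QRH.E →+* FF := (RR FF σ.s).subtype.comp nkHom
  have hg1 : ∀ (w : Pl) (y : QRH.E), em w (g y) = QRH.toC y := em_ofE
  have hg : Function.Injective g := fun a b hab => QRH.toC_inj (by
    rw [← hg1 (Classical.arbitrary Pl), ← hg1 (Classical.arbitrary Pl), hab])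
  let G : K →+* FF := IsFractionRing.lift hg
  have hG : ∀ y : QRH.E, G (algebraMap _ _ y) = g y := IsFractionRing.lift_algebraMap hg
  letI : Algebra K FF := G.toAlgebra
  letI : Algebra K ℂ := nkC.toAlgebra
  haveI : CharZero K := nkC.charZero
  haveI : Module.Finite K FF := Module.Finite.of_restrictScalars_finite ℚ K FF
  let e : Pl ≃ (FF →ₐ[K] ℂ) :=
    { toFun := fun w => { em w with
        commutes' := fun y => by
          have : (em w).comp G = nkC := IsFractionRing.ringHom_ext (A := QRH.E) fun z => by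
            rw [RingHom.comp_apply, hG, hg1, nkC_alg]
          exact RingHom.congr_fun this y }
      invFun := fun φ => ⟨φ, by
        have h1 := φ.commutes (algebraMap QRH.E K QRH.om)
        change φ (G _) = nkC _ at h1
        rw [hG, nkC_alg, QRH.toC_om] at h1
        have h2 : g QRH.om = σ.w := by
          change ((ofE QRH.om : E) : FF) = _
          simp [ofE, QRH.om, coe_om]
        rw [h2] at h1
        exact h1⟩
      left_inv := fun w => rfl
      right_inv := fun φ => rfl }
  have h1 : nkC (Algebra.norm K x) = NK x := by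
    have := Algebra.norm_eq_prod_embeddings K ℂ x
    rw [← e.prod_comp] at this
    exact this
  obtain ⟨z, hz⟩ := nk_int (y := Algebra.norm K x)
    (by rw [h1]; exact IsIntegral.prod _ fun w _ => nk_em h w)
  exact ⟨z, by rw [← h1, ← hz, nkC_alg]⟩

omit σ in
theorem nk_prod {ι : Type*} (T : Finset ι) {a b : ℂ} (ha : IsIntegral ℤ a) (hb : IsIntegral ℤ b)
    {z : ι → ℂ} (hz : ∀ i, IsIntegral ℤ (z i)) :
    ∃ t, IsIntegral ℤ t ∧ ∏ i ∈ T, (a + b * z i) = a ^ T.card + b * t := by
  induction T using Finset.induction_on with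
  | empty => exact ⟨0, isIntegral_zero, by simp⟩
  | insert i T hi ih =>
    obtain ⟨t, ht, h⟩ := ih
    refine ⟨a * t + z i * a ^ T.card + b * z i * t,
      ((ha.mul ht).add ((hz i).mul (ha.pow _))).add ((hb.mul (hz i)).mul ht), ?_⟩
    rw [Finset.prod_insert hi, h, Finset.card_insert_of_notMem hi]
    ring

omit σ in
theorem nk_toC_int (x : QRH.E) : IsIntegral ℤ (QRH.toC x) :=
  (Algebra.IsIntegral.isIntegral (R := ℤ) x).map QRH.toC.toIntAlgHom

/-- The relative norm respects congruences modulo Eisenstein integers. -/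
theorem nk_congr (n : ℕ) {b : QRH.E} (hb : b ≠ 0) {z : FF} (hz : IsIntegral ℤ z) {ν : QRH.E}
    (hν : QRH.toC ν = NK (n + ofE b * z)) : b ∣ ν - (n : QRH.E) ^ rk := by
  obtain ⟨t, ht, h⟩ := nk_prod (Finset.univ : Finset Pl) (nk_toC_int n) (nk_toC_int b) (nk_em hz)
  refine nk_dvd hb ?_
  have h1 : NK (n + ofE b * z) = ∏ w : Pl, (QRH.toC n + QRH.toC b * em w z) := by
    simp only [NK, map_add, map_mul, map_natCast, em_ofE]
  rw [map_sub, hν, h1, h, map_pow, Finset.card_univ, rk, add_sub_cancel_left,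
    mul_div_cancel_left₀ _ (QRH.toC_ne_zero hb)]
  exact ht

/-- The relative norm of an element of the trivial class. -/
theorem NK_cl {u : FF} (h : Cl 1 u) : ∃ (d : ℕ) (ν : QRH.E), d.Coprime σ.s ∧
    (d : ℂ) * NK u = QRH.toC (d + (σ.s : QRH.E) ^ 2 * ν) := by
  obtain ⟨d, hd, hz⟩ := h.2
  have hs : ((ofE ((σ.s : QRH.E) ^ 2) : E) : FF) = ss ^ 2 := by
    change ((nkHom _ : E) : FF) = _
    rw [map_pow, map_natCast, Subring.coe_pow, coe_s]
  have he : (d : FF) * u = d + ofE ((σ.s : QRH.E) ^ 2) * (d * ((u / 1 - 1) / ss ^ 2)) := by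
    rw [hs]
    have := ss_ne_zero
    field_simp
    ring
  have hn : ∀ n : ℕ, IsIntegral ℤ (n : FF) := fun n => by
    simpa using isIntegral_algebraMap (R := ℤ) (A := FF) (x := n)
  obtain ⟨ν0, h0⟩ := exists_NK (x := d * u) (by
    rw [he, hs]; exact (hn d).add (((hn σ.s).pow 2).mul hz))
  obtain ⟨ν, hν⟩ := nk_congr d (pow_ne_zero 2 (by exact_mod_cast σ.s_pos.ne')) hz (he ▸ h0)
  refine ⟨d ^ rk, ν, hd.pow_left _, ?_⟩
  rw [← hν]
  push_cast
  rw [add_sub_cancel, h0, NK_mul, NK_natCast]

end NQ
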