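import Vale.Agent.NQ.B2

noncomputable section
namespace NQ
open Complex MeasureTheory NumberField Filter
open scoped ComplexConjugate Classical ContDiff Topology

variable [σ : St]

/-- The inclusion of the integers. -/
def toE : 𝓞 FF →+* E :=
  (algebraMap (𝓞 FF) FF).codRestrict _ fun x => mem_E_of_integral x.isIntegral_coe
theorem coe_toE (x : 𝓞 FF) : (toE x : FF) = x := rfl
theorem Plc_lift (x : E) : ∃ (k : ℕ) (y : 𝓞 FF), toE y = (σ.s : E) ^ k * x := by
  obtain ⟨k, hk⟩ := exists_pow_integral x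
  refine ⟨k, ⟨_, hk⟩, Subtype.ext ?_⟩
  change ss ^ k * (x : FF) = ((σ.s : E) : FF) ^ k * x
  rw [coe_s]
theorem Plc_OG {v : HS FF} (h : (σ.s : 𝓞 FF) ∉ v.asIdeal) (x : E) : OG v 0 (x : FF) :=
  (mem_RR σ.s_pos.ne').1 x.2 v h
theorem pv_prime (p : P) : (Ideal.comap toE (Ideal.span {p.1})).IsPrime := by
  have : (Ideal.span {p.1}).IsPrime := (Ideal.span_singleton_prime p.ne_zero).2 p.prime
  exact Ideal.comap_isPrime _ _
theorem pv_ne_bot (p : P) : Ideal.comap toE (Ideal.span {p.1}) ≠ ⊥ := by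
  obtain ⟨k, y, hy⟩ := Plc_lift p.1
  intro h
  have h1 : y ∈ Ideal.comap toE (Ideal.span {p.1}) := by
    rw [Ideal.mem_comap, hy, Ideal.mem_span_singleton]
    exact Dvd.intro_left _ rfl
  rw [h, Ideal.mem_bot] at h1
  rw [h1, map_zero] at hy
  exact mul_ne_zero (pow_ne_zero _ isUnit_s.ne_zero) p.ne_zero hy.symm
/-- The place of a prime element. -/
def pv (p : P) : HS FF := ⟨Ideal.comap toE (Ideal.span {p.1}), pv_prime p, pv_ne_bot p⟩
theorem mem_pv (p : P) (x : 𝓞 FF) : x ∈ (pv p).asIdeal ↔ p.1 ∣ toE x := by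
  rw [← Ideal.mem_span_singleton]; rfl
theorem s_not_mem_pv (p : P) : (σ.s : 𝓞 FF) ∉ (pv p).asIdeal := by
  rw [mem_pv, map_natCast]
  exact p.not_dvd_unit isUnit_s
theorem Plc_dvd (p : P) (x : E) : p.1 ∣ x ↔ OG (pv p) 1 (x : FF) := by
  obtain ⟨k, y, hy⟩ := Plc_lift x
  have h0 : ord (pv p) ss = 0 := by
    simpa [ss] using (ord_eq_zero_of_not_mem (s_not_mem_pv p)).2
  have hy' : (y : FF) = ss ^ k * x := by
    rw [← coe_toE, hy, ← coe_s]; rfl
  have hx : (x : FF) = y / ss ^ k := by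
    rw [hy', mul_div_cancel_left₀ _ (pow_ne_zero _ ss_ne_zero)]
  rw [hx, OG_div_iff (pow_ne_zero _ ss_ne_zero), ord_pow, h0, mul_zero, add_zero, ← mem_iff_OG,
    mem_pv, hy, (isUnit_s.pow k).dvd_mul_left]
theorem pv_inj : Function.Injective pv := by
  intro p q h
  have h1 := (Plc_dvd p p.1).1 dvd_rfl
  rw [h] at h1
  exact ((P.dvd_iff q p).1 ((Plc_dvd q p.1).2 h1)).symm
theorem exists_pv {v : HS FF} (h : (σ.s : 𝓞 FF) ∉ v.asIdeal) : ∃ p : P, pv p = v := by
  let I : Ideal E :=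
    { carrier := {x | OG v 1 (x : FF)}
      add_mem' := fun ha hb => OG.add ha hb
      zero_mem' := OG.zero v 1
      smul_mem' := fun c x hx => by
        simpa using (Plc_OG h c).mul hx }
  have hI : ∀ x : E, x ∈ I ↔ OG v 1 (x : FF) := fun x => Iff.rfl
  have hp : I.IsPrime := by
    refine ⟨?_, fun {a b} hab => ?_⟩
    · rw [Ne, Ideal.eq_top_iff_one, hI]
      intro h1
      have := h1.le (by simp)
      simp [ord_one] at this
    · by_contra hn
      rw [not_or, hI, hI] at hn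
      have ha : (a : FF) ≠ 0 := fun h0 => hn.1 (Or.inl h0)
      have hb : (b : FF) ≠ 0 := fun h0 => hn.2 (Or.inl h0)
      have h1 := ((hI _).1 hab).le (by simpa using mul_ne_zero ha hb)
      have h2 : ((a * b : E) : FF) = a * b := rfl
      rw [h2, ord_mul v ha hb] at h1
      have h3 : ¬ 1 ≤ ord v (a : FF) := fun h => hn.1 (Or.inr h)
      have h4 : ¬ 1 ≤ ord v (b : FF) := fun h => hn.2 (Or.inr h)
      omega
  obtain ⟨q, hq⟩ := (IsPrincipalIdealRing.principal I).principal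
  have hq' : I = Ideal.span {q} := hq
  have hq0 : q ≠ 0 := by
    rintro rfl
    obtain ⟨y, hy, hy0⟩ := Submodule.exists_mem_ne_zero_of_ne_bot v.ne_bot
    have h1 : toE y ∈ I := (hI _).2 ((mem_iff_OG v y).1 hy)
    rw [hq', Ideal.mem_span_singleton, zero_dvd_iff] at h1
    apply hy0
    apply RingOfIntegers.ext
    have := congrArg (fun z : E => (z : FF)) h1
    simpa [coe_toE] using this
  obtain ⟨p, hp'⟩ := exists_P ((Ideal.span_singleton_prime hq0).1 (hq' ▸ hp))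
  refine ⟨p, IsDedekindDomain.HeightOneSpectrum.ext (Ideal.ext fun x => ?_)⟩
  rw [mem_pv, ← hp'.dvd_iff_dvd_left, ← Ideal.mem_span_singleton, ← hq', hI, mem_iff_OG, coe_toE]
theorem Plc_ord_self (p : P) : ord (pv p) (p.1 : FF) = 1 := by
  obtain ⟨π, h0, h1, h2⟩ := exists_ord {pv p} (fun _ => 1)
  have h1' := h1 _ (Finset.mem_singleton_self _)
  have hm : π ∈ RR FF σ.s := (mem_RR σ.s_pos.ne').2 fun v _ => Or.inr (by
    by_cases hv : v ∈ ({pv p} : Finset (HS FF))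
    · rw [h1 v hv]; norm_num
    · exact h2 v hv)
  obtain ⟨c, hc⟩ := (Plc_dvd p ⟨π, hm⟩).2 (Or.inr h1'.ge)
  have hc' : π = (p.1 : FF) * c := congrArg (fun z : E => (z : FF)) hc
  have hp' : ((p.1 : E) : FF) ≠ 0 := by simpa using p.ne_zero
  have hc0 : (c : FF) ≠ 0 := by
    intro h; rw [h, mul_zero] at hc'; exact h0 hc'
  have h3 := ((Plc_dvd p p.1).1 dvd_rfl).le hp'
  have h4 := (Plc_OG (s_not_mem_pv p) c).le hc0
  rw [hc', ord_mul _ hp' hc0] at h1'
  omega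
theorem ord_pv (p : P) {x : E} (hx : x ≠ 0) : ord (pv p) (x : FF) = vp p.1 x := by
  have hu := up_ne_zero (p := p.1) hx
  have hu' : ((up p.1 x : E) : FF) ≠ 0 := by simpa using hu
  have hp' : ((p.1 : E) : FF) ≠ 0 := by simpa using p.ne_zero
  have h1 : ord (pv p) (up p.1 x : FF) = 0 := by
    have h2 := (Plc_OG (s_not_mem_pv p) (up p.1 x)).le hu'
    have h3 : ¬ 1 ≤ ord (pv p) (up p.1 x : FF) := fun h =>
      not_dvd_up p.prime hx ((Plc_dvd p _).2 (Or.inr h))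
    omega
  have h4 : (x : FF) = (p.1 : FF) ^ vp p.1 x * (up p.1 x : FF) := by
    have := congrArg (fun z : E => (z : FF)) (pow_vp_mul_up p.1 x)
    simpa using this.symm
  rw [h4, ord_mul _ (pow_ne_zero _ hp') hu', ord_pow, Plc_ord_self, h1]
  simp
theorem dvd_iff_OG (p : P) (x : E) (k : ℕ) : p.1 ^ k ∣ x ↔ OG (pv p) k (x : FF) := by
  rcases eq_or_ne x 0 with rfl | hx
  · simp [OG]
  · have hx' : (x : FF) ≠ 0 := by simpa using hx
    rw [pow_dvd_iff p.prime hx, OG, ord_pv p hx]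
    simp [hx]
theorem exists_toE_sub {q : E} (hq : q ≠ 0) (x : E) : ∃ y : 𝓞 FF, q ∣ x - toE y := by
  obtain ⟨y, hy, hy'⟩ := exists_approx_E hq x 0 one_ne_zero
  refine ⟨⟨y, integral_of_mem (by simpa using hy')⟩, ?_⟩
  rw [← dvd_neg, neg_sub]
  exact hy
/-- The residue fields agree. -/
theorem exists_resEquiv (p : P) : ∃ e : (𝓞 FF ⧸ (pv p).asIdeal) ≃+* (E ⧸ Ideal.span {p.1}),
    ∀ x, e (Ideal.Quotient.mk _ x) = Ideal.Quotient.mk _ (toE x) := by
  let f : (𝓞 FF ⧸ (pv p).asIdeal) →+* (E ⧸ Ideal.span {p.1}) :=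
    Ideal.quotientMap (Ideal.span {p.1}) toE le_rfl
  have hi : Function.Injective f := Ideal.quotientMap_injective
  have hs : Function.Surjective f := by
    intro z
    obtain ⟨x, rfl⟩ := Ideal.Quotient.mk_surjective z
    obtain ⟨y, hy⟩ := exists_toE_sub p.ne_zero x
    refine ⟨Ideal.Quotient.mk _ y, ?_⟩
    change Ideal.Quotient.mk _ (toE y) = _
    rw [eq_comm, Ideal.Quotient.eq, Ideal.mem_span_singleton]
    exact hy
  exact ⟨RingEquiv.ofBijective f ⟨hi, hs⟩, fun x => rfl⟩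
theorem nm_P (p : P) : nm p.1 = qv (pv p) := by
  obtain ⟨e, -⟩ := exists_resEquiv p
  rw [← card_quot, nm]
  exact (Nat.card_congr e.toEquiv).symm
theorem P.nm_coprime (p : P) : (nm p.1).Coprime σ.s := by
  rw [nm_P]; exact coprime_qv (s_not_mem_pv p)
theorem isUnit_iff_ord {x : E} (hx : x ≠ 0) :
    IsUnit x ↔ ∀ v : HS FF, (σ.s : 𝓞 FF) ∉ v.asIdeal → ord v (x : FF) = 0 := by
  have hx' : (x : FF) ≠ 0 := by simpa using hx
  constructor
  · intro hu v hv
    obtain ⟨p, rfl⟩ := exists_pv hv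
    rw [ord_pv p hx, vp_of_not_dvd (p.not_dvd_unit hu)]
    simp
  · intro h
    have hm : (x : FF)⁻¹ ∈ RR FF σ.s := (mem_RR σ.s_pos.ne').2 fun v hv =>
      Or.inr (by rw [ord_inv, h v hv]; simp)
    exact IsUnit.of_mul_eq_one (⟨_, hm⟩ : E) (Subtype.ext (mul_inv_cancel₀ hx'))
/-- The product formula. -/
theorem nm_eq {x : E} (hx : x ≠ 0) : (nm x : ℝ) = Ninf x * sS x := by
  have hx' : (x : FF) ≠ 0 := by simpa using hx
  have hd : Disjoint (Finset.univ.image fun v : SP => v.1) ((fac x).image pv) := by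
    rw [Finset.disjoint_left]
    intro v h1 h2
    obtain ⟨w, -, rfl⟩ := Finset.mem_image.1 h1
    obtain ⟨p, -, hp⟩ := Finset.mem_image.1 h2
    exact s_not_mem_pv p (hp ▸ w.2)
  have h := abs_norm_eq hx' ((Finset.univ.image fun v : SP => v.1) ∪ (fac x).image pv) (by
    intro v hv
    by_cases hs : (σ.s : 𝓞 FF) ∈ v.asIdeal
    · exact Finset.mem_union_left _ (Finset.mem_image.2 ⟨⟨v, hs⟩, Finset.mem_univ _, rfl⟩)
    · obtain ⟨p, rfl⟩ := exists_pv hs
      refine Finset.mem_union_right _ (Finset.mem_image.2 ⟨p, (mem_fac hx).2 ?_, rfl⟩)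
      rw [ord_pv p hx] at hv
      exact (dvd_iff_vp p.prime hx).2 (by exact_mod_cast hv))
  rw [Finset.prod_union hd, Finset.prod_image (fun a _ b _ h => Subtype.ext h),
    Finset.prod_image (fun a _ b _ h => pv_inj h)] at h
  rw [Ninf_eq_norm, h, sS, mul_right_comm, ← Finset.prod_mul_distrib, nm_eq_prod hx,
    Finset.prod_eq_one (s := Finset.univ), one_mul]
  · push_cast
    refine Finset.prod_congr rfl fun p _ => ?_
    rw [ord_pv p hx, nm_P, zpow_natCast]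
  · intro v _
    have : (qv v.1 : ℝ) ≠ 0 := by
      have := two_le_qv v.1
      exact Nat.cast_ne_zero.2 (by omega)
    rw [← zpow_add₀ this]; simp
theorem Ns_eq (s : Finset P) : Ns s = Ninf (pr s) * sS (pr s) :=
  nm_eq (pr_ne_zero s)
theorem sS_unit {u : E} (hu : IsUnit u) : Ninf u * sS u = 1 := by
  rw [← nm_eq hu.ne_zero, isUnit_iff.1 hu, Nat.cast_one]
theorem sS_ss_pow (k : ℕ) : sS (ss ^ k) = ((σ.s : ℝ) ^ (2 * rk * k))⁻¹ := by
  have h := sS_unit (isUnit_s.pow k)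
  have h1 : (((σ.s : E) ^ k : E) : FF) = ss ^ k := by rw [← coe_s]; rfl
  rw [h1, Ninf_pow, ss, Ninf_natCast, ← pow_mul] at h
  exact eq_inv_of_mul_eq_one_right h
theorem nm_le_box {x : E} {b : FF} (hb : b ≠ 0) (hx : x ≠ 0) (h : (x : FF) / b ∈ OS) :
    (nm x : ℝ) ≤ sS b * Ninf x := by
  rw [nm_eq hx, mul_comm]
  exact mul_le_mul_of_nonneg_right (sS_mono (by simpa using hx) hb h) (Ninf_nonneg _)
/-- A unit of `E` that is also an `S`-adic unit is a unit of the ring of integers. -/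
theorem exists_unitO {e : E} (he : IsUnit e) (h : (e : FF) ∈ OS) (h' : (e : FF)⁻¹ ∈ OS) :
    ∃ u : (𝓞 FF)ˣ, ((u : 𝓞 FF) : FF) = e := by
  have he' : (e : FF) ≠ 0 := by simpa using he.ne_zero
  obtain ⟨f, hf⟩ := he.exists_right_inv
  have hf' : (f : FF) = (e : FF)⁻¹ :=
    eq_inv_of_mul_eq_one_right (congrArg (fun z : E => (z : FF)) hf)
  have h2 : IsIntegral ℤ (e : FF)⁻¹ := hf' ▸ integral_of_mem (hf' ▸ h')
  exact ⟨⟨⟨e, integral_of_mem h⟩, ⟨_, h2⟩, RingOfIntegers.ext (mul_inv_cancel₀ he'),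
    RingOfIntegers.ext (inv_mul_cancel₀ he')⟩, rfl⟩

end NQ
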