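import Vale.Agent.NQ.Gauss
import Vale.Agent.NQ.NK
import Vale.Agent.NQ.Plc

noncomputable section
namespace NQ
open Complex MeasureTheory NumberField Filter
open scoped ComplexConjugate Classical ContDiff Topology

variable [σ : St]

/-- The cubic residue symbol with values in the Eisenstein integers. -/
def g3e (p : P) (x : E) : QRH.E :=
  if p.1 ∣ x then 0
  else if p.1 ∣ x ^ ((nm p.1 - 1) / 3) - 1 then 1
  else if p.1 ∣ x ^ ((nm p.1 - 1) / 3) - om then QRH.om else QRH.om ^ 2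

theorem g3_toC_e (p : P) (x : E) : QRH.toC (g3e p x) = c3 p x := by
  unfold g3e c3
  split_ifs <;> simp [QRH.toC_om]

theorem g3e_per (p : P) {x y : E} (h : rd p x = rd p y) : g3e p x = g3e p y :=
  QRH.toC_inj (by rw [g3_toC_e, g3_toC_e]; exact (c3_mc p).per _ _ (rd_eq_iff.1 h))

theorem g3e_mul (p : P) (x y : E) : g3e p (x * y) = g3e p x * g3e p y :=
  QRH.toC_inj (by rw [map_mul, g3_toC_e, g3_toC_e, g3_toC_e]; exact (c3_mc p).mul _ _)

theorem g3e_spec {p : P} {x : E} (h : ¬ p.1 ∣ x) :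
    ∃ j < 3, p.1 ∣ x ^ ((nm p.1 - 1) / 3) - om ^ j ∧ g3e p x = QRH.om ^ j := by
  obtain ⟨j, hj, h1, h2⟩ := c3_spec h
  exact ⟨j, hj, h1, QRH.toC_inj (by rw [g3_toC_e, h2, map_pow, QRH.toC_om])⟩

theorem g3_nm (p : P) : ∃ k, 1 ≤ k ∧ nm p.1 = 3 * k + 1 ∧ (nm p.1 - 1) / 3 = k := by
  have h1 := p.nm_mod
  have h2 := p.four_le_nm
  exact ⟨nm p.1 / 3, by omega, by omega, by omega⟩

/-- Reduction of Eisenstein integers. -/
def g3r (p : P) : QRH.E →+* Fp p := (rd p).comp nkHom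

theorem g3r_om (p : P) : g3r p QRH.om = rd p om := by
  change rd p (ofE QRH.om) = _
  simp [ofE, QRH.om]

theorem g3_rd_e (p : P) (x : E) : g3r p (g3e p x) = rd p x ^ ((nm p.1 - 1) / 3) := by
  by_cases h : p.1 ∣ x
  · obtain ⟨k, hk, -, hk2⟩ := g3_nm p
    rw [rd_eq_zero.2 h, hk2, zero_pow (by omega), g3e, if_pos h, map_zero]
  · obtain ⟨j, -, h1, h2⟩ := g3e_spec h
    rw [h2, map_pow, g3r_om, ← map_pow, ← map_pow]
    exact (rd_eq_iff.2 h1).symm

/-- The cubic residue symbol as a character of the residue field. -/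
def g3chi (p : P) : MulChar (Fp p) QRH.E where
  toFun y := g3e p (rd_surj p y).choose
  map_one' := by
    rw [g3e_per p ((rd_surj p 1).choose_spec.trans (map_one (rd p)).symm)]
    exact QRH.toC_inj (by rw [g3_toC_e, map_one]; exact (c3_mc p).one)
  map_mul' y z := by
    rw [← g3e_mul]
    apply g3e_per
    rw [map_mul, (rd_surj p y).choose_spec, (rd_surj p z).choose_spec,
      (rd_surj p (y * z)).choose_spec]
  map_nonunit' y hy := by
    have h0 : y = 0 := by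
      by_contra h
      exact hy (isUnit_iff_ne_zero.2 h)
    have h1 : p.1 ∣ (rd_surj p y).choose := rd_eq_zero.1 ((rd_surj p y).choose_spec.trans h0)
    show g3e p (rd_surj p y).choose = 0
    rw [g3e, if_pos h1]

theorem g3chi_rd (p : P) (x : E) : g3chi p (rd p x) = g3e p x :=
  g3e_per p (rd_surj p (rd p x)).choose_spec

theorem g3_rd_chi (p : P) (y : Fp p) : g3r p (g3chi p y) = y ^ ((nm p.1 - 1) / 3) := by
  obtain ⟨x, rfl⟩ := rd_surj p y
  rw [g3chi_rd, g3_rd_e]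

theorem g3_star_chi (p : P) (y : Fp p) : star (g3chi p y) = g3chi p y ^ 2 := by
  obtain ⟨x, rfl⟩ := rd_surj p y
  apply QRH.toC_inj
  rw [QRH.toC_star, map_pow, g3chi_rd, g3_toC_e, conj_c3]

theorem g3chi_cube (p : P) : g3chi p ^ 3 = 1 := by
  apply MulChar.ext
  intro u
  obtain ⟨x, hx⟩ := rd_surj p u
  have h : ¬ p.1 ∣ x := fun h => u.ne_zero (hx ▸ rd_eq_zero.2 h)
  obtain ⟨j, -, -, h2⟩ := g3e_spec h
  rw [MulChar.pow_apply_coe, MulChar.one_apply_coe, ← hx, g3chi_rd, h2, ← pow_mul, mul_comm,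
    pow_mul, QRH.om_cube, one_pow]

omit σ in
theorem g3_om_prim : IsPrimitiveRoot QRH.om 3 := by
  have : Fact (Nat.Prime 3) := ⟨Nat.prime_three⟩
  have h : orderOf QRH.om = 3 := orderOf_eq_prime QRH.om_cube fun h => QRH.omC_ne_one (by
    rw [← QRH.toC_om, h, map_one])
  exact h ▸ IsPrimitiveRoot.orderOf QRH.om

theorem g3_order (p : P) : orderOf ((g3chi p).ringHomComp QRH.toC) = 3 := by
  have : Fact (Nat.Prime 3) := ⟨Nat.prime_three⟩
  refine orderOf_eq_prime ?_ fun h => ?_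
  · rw [MulChar.ringHomComp_pow, g3chi_cube, MulChar.ringHomComp_one]
  · obtain ⟨x, hx, h1⟩ := c3_nt p
    have hu : IsUnit (rd p x) := isUnit_iff_ne_zero.2 fun h => hx (rd_eq_zero.1 h)
    have := congrArg (fun c : MulChar (Fp p) ℂ => c (rd p x)) h
    simp only [MulChar.ringHomComp_apply, MulChar.one_apply hu] at this
    rw [g3chi_rd, g3_toC_e] at this
    exact h1 this

/-- The Jacobi sum. -/
def g3J (p : P) : QRH.E := jacobiSum (g3chi p) (g3chi p)

theorem g3_gs (p : P) : gs c3 {p} ^ 3 = nm p.1 * QRH.toC (g3J p) := by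
  obtain ⟨e, he, h⟩ := exists_addChar p (t := 1) (p.not_dvd_unit isUnit_one)
  have ho := g3_order p
  have h0 := gaussSum_pow_eq_prod_jacobiSum (χ := (g3chi p).ringHomComp QRH.toC) (by omega) he
  have h1 : g3chi p (-1) = 1 := by
    rw [← map_one (rd p), ← map_neg, g3chi_rd]
    exact QRH.toC_inj (by rw [g3_toC_e, c3_neg_one, map_one])
  rw [ho, show 3 - 1 = 1 + 1 from rfl, Nat.Ico_succ_singleton, Finset.prod_singleton, pow_one,
    jacobiSum_ringHomComp, MulChar.ringHomComp_apply, h1, map_one, one_mul, card_Fp] at h0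
  rw [g3J, ← h0, gs_singleton, gaussSum, ← rsum_rd]
  simp only [MulChar.ringHomComp_apply, g3chi_rd, g3_toC_e, h, mul_one]

theorem g3_nm_J (p : P) : QRH.nm (g3J p) = nm p.1 := by
  have h := congrArg (fun z : ℂ => ‖z‖ ^ 2) (g3_gs p)
  have h0 : ‖gs c3 {p}‖ ^ 2 = nm p.1 := by rw [← norm_G3, G3_eq, RCLike.norm_conj]
  simp only [norm_pow, norm_mul, Complex.norm_natCast, mul_pow] at h
  rw [← pow_mul, mul_comm 3 2, pow_mul, h0, ← QRH.nm_eq] at h
  have h1 : (0 : ℝ) < nm p.1 := lt_of_lt_of_le one_pos (one_le_nmR p.ne_zero)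
  have h2 : (QRH.nm (g3J p) : ℝ) = nm p.1 :=
    mul_left_cancel₀ (pow_pos h1 2).ne' (by rw [← h]; ring)
  exact_mod_cast h2

theorem g3_prim (p : P) : (3 : QRH.E) ∣ -g3J p - 1 := by
  obtain ⟨k, hk, hk1, hk2⟩ := g3_nm p
  obtain ⟨z, -, hz⟩ := exists_jacobiSum_eq_neg_one_add (n := 3) (by norm_num) (g3chi_cube p)
    (g3chi_cube p) ⟨k, by rw [card_Fp]; omega⟩ g3_om_prim
  exact ⟨z * QRH.om, by rw [g3J, hz]; linear_combination (-z) * QRH.om_rel⟩

omit σ in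
theorem g3_sum_pow {K : Type*} [Field K] [Fintype K] {i : ℕ} (hi : i ≠ 0) :
    ∑ y : K, y ^ i = if Fintype.card K - 1 ∣ i then -1 else 0 := by
  rw [← FiniteField.sum_pow_units, 
    ← Finset.sum_erase Finset.univ (f := fun y : K => y ^ i) (a := 0) (zero_pow hi)]
  symm
  refine Finset.sum_bij (fun u _ => (u : K)) (fun u _ => by simp) (fun _ _ _ _ h => Units.ext h)
    (fun y hy => ⟨Units.mk0 y (Finset.mem_erase.1 hy).1, Finset.mem_univ _, rfl⟩) fun _ _ => rfl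

theorem g3_star_J (p : P) {k : ℕ} (hk : 1 ≤ k) (hk1 : nm p.1 = 3 * k + 1) :
    g3r p (star (g3J p)) = -((-1) ^ k * ((2 * k).choose k : Fp p)) := by
  have hk2 : (nm p.1 - 1) / 3 = k := by omega
  rw [g3J, jacobiSum, star_sum, map_sum]
  simp only [star_mul', g3_star_chi, map_mul, map_pow, g3_rd_chi, hk2, ← pow_mul]
  have h : ∀ y : Fp p, y ^ (k * 2) * (1 - y) ^ (k * 2) = ∑ m ∈ Finset.range (2 * k + 1),
      ((-1) ^ m * ((2 * k).choose m : Fp p)) * y ^ (2 * k + m) := by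
    intro y
    rw [mul_comm k 2, sub_eq_neg_add, add_pow, Finset.mul_sum]
    refine Finset.sum_congr rfl fun m _ => ?_
    rw [neg_pow]
    ring
  simp only [h]
  rw [Finset.sum_comm, Finset.sum_eq_single k]
  · rw [← Finset.mul_sum, g3_sum_pow (by omega), card_Fp, if_pos ⟨1, by omega⟩]
    ring
  · intro m hm hmk
    have hm' := Finset.mem_range.1 hm
    rw [← Finset.mul_sum, g3_sum_pow (by omega), card_Fp, if_neg, mul_zero]
    rintro ⟨t, ht⟩
    rw [hk1, Nat.add_sub_cancel] at ht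
    rcases t with _ | _ | t
    · omega
    · omega
    · nlinarith
  · intro hh
    exact absurd (Finset.mem_range.2 (by omega)) hh

omit σ in
theorem g3_lucas {l : ℕ} (hl : l.Prime) (h : l % 3 = 1) (f : ℕ) :
    ∀ k, l ^ f = 3 * k + 1 → ¬ l ∣ (2 * k).choose k := by
  have : Fact l.Prime := ⟨hl⟩
  obtain ⟨a, ha⟩ : ∃ a, l = 3 * a + 1 := ⟨l / 3, by omega⟩
  induction f with
  | zero =>
    intro k hk
    obtain rfl : k = 0 := by rw [pow_zero] at hk; omega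
    simpa using hl.ne_one
  | succ f ih =>
    intro k hk
    obtain ⟨j, hj⟩ : ∃ j, l ^ f = 3 * j + 1 := by
      have : l ^ f % 3 = 1 := by rw [Nat.pow_mod, h]; simp
      exact ⟨l ^ f / 3, by omega⟩
    have hkj : k = a + l * j := by
      rw [pow_succ, hj] at hk
      nlinarith
    have h1 := Choose.choose_modEq_choose_mod_mul_choose_div_nat (n := 2 * k) (k := k) (p := l)
    have e1 : 2 * k = 2 * a + l * (2 * j) := by rw [hkj]; ring
    have a1 : 2 * k % l = 2 * a := by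
      rw [e1, Nat.add_mul_mod_self_left, Nat.mod_eq_of_lt (by omega)]
    have a2 : 2 * k / l = 2 * j := by
      rw [e1, Nat.add_mul_div_left _ _ hl.pos, Nat.div_eq_of_lt (by omega), zero_add]
    have a3 : k % l = a := by
      rw [hkj, Nat.add_mul_mod_self_left, Nat.mod_eq_of_lt (by omega)]
    have a4 : k / l = j := by
      rw [hkj, Nat.add_mul_div_left _ _ hl.pos, Nat.div_eq_of_lt (by omega), zero_add]
    rw [a1, a2, a3, a4] at h1
    intro hd
    rcases (Nat.Prime.dvd_mul hl).1 ((h1.dvd_iff dvd_rfl).1 hd) with h2 | h2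
    · exact (Nat.Prime.coprime_iff_not_dvd hl).1
        (hl.coprime_choose_of_lt (by omega) (by omega)) h2
    · exact ih j hj h2

omit σ in
theorem g3_fac {π t x : QRH.E} (hx : x ≠ 0) : (∀ ρ, Prime ρ → ρ ∣ x → π ∣ ρ ∨ ρ ∣ t) → Prime π →
    ∃ (a k : ℕ) (u v : QRH.E), x = π ^ a * u ∧ u * v = t ^ k := by
  intro h hπ
  induction x using UniqueFactorizationMonoid.induction_on_prime with
  | h₁ => exact absurd rfl hx
  | h₂ x hu =>
    obtain ⟨u, rfl⟩ := hu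
    exact ⟨0, 0, u, (u⁻¹ : QRH.Eˣ), by simp, by simp⟩
  | h₃ y ρ hy hρ ih =>
    obtain ⟨a, k, u, v, h1, h2⟩ := ih hy fun r hr hd => h r hr (hd.mul_left _)
    rcases h ρ hρ (dvd_mul_right _ _) with h3 | ⟨c, hc⟩
    · obtain ⟨e, he⟩ := hπ.associated_of_dvd hρ h3
      refine ⟨a + 1, k, e * u, (e⁻¹ : QRH.Eˣ) * v, by rw [h1, ← he]; ring, ?_⟩
      rw [mul_mul_mul_comm, Units.mul_inv, one_mul, h2]
    · refine ⟨a, k + 1, ρ * u, c * v, by rw [h1]; ring, ?_⟩
      rw [mul_mul_mul_comm, ← hc, h2]; ring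

theorem g3_J_primes (p : P) {ρ : QRH.E} (hρ : Prime ρ) (hd : ρ ∣ g3J p) : g3r p ρ = 0 := by
  obtain ⟨n, hl, hc⟩ := FiniteField.card (Fp p) (ringChar (Fp p))
  obtain ⟨k, hk, hk1, -⟩ := g3_nm p
  generalize hll : ringChar (Fp p) = l at hl hc
  have hz : ∀ m : ℕ, (m : Fp p) = 0 ↔ l ∣ m := fun m => hll ▸ ringChar.spec (Fp p) m
  rw [card_Fp] at hc
  have h1 : ρ ∣ (l : QRH.E) := by
    have := hd.mul_right (star (g3J p))
    rw [QRH.mul_star_eq, g3_nm_J, hc, Nat.cast_pow] at this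
    exact hρ.dvd_of_dvd_pow this
  have h3 : l % 3 ≠ 0 := by
    intro h
    have : 3 ∣ nm p.1 := hc ▸ (Nat.dvd_of_mod_eq_zero h).trans (dvd_pow_self l n.ne_zero)
    omega
  by_cases h4 : l % 3 = 2
  · obtain ⟨e, he⟩ := (hρ.associated_of_dvd (QRH.e1_inert hl h4) h1).symm
    rw [← he, map_mul, map_natCast, (hz l).2 dvd_rfl, zero_mul]
  · have h5 : l ∣ QRH.nm ρ := by
      have h6 := QRH.nm_dvd h1
      rw [QRH.nm_natCast] at h6
      obtain ⟨i, -, hi⟩ := (Nat.dvd_prime_pow hl).1 h6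
      rcases i with _ | i
      · exact absurd (QRH.isUnit_iff.2 (by simpa using hi)) hρ.not_isUnit
      · rw [hi]; exact dvd_pow_self l (by omega)
    have h7 : g3r p ρ * g3r p (star ρ) = 0 := by
      rw [← map_mul, QRH.mul_star_eq, map_natCast, hz]
      exact h5
    refine (mul_eq_zero.1 h7).resolve_right fun h8 => ?_
    obtain ⟨c, hc'⟩ := hd
    have h9 := g3_star_J p hk hk1
    rw [hc', star_mul', map_mul, h8, zero_mul, eq_comm, neg_eq_zero, mul_eq_zero, hz] at h9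
    rcases h9 with h9 | h9
    · exact pow_ne_zero _ (neg_ne_zero.2 one_ne_zero) h9
    · exact g3_lucas hl (by omega) n k (hc ▸ hk1) h9

theorem g3_int_nat (n : ℕ) : IsIntegral ℤ (n : FF) := by
  simpa using isIntegral_algebraMap (R := ℤ) (A := FF) (x := n)

theorem g3_nu_primes (p : P) {j : ℕ} (hj : IsIntegral ℤ (ss ^ j * p.1)) {ν ρ : QRH.E}
    (hν : QRH.toC ν = NK (ss ^ j * p.1)) (hρ : Prime ρ) (hd : ρ ∣ ν) :
    g3r p ρ = 0 ∨ ρ ∣ (σ.s : QRH.E) := by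
  by_cases h : p.1 ∣ ofE ρ
  · exact Or.inl (rd_eq_zero.2 h)
  right
  obtain ⟨a, b, hab⟩ := (isCoprime_prime p.prime).2 h
  obtain ⟨m, hm⟩ := exists_pow_integral a
  obtain ⟨n, hn⟩ := exists_pow_integral b
  have hs : IsIntegral ℤ ss := g3_int_nat _
  have hY : IsIntegral ℤ (ss ^ m * (ss ^ n * b)) := (hs.pow m).mul hn
  have hX : IsIntegral ℤ (-(ss ^ (n + j) * (ss ^ m * a))) := ((hs.pow _).mul hm).neg
  obtain ⟨μ, hμ⟩ := exists_NK hY
  have h1 : (a : FF) * ofE ρ + b * p.1 = 1 := by exact_mod_cast congrArg (fun x : E => (x : FF)) hab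
  have h2 := nk_congr (σ.s ^ (m + n + j)) hρ.ne_zero hX (ν := μ * ν) (by
    rw [map_mul, hμ, hν, ← NK_mul]
    congr 1
    push_cast
    rw [← ss]
    linear_combination ss ^ (m + n + j) * h1)
  have h3 := dvd_sub (hd.mul_left μ) h2
  rw [sub_sub_cancel, Nat.cast_pow, ← pow_mul] at h3
  exact hρ.dvd_of_dvd_pow h3

theorem g3_nu_nm (p : P) {j : ℕ} (hj : IsIntegral ℤ (ss ^ j * p.1)) {ν : QRH.E}
    (hν : QRH.toC ν = NK (ss ^ j * p.1)) :
    ∃ m : ℕ, m.Coprime (nm p.1) ∧ QRH.nm ν = nm p.1 * m := by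
  have hx : ((((σ.s : E) ^ j * p.1 : E)) : FF) = ss ^ j * p.1 := by
    rw [Subring.coe_mul, Subring.coe_pow, coe_s]
  have h0 : (σ.s : E) ^ j * p.1 ≠ 0 := mul_ne_zero (isUnit_s.pow j).ne_zero p.ne_zero
  have h0' : ss ^ j * (p.1 : FF) ≠ 0 := by rw [← hx]; exact_mod_cast h0
  have h1 := nm_eq h0
  rw [nm_mul, isUnit_iff.1 (isUnit_s.pow j), one_mul, hx, ← norm_NK, ← hν, ← QRH.nm_eq] at h1
  refine ⟨∏ v : SP, qv v.1 ^ (ord v.1 (ss ^ j * p.1)).toNat, ?_, ?_⟩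
  · refine Nat.Coprime.prod_left fun v _ => Nat.Coprime.pow_left _ (coprime_qv fun h => ?_)
    obtain ⟨a, b, hab⟩ : IsCoprime ((nm p.1 : ℕ) : 𝓞 FF) (σ.s : 𝓞 FF) :=
      Nat.Coprime.cast p.nm_coprime
    exact v.1.isPrime.ne_top ((Ideal.eq_top_iff_one _).2
      (hab ▸ add_mem (Ideal.mul_mem_left _ _ h) (Ideal.mul_mem_left _ _ v.2)))
  · have h2 : sS (ss ^ j * p.1) * ∏ v : SP, (qv v.1 : ℝ) ^ (ord v.1 (ss ^ j * p.1)).toNat = 1 := by
      rw [sS, ← Finset.prod_mul_distrib]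
      refine Finset.prod_eq_one fun v _ => ?_
      have h3 : (qv v.1 : ℝ) ≠ 0 := by
        have := two_le_qv v.1
        exact_mod_cast (by omega : qv v.1 ≠ 0)
      rw [← zpow_natCast (qv v.1 : ℝ), Int.toNat_of_nonneg ((isIntegral_iff_OG.1 hj v.1).le h0'),
        ← zpow_add₀ h3, neg_add_cancel, zpow_zero]
    have h4 : (QRH.nm ν : ℝ) = nm p.1 * ∏ v : SP, (qv v.1 : ℝ) ^ (ord v.1 (ss ^ j * p.1)).toNat := by
      rw [h1, mul_assoc, h2, mul_one]
    exact_mod_cast h4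

theorem g3N : G3N := by
  intro p
  refine ⟨-g3J p, g3_prim p, by rw [g3_gs, map_neg]; ring, by rw [QRH.nm_neg, g3_nm_J], ?_⟩
  obtain ⟨j, hj⟩ := exists_pow_integral p.1
  obtain ⟨ν, hν⟩ := exists_NK hj
  obtain ⟨m, hm, hνm⟩ := g3_nu_nm p hj hν
  have hq : nm p.1 ≠ 0 := nm_eq_zero.not.2 p.ne_zero
  have hq4 := p.four_le_nm
  have hm0 : m ≠ 0 := by
    rintro rfl
    rw [Nat.coprime_zero_left] at hm
    omega
  have hν0 : ν ≠ 0 := fun h => mul_ne_zero hq hm0 (by rw [← hνm, h, QRH.nm_zero])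
  have hJ0 : -g3J p ≠ 0 := QRH.primary_ne_zero (g3_prim p)
  obtain ⟨π, hπ⟩ := (IsPrincipalIdealRing.principal (RingHom.ker (g3r p))).principal
  have hk : ∀ x, g3r p x = 0 ↔ π ∣ x := fun x => by
    rw [← RingHom.mem_ker, hπ]; exact Ideal.mem_span_singleton
  have hπq : π ∣ (nm p.1 : QRH.E) := by
    rw [← hk, map_natCast, ← card_Fp]; exact FiniteField.cast_card_eq_zero _
  have hπ0 : π ≠ 0 := by
    rintro rfl
    exact hq (by exact_mod_cast zero_dvd_iff.1 hπq)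
  have hπp : Prime π := (Ideal.span_singleton_prime hπ0).1 (by
    have := RingHom.ker_isPrime (g3r p)
    rwa [hπ] at this)
  obtain ⟨a, k, u, v, h1, h2⟩ := g3_fac (π := π) (t := σ.s) hν0
    (fun ρ hρ hd => (g3_nu_primes p hj hν hρ hd).imp_left (hk ρ).1) hπp
  obtain ⟨b, k', u', v', h3, h4⟩ := g3_fac (π := π) (t := 1) hJ0
    (fun ρ hρ hd => Or.inl ((hk ρ).1 (g3_J_primes p hρ (dvd_neg.1 hd)))) hπp
  rw [one_pow] at h4
  have h5 : nm p.1 = QRH.nm π ^ b := by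
    rw [← g3_nm_J, ← QRH.nm_neg, h3, QRH.nm_mul, QRH.nm_pow,
      QRH.isUnit_iff.1 (IsUnit.of_mul_eq_one _ h4), mul_one]
  have hn2 : QRH.nm π ∣ nm p.1 ^ 2 := QRH.nm_natCast (nm p.1) ▸ QRH.nm_dvd hπq
  have hn1 : 1 < QRH.nm π := by
    have := QRH.one_le_nm hπ0
    have h6 : QRH.nm π ≠ 1 := fun h => hπp.not_isUnit (QRH.isUnit_iff.2 h)
    omega
  have hcu : (QRH.nm π).Coprime (QRH.nm u) := by
    have h6 : QRH.nm u ∣ (σ.s ^ 2) ^ k := by
      rw [← QRH.nm_natCast, ← QRH.nm_pow, ← h2]; exact QRH.nm_dvd (dvd_mul_right _ _)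
    exact (((p.nm_coprime.pow 2 2).pow_right k).coprime_dvd_left hn2).coprime_dvd_right h6
  have hcm : (QRH.nm π).Coprime m := (hm.symm.pow_left 2).coprime_dvd_left hn2
  rw [h1, QRH.nm_mul, QRH.nm_pow, h5] at hνm
  have hab : a = b := le_antisymm
    ((Nat.pow_dvd_pow_iff_le_right hn1).1 ((hcm.pow_left a).dvd_of_dvd_mul_right ⟨_, hνm.symm⟩))
    ((Nat.pow_dvd_pow_iff_le_right hn1).1 ((hcu.pow_left b).dvd_of_dvd_mul_right ⟨_, hνm⟩))
  refine ⟨v' * u, u' * v, k, rk * j, by linear_combination (u * v) * h4 + h2, ?_⟩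
  have h7 : -g3J p * (v' * u) = ν := by
    rw [h3, h1, hab]; linear_combination (π ^ b * u) * h4
  have h8 : ss ^ j = ((σ.s ^ j : ℕ) : FF) := by rw [ss]; push_cast; rfl
  rw [← map_mul, h7, hν, NK_mul, h8, NK_natCast]
  push_cast
  ring

end NQ
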