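import Vale.Agent.NQ.Gauss
noncomputable section
namespace NQ
open Complex MeasureTheory NumberField Filter
open scoped ComplexConjugate Classical ContDiff Topology
variable [σ : St]
theorem hd_sq (p : P) (η : MulChar (Fp p) ℂ) (hη : ∀ x, η (rd p x) = c2 p x)
    (F : Fp p → ℂ) : ∑ y, F (y ^ 2) = ∑ t, (1 + η t) * F t := by
  have h1 := rsum_sq p (f := fun x => F (rd p x)) fun x y hxy => by
    simp only [rd_eq_iff.2 hxy]
  rw [← rsum_rd p fun y => F (y ^ 2), ← rsum_rd p fun t => (1 + η t) * F t]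
  simpa only [map_pow, hη] using h1
theorem hd_jacobi (p : P) (χ η : MulChar (Fp p) ℂ) (hχ : χ ≠ 1)
    (hη : ∀ x, η (rd p x) = c2 p x) : χ 4 * jacobiSum χ χ = jacobiSum χ η := by
  have h2 : (2 : Fp p) ≠ 0 := Ring.two_ne_zero (ringChar_ne_two p)
  have h1 : χ 4 * jacobiSum χ χ = ∑ y, χ (1 - y ^ 2) := by
    rw [jacobiSum, Finset.mul_sum,
      ← ((Equiv.mulLeft₀ (2 : Fp p) h2).trans (Equiv.subLeft 1)).sum_comp fun y => χ (1 - y ^ 2)]
    refine Finset.sum_congr rfl fun x _ => ?_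
    rw [← map_mul, ← map_mul]
    congr 1
    simp only [Equiv.trans_apply, Equiv.mulLeft₀_apply, Equiv.subLeft_apply]
    ring
  have h3 : ∑ t, χ (1 - t) = 0 := by
    rw [← MulChar.sum_eq_zero_of_ne_one hχ, ← (Equiv.subLeft (1 : Fp p)).sum_comp fun t => χ t]
    rfl
  rw [h1, hd_sq p η hη fun t => χ (1 - t), jacobiSum_comm, jacobiSum]
  simp only [add_mul, one_mul, Finset.sum_add_distrib, h3, zero_add]
theorem hd_gauss {p : P} {f : E → ℂ} (χ : MulChar (Fp p) ℂ) (hχ : ∀ x, χ (rd p x) = f x)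
    (e : AddChar (Fp p) ℂ) (he : ∀ x, e (rd p x) = psf (x * 1) p.1) :
    gaussSum χ e = rsum p.1 fun y => f y * psf y p.1 := by
  rw [gaussSum, ← rsum_rd p fun y => χ y * e y]
  simp only [hχ, he, mul_one]
theorem hasse_davenport (p : P) :
    gs c6 {p} * conj (gs c3 {p}) = conj (c6 p 4) * gs c3 {p} * gs c2 {p} := by
  obtain ⟨χ, hχ, hχ1⟩ := (c6_mc p).exists_mulChar
  obtain ⟨η, hη, -⟩ := (c2_mc p).exists_mulChar
  obtain ⟨e, he0, he⟩ := exists_addChar p (t := 1) p.2.1.not_dvd_one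
  have hχn : χ ≠ 1 := hχ1.2 (c6_nt p)
  have hχχ : ∀ x, (χ * χ) (rd p x) = c3 p x := fun x => by
    rw [MulChar.mul_apply, hχ, ← sq, c6_sq]
  have hχη : ∀ x, (χ * η) (rd p x) = conj (c3 p x) := fun x => by
    rw [MulChar.mul_apply, hχ, hη, conj_c3, c6, mul_assoc, ← sq]
    by_cases hx : p.1 ∣ x
    · rw [(c3_mc p).zero x hx]; simp
    · rw [c2_sq hx, mul_one]
  have hne : ∀ (φ : MulChar (Fp p) ℂ) (f : E → ℂ), (∀ x, φ (rd p x) = f x) → Nt p f → φ ≠ 1 := by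
    rintro φ f hφ ⟨x, hx, hx1⟩ rfl
    apply hx1
    rw [← hφ, MulChar.one_apply (isUnit_iff_ne_zero.2 fun h0 => hx (rd_eq_zero.1 h0))]
  have j1 := jacobiSum_mul_nontrivial (hne _ _ hχχ (c3_nt p)) e
  have j2 := jacobiSum_mul_nontrivial (hne _ _ hχη (c3_nt p).conj) e
  have j3 := hd_jacobi p χ η hχn hη
  have g6 : gaussSum χ e = gs c6 {p} := by rw [hd_gauss χ hχ e he, gs_singleton]
  have g2 : gaussSum η e = gs c2 {p} := by rw [hd_gauss η hη e he, gs_singleton]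
  have g3 : gaussSum (χ * χ) e = gs c3 {p} := by rw [hd_gauss _ hχχ e he, gs_singleton]
  have g3' : gaussSum (χ * η) e = conj (gs c3 {p}) := by
    rw [hd_gauss _ hχη e he, (c3_mc p).gauss_conj, c3_neg_one, one_mul, gs_singleton]
  have h6 : gs c6 {p} ≠ 0 := by
    rw [← g6]
    exact gaussSum_ne_zero_of_nontrivial (Nat.cast_ne_zero.2 Fintype.card_ne_zero) hχn he0
  have h4 : ¬ p.1 ∣ 4 := fun h4 => p.not_dvd_two (p.2.1.dvd_of_dvd_pow (n := 2) (by norm_num; exact h4))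
  have h5 := (c6_mc p).mul_conj h4
  have h7 : χ 4 = c6 p 4 := by rw [← hχ, map_ofNat (rd p)]
  rw [g3, g6] at j1
  rw [g3', g6, g2] at j2
  rw [h7] at j3
  apply mul_left_cancel₀ h6
  linear_combination (-conj (gs c3 {p})) * j1 + conj (c6 p 4) * gs c3 {p} * j2 +
    conj (c6 p 4) * gs c3 {p} * conj (gs c3 {p}) * j3 -
    gs c3 {p} * conj (gs c3 {p}) * jacobiSum χ χ * h5

end NQ
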