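import Vale.Agent.NQ.Phi1
import Vale.Agent.NQ.HD
import Vale.Agent.NQ.NK
import Vale.Agent.NQ.Plc

noncomputable section
namespace NQ
open Complex MeasureTheory NumberField Filter
open scoped ComplexConjugate Classical ContDiff Topology

variable [σ : St]

theorem g6_ne {a : FF} {c : E} (h : Cl a c) : c ≠ 0 := fun h0 => h.ne_zero (by rw [h0]; rfl)

theorem xR3 (h : HCongr) : XR c3 := by
  intro a n ha hn
  obtain ⟨c0, hc0, -⟩ := exists_Cl ha (q := 1) one_ne_zero 0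
  refine ⟨H c0 n, norm_H (g6_ne hc0) hn, fun c hc => ?_⟩
  have hc' := g6_ne hc
  by_cases hp : ∀ p : P, ¬ (p.1 ∣ c ∧ p.1 ∣ n)
  · rw [← (h c0 c n (hc0.symm.trans hc) hn).1, H_coprime hc' hn hp, mul_assoc, conj_mul',
      norm_xv ch_c3 hn fun p hq => hp p hq.symm]
    simp
  · push Not at hp
    obtain ⟨p, h1, h2⟩ := hp
    rw [(xv_eq_zero_iff ch_c3 hc').2 ⟨p, h1, h2⟩, (xv_eq_zero_iff ch_c3 hn).2 ⟨p, h2, h1⟩, mul_zero]

theorem xR6 (h : HCongr) (h2 : XR c2) : XR c6 := by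
  intro a n ha hn
  obtain ⟨k3, h31, h32⟩ := xR3 h a n ha hn
  obtain ⟨k2, h21, h22⟩ := h2 a n ha hn
  refine ⟨k3 ^ 2 * k2, by rw [norm_mul, norm_pow, h31, h21]; norm_num, fun c hc => ?_⟩
  rw [xv_c6, xv_c6, h32 c hc, h22 c hc]
  ring

theorem uni_c3 (h : HCongr) : Uni c3 := by
  intro s u hu hcl
  have h1 := (h 1 u (pr s) (by simpa using hcl) (pr_ne_zero s)).2
  rw [H_one_right (pr_ne_zero s), H_coprime (pr_ne_zero s) hu.ne_zero
    (fun p hp => p.not_dvd_unit hu hp.2), xv_unit hu, xv_pr, map_one, mul_one] at h1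
  exact h1

theorem uni_c6 (h : HCongr) (h2 : Uni c2) : Uni c6 := by
  intro s u hu hcl
  rw [xs_c6, uni_c3 h s u hu hcl, h2 s u hu hcl]
  norm_num

theorem g6_xs_c6_neg_one (s : Finset P) : xs c6 s (-1) = xs c2 s (-1) := by
  have : xs c3 s (-1) = 1 := Finset.prod_eq_one fun p _ => c3_neg_one p
  rw [xs_c6, this, one_pow, one_mul]

theorem rec_c6 (h : HCongr) (h2 : Rec c2) : Rec c6 := by
  intro c c' x x' hd hx hx' hcl
  have h1 := h2 c c' x x' hd hx hx' hcl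
  have hx0 : x ≠ 0 := hx.ne_zero_iff.2 (pr_ne_zero c)
  have hx0' : x' ≠ 0 := hx'.ne_zero_iff.2 (pr_ne_zero c')
  have hA := (h x x' x hcl hx0).2
  rw [H_self hx0, H_coprime hx0 hx0' (fun p hp => Finset.disjoint_left.1 hd
    (dvd_pr_iff.1 (hp.1.trans hx.dvd)) (dvd_pr_iff.1 (hp.2.trans hx'.dvd))),
    xv_assoc hx, xv_assoc hx', xv_pr, xv_pr] at hA
  rw [g6_xs_c6_neg_one, xs_c6, xs_c6, map_mul, map_pow]
  calc _ = (xs c3 c x' * conj (xs c3 c' x)) ^ 2 *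
        (xs c2 c x' * conj (xs c2 c' x) * xs c2 c' (-1)) := by ring
    _ = 1 := by rw [hA, h1]; ring

theorem g6_single {p : P} {π : ℂ} (h3 : gs c3 {p} ^ 3 = -((nm p.1 : ℂ) * π)) :
    -gs c6 {p} * (nm p.1 : ℂ) = conj (c6 p 4) * gs c2 {p} * conj (gs c3 {p}) * π := by
  have h1 := hasse_davenport p
  have h0 : ‖gs c3 {p}‖ ^ 2 = nm p.1 := by
    rw [← norm_G3, G3_eq, RCLike.norm_conj]
  have h4 : gs c3 {p} * conj (gs c3 {p}) = (nm p.1 : ℂ) := by
    rw [mul_conj, normSq_eq_norm_sq, h0]; simp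
  have h6 : gs c3 {p} ≠ 0 := by
    intro h
    rw [h, norm_zero] at h0
    have := one_le_nmR p.ne_zero
    linarith
  have h7 : gs c3 {p} ^ 2 = -(π * conj (gs c3 {p})) := by
    apply mul_left_cancel₀ h6
    linear_combination h3 + π * h4
  rw [← h4]
  linear_combination (-gs c3 {p}) * h1 - conj (c6 p 4) * gs c2 {p} * h7

theorem g6_id {π : P → ℂ} (h3 : ∀ p, gs c3 {p} ^ 3 = -((nm p.1 : ℂ) * π p)) {s : Finset P} {c : E}
    (hc : Associated c (pr s)) :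
    mu s * gsE c6 s c * (Ns s : ℝ)
      = conj (xs c6 s 4) * gsE c2 s c * conj (gsE c3 s c) * ∏ p ∈ s, π p := by
  rw [gsE_eq_prod ch_c6 hc, gsE_eq_prod ch_c2 hc, gsE_eq_prod ch_c3 hc, Ns_eq_prod, mu,
    ← Finset.prod_const, xs, map_prod, map_prod]
  push_cast
  simp only [← Finset.prod_mul_distrib]
  refine Finset.prod_congr rfl fun p _ => ?_
  rw [map_mul, conj_c3, show c6 p (up p.1 c) = c3 p (up p.1 c) ^ 2 * c2 p (up p.1 c) from rfl]
  linear_combination (c3 p (up p.1 c) ^ 2 * c2 p (up p.1 c)) * g6_single (h3 p)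

/-- `x` and the relative norm of `c` agree up to divisors of powers of `s`. -/
def G6R (x : QRH.E) (c : FF) : Prop := ∃ (u v : QRH.E) (k j : ℕ), u * v = (σ.s : QRH.E) ^ k ∧
    QRH.toC x * QRH.toC u = (σ.s : ℂ) ^ j * NK c

theorem G6R.mul {x y : QRH.E} {c d : FF} (h1 : G6R x c) (h2 : G6R y d) : G6R (x * y) (c * d) := by
  obtain ⟨u, v, k, j, h, h'⟩ := h1
  obtain ⟨u1, v1, k1, j1, g, g'⟩ := h2
  refine ⟨u * u1, v * v1, k + k1, j + j1, by rw [mul_mul_mul_comm, h, g, pow_add], ?_⟩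
  rw [map_mul, map_mul, mul_mul_mul_comm, h', g', NK_mul, pow_add]
  ring

theorem g6_NK_pow (k : ℕ) : NK (ss ^ k) = (σ.s : ℂ) ^ (rk * k) := by
  have : ss ^ k = ((σ.s ^ k : ℕ) : FF) := by rw [ss]; push_cast; rfl
  rw [this, NK_natCast]
  push_cast
  ring

theorem g6R_unit (e : Eˣ) : G6R 1 ((e : E) : FF) := by
  obtain ⟨j, hj⟩ := exists_pow_integral (e : E)
  obtain ⟨l, hl⟩ := exists_pow_integral ((e⁻¹ : Eˣ) : E)
  obtain ⟨u, hu⟩ := exists_NK hj
  obtain ⟨v, hv⟩ := exists_NK hl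
  refine ⟨u, v, rk * (j + l), rk * j, QRH.toC_inj ?_, ?_⟩
  · have he : ((e : E) : FF) * (((e⁻¹ : Eˣ) : E) : FF) = 1 := by
      rw [← Subring.coe_mul, Units.mul_inv]; rfl
    rw [map_mul, hu, hv, ← NK_mul, mul_mul_mul_comm, he, mul_one, ← pow_add, g6_NK_pow]
    simp
  · rw [map_one, one_mul, hu, NK_mul, g6_NK_pow]

theorem g6R_pr {π : P → QRH.E} (h : ∀ p, G6R (π p) (p.1 : FF)) (s : Finset P) :
    G6R (∏ p ∈ s, π p) (pr s : FF) := by
  induction s using Finset.induction_on with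
  | empty => simpa [pr_empty] using g6R_unit 1
  | insert p s hp ih =>
    rw [Finset.prod_insert hp, pr_insert hp, Subring.coe_mul]
    exact (h p).mul ih

theorem g6R_gen {π : P → QRH.E} (h : ∀ p, G6R (π p) (p.1 : FF)) {s : Finset P} {c : E}
    (hc : Associated c (pr s)) : G6R (∏ p ∈ s, π p) (c : FF) := by
  obtain ⟨e, he⟩ := hc.symm
  have := (g6R_pr h s).mul (g6R_unit e)
  rwa [mul_one, ← Subring.coe_mul, he] at this

theorem g6_cmp {x y : QRH.E} {c d : FF} (hx : G6R x c) (hy : G6R y d)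
    (hx3 : (3 : QRH.E) ∣ x - 1) (hy3 : (3 : QRH.E) ∣ y - 1) (hxs : IsCoprime x σ.s)
    (hys : IsCoprime y σ.s) (hcl : Cl c d) : QRH.toC y * NK c = QRH.toC x * NK d := by
  obtain ⟨u, v, k, j, h, h'⟩ := hx
  obtain ⟨u1, v1, k1, j1, g, g'⟩ := hy
  obtain ⟨n, ν, hn, hν⟩ := NK_cl ((Cl_iff_one hcl.ne_left).1 hcl)
  have hd : NK d = NK (d / c) * NK c := by rw [← NK_mul, div_mul_cancel₀ _ hcl.ne_left]
  have h3s : 3 ∣ σ.s := Dvd.dvd.trans (by norm_num) σ.twelve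
  have hn3 : n.Coprime 3 := hn.coprime_dvd_right h3s
  have hn0 : n ≠ 0 := by rintro rfl; simp at hn3
  have hns : IsCoprime (n : QRH.E) σ.s := Nat.Coprime.cast hn
  have hA : IsCoprime (y * n) (σ.s : QRH.E) := hys.mul_left hns
  have hB : IsCoprime (x * (n + (σ.s : QRH.E) ^ 2 * ν)) (σ.s : QRH.E) := by
    refine hxs.mul_left ?_
    rw [sq, mul_assoc]
    exact hns.add_mul_left_left _
  have key : y * n * (u1 * (σ.s : QRH.E) ^ j)
      = x * (n + (σ.s : QRH.E) ^ 2 * ν) * (u * (σ.s : QRH.E) ^ j1) := by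
    apply QRH.toC_inj
    simp only [map_mul, ← hν, map_pow, map_natCast]
    linear_combination (n : ℂ) * (σ.s : ℂ) ^ j * g' - (n : ℂ) * NK (d / c) * (σ.s : ℂ) ^ j1 * h'
      + (n : ℂ) * (σ.s : ℂ) ^ j * (σ.s : ℂ) ^ j1 * hd
  have cp : ∀ {A w w' : QRH.E} {k : ℕ} (j : ℕ), IsCoprime A σ.s → w * w' = (σ.s : QRH.E) ^ k →
      IsCoprime A (w * (σ.s : QRH.E) ^ j) := fun j hA hw =>
    ((hA.pow_right).of_isCoprime_of_dvd_right ⟨_, hw.symm⟩).mul_right hA.pow_right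
  have has : Associated (y * n) (x * (n + (σ.s : QRH.E) ^ 2 * ν)) :=
    associated_of_dvd_dvd ((cp j1 hA h).dvd_of_dvd_mul_right ⟨_, key.symm⟩)
      ((cp j hB g).dvd_of_dvd_mul_right ⟨_, key⟩)
  have hnn : (3 : QRH.E) ∣ (n : QRH.E) * n - 1 := by
    have h1 : (3 : ℤ) ∣ (n : ℤ) * n - 1 := by
      have h2 : ¬ 3 ∣ n := (Nat.Prime.coprime_iff_not_dvd Nat.prime_three).1 hn3.symm
      have h4 : n % 3 = 1 ∨ n % 3 = 2 := by omega
      obtain ⟨m, hm⟩ : ∃ m, n = 3 * m + n % 3 := ⟨n / 3, by omega⟩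
      rcases h4 with h4 | h4 <;> rw [h4] at hm <;> rw [hm]
      · exact ⟨3 * m * m + 2 * m, by push_cast; ring⟩
      · exact ⟨3 * m * m + 4 * m + 1, by push_cast; ring⟩
    obtain ⟨m, hm⟩ := h1
    exact ⟨m, by exact_mod_cast congrArg (Int.cast : ℤ → QRH.E) hm⟩
  have h3E : (3 : QRH.E) ∣ (σ.s : QRH.E) := by exact_mod_cast Nat.cast_dvd_cast (α := QRH.E) h3s
  have e1 : (n : QRH.E) * (y * n) = n * (x * (n + (σ.s : QRH.E) ^ 2 * ν)) := by
    refine QRH.primary_unique ?_ ?_ (has.mul_left _)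
    · rw [show (n : QRH.E) * (y * n) = y * (n * n) by ring]
      exact QRH.primary_mul hy3 hnn
    · rw [show (n : QRH.E) * (x * (n + (σ.s : QRH.E) ^ 2 * ν))
        = x * (n * (n + (σ.s : QRH.E) ^ 2 * ν)) by ring]
      refine QRH.primary_mul hx3 ?_
      rw [show (n : QRH.E) * (n + (σ.s : QRH.E) ^ 2 * ν) - 1
        = (n * n - 1) + (σ.s : QRH.E) * (n * σ.s * ν) by ring]
      exact dvd_add hnn (h3E.mul_right _)
  have e2 := congrArg QRH.toC e1
  simp only [map_mul, ← hν, map_natCast] at e2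
  have hnC : (n : ℂ) * n ≠ 0 := by exact_mod_cast mul_ne_zero hn0 hn0
  apply mul_left_cancel₀ hnC
  rw [hd]
  linear_combination NK c * e2

theorem muGam (h : HCongr) (h2 : G3N) (h3 : QGam) : MuGam := by
  intro a ha
  choose π hπ3 hπc hπn hπR using h2
  obtain ⟨k3, hk3, hk⟩ := xR3 h a 2 ha isUnit_two.ne_zero
  have h4 : ∀ (s : Finset P) (c : E), Associated c (pr s) → Cl a c → xs c6 s 4 = k3 := by
    intro s c hc hcl
    have h1 : xs c6 s 4 = xs c3 s 2 := by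
      refine Finset.prod_congr rfl fun p _ => ?_
      rw [show (4 : E) = 2 ^ 2 by norm_num, (c6_mc p).map_pow, c6_sq]
    rw [h1, ← xv_pr, ← xv_assoc hc, hk c hcl, xv_unit isUnit_two, mul_one]
  have hP3 : ∀ s : Finset P, (3 : QRH.E) ∣ (∏ p ∈ s, π p) - 1 := fun s =>
    Finset.prod_induction _ (fun x : QRH.E => (3 : QRH.E) ∣ x - 1) (fun _ _ => QRH.primary_mul)
      (by simp) fun p _ => hπ3 p
  have hPs : ∀ s : Finset P, IsCoprime (∏ p ∈ s, π p) (σ.s : QRH.E) := fun s =>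
    IsCoprime.prod_left fun p _ => by
      have h1 : IsCoprime ((QRH.nm (π p) : ℕ) : QRH.E) σ.s :=
        Nat.Coprime.cast (by rw [hπn]; exact p.nm_coprime)
      rw [← QRH.mul_star_eq] at h1
      exact h1.of_mul_left_left
  have hPn : ∀ s : Finset P, ‖QRH.toC (∏ p ∈ s, π p)‖ = √(Ns s) := fun s => by
    rw [QRH.norm_toC, QRH.nm_prod, Ns_eq_prod]
    simp only [hπn, Nat.cast_prod]
  have hsq : ∀ (s : Finset P) (c : E), Associated c (pr s) → Cl a c →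
      ang c * ((√(Ns s) : ℝ) : ℂ) = NK c * (√(sS a) : ℝ) := by
    intro s c hc hcl
    rw [← nm_of_assoc_pr hc, nm_eq (g6_ne hcl), hcl.sS_eq, Real.sqrt_mul (Ninf_nonneg _), NK_eq]
    push_cast
    ring
  let f : Finset P → E → ℂ := fun s c =>
    conj k3 * gamE c2 s c * (QRH.toC (∏ p ∈ s, π p) / (ang c * ((√(Ns s) : ℝ) : ℂ)))
  have hNs : ∀ s : Finset P, ((√(Ns s) : ℝ) : ℂ) ≠ 0 := fun s =>
    ofReal_ne_zero.2 (Real.sqrt_pos.2 (Ns_pos s)).ne'
  have hang : ∀ c : E, Cl a c → ang (c : FF) ≠ 0 := fun c hcl => by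
    rw [← norm_ne_zero_iff, norm_ang hcl.ne_zero]; exact one_ne_zero
  have hf : ∀ (s t : Finset P) (c d : E), Associated c (pr s) → Cl a c → Associated d (pr t) →
      Cl a d → f s c = f t d := by
    intro s t c d hc hcl hd hdl
    have hcd := hcl.symm.trans hdl
    simp only [f]
    rw [h3 s t c d hc hd hcd]
    congr 1
    rw [div_eq_div_iff (mul_ne_zero (hang c hcl) (hNs s)) (mul_ne_zero (hang d hdl) (hNs t)),
      hsq s c hc hcl, hsq t d hd hdl]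
    linear_combination (-((√(sS a) : ℝ) : ℂ)) * g6_cmp (g6R_gen hπR hc) (g6R_gen hπR hd) (hP3 s)
      (hP3 t) (hPs s) (hPs t) hcd
  by_cases hex : ∃ (s : Finset P) (c : E), Associated c (pr s) ∧ Cl a c
  · obtain ⟨s0, c0, hc0, hcl0⟩ := hex
    refine ⟨f s0 c0, ?_, fun s c hc hcl => ?_⟩
    · simp only [f]
      rw [norm_mul, norm_mul, RCLike.norm_conj, hk3, norm_gamE ch_c2 hc0, norm_div, hPn, norm_mul,
        norm_ang hcl0.ne_zero, norm_real, Real.norm_of_nonneg (Real.sqrt_nonneg _), one_mul,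
        one_mul, one_mul, div_self (Real.sqrt_pos.2 (Ns_pos s0)).ne']
    · rw [hf s0 s c0 c hc0 hcl0 hc hcl, Tg_sqf hc]
      have h1 := g6_id hπc hc
      rw [h4 s c hc hcl, ← map_prod] at h1
      have h5 : ((Ns s : ℝ) : ℂ) = ((√(Ns s) : ℝ) : ℂ) * (√(Ns s) : ℝ) := by
        rw [← ofReal_mul, Real.mul_self_sqrt (Ns_pos s).le]
      rw [h5] at h1
      have h6 := hNs s
      have h7 := hang c hcl
      simp only [f, gamE]
      field_simp
      linear_combination h1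
  · exact ⟨1, norm_one, fun s c hc hcl => absurd ⟨s, c, hc, hcl⟩ hex⟩

end NQ
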