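import Vale.Agent.NQ.Sym
import Vale.Agent.NQ.Psq
noncomputable section
namespace NQ
open Complex MeasureTheory NumberField Filter
open scoped ComplexConjugate Classical ContDiff Topology
variable [σ : St]
variable {χ : P → E → ℂ}
theorem ga_half {a b b' : E} (ha : a ≠ 0) (hab : IsCoprime b a) (hb' : a ∣ b * b' - 1)
    {f : E → ℂ} (hf : Per a f) (fm : ∀ x y, f (x * y) = f x * f y) (m : E) :
    rsum a (fun y => f y * psf (y * (m * b')) a) =
      f b * rsum a fun y => f y * psf (y * m) a := by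
  rw [← rsum_mul_unit ha (hf.mul (per_psf (m * b') a)) hab, ← rsum_mul_left]
  congr 1
  funext y
  have h1 : a ∣ b * y * (m * b') - y * m := by
    have h2 : b * y * (m * b') - y * m = y * m * (b * b' - 1) := by ring
    rw [h2]
    exact hb'.mul_left _
  rw [fm, psf_congr h1, mul_assoc]
/-- Splitting of a twisted sum along a coprime factorisation of the modulus. -/
theorem ga_split {a b : E} (ha : a ≠ 0) (hb : b ≠ 0) (hab : IsCoprime a b) {f g : E → ℂ}
    (hf : Per a f) (hg : Per b g) (fm : ∀ x y, f (x * y) = f x * f y)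
    (gm : ∀ x y, g (x * y) = g x * g y) (m : E) :
    rsum (a * b) (fun y => f y * g y * psf (y * m) (a * b)) =
      f b * g a * (rsum a fun y => f y * psf (y * m) a) *
        rsum b fun y => g y * psf (y * m) b := by
  have h1 := inv_spec hab
  have h2 := inv_spec hab.symm
  have h3 : (fun y => f y * g y * psf (y * m) (a * b)) = fun y =>
      (f y * psf (y * (m * inv a b)) a) * (g y * psf (y * (m * inv b a)) b) := by
    funext y
    rw [psf_crt ha hb hab h1 h2, mul_assoc y, mul_assoc y]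
    ring
  rw [h3, rsum_crt ha hb hab (hf.mul (per_psf _ a)) (hg.mul (per_psf _ b)),
    ga_half ha hab.symm h2 hf fm, ga_half hb hab h1 hg gm]
  ring
theorem ga_xs_singleton (p : P) (n : E) : xs χ {p} n = χ p n := Finset.prod_singleton _ _
theorem ga_xs_insert {p : P} {s : Finset P} (hp : p ∉ s) (n : E) :
    xs χ (insert p s) n = χ p n * xs χ s n := Finset.prod_insert hp
theorem ga_gs_eq (s : Finset P) :
    gs χ s = rsum (pr s) fun y => xs χ s y * psf (y * 1) (pr s) := by
  simp only [mul_one, gs, gsE]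
theorem ga_empty (m : E) :
    rsum (pr ∅) (fun y => xs χ ∅ y * psf (y * m) (pr ∅)) = 1 := by
  have h : (fun y => xs χ ∅ y * psf (y * m) (pr ∅)) = fun _ => 1 := by
    funext y
    rw [xs_empty, pr_empty, psf_of_dvd (one_dvd _), mul_one]
  rw [h, rsum_const (pr_ne_zero _), pr_empty, nm_one, Nat.cast_one, mul_one]
theorem ga_union (h : Ch χ) {s t : Finset P} (hst : Disjoint s t) (m : E) :
    rsum (pr (s ∪ t)) (fun y => xs χ (s ∪ t) y * psf (y * m) (pr (s ∪ t))) =
      xs χ s (pr t) * xs χ t (pr s) * (rsum (pr s) fun y => xs χ s y * psf (y * m) (pr s)) *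
        rsum (pr t) fun y => xs χ t y * psf (y * m) (pr t) := by
  simp only [pr_union hst, xs_union hst]
  exact ga_split (pr_ne_zero s) (pr_ne_zero t) (coprime_pr.2 hst) (xs_per h s) (xs_per h t)
    (xs_mul h s) (xs_mul h t) m
theorem gs_empty : gs χ ∅ = 1 := by rw [ga_gs_eq, ga_empty]
theorem gs_singleton (p : P) : gs χ {p} = rsum p.1 fun y => χ p y * psf y p.1 := by
  simp only [gs, gsE, pr_singleton, ga_xs_singleton]
theorem gs_union (h : Ch χ) {s t : Finset P} (hst : Disjoint s t) :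
    gs χ (s ∪ t) = xs χ s (pr t) * xs χ t (pr s) * gs χ s * gs χ t := by
  rw [ga_gs_eq, ga_gs_eq, ga_gs_eq, ga_union h hst]
theorem ga_gs_insert (h : Ch χ) {p : P} {s : Finset P} (hp : p ∉ s) :
    gs χ (insert p s) = χ p (pr s) * xs χ s p.1 * gs χ {p} * gs χ s := by
  rw [Finset.insert_eq, gs_union h (Finset.disjoint_singleton_left.2 hp), ga_xs_singleton,
    pr_singleton]
theorem gs_eq_prod (h : Ch χ) (s : Finset P) :
    gs χ s = ∏ p ∈ s, χ p (pr (s.erase p)) * gs χ {p} := by
  induction s using Finset.induction_on with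
  | empty => rw [gs_empty, Finset.prod_empty]
  | insert p s hp ih =>
    have h1 : ∏ q ∈ s, χ q (pr ((insert p s).erase q)) * gs χ {q} =
        xs χ s p.1 * ∏ q ∈ s, χ q (pr (s.erase q)) * gs χ {q} := by
      rw [xs, ← Finset.prod_mul_distrib]
      refine Finset.prod_congr rfl fun q hq => ?_
      have h2 : p ≠ q := fun e => hp (e ▸ hq)
      rw [Finset.erase_insert_of_ne h2, pr_insert fun e => hp (Finset.mem_of_mem_erase e),
        (h.mc q).mul, mul_assoc]
    rw [Finset.prod_insert hp, Finset.erase_insert hp, h1, ← ih, ga_gs_insert h hp]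
    ring
theorem gs_twist (h : Ch χ) {s : Finset P} (hs : ∀ p ∈ s, Nt p (χ p)) (m : E) :
    rsum (pr s) (fun y => xs χ s y * psf (y * m) (pr s)) = conj (xs χ s m) * gs χ s := by
  induction s using Finset.induction_on with
  | empty => rw [ga_empty, xs_empty, gs_empty, map_one, mul_one]
  | insert p s hp ih =>
    have h1 := (h.mc p).gauss_twist (hs p (Finset.mem_insert_self p s)) m
    rw [← gs_singleton] at h1
    rw [ga_gs_insert h hp, ga_xs_insert hp m, Finset.insert_eq,
      ga_union h (Finset.disjoint_singleton_left.2 hp),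
      ih fun q hq => hs q (Finset.mem_insert_of_mem hq)]
    simp only [ga_xs_singleton, pr_singleton]
    rw [h1, map_mul]
    ring
theorem ga_norm_singleton {p : P} (h : Mc p (χ p)) (hn : Nt p (χ p)) :
    ‖gs χ {p}‖ = √(nm p.1) := by
  rw [← h.gauss_norm hn, Real.sqrt_sq (norm_nonneg _), gs_singleton]
theorem ga_ne {s : Finset P} {c : E} (hc : Associated c (pr s)) : c ≠ 0 :=
  hc.ne_zero_iff.2 (pr_ne_zero s)
theorem ga_per (h : Ch χ) {s : Finset P} {c : E} (hc : Associated c (pr s)) : Per c (xs χ s) :=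
  (xs_per h s).mono hc.symm.dvd
theorem ga_unit (h : Ch χ) {s : Finset P} {c u : E} (hc : Associated c (pr s)) (hu : IsUnit u)
    (m : E) : rsum (u * c) (fun y => xs χ s y * psf (y * m) (u * c))
      = xs χ s u * rsum c fun y => xs χ s y * psf (y * m) c := by
  have h1 : Associated (u * c) c := associated_unit_mul_left _ _ hu
  rw [rsum_assoc h1, ← rsum_mul_unit (u := u) (ga_ne hc)
    ((ga_per h hc).mul ((per_psf m (u * c)).mono h1.dvd)) (isCoprime_iff.2 fun p hp => p.not_dvd_unit hu hp.1), ← rsum_mul_left]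
  congr 1
  funext y
  rw [xs_mul h, mul_assoc u, psf_scale hu.ne_zero, mul_assoc]
theorem gsE_unit (h : Ch χ) {s : Finset P} {c u : E} (hc : Associated c (pr s)) (hu : IsUnit u) :
    gsE χ s (u * c) = xs χ s u * gsE χ s c := by
  simpa only [mul_one, gsE] using ga_unit h hc hu 1
theorem gsE_union (h : Ch χ) {s t : Finset P} (hst : Disjoint s t) {c d : E}
    (hc : Associated c (pr s)) (hd : Associated d (pr t)) :
    gsE χ (s ∪ t) (c * d) = xs χ s d * xs χ t c * gsE χ s c * gsE χ t d := by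
  simpa only [mul_one, gsE, xs_union hst] using ga_split (ga_ne hc) (ga_ne hd)
    (((coprime_pr.2 hst).of_isCoprime_of_dvd_left hc.dvd).of_isCoprime_of_dvd_right hd.dvd)
    (ga_per h hc) (ga_per h hd) (xs_mul h s) (xs_mul h t) 1
theorem gamE_union (h : Ch χ) {s t : Finset P} (hst : Disjoint s t) {c d : E}
    (hc : Associated c (pr s)) (hd : Associated d (pr t)) :
    gamE χ (s ∪ t) (c * d) = xs χ s d * xs χ t c * gamE χ s c * gamE χ t d := by
  rw [gamE, gamE, gamE, gsE_union h hst hc hd, Ns_union hst, Real.sqrt_mul (Ns_pos s).le,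
    Complex.ofReal_mul]
  ring
theorem gsE_eq_prod (h : Ch χ) {s : Finset P} {c : E} (hc : Associated c (pr s)) :
    gsE χ s c = ∏ p ∈ s, χ p (up p.1 c) * gs χ {p} := by
  obtain ⟨u, rfl⟩ := hc.symm
  rw [mul_comm, gsE_unit h (Associated.refl _) u.isUnit, ← gs, gs_eq_prod h, xs,
    ← Finset.prod_mul_distrib]
  refine Finset.prod_congr rfl fun p hp => ?_
  rw [up_mul p.prime u.ne_zero (pr_ne_zero s), up_of_not_dvd (p.not_dvd_unit u.isUnit), up_pr hp,
    (h.mc p).mul, mul_assoc]
theorem gsE_twist (h : Ch χ) {s : Finset P} {c : E} (hc : Associated c (pr s)) (m : E) :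
    rsum c (fun y => xs χ s y * psf (y * m) c) = conj (xs χ s m) * gsE χ s c := by
  obtain ⟨u, rfl⟩ := hc.symm
  rw [mul_comm (pr s), gsE_unit h (Associated.refl _) u.isUnit,
    ga_unit h (Associated.refl _) u.isUnit, gs_twist h fun p _ => h.nt p, gs]
  ring
theorem norm_gsE (h : Ch χ) {s : Finset P} {c : E} (hc : Associated c (pr s)) :
    ‖gsE χ s c‖ = √(Ns s) := by
  rw [gsE_eq_prod h hc, norm_prod, Ns_eq_prod, Real.sqrt_prod _ fun _ _ => Nat.cast_nonneg _]
  refine Finset.prod_congr rfl fun p _ => ?_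
  rw [norm_mul, (h.mc p).norm _ (not_dvd_up p.prime (ga_ne hc)), one_mul,
    ga_norm_singleton (h.mc p) (h.nt p)]
theorem ga_sqrt_ne (s : Finset P) : √(Ns s) ≠ 0 := (Real.sqrt_pos.2 (Ns_pos s)).ne'
theorem norm_gamE (h : Ch χ) {s : Finset P} {c : E} (hc : Associated c (pr s)) :
    ‖gamE χ s c‖ = 1 := by
  rw [gamE, norm_div, norm_gsE h hc, Complex.norm_real, Real.norm_of_nonneg (Real.sqrt_nonneg _),
    div_self (ga_sqrt_ne s)]
theorem gsE_cj (h : Ch χ) {s : Finset P} {c : E} (hc : Associated c (pr s)) :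
    gsE (cj χ) s c = xs χ s (-1) * conj (gsE χ s c) := by
  have h1 : xs χ s (-1) * conj (xs χ s (-1)) = 1 := by
    rw [xs_mul_conj h, if_pos fun p _ => p.not_dvd_unit isUnit_one.neg]
  have h2 : IsCoprime (-1 : E) c := isCoprime_one_left.neg_left
  rw [gsE, gsE, ← rsum_mul_unit (f := fun y => xs χ s y * psf y c) (ga_ne hc)
    ((ga_per h hc).mul fun _ _ e => psf_congr e) h2, conj_rsum, ← rsum_mul_left]
  congr 1
  funext y
  rw [xs_mul h, neg_one_mul, psf_neg, map_mul, map_mul, Complex.conj_conj, xs_cj,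
    ← mul_assoc, ← mul_assoc, h1, one_mul]
theorem gamE_mul_cj (h : Ch χ) {s : Finset P} {c : E} (hc : Associated c (pr s)) :
    gamE χ s c * gamE (cj χ) s c = xs χ s (-1) := by
  have h1 : gsE χ s c * conj (gsE χ s c) = ((√(Ns s) : ℝ) : ℂ) ^ 2 := by
    rw [Complex.mul_conj', norm_gsE h hc]
  have h2 : ((√(Ns s) : ℝ) : ℂ) ≠ 0 := Complex.ofReal_ne_zero.2 (ga_sqrt_ne s)
  rw [gamE, gamE, gsE_cj h hc, div_mul_div_comm, mul_left_comm, h1, ← sq, mul_div_assoc,
    div_self (pow_ne_zero 2 h2), mul_one]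
/-- The coefficient that appears in Poisson summation for a coprime pair. -/
theorem gs_pair (h : Ch χ) (hr : Rec χ) {c c' : Finset P} (hd : Disjoint c c') {x x' : E}
    (hx : Associated x (pr c)) (hx' : Associated x' (pr c')) (hcl : Cl x x') (m : E) :
    rsum (x * x') (fun y => xs χ c y * conj (xs χ c' y) * psf (y * m) (x * x'))
      = conj (xs χ c m) * gsE χ c x * conj (conj (xs χ c' m) * gsE χ c' x') := by
  have h1 := ga_split (ga_ne hx) (ga_ne hx')
    (((coprime_pr.2 hd).of_isCoprime_of_dvd_left hx.dvd).of_isCoprime_of_dvd_right hx'.dvd)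
    (ga_per h hx) (ga_per h.cj hx') (xs_mul h c) (xs_mul h.cj c') m
  rw [gsE_twist h hx, gsE_twist h.cj hx', gsE_cj h hx'] at h1
  simp only [xs_cj] at h1
  rw [h1, map_mul]
  linear_combination (conj (xs χ c m) * gsE χ c x * conj (conj (xs χ c' m)) * conj (gsE χ c' x')) *
    hr c c' x x' hd hx hx' hcl
theorem Rec.cj (hr : Rec χ) : Rec (cj χ) := by
  intro c c' x x' hd hc hc' h4
  rw [xs_cj, xs_cj, xs_cj, ← map_mul, ← map_mul, hr c c' x x' hd hc hc' h4, map_one]
theorem G3_eq (p : P) : G3 p = conj (gs c3 {p}) := by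
  rw [G3, (c3_mc p).gauss_conj, c3_neg_one, one_mul, gs_singleton]
theorem norm_G3 (p : P) : ‖G3 p‖ ^ 2 = nm p.1 := by
  rw [G3_eq, Complex.norm_conj, gs_singleton, (c3_mc p).gauss_norm (c3_nt p)]
theorem el_assoc (a : FF) (s : Finset P) : Associated (el a s) (pr s) := by
  unfold el
  split_ifs with h
  · exact h.choose_spec.1
  · exact Associated.refl _
theorem el_cl {a : FF} {s : Finset P} (h : HasCl a s) : Cl a (el a s) := by
  rw [el, dif_pos h]
  exact h.choose_spec.2
theorem norm_gamA (h : Ch χ) (a : FF) (s : Finset P) : ‖gamA χ a s‖ = 1 :=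
  norm_gamE h (el_assoc a s)
theorem gamA_eq (h : Ch χ) (hu : Uni χ) {a : FF} {s : Finset P} {c : E} (hc : Associated c (pr s))
    (hcl : Cl a c) : gamA χ a s = gamE χ s c := by
  have h1 := (el_cl ⟨c, hc, hcl⟩).symm.trans hcl
  obtain ⟨u, rfl⟩ := (el_assoc a s).trans hc.symm
  have h3 := (Cl_iff_one h1.ne_left).1 h1
  rw [Subring.coe_mul, mul_div_cancel_left₀ _ h1.ne_left] at h3
  rw [gamA, gamE, gamE, mul_comm (el a s), gsE_unit h (el_assoc a s) u.isUnit, hu s u u.isUnit h3,
    one_mul]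
theorem xs_el (h : Ch χ) (hu : Uni χ) {a : FF} {s : Finset P} {c : E} (hc : Associated c (pr s))
    (hcl : Cl a c) (e : Finset P) : xs χ e (el a s) = xs χ e c :=
  hu.xs_eq h ((el_assoc a s).trans hc.symm) ((el_cl ⟨c, hc, hcl⟩).symm.trans hcl) e
/-- Invariance under the normalisation of the class. -/
theorem gamA_norm (h : Ch χ) (hu : Uni χ) (h6 : Six χ) {a a0 : FF} (e : Eˣ)
    (hcl : Cl a0 (((e : E) : FF) ^ 6 * a)) {s : Finset P} (hs : HasCl a s) :
    gamA χ a0 s = gamA χ a s := by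
  have he : IsUnit ((e : E) ^ 6) := e.isUnit.pow 6
  have h0 : ((e : E) : FF) ^ 6 ≠ 0 := pow_ne_zero _ (by exact_mod_cast e.ne_zero)
  have h1 : Cl a0 (((e : E) ^ 6 * el a s : E) : FF) := by
    rw [Subring.coe_mul, Subring.coe_pow]
    exact hcl.trans ((Cl_mul_left h0).2 (el_cl hs))
  have h2 := xs_unit_six h h6 s e 1
  rw [mul_one, xs_one h] at h2
  rw [gamA_eq h hu ((associated_unit_mul_left _ _ he).trans (el_assoc a s)) h1, gamA, gamE, gamE,
    gsE_unit h (el_assoc a s) he, h2, one_mul]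
end NQ
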