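import Vale.Agent.NQ.Tame

noncomputable section
namespace NQ
open NumberField IsDedekindDomain Polynomial
open scoped Classical

section
variable {F : Type} [Field F] [NumberField F]

/-- The reciprocity law for first entries that are one at the places of `T`. -/
def Glue_Q (s : ℕ) (w : 𝓞 F) (T : Finset (HS F)) : Prop :=
  ∀ a b : F, a ≠ 0 → b ≠ 0 → Close s a → D3 s a b →
    (∀ v ∈ T, (s : 𝓞 F) ∉ v.asIdeal → OG v 1 (a - 1)) → HF s w a b = 0

theorem Glue_inter {s : ℕ} {w : 𝓞 F} (hw : w ^ 2 + w + 1 = 0) (hs0 : s ≠ 0) (hs : 3 ∣ s)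
    (v0 : HS F) {T1 T2 : Finset (HS F)} (h1 : Glue_Q s w T1) (h2 : Glue_Q s w T2) :
    Glue_Q s w (T1 ∩ T2) := by
  intro a b ha hb hc hd h
  have hsO : (s : 𝓞 F) ≠ 0 := Nat.cast_ne_zero.2 hs0
  have hsF : (s : F) ≠ 0 := Nat.cast_ne_zero.2 hs0
  obtain ⟨U, hU⟩ : ∃ U : Finset (HS F), ∀ v, v ∈ U ↔ v = v0 ∨ (s : 𝓞 F) ∈ v.asIdeal ∨ v ∈ T1 ∨
      v ∈ T2 ∨ ord v b ≠ 0 :=
    ⟨insert v0 ((Ord_fin hsO).toFinset ∪ (T1 ∪ (T2 ∪ (finite_ord b).toFinset))), fun v => by simp⟩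
  let A : HS F → Prop := fun v => (s : 𝓞 F) ∉ v.asIdeal ∧ v ∈ T2 ∧ v ∉ T1
  obtain ⟨x, hx, -⟩ := approx U (fun v => if A v then a else 1)
    fun v => if A v then ord v a + 1 else 2 * ord v (s : F) + 1
  have hA : ∀ v ∈ U, A v → OG v (ord v a + 1) (x - a) := fun v hv hA => by
    simpa only [if_pos hA] using hx v hv
  have hB : ∀ v ∈ U, ¬ A v → OG v (2 * ord v (s : F) + 1) (x - 1) := fun v hv hA => by
    simpa only [if_neg hA] using hx v hv
  have hB1 : ∀ v ∈ U, ¬ A v → OG v 1 (x - 1) := fun v hv hA =>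
    (hB v hv hA).mono (by have := (OG_natCast v s).le hsF; omega)
  have hA' : ∀ v ∈ U, A v → x ≠ 0 ∧ ord v x = ord v a := fun v hv h =>
    ord_eq_of_OG ha (hA v hv h)
  have hB' : ∀ v ∈ U, ¬ A v → x ≠ 0 ∧ ord v x = 0 := fun v hv h => by
    have := ord_eq_of_OG (v := v) (y := x) one_ne_zero (by simpa [ord_one] using hB1 v hv h)
    rwa [ord_one] at this
  have hx0 : x ≠ 0 := by
    have hv : v0 ∈ U := (hU v0).2 (Or.inl rfl)
    by_cases h : A v0
    · exact (hA' v0 hv h).1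
    · exact (hB' v0 hv h).1
  have hb0 : ∀ v ∉ U, ord v b = 0 := fun v hv => by
    by_contra h
    exact hv ((hU v).2 (by tauto))
  have hcx : Close s x := (close_iff hs0).2 fun v hv =>
    (hB v ((hU v).2 (by tauto)) fun h => h.1 hv).mono (by omega)
  have e1 : HF s w x b = 0 := by
    refine h1 x b hx0 hb hcx (fun v hv => ?_) fun v hv _ =>
      hB1 v ((hU v).2 (by tauto)) fun h => h.2.2 hv
    by_cases hvU : v ∈ U
    · by_cases h : A v
      · rw [(hA' v hvU h).2]; exact hd v hv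
      · rw [(hB' v hvU h).2]; exact Or.inl (dvd_zero _)
    · rw [hb0 v hvU]; exact Or.inr (dvd_zero _)
  have e2 : HF s w (a / x) b = 0 := by
    refine h2 (a / x) b (div_ne_zero ha hx0) hb
      (by rw [div_eq_mul_inv]; exact hc.mul hs0 (hcx.inv hs0 hx0)) (fun v hv => ?_)
      fun v hv hv' => ?_
    · rw [ord_div v ha hx0]
      by_cases hvU : v ∈ U
      · by_cases h : A v
        · rw [(hA' v hvU h).2, sub_self]; exact Or.inl (dvd_zero _)
        · rw [(hB' v hvU h).2, sub_zero]; exact hd v hv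
      · rw [hb0 v hvU]; exact Or.inr (dvd_zero _)
    · have hvU : v ∈ U := (hU v).2 (by tauto)
      rw [show a / x - 1 = (a - x) / x by field_simp, OG_div_iff hx0]
      by_cases hA0 : A v
      · rw [(hA' v hvU hA0).2, add_comm, ← neg_sub]
        exact (hA v hvU hA0).neg
      · have hv1 : v ∈ T1 := by
          by_contra h3
          exact hA0 ⟨hv', hv, h3⟩
        rw [(hB' v hvU hA0).2, add_zero, show a - x = a - 1 - (x - 1) by ring]
        exact (h v (Finset.mem_inter.2 ⟨hv1, hv⟩) hv').sub (hB1 v hvU hA0)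
  rw [HF_div_left hw hs ha hx0 hb, e1, sub_zero] at e2
  exact e2

theorem Glue_rec {s : ℕ} {w : 𝓞 F} (hw : w ^ 2 + w + 1 = 0) (hs0 : s ≠ 0) (hs : 3 ∣ s)
    (h : ∀ v : HS F, (s : 𝓞 F) ∉ v.asIdeal → ∃ T, v ∉ T ∧ Glue_Q s w T) : RecF F s w := by
  have key : ∀ T, Glue_Q s w T → RecF F s w := by
    intro T
    induction T using Finset.strongInduction with
    | H T ih =>
      intro hT
      by_cases h1 : ∃ v ∈ T, (s : 𝓞 F) ∉ v.asIdeal
      · obtain ⟨v, hv, hv'⟩ := h1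
        obtain ⟨T', h2, h3⟩ := h v hv'
        refine ih (T ∩ T') ?_ (Glue_inter hw hs0 hs v hT h3)
        exact (Finset.ssubset_iff_of_subset Finset.inter_subset_left).2
          ⟨v, hv, fun h4 => h2 (Finset.mem_inter.1 h4).2⟩
      · exact fun a b ha hb hc hd => hT a b ha hb hc hd fun v hv hv' => (h1 ⟨v, hv, hv'⟩).elim
  by_cases h1 : ∃ v : HS F, (s : 𝓞 F) ∉ v.asIdeal
  · obtain ⟨v, hv⟩ := h1
    obtain ⟨T, -, hT⟩ := h v hv
    exact key T hT
  · intro a b _ _ _ _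
    refine finsum_eq_zero_of_forall_eq_zero fun v => if_pos ?_
    by_contra h2
    exact h1 ⟨v, h2⟩

end

theorem recAll (hT : StepT) (hM : Mono) (hB : RecB) : RecAll := by
  intro s F _ _ w hw hs
  obtain ⟨n, hn⟩ : ∃ n, Module.finrank ℚ F = n := ⟨_, rfl⟩
  induction n using Nat.strong_induction_on generalizing F with
  | _ n ih =>
    by_cases h2 : Module.finrank ℚ F ≤ 2
    · exact hB s F w hs.1 hs.2.1 hw h2
    refine Glue_rec hw hs.1.ne' hs.2.1 fun v hv => ?_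
    obtain ⟨θ, t, hg, h0⟩ := hM s F w hw v hs hv
    refine ⟨(finite_ord (eis w hw t)).toFinset, by simp [h0], fun a b ha hb hc hd h => ?_⟩
    refine hT s F w hw θ t hs (not_le.1 h2) (fun F' _ _ w' hw' hlt => ?_) hg a b ha hb hc hd
      fun v hv hv' => h v (by simpa using hv'.ne') hv
    exact ih _ (hn ▸ hlt) F' w' hw'
      ⟨hs.1, hs.2.1, fun p hp hle => hs.2.2 p hp (hle.trans hlt.le)⟩ rfl

end NQ
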