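import Vale.Agent.NQ.Tame
import Vale.Agent.NQ.Plc
import Vale.Agent.NQ.Hs

noncomputable section
namespace NQ
open Complex MeasureTheory NumberField Filter
open scoped ComplexConjugate Classical ContDiff Topology

variable [σ : St]

/-- The cube root of unity as an integer. -/
def wO : 𝓞 FF := ⟨σ.w, Polynomial.X ^ 2 + Polynomial.X + 1, by monicity!, by simpa using σ.hw⟩
theorem wO_rel : wO ^ 2 + wO + 1 = 0 := Subtype.ext σ.hw
theorem HOne_three : 3 ∣ σ.s := (by norm_num : 3 ∣ 12).trans σ.twelve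
theorem HOne_h3 (p : P) : (3 : 𝓞 FF) ∉ (pv p).asIdeal := three_not_mem HOne_three (s_not_mem_pv p)
theorem HOne_ne {x : E} (hx : x ≠ 0) : (x : FF) ≠ 0 := fun h => hx (Subtype.ext h)
theorem HOne_nz {p x : E} (hx : ¬ p ∣ x) : x ≠ 0 := fun h => hx (h ▸ dvd_zero _)
theorem HOne_ord {p : P} {x : E} (hx : ¬ p.1 ∣ x) : ord (pv p) (x : FF) = 0 := by
  rw [ord_pv p (HOne_nz hx), vp_of_not_dvd hx, Nat.cast_zero]
theorem c3_eq_zv (p : P) {x : E} (hx : ¬ p.1 ∣ x) : c3 p x = omC ^ (zv wO (pv p) (x : FF)).val := by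
  have h := zv_pow wO_rel (HOne_h3 p) (HOne_ne (HOne_nz hx)) (HOne_ord hx)
  rw [← nm_P] at h
  exact c3_eq_of ((Plc_dvd p _).2 h)
/-- The additive character with values in the cube roots of unity. -/
def HOne_e : AddChar (ZMod 3) ℂ := AddChar.zmodChar 3 QRH.omC_cube
omit σ in
theorem HOne_e_apply (z : ZMod 3) : HOne_e z = omC ^ z.val := rfl
omit σ in
theorem HOne_e_sum {ι : Type} (T : Finset ι) (f : ι → ZMod 3) :
    HOne_e (∑ i ∈ T, f i) = ∏ i ∈ T, HOne_e (f i) := by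
  induction T using Finset.induction_on with
  | empty => simp
  | insert i T hi ih => rw [Finset.sum_insert hi, Finset.prod_insert hi, AddChar.map_add_eq_mul, ih]
theorem HOne_up (p : P) {x : E} (hx : x ≠ 0) :
    (x : FF) / (p.1 : FF) ^ ord (pv p) (x : FF) = up p.1 x := by
  have h : (p.1 : FF) ^ vp p.1 x * up p.1 x = x := congrArg Subtype.val (pow_vp_mul_up p.1 x)
  rw [ord_pv p hx, zpow_natCast, div_eq_iff (pow_ne_zero _ (HOne_ne p.ne_zero)), mul_comm, h]
theorem HOne_hs (p : P) {a b : E} (ha : a ≠ 0) (hb : b ≠ 0) :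
    hs p a b = HOne_e (hv wO (pv p) (a : FF) (b : FF)) := by
  rw [hv_eq wO_rel (HOne_h3 p) (HOne_ne ha) (HOne_ne hb) (HOne_ne p.ne_zero) (Plc_ord_self p),
    HOne_up p ha, HOne_up p hb, ord_pv p ha, ord_pv p hb, hs_aux_eq,
    c3_eq_zv p (not_dvd_up p.prime ha), c3_eq_zv p (not_dvd_up p.prime hb), ← HOne_e_apply,
    ← HOne_e_apply, ← AddChar.map_nsmul_eq_pow, ← AddChar.map_nsmul_eq_pow,
    ← AddChar.map_add_eq_mul]
  congr 1
  have h3 : (3 : ZMod 3) = 0 := rfl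
  simp only [nsmul_eq_mul]
  push_cast
  linear_combination (vp p.1 b : ZMod 3) * zv wO (pv p) (up p.1 a : FF) * h3
theorem H_eq_HF {a b : E} (ha : a ≠ 0) (hb : b ≠ 0) :
    H a b = omC ^ (HF σ.s wO (a : FF) (b : FF)).val := by
  rw [HF_eq_sum wO_rel HOne_three (HOne_ne ha) (HOne_ne hb) ((fac (a * b)).image pv)
    fun v hv hT => ?_, Finset.sum_image fun _ _ _ _ h => pv_inj h, ← HOne_e_apply, HOne_e_sum]
  · exact Finset.prod_congr rfl fun p _ => by rw [if_neg (s_not_mem_pv p), HOne_hs p ha hb]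
  · obtain ⟨p, rfl⟩ := exists_pv hv
    have h : ¬ p.1 ∣ a * b := fun h =>
      hT (Finset.mem_image_of_mem _ ((mem_fac (mul_ne_zero ha hb)).2 h))
    exact ⟨HOne_ord fun h' => h (h'.mul_right _), HOne_ord fun h' => h (h'.mul_left _)⟩
theorem HOne_rec (h : RecAll) {a : FF} {b : E} (ha : Cl 1 a) (hb : b ≠ 0)
    (hab : ∀ q : P, q.1 ∣ b → ord (pv q) a = 0) : HF σ.s wO a b = 0 := by
  refine h σ.s FF wO wO_rel ⟨σ.s_pos, HOne_three, σ.small⟩ a b ha.ne_zero (HOne_ne hb) ?_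
    fun v hv => ?_
  · have := ha.2
    rwa [div_one] at this
  · obtain ⟨q, rfl⟩ := exists_pv hv
    by_cases hq : q.1 ∣ b
    · exact Or.inl (hab q hq ▸ dvd_zero _)
    · exact Or.inr (HOne_ord hq ▸ dvd_zero _)
theorem HOne_nd {q : P} {m y : E} (h : m ∣ y - 1) (hq : q.1 ∣ m) : ¬ q.1 ∣ y := fun hy =>
  q.not_dvd_unit isUnit_one (by simpa using dvd_sub hy (hq.trans h))
theorem HOne_quot (h : RecAll) {y y1 : E} (hc : Cl (y : FF) y1) (h1 : y ∣ y1 - 1) :
    HF σ.s wO ((y1 : FF) / y) y = 0 := by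
  have hy : (y : FF) ≠ 0 := hc.ne_left
  have hy' : y ≠ 0 := fun h => hy (congrArg Subtype.val h)
  have hx := (Cl_iff_one hy).1 hc
  by_cases e : y - y1 = 0
  · refine HOne_rec h hx hy' fun q _ => ?_
    rw [← sub_eq_zero.1 e, div_self hy, ord_one]
  · have e1 : 1 - (y1 : FF) / y = ((y - y1 : E) : FF) / y := by
      push_cast
      field_simp
    have h2 := HF_stein wO_rel HOne_three hx.ne_zero (e1 ▸ div_ne_zero (HOne_ne e) hy)
    rw [e1, HF_div_right wO_rel HOne_three hx.ne_zero (HOne_ne e) hy,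
      HOne_rec h hx e fun q hq => ?_, zero_sub, neg_eq_zero] at h2
    · exact h2
    · have h3 : ¬ q.1 ∣ y := fun h3 => HOne_nd h1 h3 (by simpa using dvd_sub h3 hq)
      have h4 : ¬ q.1 ∣ y1 := fun h4 => h3 (by simpa using dvd_add hq h4)
      rw [ord_div _ hc.ne_zero hy, HOne_ord h3, HOne_ord h4, sub_zero]
theorem HOne_prime (h : RecAll) {u : E} (hu : Cl 1 (u : FF)) (p : P) :
    HF σ.s wO (u : FF) p.1 = 0 := by
  have hp := HOne_ne p.ne_zero
  have hu0 := hu.ne_zero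
  have hu' : u ≠ 0 := fun h => hu0 (congrArg Subtype.val h)
  obtain ⟨y, hy, hy1⟩ := exists_Cl (one_div_ne_zero hp) (mul_ne_zero hu' p.ne_zero) 1
  have hy0 := hy.ne_zero
  have hy' : y ≠ 0 := fun h => hy0 (congrArg Subtype.val h)
  have hpy := mul_ne_zero p.ne_zero hy'
  obtain ⟨z, hz, hz1⟩ := exists_Cl (one_div_ne_zero hp) hpy 1
  have hz0 := hz.ne_zero
  have hc := hy.symm.trans hz
  have hx := (Cl_iff_one hy0).1 hc
  have hpz := (Cl_div_iff hp).1 hz
  have py : ¬ p.1 ∣ y := HOne_nd hy1 (dvd_mul_left _ _)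
  have h1 : HF σ.s wO (u : FF) y = 0 := HOne_rec h hu hy' fun q hq =>
    HOne_ord fun hq' => HOne_nd hy1 (hq'.mul_right _) hq
  have h2 : HF σ.s wO ((z : FF) / y) p.1 = 0 := HOne_rec h hx p.ne_zero fun q hq => by
    obtain rfl := (P.dvd_iff q p).1 hq
    rw [ord_div _ hz0 hy0, HOne_ord py, HOne_ord (HOne_nd hz1 (dvd_mul_right _ _)), sub_zero]
  have h3 := HOne_quot h hc ((dvd_mul_left _ _).trans hz1)
  have h4 : HF σ.s wO ((p.1 : FF) * z) ((p.1 : FF) * y) = 0 := by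
    have e : (p.1 : FF) * z = z / y * (p.1 * y) := by field_simp
    rw [e, HF_mul_left wO_rel HOne_three hx.ne_zero (mul_ne_zero hp hy0) (mul_ne_zero hp hy0),
      HF_self wO_rel HOne_three (mul_ne_zero hp hy0),
      HF_mul_right wO_rel HOne_three hx.ne_zero hp hy0, h2, h3, add_zero, add_zero]
  have hc5 := hu.div (hpz.pow (vp p.1 u))
  rw [one_pow, div_one] at hc5
  have h5 : HF σ.s wO ((u : FF) / ((p.1 : FF) * z) ^ vp p.1 u) ((p.1 : FF) * y) = 0 :=
    HOne_rec h (b := p.1 * y) hc5 hpy fun q hq => by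
      rw [ord_div _ hu0 (pow_ne_zero _ hpz.ne_zero), ord_pow, ord_mul _ hp hz0,
        HOne_ord (HOne_nd hz1 hq), add_zero]
      by_cases hqp : q = p
      · subst hqp
        rw [Plc_ord_self, ord_pv _ hu', mul_one, sub_self]
      · have h6 : ¬ q.1 ∣ p.1 := fun h6 => hqp ((P.dvd_iff q p).1 h6)
        rw [HOne_ord h6, mul_zero, sub_zero]
        exact HOne_ord fun hq' =>
          HOne_nd hy1 (hq'.mul_right _) ((q.prime.dvd_or_dvd hq).resolve_left h6)
  rw [HF_div_left wO_rel HOne_three hu0 (pow_ne_zero _ hpz.ne_zero) (mul_ne_zero hp hy0),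
    ← zpow_natCast, HF_zpow_left wO_rel HOne_three hpz.ne_zero (mul_ne_zero hp hy0), h4, mul_zero,
    sub_zero, HF_mul_right wO_rel HOne_three hu0 hp hy0, h1, add_zero] at h5
  exact h5
theorem hOne (h : RecAll) : HOne := by
  intro u b hu hb
  have hu' : u ≠ 0 := fun h => hu.ne_zero (congrArg Subtype.val h)
  have h0 : HF σ.s wO (u : FF) b = 0 := by
    refine induction_nz (M := fun b : E => HF σ.s wO (u : FF) b = 0) (fun e he => ?_)
      (fun p x hx ih => ?_) hb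
    · exact HOne_rec h hu he.ne_zero fun q hq => absurd hq (q.not_dvd_unit he)
    · refine (HF_mul_right wO_rel HOne_three hu.ne_zero (HOne_ne p.ne_zero) (HOne_ne hx)).trans ?_
      rw [HOne_prime h hu p, ih, add_zero]
  rw [H_eq_HF hu' hb, h0, ZMod.val_zero, pow_zero]
theorem hCongr (h : HOne) : HCongr := by
  intro a a' b hc hb
  have ha : a ≠ 0 := fun h => hc.ne_left (congrArg Subtype.val h)
  have ha' : a' ≠ 0 := fun h => hc.ne_zero (congrArg Subtype.val h)
  obtain ⟨d, hd, t, ht⟩ := exists_Cl one_ne_zero ha 0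
  rw [sub_zero] at ht
  have hn : Cl 1 ((t * a' : E) : FF) := by
    have h1 := hd.mul hc
    rw [ht, mul_comm 1] at h1
    push_cast at h1 ⊢
    rwa [mul_assoc, Cl_mul_left hc.ne_left] at h1
  have h1 : H a' b = H a b := by
    have e : a' * d = a * (t * a') := by rw [ht]; ring
    have h2 := H_mul_left ha' (fun h => hd.ne_zero (congrArg Subtype.val h)) hb
    rw [e, H_mul_left ha (fun h => hn.ne_zero (congrArg Subtype.val h)) hb, h _ b hd hb,
      h _ b hn hb, mul_one, mul_one] at h2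
    exact h2.symm
  exact ⟨h1, by rw [H_swap a' b, H_swap a b, h1]⟩

end NQ
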