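import Vale.Agent.NQ.HeckeA

noncomputable section
namespace NQ
open Complex MeasureTheory NumberField Filter
open scoped ComplexConjugate Classical ContDiff Topology

variable [σ : St]

theorem hk_cont (b : FF) : Continuous (Tl b) := by
  unfold Tl
  fun_prop

theorem hk_null (c : ℝ) : volume {u : Pl → ℝ | ∑ w, u w = c} = 0 := by
  let l : (Pl → ℝ) →ₗ[ℝ] ℝ := ∑ w, LinearMap.proj w
  have hl : ∀ u, l u = ∑ w, u w := fun u => by simp [l]
  have hm : ∀ u, u ∈ AffineSubspace.comap l.toAffineMap (AffineSubspace.mk' c ⊥) ↔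
      ∑ w, u w = c := fun u => by
    rw [AffineSubspace.mem_comap, AffineSubspace.mem_mk', LinearMap.coe_toAffineMap, hl,
      Submodule.mem_bot, vsub_eq_sub, sub_eq_zero]
  have h := Measure.addHaar_affineSubspace (volume : Measure (Pl → ℝ))
    (AffineSubspace.comap l.toAffineMap (AffineSubspace.mk' c ⊥)) (by
      intro ht
      have h0 := (hm 0).1 (by rw [ht]; trivial)
      have h1 := (hm 1).1 (by rw [ht]; trivial)
      have h2 : (0 : ℝ) < Fintype.card Pl := by exact_mod_cast rk_pos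
      simp at h0 h1
      linarith)
  convert h using 2
  ext u
  exact (hm u).symm

theorem hk_ae (b : FF) (L : ℝ) :
    ({u | L ≤ Tl b u}ᶜ : Set (Pl → ℝ)) =ᵐ[volume] ({u | Tl b u ≤ L} : Set (Pl → ℝ)) := by
  have h := measure_eq_zero_iff_ae_notMem.1 (hk_null (L + Real.log (sS b)))
  filter_upwards [h] with u hu
  have h1 : Tl b u ≠ L := fun h2 => hu (by
    rw [← h2, Tl]
    ring)
  apply propext
  change ¬ L ≤ Tl b u ↔ Tl b u ≤ L
  exact ⟨fun h2 => (not_le.1 h2).le, fun h2 => not_le.2 (lt_of_le_of_ne h2 h1)⟩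

theorem hk_exp {φ : (Pl → ℝ) → ℝ} {V : ℝ} (hV : ∀ h : ℝ → ℂ, Integrable h →
    Integrable (fun u : Pl → ℝ => (φ u : ℂ) * h (∑ w, u w)) ∧
    ∫ u : Pl → ℝ, (φ u : ℂ) * h (∑ w, u w) = V * ∫ t, h t) (b : FF) (L : ℝ) {z : ℂ}
    (hz : 0 < z.re) :
    IntegrableOn (fun u => (φ u : ℂ) * Complex.exp (z * Tl b u)) {u | Tl b u ≤ L} ∧
    ∫ u in {u | Tl b u ≤ L}, (φ u : ℂ) * Complex.exp (z * Tl b u)
      = V * (Complex.exp (z * L) / z) := by
  have hm : MeasurableSet {u | Tl b u ≤ L} := measurableSet_le (hk_cont b).measurable measurable_const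
  have h0 := (integrable_indicator_iff measurableSet_Iic).2 (integrableOn_exp_mul_complex_Iic hz L)
  obtain ⟨h1, h2⟩ := hV _ (h0.comp_sub_right (Real.log (sS b)))
  have e : (fun u : Pl → ℝ => (φ u : ℂ) * (Set.Iic L).indicator (fun x : ℝ => Complex.exp (z * x))
      (∑ w, u w - Real.log (sS b)))
      = ({u | Tl b u ≤ L} : Set (Pl → ℝ)).indicator
        fun u => (φ u : ℂ) * Complex.exp (z * Tl b u) := by
    funext u
    change _ * (Set.Iic L).indicator _ (Tl b u) = _
    by_cases hu : Tl b u ≤ L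
    · rw [Set.indicator_of_mem (show u ∈ {u | Tl b u ≤ L} from hu), Set.indicator_of_mem
        (show _ ∈ Set.Iic L from hu)]
    · rw [Set.indicator_of_notMem (show u ∉ {u | Tl b u ≤ L} from hu), Set.indicator_of_notMem
        (show _ ∉ Set.Iic L from hu), mul_zero]
  rw [e] at h1 h2
  refine ⟨(integrable_indicator_iff hm).1 h1, ?_⟩
  rw [← integral_indicator hm, h2, integral_sub_right_eq_self
    (fun t => (Set.Iic L).indicator (fun x : ℝ => Complex.exp (z * x)) t),
    integral_indicator measurableSet_Iic, integral_exp_mul_complex_Iic hz]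

theorem hk_neg {g : (Pl → ℝ) → ℂ} {s : Set (Pl → ℝ)} (hs : MeasurableSet s)
    (hg : IntegrableOn g s) : IntegrableOn (fun u => g (-u)) {u | -u ∈ s} ∧
      ∫ u in {u | -u ∈ s}, g (-u) = ∫ u in s, g u := by
  have hm : MeasurableSet {u : Pl → ℝ | -u ∈ s} := measurable_neg hs
  have e : (fun u => s.indicator g (-u))
      = ({u | -u ∈ s} : Set (Pl → ℝ)).indicator fun u => g (-u) := by
    funext u
    by_cases hu : -u ∈ s
    · rw [Set.indicator_of_mem hu, Set.indicator_of_mem (show u ∈ {u | -u ∈ s} from hu)]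
    · rw [Set.indicator_of_notMem hu, Set.indicator_of_notMem (show u ∉ {u | -u ∈ s} from hu)]
  have h1 := ((integrable_indicator_iff hs).2 hg).comp_neg
  rw [e] at h1
  refine ⟨(integrable_indicator_iff hm).1 h1, ?_⟩
  rw [← integral_indicator hm, ← e, integral_neg_eq_self, integral_indicator hs]

theorem hk_low (h : PSG) (hk : KapSq) (hU : Unf) {φ : (Pl → ℝ) → ℝ} {A : Finset FF}
    (hφ : IsPhi φ) (hA : IsA0 A) {V : ℝ} (hV : ∀ h : ℝ → ℂ, Integrable h →
    Integrable (fun u : Pl → ℝ => (φ u : ℂ) * h (∑ w, u w)) ∧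
    ∫ u : Pl → ℝ, (φ u : ℂ) * h (∑ w, u w) = V * ∫ t, h t) {b : FF} (hb : b ∈ A) {z : ℂ}
    (hz : 1 < z.re) :
    ∫ u in {u | Tl b u ≤ Real.log kap}, ((φ u * Tht b u : ℝ) : ℂ) * Complex.exp (z * Tl b u)
      = Complex.exp ((2 * z - 1) * Real.log kap)
        * (∫ u in {u | Real.log kap ≤ Tl (1 / (b * del)) u},
          ((φ (-u) * Tht (1 / (b * del)) u : ℝ) : ℂ) * Complex.exp ((1 - z) * Tl (1 / (b * del)) u))
        + V * Complex.exp (z * Real.log kap) * ((z - 1)⁻¹ - z⁻¹) := by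
  have hb0 := hA.1 b hb
  have hm : MeasurableSet {u | Tl b u ≤ Real.log kap} :=
    measurableSet_le (hk_cont b).measurable measurable_const
  have hm' : MeasurableSet {u | Real.log kap ≤ Tl (1 / (b * del)) u} :=
    measurableSet_le measurable_const (hk_cont _).measurable
  obtain ⟨i1, e1⟩ := hk_neg hm' (integrableOn_Itl hU hφ.neg hA.dual (Real.log kap) (1 - z)
    (Finset.mem_image_of_mem _ hb))
  have es : {u : Pl → ℝ | -u ∈ {u | Real.log kap ≤ Tl (1 / (b * del)) u}}
      = {u | Tl b u ≤ Real.log kap} := by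
    ext u
    simp only [Set.mem_ofPred_eq]
    rw [Tl_dual hk hb0]
    constructor <;> intro h1 <;> linarith
  rw [es] at i1 e1
  obtain ⟨i2, e2⟩ := hk_exp hV b (Real.log kap) (z := z - 1) (by simpa using hz)
  obtain ⟨i3, e3⟩ := hk_exp hV b (Real.log kap) (z := z) (by linarith)
  have hkc : (kap : ℂ) = Complex.exp (Real.log kap) := by
    rw [← ofReal_exp, Real.exp_log kap_pos]
  have e : ∀ u, ((φ u * Tht b u : ℝ) : ℂ) * Complex.exp (z * Tl b u)
      = Complex.exp ((2 * z - 1) * Real.log kap) * (((φ (- -u) * Tht (1 / (b * del)) (-u) : ℝ) : ℂ)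
          * Complex.exp ((1 - z) * Tl (1 / (b * del)) (-u)))
        + (kap * ((φ u : ℂ) * Complex.exp ((z - 1) * Tl b u)) - (φ u : ℂ) * Complex.exp (z * Tl b u)) := by
    intro u
    have h1 : (Tht b u : ℂ) = kap * Complex.exp (-Tl b u) * (Tht (1 / (b * del)) (-u) + 1) - 1 := by
      have h2 := congrArg (fun x : ℝ => (x : ℂ)) (Tht_fe h hb0 u)
      push_cast at h2
      linear_combination h2
    have h2 : Complex.exp ((z - 1) * Tl b u) = Complex.exp (-Tl b u) * Complex.exp (z * Tl b u) := by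
      rw [← Complex.exp_add]
      congr 1
      ring
    have h3 : Complex.exp ((2 * z - 1) * Real.log kap)
        * Complex.exp ((1 - z) * Tl (1 / (b * del)) (-u))
        = kap * Complex.exp (-Tl b u) * Complex.exp (z * Tl b u) := by
      rw [Tl_dual hk hb0, hkc, ← Complex.exp_add, ← Complex.exp_add, ← Complex.exp_add]
      congr 1
      rw [ofReal_sub, ofReal_mul, ofReal_ofNat]
      ring
    rw [neg_neg, ofReal_mul, ofReal_mul, h1, h2]
    linear_combination (-(φ u : ℂ) * Tht (1 / (b * del)) (-u)) * h3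
  simp only [e]
  rw [integral_add (i1.const_mul _) ((i2.const_mul _).sub' i3), integral_sub (i2.const_mul _) i3,
    integral_const_mul, integral_const_mul, e1, e2, e3]
  have h4 : Complex.exp (z * Real.log kap) = kap * Complex.exp ((z - 1) * Real.log kap) := by
    rw [hkc, ← Complex.exp_add]
    congr 1
    ring
  rw [h4]
  ring

theorem hk_eq (h : PSG) (hk : KapSq) (hU : Unf) {φ : (Pl → ℝ) → ℝ} {A : Finset FF}
    (hφ : IsPhi φ) (hA : IsA0 A) {V : ℝ} (hV : ∀ h : ℝ → ℂ, Integrable h →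
    Integrable (fun u : Pl → ℝ => (φ u : ℂ) * h (∑ w, u w)) ∧
    ∫ u : Pl → ℝ, (φ u : ℂ) * h (∑ w, u w) = V * ∫ t, h t) {z : ℂ} (hz : 1 < z.re) :
    z * (z - 1) * (Itl φ A (Real.log kap) z + Complex.exp ((2 * z - 1) * Real.log kap)
        * Itl (fun u => φ (-u)) (A.image fun b => 1 / (b * del)) (Real.log kap) (1 - z))
      + A.card * V * Complex.exp (z * Real.log kap) = z * (z - 1) * GG z ^ rk * zeta FF z := by
  obtain ⟨hi, he⟩ := hU φ A hφ hA z hz
  have hz0 : z ≠ 0 := by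
    rintro rfl
    norm_num at hz
  have hz1 : z - 1 ≠ 0 := by
    intro h1
    rw [sub_eq_zero.1 h1] at hz
    norm_num at hz
  have hinj : Set.InjOn (fun b : FF => 1 / (b * del)) A := by
    intro b _ b' _ h1
    simp only [one_div, inv_inj] at h1
    exact mul_right_cancel₀ del_ne_zero h1
  rw [mul_assoc (z * (z - 1)), ← he]
  unfold Itl
  rw [Finset.sum_image hinj]
  have e : ∀ b ∈ A, ∫ u, ((φ u * Tht b u : ℝ) : ℂ) * Complex.exp (z * Tl b u)
      = (∫ u in {u | Real.log kap ≤ Tl b u}, ((φ u * Tht b u : ℝ) : ℂ) * Complex.exp (z * Tl b u))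
        + (Complex.exp ((2 * z - 1) * Real.log kap)
        * (∫ u in {u | Real.log kap ≤ Tl (1 / (b * del)) u},
          ((φ (-u) * Tht (1 / (b * del)) u : ℝ) : ℂ) * Complex.exp ((1 - z) * Tl (1 / (b * del)) u))
        + V * Complex.exp (z * Real.log kap) * ((z - 1)⁻¹ - z⁻¹)) := by
    intro b hb
    rw [← integral_add_compl (measurableSet_le measurable_const (hk_cont b).measurable) (hi b hb),
      setIntegral_congr_set (hk_ae b _), hk_low h hk hU hφ hA hV hb hz]
  rw [Finset.sum_congr rfl e, Finset.sum_add_distrib, Finset.sum_add_distrib, ← Finset.mul_sum,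
    Finset.sum_const, nsmul_eq_mul]
  have h5 : z * (z - 1) * ((z - 1)⁻¹ - z⁻¹) = 1 := by
    field_simp
    ring
  linear_combination (-(A.card : ℂ) * V * Complex.exp (z * Real.log kap)) * h5

theorem hecke (h : PSG) (hk : KapSq) (hk1 : kap ≤ 1) (hF : PushF) (hU : Unf) : Hecke := by
  obtain ⟨φ, hφ⟩ := exists_phi
  obtain ⟨A, hA⟩ := exists_A0
  obtain ⟨V, hV0, hV⟩ := hF φ hφ
  have hL : Real.log kap ≤ 0 := Real.log_nonpos kap_pos.le hk1
  have hcard : 0 < A.card := by
    obtain ⟨b, hb, -⟩ := hA.2.1 1 one_ne_zero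
    exact Finset.card_pos.2 ⟨b, hb⟩
  have hA' := hA.dual
  have hφ' := hφ.neg
  have key := fun z hz => hk_eq h hk hU hφ hA hV (z := z) hz
  have e6 : kap⁻¹ ^ 6 = Real.exp (-6 * Real.log kap) := by
    rw [show -6 * Real.log kap = (6 : ℕ) * -Real.log kap by push_cast; ring, Real.exp_nat_mul,
      Real.exp_neg, Real.exp_log kap_pos]
  rw [Hecke, e6]
  generalize Real.log kap = L at hL key
  generalize (A.image fun b => 1 / (b * del)) = A' at hA' key
  generalize (fun u => φ (-u)) = φ' at hφ' key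
  have hζ : 0 ≤ (zeta FF 2).re := by
    have h1 := (norm_nonneg _).trans (norm_Itl_le hU hφ hA L (z := 0) (by simp))
    exact (mul_nonneg_iff_of_pos_left (Real.exp_pos _)).1 h1
  have h2 : A.card * V * Real.exp (2 * L) ≤ 2 * (zeta FF 2).re := by
    obtain ⟨a, -, ha, -, ha0, ha1, -, -⟩ := GG_two_four
    have k := congrArg Complex.re (key 2 (by norm_num))
    obtain ⟨p1, -⟩ := Itl_re_nonneg hφ A L 2
    obtain ⟨p2, -⟩ := Itl_re_nonneg hφ' A' L (-1)
    have c1 : Complex.exp ((2 * 2 - 1) * (L : ℂ)) = (Real.exp (3 * L) : ℝ) := by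
      push_cast
      congr 1
      ring
    have c2 : Complex.exp (2 * (L : ℂ)) = (Real.exp (2 * L) : ℝ) := by push_cast; rfl
    have c3 : (1 - 2 : ℂ) = ((-1 : ℝ) : ℂ) := by push_cast; ring
    have c4 : (2 * (2 - 1) : ℂ) = ((2 : ℝ) : ℂ) := by push_cast; ring
    rw [c1, c2, c3, ha, c4, ← ofReal_pow, ← ofReal_mul, ← ofReal_natCast, ← ofReal_mul,
      ← ofReal_mul, add_re, re_ofReal_mul, re_ofReal_mul, add_re, re_ofReal_mul, ofReal_re] at k
    have p3 : 0 ≤ Real.exp (3 * L) * (Itl φ' A' L ((-1 : ℝ) : ℂ)).re :=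
      mul_nonneg (Real.exp_pos _).le p2
    have p4 : a ^ rk * (zeta FF 2).re ≤ (zeta FF 2).re :=
      mul_le_of_le_one_left hζ (pow_le_one₀ ha0.le ha1)
    have p5 : 0 ≤ (Itl φ A L 2).re := p1
    nlinarith
  refine ⟨fun z => z * (z - 1) * (Itl φ A L z + Complex.exp ((2 * z - 1) * L) * Itl φ' A' L (1 - z))
    + A.card * V * Complex.exp (z * L), ⟨?_, key⟩, ?_, fun z h1 h3 => ?_⟩
  · have d1 := differentiable_Itl hU hφ hA L
    have d2 : Differentiable ℂ fun z => Itl φ' A' L (1 - z) :=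
      (differentiable_Itl hU hφ' hA' L).comp (by fun_prop)
    fun_prop
  · simp only [sub_self, mul_zero, zero_mul, zero_add]
    exact mul_ne_zero (mul_ne_zero (Nat.cast_ne_zero.2 hcard.ne') (ofReal_ne_zero.2 hV0.ne'))
      (Complex.exp_ne_zero _)
  · have b1 : ‖Itl φ A L z‖ ≤ Real.exp (-6 * L) * (zeta FF 2).re :=
      (norm_Itl_le hU hφ hA L h3).trans
        (mul_le_mul_of_nonneg_right (Real.exp_le_exp.2 (by nlinarith)) hζ)
    have b2 : ‖Complex.exp ((2 * z - 1) * L) * Itl φ' A' L (1 - z)‖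
        ≤ Real.exp (-6 * L) * (zeta FF 2).re := by
      have b3 := norm_Itl_le hU hφ' hA' L (z := 1 - z) (by simp; linarith)
      rw [norm_mul, Complex.norm_exp]
      refine (mul_le_mul_of_nonneg_left b3 (Real.exp_pos _).le).trans ?_
      rw [← mul_assoc, ← Real.exp_add]
      gcongr
      simp
      nlinarith
    have b3 : ‖(A.card : ℂ) * V * Complex.exp (z * L)‖
        ≤ 2 * (Real.exp (-6 * L) * (zeta FF 2).re) := by
      rw [norm_mul, norm_mul, Complex.norm_exp, Complex.norm_natCast, Complex.norm_real,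
        Real.norm_of_nonneg hV0.le]
      have b4 : Real.exp ((z * L).re) ≤ Real.exp (2 * L) * Real.exp (-6 * L) := by
        rw [← Real.exp_add]
        gcongr
        simp
        nlinarith
      calc _ ≤ A.card * V * (Real.exp (2 * L) * Real.exp (-6 * L)) := by gcongr
        _ = A.card * V * Real.exp (2 * L) * Real.exp (-6 * L) := by ring
        _ ≤ 2 * (zeta FF 2).re * Real.exp (-6 * L) := by gcongr
        _ = _ := by ring
    have b4 : ‖z * (z - 1)‖ ≤ (1 + ‖z‖) ^ 2 := by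
      rw [norm_mul]
      have b5 : ‖z - 1‖ ≤ ‖z‖ + 1 := by simpa using norm_sub_le z 1
      have := norm_nonneg z
      nlinarith
    have b5 : (1 : ℝ) ≤ (1 + ‖z‖) ^ 2 := one_le_pow₀ (by linarith [norm_nonneg z])
    have b6 : 0 ≤ Real.exp (-6 * L) * (zeta FF 2).re := mul_nonneg (Real.exp_pos _).le hζ
    refine (norm_add_le _ _).trans ?_
    rw [norm_mul]
    have b7 := (norm_add_le _ _).trans (add_le_add b1 b2)
    have b8 := mul_le_mul b4 b7 (norm_nonneg _) (by positivity)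
    rw [mul_assoc (4 * _)]
    generalize Real.exp (-6 * L) * (zeta FF 2).re = t at b3 b6 b8 ⊢
    nlinarith

end NQ
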