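import Vale.Agent.NQ.Cnt
import Vale.Agent.P026.Cnt

noncomputable section
namespace NQ
open Complex MeasureTheory NumberField Filter
open scoped ComplexConjugate Classical ContDiff Topology

theorem Lat_pi {ι κ : Type} [Fintype ι] {a : κ → ℝ} (ha : Summable a) (h0 : ∀ k, 0 ≤ a k)
    (I : Finset (ι → κ)) : ∑ n ∈ I, ∏ i, a (n i) ≤ ∏ _i : ι, ∑' k, a k := by
  refine (Finset.sum_le_sum_of_subset_of_nonneg (t := Fintype.piFinset fun i => I.image (· i))
    (fun n hn => Fintype.mem_piFinset.2 fun i => Finset.mem_image_of_mem _ hn)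
    fun n _ _ => Finset.prod_nonneg fun i _ => h0 _).trans ?_
  rw [← Finset.prod_univ_sum]
  exact Finset.prod_le_prod (fun i _ => Finset.sum_nonneg fun k _ => h0 k)
    fun i _ => ha.sum_le_tsum _ fun k _ => h0 k

theorem Lat_geo {r : ℝ} (hr : r < 0) : Summable fun n : ℕ => ((2 : ℝ) ^ n) ^ r := by
  refine (summable_geometric_of_lt_one (Real.rpow_nonneg two_pos.le r)
    (Real.rpow_lt_one_of_one_lt_of_neg one_lt_two hr)).congr fun n => ?_
  rw [← Real.rpow_natCast, ← Real.rpow_mul two_pos.le, mul_comm, Real.rpow_mul two_pos.le,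
    Real.rpow_natCast]

theorem Lat_int {γ β : ℝ} (hγ : 0 < γ) (hβ : γ < β) :
    Summable fun j : ℤ => ((2 : ℝ) ^ j) ^ γ * (1 + (2 : ℝ) ^ j) ^ (-β) := by
  refine .of_nat_of_neg ((Lat_geo (sub_neg.2 hβ)).of_nonneg_of_le (fun n => by positivity)
    fun n => ?_) ((Lat_geo (neg_neg_of_pos hγ)).of_nonneg_of_le (fun n => by positivity) fun n => ?_)
  · rw [zpow_natCast, sub_eq_add_neg, Real.rpow_add (by positivity)]
    exact mul_le_mul_of_nonneg_left (Real.rpow_le_rpow_of_nonpos (by positivity) (by linarith)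
      (by linarith)) (by positivity)
  · rw [zpow_neg, zpow_natCast, Real.inv_rpow (by positivity), ← Real.rpow_neg (by positivity)]
    exact mul_le_of_le_one_right (by positivity) (Real.rpow_le_one_of_one_le_of_nonpos
      (le_add_of_nonneg_right (by positivity)) (by linarith))

theorem Lat_Vg {β t : ℝ} (hβ : 0 ≤ β) (ht : 0 ≤ t) :
    Vg (t ^ 2) ≤ Real.exp (β ^ 2) * (1 + t) ^ (-β) := by
  refine (QRH.cnt_Vg_le (sq_nonneg t)).trans ?_
  rw [Real.rpow_def_of_pos (by positivity), ← Real.exp_add]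
  have h := Real.log_le_sub_one_of_pos (x := 1 + t) (by positivity)
  exact Real.exp_le_exp.2 (by nlinarith [sq_nonneg (t - β), mul_le_mul_of_nonneg_left h hβ])

variable [σ : St]

/-- Dyadic decomposition of the nonzero points of a lattice. -/
theorem Lat_dyadic {b : FF} (hb : b ≠ 0) {R : Pl → ℝ} (hR : ∀ w, 0 < R w) {a : ℕ → ℝ} {c : ℤ → ℝ}
    (ha : Summable a) (a0 : ∀ n, 0 ≤ a n) (hc : Summable c) (c0 : ∀ j, 0 ≤ c j) {M : ℝ} (hM : 0 ≤ M)
    (F : E → ℝ) (J : Finset E) (hJ : ∀ x ∈ J, x ≠ 0 ∧ (x : FF) / b ∈ OS)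
    (h : ∀ (n : SP → ℕ) (j : Pl → ℤ) (I : Finset E), I ⊆ J →
      (∀ x ∈ I, (∀ v : SP, ord v.1 (x : FF) = ord v.1 b + n v) ∧
        ∀ w, 2 ^ j w ≤ ‖em w x‖ / R w ∧ ‖em w x‖ / R w < 2 ^ (j w + 1)) →
      ∑ x ∈ I, F x ≤ M * ((∏ v, a (n v)) * ∏ w, c (j w))) :
    ∑ x ∈ J, F x ≤ M * ((∏ _v : SP, ∑' n, a n) * ∏ _w : Pl, ∑' j, c j) := by
  let κ : E → (SP → ℕ) × (Pl → ℤ) := fun x =>
    (fun v => (ord v.1 (x : FF) - ord v.1 b).toNat, fun w => Int.log 2 (‖em w x‖ / R w))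
  rw [← Finset.sum_fiberwise_of_maps_to (t := (J.image κ).image Prod.fst ×ˢ (J.image κ).image Prod.snd)
    (g := κ) fun x hx => Finset.subset_product (Finset.mem_image_of_mem κ hx)]
  refine (Finset.sum_le_sum fun k _ => h k.1 k.2 _ (Finset.filter_subset _ _) fun x hx => ?_).trans ?_
  · obtain ⟨h1, rfl⟩ := Finset.mem_filter.1 hx
    have h2 : (x : FF) ≠ 0 := by simpa using (hJ x h1).1
    refine ⟨fun v => ?_, fun w => ⟨?_, ?_⟩⟩
    · have := (((div_mem_OS_iff hb).1 (hJ x h1).2) v).le h2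
      simp only [κ]
      omega
    · exact_mod_cast Int.zpow_log_le_self (b := 2) one_lt_two
        (div_pos (norm_pos_iff.2 (em_ne_zero w h2)) (hR w))
    · exact_mod_cast Int.lt_zpow_succ_log_self (b := 2) one_lt_two (‖em w x‖ / R w)
  · rw [← Finset.mul_sum, Finset.sum_product' 
      (f := fun (n : SP → ℕ) (j : Pl → ℤ) => (∏ v, a (n v)) * ∏ w, c (j w)),
      ← Finset.sum_mul_sum]
    exact mul_le_mul_of_nonneg_left (mul_le_mul (Lat_pi ha a0 _) (Lat_pi hc c0 _)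
      (Finset.sum_nonneg fun _ _ => Finset.prod_nonneg fun _ _ => c0 _)
      (Finset.prod_nonneg fun _ _ => tsum_nonneg a0)) hM

theorem Lat_sS {x b : FF} {n : SP → ℕ} (h : ∀ v : SP, ord v.1 x = ord v.1 b + n v) :
    sS x = sS b * ∏ v : SP, ((qv v.1 : ℝ) ^ n v)⁻¹ := by
  rw [sS, sS, ← Finset.prod_mul_distrib]
  refine Finset.prod_congr rfl fun v _ => ?_
  rw [h, neg_add, zpow_add₀ (by have := two_le_qv v.1; positivity), zpow_neg _ (n v : ℤ),
    zpow_natCast]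

/-- Lattice sums, uniformly in the lattice and in the scales. -/
theorem lat_sum {θ α β : ℝ} (hθ : 0 ≤ θ) (hθ1 : θ < 1) (hα : 0 ≤ α) (hα2 : α < 2) (hβ : 2 < α + β) :
    ∃ C : ℝ, 0 < C ∧ ∀ (b : FF) (R : Pl → ℝ), b ≠ 0 → (∀ w, 0 < R w) →
    Summable (fun x : E => if x ≠ 0 ∧ (x : FF) / b ∈ OS then
      sS x ^ (-θ) * ∏ w, (‖em w x‖ / R w) ^ (-α) * (1 + ‖em w x‖ / R w) ^ (-β) else 0) ∧
    ∑' x : E, (if x ≠ 0 ∧ (x : FF) / b ∈ OS then
      sS x ^ (-θ) * ∏ w, (‖em w x‖ / R w) ^ (-α) * (1 + ‖em w x‖ / R w) ^ (-β) else 0)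
      ≤ C * sS b ^ (1 - θ) * ∏ w, R w ^ 2 := by
  obtain ⟨C, hC, h⟩ := card_box_le
  have ha := Lat_geo (r := θ - 1) (by linarith)
  have hc := (Lat_int (γ := 2 - α) (β := β) (by linarith) (by linarith)).mul_left 4
  generalize hK : (∏ _v : SP, ∑' n : ℕ, ((2 : ℝ) ^ n) ^ (θ - 1)) *
    ∏ _w : Pl, ∑' j : ℤ, 4 * (((2 : ℝ) ^ j) ^ (2 - α) * (1 + (2 : ℝ) ^ j) ^ (-β)) = K
  refine ⟨C * (|K| + 1), by positivity, fun b R hb hR => ?_⟩
  have hs := sS_pos b
  have hP : 0 < ∏ w, R w ^ 2 := Finset.prod_pos fun w _ => pow_pos (hR w) 2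
  have h0 : ∀ x : E, 0 ≤ (if x ≠ 0 ∧ (x : FF) / b ∈ OS then
      sS x ^ (-θ) * ∏ w, (‖em w x‖ / R w) ^ (-α) * (1 + ‖em w x‖ / R w) ^ (-β) else 0) := fun x => by
    split_ifs
    · exact mul_nonneg (Real.rpow_nonneg (sS_pos _).le _) (Finset.prod_nonneg fun w _ => by
        have := hR w; positivity)
    · rfl
  suffices H : ∀ J : Finset E, _ from ⟨summable_of_sum_le h0 H, Real.tsum_le_of_sum_le h0 H⟩
  intro J
  rw [← Finset.sum_filter]
  refine (Lat_dyadic hb hR ha (fun n => by positivity) hc (fun j => by positivity)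
    (M := C * sS b ^ (1 - θ) * ∏ w, R w ^ 2) (by positivity) _ _
    (fun x hx => (Finset.mem_filter.1 hx).2) fun n j I hI hx => ?_).trans ?_
  · obtain ⟨y, y0, hy⟩ := exists_ord_S fun v => ord v.1 b + n v
    have y1 : (y : FF) ≠ 0 := by simpa using y0
    have h1 := (Nat.cast_le.2 (Finset.card_le_card (s := I) fun x hx' => (mem_box y1).2
      ⟨(Finset.mem_filter.1 (hI hx')).2.1, (div_mem_OS_iff y1).2 fun v =>
        .inr (by rw [hy, (hx x hx').1]), fun w => pow_le_pow_left₀ (norm_nonneg _)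
          ((div_lt_iff₀ (hR w)).1 ((hx x hx').2 w).2).le 2⟩)).trans
      (h y (fun w => (2 ^ (j w + 1) * R w) ^ 2) y1 fun w => by have := hR w; positivity)
    have h2 : ∀ x ∈ I, sS x ^ (-θ) * ∏ w, (‖em w x‖ / R w) ^ (-α) * (1 + ‖em w x‖ / R w) ^ (-β) ≤
        sS y ^ (-θ) * ∏ w, ((2 : ℝ) ^ j w) ^ (-α) * (1 + (2 : ℝ) ^ j w) ^ (-β) := fun x hx' => by
      rw [Lat_sS (hx x hx').1, ← Lat_sS hy]
      refine mul_le_mul_of_nonneg_left (Finset.prod_le_prod (fun w _ => by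
        have := hR w; positivity) fun w _ => ?_) (Real.rpow_nonneg (sS_pos _).le _)
      have := ((hx x hx').2 w).1
      exact mul_le_mul (Real.rpow_le_rpow_of_nonpos (by positivity) this (by linarith))
        (Real.rpow_le_rpow_of_nonpos (by positivity) (by linarith) (by linarith))
        (by have := hR w; positivity) (by positivity)
    have h3 : sS y * sS y ^ (-θ) ≤ sS b ^ (1 - θ) * ∏ v, ((2 : ℝ) ^ n v) ^ (θ - 1) := by
      rw [← Real.rpow_one_add' (sS_pos _).le (by linarith), Lat_sS hy, ← sub_eq_add_neg,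
        Real.mul_rpow hs.le (by positivity), ← Real.finsetProd_rpow _ _ fun _ _ => by positivity]
      refine mul_le_mul_of_nonneg_left (Finset.prod_le_prod (fun _ _ => by positivity)
        fun v _ => ?_) (by positivity)
      rw [Real.inv_rpow (by positivity), ← Real.rpow_neg (by positivity), neg_sub]
      exact Real.rpow_le_rpow_of_nonpos (by positivity)
        (pow_le_pow_left₀ two_pos.le (by exact_mod_cast two_le_qv v.1) _) (by linarith)
    have h4 : (∏ w, (2 ^ (j w + 1) * R w) ^ 2) *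
        ∏ w, ((2 : ℝ) ^ j w) ^ (-α) * (1 + (2 : ℝ) ^ j w) ^ (-β) = (∏ w, R w ^ 2) *
        ∏ w, 4 * (((2 : ℝ) ^ j w) ^ (2 - α) * (1 + (2 : ℝ) ^ j w) ^ (-β)) := by
      simp only [← Finset.prod_mul_distrib]
      refine Finset.prod_congr rfl fun w _ => ?_
      rw [sub_eq_add_neg, Real.rpow_add (by positivity), zpow_add_one₀ two_ne_zero, Real.rpow_two]
      ring
    refine (Finset.sum_le_card_nsmul _ _ _ h2).trans ?_
    rw [nsmul_eq_mul]
    refine (mul_le_mul_of_nonneg_right h1 (mul_nonneg (Real.rpow_nonneg (sS_pos _).le _)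
      (by positivity))).trans ?_
    rw [mul_assoc, mul_mul_mul_comm, h4]
    refine (mul_le_mul_of_nonneg_left (mul_le_mul_of_nonneg_right h3 (by positivity))
      hC.le).trans_eq ?_
    ring
  · rw [hK]
    have : 0 < C * sS b ^ (1 - θ) * ∏ w, R w ^ 2 := by positivity
    nlinarith [le_abs_self K]

theorem Lat_nz {β : ℝ} (hβ : 2 < β) : ∃ C : ℝ, 0 < C ∧ ∀ (b : FF) (R : Pl → ℝ), b ≠ 0 →
    (∀ w, 0 < R w) → Summable (fun x : E => if x ≠ 0 ∧ (x : FF) / b ∈ OS then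
      ∏ w, (1 + ‖em w x‖ / R w) ^ (-β) else 0) ∧
    ∑' x : E, (if x ≠ 0 ∧ (x : FF) / b ∈ OS then ∏ w, (1 + ‖em w x‖ / R w) ^ (-β) else 0)
      ≤ C * sS b * ∏ w, R w ^ 2 := by
  simpa only [neg_zero, Real.rpow_zero, one_mul, sub_zero, Real.rpow_one] using
    lat_sum (θ := 0) (α := 0) (β := β) le_rfl one_pos le_rfl two_pos (by linarith)

theorem lat_decay {β : ℝ} (hβ : 2 < β) : ∃ C : ℝ, 0 < C ∧ ∀ (b : FF) (R : Pl → ℝ), b ≠ 0 →
    (∀ w, 0 < R w) →
    Summable (fun x : E => if (x : FF) / b ∈ OS then ∏ w, (1 + ‖em w x‖ / R w) ^ (-β) else 0) ∧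
    ∑' x : E, (if (x : FF) / b ∈ OS then ∏ w, (1 + ‖em w x‖ / R w) ^ (-β) else 0)
      ≤ 1 + C * sS b * ∏ w, R w ^ 2 := by
  obtain ⟨C, hC, h⟩ := Lat_nz hβ
  refine ⟨C, hC, fun b R hb hR => ?_⟩
  obtain ⟨h1, h2⟩ := h b R hb hR
  have h3 : HasSum (fun x : E => if (x : FF) / b ∈ OS then ∏ w, (1 + ‖em w x‖ / R w) ^ (-β) else 0)
      (1 + ∑' x : E, if x ≠ 0 ∧ (x : FF) / b ∈ OS then ∏ w, (1 + ‖em w x‖ / R w) ^ (-β) else 0) := by
    convert (hasSum_ite_eq (0 : E) (1 : ℝ)).add h1.hasSum using 2 with x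
    rcases eq_or_ne x 0 with rfl | hx <;> simp [*]
  exact ⟨h3.summable, h3.tsum_eq.trans_le (by linarith)⟩

theorem summable_shift_decay {β : ℝ} (hβ : 2 < β) {b : FF} (hb : b ≠ 0) (a c : Pl → ℂ)
    (ha : ∀ w, a w ≠ 0) :
    Summable fun x : E => if (x : FF) / b ∈ OS then ∏ w, (1 + ‖a w * em w x + c w‖) ^ (-β) else 0 := by
  obtain ⟨C, -, h⟩ := lat_decay hβ
  refine ((h b (fun w => ‖a w‖⁻¹) hb fun w => inv_pos.2 (norm_pos_iff.2 (ha w))).1.mul_left
    (∏ w, (1 + ‖c w‖) ^ β)).of_nonneg_of_le (fun x => by positivity) fun x => ?_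
  split_ifs
  · rw [← Finset.prod_mul_distrib]
    refine Finset.prod_le_prod (fun w _ => by positivity) fun w _ => ?_
    rw [div_inv_eq_mul, ← norm_mul, mul_comm (em w x), ← inv_inv (_ ^ β),
      ← Real.rpow_neg (by positivity), ← div_eq_inv_mul,
      ← Real.div_rpow (by positivity) (by positivity)]
    refine Real.rpow_le_rpow_of_nonpos (by positivity) ?_ (by linarith)
    rw [div_le_iff₀ (by positivity)]
    have := norm_sub_le (a w * em w x + c w) (c w)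
    rw [add_sub_cancel_right] at this
    nlinarith [mul_nonneg (norm_nonneg (a w * em w x + c w)) (norm_nonneg (c w))]
  · rw [mul_zero]

/-- Gaussian sums over the nonzero points, and their tails. -/
theorem gauss_tail {B : ℝ} (hB : 0 ≤ B) : ∃ C : ℝ, 0 < C ∧ ∀ (b : FF) (T : Pl → ℝ) (A : ℝ), b ≠ 0 →
    (∀ w, 0 < T w) → 0 < A →
    Summable (fun x : E => if (x : FF) / b ∈ OS then ∏ w, Vg (‖em w x‖ ^ 2 / T w) else 0) ∧
    (∑' x : E, if x ≠ 0 ∧ (x : FF) / b ∈ OS then ∏ w, Vg (‖em w x‖ ^ 2 / T w) else 0)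
      ≤ C * (sS b * ∏ w, T w) ∧
    (∑' x : E, if A ≤ nm x ∧ (x : FF) / b ∈ OS then ∏ w, Vg (‖em w x‖ ^ 2 / T w) else 0)
      ≤ C * (sS b * ∏ w, T w) * (A / (sS b * ∏ w, T w)) ^ (-B) := by
  obtain ⟨C, hC, h⟩ := Lat_nz (β := 3) (by norm_num)
  obtain ⟨C', -, h'⟩ := lat_decay (β := 3) (by norm_num)
  generalize hK : ∏ _w : Pl, Real.exp ((3 + 2 * B) ^ 2) = K
  have K0 : 0 < K := hK ▸ Finset.prod_pos fun _ _ => Real.exp_pos _
  refine ⟨K * C, by positivity, fun b T A hb hT hA => ?_⟩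
  have hR : ∀ w, 0 < √(T w) := fun w => Real.sqrt_pos.2 (hT w)
  obtain ⟨h1, h2⟩ := h b _ hb hR
  simp only [fun w => Real.sq_sqrt (hT w).le] at h2
  have hZ : 0 < sS b * ∏ w, T w := mul_pos (sS_pos b) (Finset.prod_pos fun w _ => hT w)
  have v0 : ∀ x : E, 0 ≤ ∏ w, Vg (‖em w x‖ ^ 2 / T w) := fun x =>
    Finset.prod_nonneg fun w _ => (Real.exp_pos _).le
  have e : ∀ (x : E) w, ‖em w x‖ ^ 2 / T w = (‖em w x‖ / √(T w)) ^ 2 := fun x w => by
    rw [div_pow, Real.sq_sqrt (hT w).le]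
  have h3 : ∀ x : E, (∏ w, Vg (‖em w x‖ ^ 2 / T w)) * ∏ w, (1 + ‖em w x‖ / √(T w)) ^ (2 * B) ≤
      K * ∏ w, (1 + ‖em w x‖ / √(T w)) ^ (-3 : ℝ) := fun x => by
    rw [← hK, ← Finset.prod_mul_distrib, ← Finset.prod_mul_distrib]
    refine Finset.prod_le_prod (fun w _ => mul_nonneg (Real.exp_pos _).le (by positivity))
      fun w _ => ?_
    rw [e]
    refine (mul_le_mul_of_nonneg_right (Lat_Vg (β := 3 + 2 * B) (by positivity) (by positivity))
      (by positivity)).trans_eq ?_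
    rw [mul_assoc, ← Real.rpow_add (by positivity), show -(3 + 2 * B) + 2 * B = -3 by ring]
  have h4 : ∀ x : E, ∏ w, Vg (‖em w x‖ ^ 2 / T w) ≤
      K * ∏ w, (1 + ‖em w x‖ / √(T w)) ^ (-3 : ℝ) := fun x =>
    (le_mul_of_one_le_right (v0 x) (Finset.one_le_prod fun w _ => Real.one_le_rpow
      (le_add_of_nonneg_right (by positivity)) (by positivity))).trans (h3 x)
  have H : ∀ (p : E → Prop) [DecidablePred p] (M : ℝ), 0 ≤ M → (∀ x, p x → x ≠ 0 ∧ ((x : FF) / b ∈ OS →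
      ∏ w, Vg (‖em w x‖ ^ 2 / T w) ≤ M * ∏ w, (1 + ‖em w x‖ / √(T w)) ^ (-3 : ℝ))) →
      (∑' x : E, if p x ∧ (x : FF) / b ∈ OS then ∏ w, Vg (‖em w x‖ ^ 2 / T w) else 0) ≤
        M * (C * sS b * ∏ w, T w) := fun p _ M hM hp => by
    refine le_trans ?_ (mul_le_mul_of_nonneg_left h2 hM)
    rw [← tsum_mul_left]
    have h5 : ∀ x : E, (if p x ∧ (x : FF) / b ∈ OS then ∏ w, Vg (‖em w x‖ ^ 2 / T w) else 0) ≤
        M * if x ≠ 0 ∧ (x : FF) / b ∈ OS then ∏ w, (1 + ‖em w x‖ / √(T w)) ^ (-3 : ℝ) else 0 := by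
      intro x
      by_cases hx : p x ∧ (x : FF) / b ∈ OS
      · rw [if_pos hx, if_pos ⟨(hp x hx.1).1, hx.2⟩]
        exact (hp x hx.1).2 hx.2
      · rw [if_neg hx]
        positivity
    exact ((h1.mul_left M).of_nonneg_of_le (fun x => ite_nonneg (v0 x) le_rfl) h5).tsum_le_tsum h5
      (h1.mul_left M)
  refine ⟨((h' b _ hb hR).1.mul_left K).of_nonneg_of_le (fun x => ite_nonneg (v0 x) le_rfl)
    fun x => ?_, le_of_le_of_eq (H _ K K0.le fun x hx => ⟨hx, fun _ => h4 x⟩) (by ring),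
    le_of_le_of_eq (H _ (K * (A / (sS b * ∏ w, T w)) ^ (-B)) (by positivity) fun x hx => ?_)
      (by ring)⟩
  · split_ifs
    · exact h4 x
    · rw [mul_zero]
  · have x0 : x ≠ 0 := by
      rintro rfl
      rw [nm_zero, Nat.cast_zero] at hx
      exact hA.not_ge hx
    refine ⟨x0, fun hx' => ?_⟩
    have h5 : (A / (sS b * ∏ w, T w)) ^ B ≤ ∏ w, (1 + ‖em w x‖ / √(T w)) ^ (2 * B) := by
      simp only [Real.rpow_mul (show 0 ≤ 1 + ‖em _ (x : FF)‖ / √(T _) by positivity)]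
      rw [Real.finsetProd_rpow _ _ fun _ _ => by positivity]
      refine Real.rpow_le_rpow (by positivity) ?_ hB
      rw [div_le_iff₀ hZ, mul_left_comm, ← Finset.prod_mul_distrib]
      refine hx.trans ((nm_le_box hb x0 hx').trans (mul_le_mul_of_nonneg_left
        (Finset.prod_le_prod (fun _ _ => by positivity) fun w _ => ?_) (sS_pos b).le))
      rw [← div_le_iff₀ (hT w), e, Real.rpow_two]
      exact pow_le_pow_left₀ (by positivity) (le_add_of_nonneg_left zero_le_one) 2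
    rw [Real.rpow_neg (by positivity), mul_right_comm, ← div_eq_mul_inv, le_div_iff₀ (by positivity)]
    exact (mul_le_mul_of_nonneg_left h5 (v0 x)).trans (h3 x)

end NQ
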