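import Vale.Agent.NQ.UnfL
import Vale.Agent.NQ.EulA
import Vale.Agent.NQ.Lat
import Vale.Agent.NQ.SInt
import Vale.Agent.NQ.Chr
import Vale.Agent.NQ.Rsum

noncomputable section
namespace NQ
open Complex MeasureTheory NumberField Filter
open scoped ComplexConjugate Classical ContDiff Topology

section Gen
variable {α : Type} [MeasurableSpace α] {μ : Measure α} {g T : α → ℝ} {L : ℝ}

theorem heckeA_norm (g t : ℝ) (z : ℂ) :
    ‖(g : ℂ) * Complex.exp (z * t)‖ = |g| * Real.exp (z.re * t) := by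
  rw [norm_mul, Complex.norm_real, Complex.norm_exp]
  simp

theorem heckeA_le (g : ℝ) {t L s : ℝ} {z : ℂ} (ht : L ≤ t) (hz : z.re ≤ s) :
    ‖(g : ℂ) * Complex.exp (z * t)‖ ≤
      Real.exp ((z.re - s) * L) * ‖(g : ℂ) * Complex.exp ((s : ℂ) * t)‖ := by
  rw [heckeA_norm, heckeA_norm, mul_left_comm, ← Real.exp_add, Complex.ofReal_re]
  refine mul_le_mul_of_nonneg_left (Real.exp_le_exp.2 ?_) (abs_nonneg _)
  nlinarith

theorem heckeA_meas (hT : Measurable T) {s : ℝ}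
    (h : Integrable (fun u => (g u : ℂ) * Complex.exp ((s : ℂ) * T u)) μ) (z : ℂ) :
    AEStronglyMeasurable (fun u => (g u : ℂ) * Complex.exp (z * T u)) μ := by
  have h1 : Measurable fun u => Complex.exp ((z - s) * T u) := by fun_prop
  refine (h.1.mul h1.aestronglyMeasurable).congr (ae_of_all _ fun u => ?_)
  simp only [Pi.mul_apply]
  rw [mul_assoc, ← Complex.exp_add]
  congr 2
  ring

theorem heckeA_int (hT : Measurable T) (hL : ∀ᵐ u ∂μ, L ≤ T u)
    (h : ∀ s : ℝ, 1 < s → Integrable (fun u => (g u : ℂ) * Complex.exp ((s : ℂ) * T u)) μ)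
    (z : ℂ) : Integrable (fun u => (g u : ℂ) * Complex.exp (z * T u)) μ := by
  have h1 := h (max z.re 2) (lt_of_lt_of_le one_lt_two (le_max_right _ _))
  refine (h1.norm.const_mul (Real.exp ((z.re - max z.re 2) * L))).mono' (heckeA_meas hT h1 z) ?_
  filter_upwards [hL] with u hu
  exact heckeA_le _ hu (le_max_left _ _)

theorem heckeA_diff (hT : Measurable T) (hL : ∀ᵐ u ∂μ, L ≤ T u)
    (h : ∀ s : ℝ, 1 < s → Integrable (fun u => (g u : ℂ) * Complex.exp ((s : ℂ) * T u)) μ) :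
    Differentiable ℂ fun z : ℂ => ∫ u, (g u : ℂ) * Complex.exp (z * T u) ∂μ := by
  intro z0
  have hI := heckeA_int hT hL h
  refine (hasDerivAt_integral_of_dominated_loc_of_deriv_le (Metric.ball_mem_nhds z0 one_pos)
    (F' := fun z u => (g u : ℂ) * Complex.exp (z * T u) * T u)
    (bound := fun u => ‖(g u : ℂ) * Complex.exp ((z0 + 2) * T u)‖ +
      ‖(g u : ℂ) * Complex.exp ((z0 - 2) * T u)‖)
    (Eventually.of_forall fun z => (hI z).1) (hI z0)
    ((hI z0).1.mul (by fun_prop : Measurable fun u => (T u : ℂ)).aestronglyMeasurable)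
    (ae_of_all _ fun u z hz => ?_) ((hI _).norm.add (hI _).norm)
    (ae_of_all _ fun u z _ => ?_)).2.differentiableAt
  · rw [norm_mul, heckeA_norm, heckeA_norm, heckeA_norm, Complex.norm_real, Real.norm_eq_abs,
      mul_assoc, ← mul_add]
    refine mul_le_mul_of_nonneg_left ?_ (abs_nonneg _)
    have h1 : |z.re - z0.re| ≤ 1 := by
      rw [← Complex.sub_re]
      exact (Complex.abs_re_le_norm _).trans (mem_ball_iff_norm.1 hz).le
    have h2 : |T u| ≤ Real.exp |T u| := by linarith [Real.add_one_le_exp |T u|]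
    refine (mul_le_mul_of_nonneg_left h2 (Real.exp_pos _).le).trans ?_
    rw [← Real.exp_add]
    obtain ⟨h3, h4⟩ := abs_le.1 h1
    rcases abs_cases (T u) with h5 | h5
    · refine le_add_of_le_of_nonneg (Real.exp_le_exp.2 ?_) (Real.exp_pos _).le
      simp only [Complex.add_re, Complex.re_ofNat, h5.1]
      nlinarith [h5.2]
    · refine le_add_of_nonneg_of_le (Real.exp_pos _).le (Real.exp_le_exp.2 ?_)
      simp only [Complex.sub_re, Complex.re_ofNat, h5.1]
      nlinarith [h5.2]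
  · rw [mul_assoc]
    refine HasDerivAt.const_mul _ ?_
    simpa using ((hasDerivAt_id z).mul_const (T u : ℂ)).cexp

theorem heckeA_real (g T : α → ℝ) (x : ℝ) :
    ∫ u, (g u : ℂ) * Complex.exp ((x : ℂ) * T u) ∂μ = ((∫ u, g u * Real.exp (x * T u) ∂μ : ℝ) : ℂ) := by
  rw [← integral_complex_ofReal]
  simp

end Gen

variable [σ : St]

theorem Tht_nonneg (b : FF) (u : Pl → ℝ) : 0 ≤ Tht b u := by
  refine tsum_nonneg fun x => ?_
  split_ifs
  · exact Finset.prod_nonneg fun _ _ => (Real.exp_pos _).le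
  · exact le_rfl
theorem Tl_dual (hk : KapSq) {b : FF} (hb : b ≠ 0) (u : Pl → ℝ) :
    Tl (1 / (b * del)) (-u) = 2 * Real.log kap - Tl b u := by
  have h1 : Real.log (sS del) = 2 * Real.log kap := by
    rw [← show kap ^ 2 = sS del from hk, Real.log_pow]
    norm_num
  rw [Tl, Tl, one_div, sS_inv, sS_mul hb del_ne_zero, Real.log_inv,
    Real.log_mul (sS_pos _).ne' (sS_pos _).ne', h1]
  simp only [Pi.neg_apply, Finset.sum_neg_distrib]
  ring

theorem heckeA_theta {b : FF} (hb : b ≠ 0) (u : Pl → ℝ) :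
    ∑' x : E, il b x * ∏ w, ((Vg (‖em w x‖ ^ 2 * Real.exp (u w)) : ℝ) : ℂ) =
      ((Tht b u + 1 : ℝ) : ℂ) := by
  obtain ⟨C, -, hC⟩ := gauss_tail (B := 0) le_rfl
  have hs := (hC b (fun w => Real.exp (-u w)) 1 hb (fun _ => Real.exp_pos _) one_pos).1
  simp only [Real.exp_neg, div_inv_eq_mul] at hs
  have h1 := hs.tsum_eq_add_tsum_ite 0
  have h2 : (if ((0 : E) : FF) / b ∈ OS then
      ∏ w, Vg (‖em w ((0 : E) : FF)‖ ^ 2 * Real.exp (u w)) else 0) = 1 := by
    rw [if_pos (by simp)]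
    simp [QRH.Vg]
  have h3 : Tht b u = ∑' x : E, if x = 0 then 0 else
      if (x : FF) / b ∈ OS then ∏ w, Vg (‖em w x‖ ^ 2 * Real.exp (u w)) else 0 := by
    refine tsum_congr fun x => ?_
    by_cases hx : x = 0 <;> simp [hx]
  rw [h3, add_comm, ← h2, ← h1, Complex.ofReal_tsum]
  refine tsum_congr fun x => ?_
  rw [il]
  split_ifs <;> simp

/-- The functional equation of the theta function. -/
theorem Tht_fe (h : PSG) {b : FF} (hb : b ≠ 0) (u : Pl → ℝ) :
    Tht b u + 1 = kap * Real.exp (-Tl b u) * (Tht (1 / (b * del)) (-u) + 1) := by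
  have h1 := h 1 (fun _ => 1) b (fun w => Real.exp (-u w)) one_ne_zero (fun _ _ _ => rfl) hb
    fun _ => Real.exp_pos _
  simp only [psf_of_dvd (one_dvd _), rsum_const one_ne_zero, nm_one, OneMemClass.coe_one, map_one,
    norm_one, one_pow, div_one, mul_one, one_mul, Nat.cast_one] at h1
  have h2 := heckeA_theta hb u
  have h3 := heckeA_theta (one_div_ne_zero (mul_ne_zero hb del_ne_zero)) (-u)
  have h4 : ∀ (y : ℝ) (w : Pl), y / Real.exp (-u w) = y * Real.exp (u w) := fun y w => by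
    rw [Real.exp_neg, div_inv_eq_mul]
  simp only [Pi.neg_apply] at h3
  simp only [h4] at h1
  rw [h2, h3, ← Complex.ofReal_mul, Complex.ofReal_inj] at h1
  rw [h1, Tl, neg_sub, Real.exp_sub, Real.exp_log (sS_pos b), ← Real.exp_sum,
    Finset.sum_neg_distrib, Real.exp_neg]
  ring
/-- The part of the integral where the scale is large. -/
def Itl (φ : (Pl → ℝ) → ℝ) (A : Finset FF) (L : ℝ) (z : ℂ) : ℂ :=
  ∑ b ∈ A, ∫ u in {u | L ≤ Tl b u}, ((φ u * Tht b u : ℝ) : ℂ) * Complex.exp (z * Tl b u)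

theorem heckeA_Tl (b : FF) : Measurable (Tl b) := by
  unfold Tl
  fun_prop

theorem heckeA_set (b : FF) (L : ℝ) : MeasurableSet {u | L ≤ Tl b u} :=
  measurableSet_le measurable_const (heckeA_Tl b)

theorem integrableOn_Itl (hU : Unf) {φ : (Pl → ℝ) → ℝ} {A : Finset FF} (hφ : IsPhi φ)
    (hA : IsA0 A) (L : ℝ) (z : ℂ) {b : FF} (hb : b ∈ A) :
    IntegrableOn (fun u => ((φ u * Tht b u : ℝ) : ℂ) * Complex.exp (z * Tl b u)) {u | L ≤ Tl b u} :=
  heckeA_int (g := fun u => φ u * Tht b u) (heckeA_Tl b) (ae_restrict_mem (heckeA_set b L))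
    (fun s hs => ((hU φ A hφ hA s hs).1 b hb).integrableOn) z
theorem differentiable_Itl (hU : Unf) {φ : (Pl → ℝ) → ℝ} {A : Finset FF} (hφ : IsPhi φ)
    (hA : IsA0 A) (L : ℝ) : Differentiable ℂ (Itl φ A L) :=
  Differentiable.fun_sum fun b hb =>
    heckeA_diff (g := fun u => φ u * Tht b u) (heckeA_Tl b) (ae_restrict_mem (heckeA_set b L))
      fun s hs => ((hU φ A hφ hA s hs).1 b hb).integrableOn

omit σ in
theorem heckeA_GG (n : ℕ) : GG (n + 1 : ℕ) =
    (((2 * Real.pi / √3) ^ (n + 1))⁻¹ * n.factorial : ℝ) := by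
  rw [GG, Complex.cpow_neg, Complex.cpow_natCast, Nat.cast_succ, Complex.Gamma_nat_eq_factorial]
  push_cast
  ring

omit σ in
theorem heckeA_GG2 : ∃ a b : ℝ, GG 2 = a ∧ GG 4 = b ∧ 0 < a ∧ a ≤ 1 ∧ 0 < b ∧ b ≤ 1 := by
  have h1 : (2 : ℝ) ≤ 2 * Real.pi / √3 := by
    rw [le_div_iff₀ (by positivity)]
    have : √3 ≤ 2 := Real.sqrt_le_iff.2 ⟨by norm_num, by norm_num⟩
    linarith [Real.pi_gt_three]
  have h2 := heckeA_GG 1
  have h4 := heckeA_GG 3
  rw [show ((1 + 1 : ℕ) : ℂ) = 2 by norm_num] at h2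
  rw [show ((3 + 1 : ℕ) : ℂ) = 4 by norm_num] at h4
  refine ⟨_, _, h2, h4, by positivity, ?_, by positivity, ?_⟩
  · rw [inv_mul_le_iff₀ (by positivity)]
    refine le_trans ?_ ((pow_le_pow_left₀ (by norm_num) h1 (1 + 1)).trans (mul_one _).ge)
    norm_num
  · rw [inv_mul_le_iff₀ (by positivity)]
    have := pow_le_pow_left₀ (by norm_num) h1 (3 + 1)
    norm_num [Nat.factorial] at this ⊢
    linarith

theorem norm_Itl_le (hU : Unf) {φ : (Pl → ℝ) → ℝ} {A : Finset FF} (hφ : IsPhi φ) (hA : IsA0 A)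
    (L : ℝ) {z : ℂ} (hz : z.re ≤ 4) :
    ‖Itl φ A L z‖ ≤ Real.exp ((z.re - 4) * L) * (zeta FF 2).re := by
  obtain ⟨h1, h2⟩ := hU φ A hφ hA ((4 : ℝ) : ℂ) (by norm_num)
  have hg : ∀ b u, 0 ≤ φ u * Tht b u := fun b u => mul_nonneg (hφ.2.1 u).1 (Tht_nonneg b u)
  have h3 : ∀ b ∈ A, ‖∫ u in {u | L ≤ Tl b u},
      ((φ u * Tht b u : ℝ) : ℂ) * Complex.exp (z * Tl b u)‖ ≤
      Real.exp ((z.re - 4) * L) * ∫ u, φ u * Tht b u * Real.exp (4 * Tl b u) := by
    intro b hb
    have h4 := (h1 b hb).norm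
    refine (norm_integral_le_of_norm_le (h4.integrableOn.const_mul (Real.exp ((z.re - 4) * L)))
      ?_).trans ?_
    · filter_upwards [ae_restrict_mem (heckeA_set b L)] with u hu
      exact heckeA_le _ hu hz
    · rw [integral_const_mul]
      refine mul_le_mul_of_nonneg_left ?_ (Real.exp_pos _).le
      refine (setIntegral_le_integral h4 (ae_of_all _ fun _ => norm_nonneg _)).trans
        (le_of_eq (integral_congr_ae (ae_of_all _ fun u => ?_)))
      simp only [heckeA_norm, abs_of_nonneg (hg b u), Complex.ofReal_re]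
  refine (norm_sum_le _ _).trans ((Finset.sum_le_sum h3).trans ?_)
  rw [← Finset.mul_sum]
  refine mul_le_mul_of_nonneg_left (le_trans ?_ zeta_four_le) (Real.exp_pos _).le
  obtain ⟨a, c, -, h5, -, -, h6, h7⟩ := heckeA_GG2
  have h8 := zeta_real (F := FF) (θ := 4) (by norm_num)
  simp only [heckeA_real (fun u => φ u * Tht _ u)] at h2
  rw [← Complex.ofReal_sum, Complex.ofReal_ofNat, h5, ← Complex.ofReal_pow] at h2
  rw [Complex.ofReal_ofNat] at h8
  have h9 : 0 ≤ (zeta FF 4).re := by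
    rw [h8, Complex.ofReal_re]
    exact tsum_nonneg fun _ => by positivity
  have h10 := congrArg Complex.re h2
  rw [Complex.ofReal_re, Complex.re_ofReal_mul] at h10
  rw [h10]
  exact mul_le_of_le_one_left h9 (pow_le_one₀ h6.le h7)
theorem Itl_re_nonneg {φ : (Pl → ℝ) → ℝ} (hφ : IsPhi φ) (A : Finset FF) (L x : ℝ) :
    0 ≤ (Itl φ A L x).re ∧ (Itl φ A L x).im = 0 := by
  simp only [Itl, heckeA_real (fun u => φ u * Tht _ u)]
  rw [← Complex.ofReal_sum, Complex.ofReal_re, Complex.ofReal_im]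
  exact ⟨Finset.sum_nonneg fun b _ => integral_nonneg fun u =>
    mul_nonneg (mul_nonneg (hφ.2.1 u).1 (Tht_nonneg b u)) (Real.exp_pos _).le, rfl⟩
theorem GG_two_four : ∃ a b : ℝ, GG 2 = a ∧ GG 4 = b ∧ 0 < a ∧ a ≤ 1 ∧ 0 < b ∧ b ≤ 1 :=
  have _ := σ
  heckeA_GG2

end NQ
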