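import Vale.Agent.NQ.Lat0

noncomputable section
namespace NQ
open Complex MeasureTheory NumberField Filter
open scoped ComplexConjugate Classical ContDiff Topology

variable [σ : St]

/-- If the lattice translates of a set cover the space, its volume is at least the covolume. -/
theorem kapB_cover {n : ℕ} (B : Module.Basis (Fin n) ℝ (Pl → ℂ)) (K : Set (Pl → ℂ))
    (hK : ∀ z : Pl → ℂ, ∃ g ∈ Submodule.span ℤ (Set.range B), z - g ∈ K) :
    volume (ZSpan.fundamentalDomain B) ≤ volume K := by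
  have hF := ZSpan.isAddFundamentalDomain B (volume : Measure (Pl → ℂ))
  have : VAddInvariantMeasure (Submodule.span ℤ (Set.range B)) (Pl → ℂ) volume :=
    ⟨fun c s _ => measure_preimage_add volume (c : Pl → ℂ) s⟩
  rw [hF.measure_eq_tsum K]
  refine le_trans (measure_mono fun z hz => ?_) (measure_iUnion_le _)
  obtain ⟨g, hg, hz'⟩ := hK z
  refine Set.mem_iUnion.2 ⟨⟨g, hg⟩, ⟨z - g, hz', ?_⟩, hz⟩
  show g + (z - g) = z
  ring

theorem kap_inv_le {H : ℝ} (hH : 1 ≤ H)
    (h : Submodule.span ℚ {y : FF | IsIntegral ℤ y ∧ ∀ φ : FF →+* ℂ, ‖φ y‖ ≤ H} = ⊤) :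
    kap⁻¹ ≤ (3 * Module.finrank ℚ FF * H) ^ Module.finrank ℚ FF := by
  obtain ⟨n, b, B, hn, hB, hL, hcov, -⟩ := exists_latBasis
  obtain ⟨t, hts, htc, hsp, -⟩ := Submodule.exists_finset_span_eq_linearIndepOn ℚ
    {y : FF | IsIntegral ℤ y ∧ ∀ φ : FF →+* ℂ, ‖φ y‖ ≤ H}
  rw [h] at htc hsp
  rw [finrank_top] at htc
  set N := Module.finrank ℚ FF with hN
  have hH0 : 0 ≤ H := by linarith
  let e : FF → Pl → ℂ := fun y w => em w y
  have hall : ∀ y : FF, e y ∈ Submodule.span ℝ (Set.range fun i : t => e i) := by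
    intro y
    have hy : y ∈ Submodule.span ℚ (t : Set FF) := by rw [hsp]; trivial
    induction hy using Submodule.span_induction with
    | mem x hx => exact Submodule.subset_span ⟨⟨x, hx⟩, rfl⟩
    | zero =>
      have : e 0 = 0 := by ext w; simp [e]
      rw [this]; exact Submodule.zero_mem _
    | add x y _ _ hx hy =>
      have : e (x + y) = e x + e y := by ext w; simp [e]
      rw [this]; exact Submodule.add_mem _ hx hy
    | smul a x _ hx =>
      have : e (a • x) = (a : ℝ) • e x := by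
        ext w
        simp [e, Rat.smul_def]
      rw [this]; exact Submodule.smul_mem _ _ hx
  have htop : Submodule.span ℝ (Set.range fun i : t => e i) = ⊤ := by
    rw [eq_top_iff, ← B.span_eq, Submodule.span_le]
    rintro _ ⟨i, rfl⟩
    have : B i = e (b i : FF) := funext fun w => hB i w
    rw [this]
    exact hall _
  have hint : ∀ i : t, e i ∈ Submodule.span ℤ (Set.range B) := by
    intro i
    obtain ⟨k, hk⟩ := hL.2 ⟨i, (hts i.2).1⟩
    have h1 : (i : FF) = ((∑ j, (k j : 𝓞 FF) * b j : 𝓞 FF) : FF) := by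
      have := congrArg (fun x : 𝓞 FF => (x : FF)) hk
      exact this.symm
    have h2 : e i = ∑ j, k j • B j := by
      ext w
      rw [Finset.sum_apply]
      simp [e, h1, hB]
    rw [h2]
    exact Submodule.sum_mem _ fun j _ =>
      Submodule.smul_mem _ _ (Submodule.subset_span ⟨j, rfl⟩)
  have hcover := kapB_cover B (Metric.closedBall 0 (N * H)) fun z => by
    have hz : z ∈ Submodule.span ℝ (Set.range fun i : t => e i) := by rw [htop]; trivial
    obtain ⟨c, rfl⟩ := (Submodule.mem_span_range_iff_exists_fun ℝ).1 hz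
    refine ⟨∑ i, ⌊c i⌋ • e i, Submodule.sum_mem _ fun i _ => Submodule.smul_mem _ _ (hint i), ?_⟩
    rw [mem_closedBall_zero_iff, ← Finset.sum_sub_distrib]
    refine (norm_sum_le _ _).trans ?_
    have h1 : ∀ i : t, ‖c i • e i - ⌊c i⌋ • e i‖ ≤ H := fun i => by
      rw [← Int.cast_smul_eq_zsmul ℝ, ← sub_smul, norm_smul, Int.self_sub_floor,
        Real.norm_of_nonneg (Int.fract_nonneg _)]
      have h2 : ‖e i‖ ≤ H := (pi_norm_le_iff_of_nonneg hH0).2 fun w => (hts i.2).2 _
      calc Int.fract (c i) * ‖e i‖ ≤ 1 * H :=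
            mul_le_mul (Int.fract_lt_one _).le h2 (norm_nonneg _) zero_le_one
        _ = H := one_mul _
    refine (Finset.sum_le_sum fun i _ => h1 i).trans ?_
    rw [Finset.sum_const, Finset.card_univ, Fintype.card_coe, htc, nsmul_eq_mul]
  have hNH : 0 ≤ (N : ℝ) * H := by positivity
  rw [volume_pi_closedBall _ hNH] at hcover
  simp only [Complex.volume_closedBall, Finset.prod_const, Finset.card_univ] at hcover
  have h3 : ZLattice.covolume latO ≤ (((N : ℝ) * H) ^ 2 * Real.pi) ^ rk := by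
    rw [hcov]
    refine (ENNReal.toReal_mono (by finiteness) hcover).trans (le_of_eq ?_)
    rw [ENNReal.toReal_pow, ENNReal.toReal_mul, ENNReal.toReal_pow, ENNReal.toReal_ofReal hNH]
    rfl
  have h4 : (2 / √3 : ℝ) ≤ 2 := by
    refine div_le_self (by norm_num) ?_
    rw [Real.one_le_sqrt]
    norm_num
  unfold kap
  rw [inv_inv]
  calc (2 / √3) ^ rk * ZLattice.covolume latO
      ≤ (2 / √3) ^ rk * (((N : ℝ) * H) ^ 2 * Real.pi) ^ rk :=
        mul_le_mul_of_nonneg_left h3 (by positivity)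
    _ = (2 / √3 * Real.pi * ((N : ℝ) * H) ^ 2) ^ rk := by rw [← mul_pow]; ring
    _ ≤ ((3 * N * H) ^ 2) ^ rk := by
        refine pow_le_pow_left₀ (by positivity) ?_ _
        have h5 : 2 / √3 * Real.pi ≤ 9 := by
          have := Real.pi_le_four
          calc 2 / √3 * Real.pi ≤ 2 * 4 := mul_le_mul h4 this Real.pi_pos.le (by norm_num)
            _ ≤ 9 := by norm_num
        calc 2 / √3 * Real.pi * ((N : ℝ) * H) ^ 2 ≤ 9 * ((N : ℝ) * H) ^ 2 :=
              mul_le_mul_of_nonneg_right h5 (by positivity)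
          _ = (3 * N * H) ^ 2 := by ring
    _ = (3 * N * H) ^ N := by rw [← pow_mul, two_mul_rk]

end NQ
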