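import Vale.Agent.NQ.Ord
import Vale.Agent.NQ.Stm2

noncomputable section
namespace NQ
open NumberField IsDedekindDomain Polynomial
open scoped Classical

theorem Kum_dvd {F1 F2 : Type} [Field F1] [NumberField F1] [Field F2] [NumberField F2]
    [Algebra F1 F2] {α : 𝓞 F2} {m : (𝓞 F1)[X]} (hm : m.Monic) (hα : Polynomial.aeval α m = 0)
    (hirr : Irreducible (m.map (algebraMap (𝓞 F1) F1))) {f : (𝓞 F1)[X]}
    (hf : Polynomial.aeval α f = 0) : m ∣ f := by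
  have key : ∀ g : (𝓞 F1)[X], Polynomial.aeval α g = 0 →
      Polynomial.aeval (algebraMap (𝓞 F2) F2 α) (g.map (algebraMap (𝓞 F1) F1)) = 0 := by
    intro g hg
    rw [aeval_map_algebraMap, aeval_algebraMap_apply, hg, map_zero]
  rw [← Polynomial.map_dvd_map (algebraMap (𝓞 F1) F1) (IsFractionRing.injective _ _) hm,
    minpoly.eq_of_irreducible_of_monic hirr (key m hα) (hm.map _)]
  exact minpoly.dvd _ _ (key f hf)

theorem Kum_prime {F1 F2 : Type} [Field F1] [NumberField F1] [Field F2] [NumberField F2]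
    [Algebra F1 F2] {α : 𝓞 F2} {m : (𝓞 F1)[X]} (hm : m.Monic) (hα : Polynomial.aeval α m = 0)
    (hirr : Irreducible (m.map (algebraMap (𝓞 F1) F1))) (v : HS F1) {r : 𝓞 F1}
    (hr : m.eval r ∈ v.asIdeal) : ∃ w : HS F2, α - algebraMap (𝓞 F1) (𝓞 F2) r ∈ w.asIdeal ∧
      w.asIdeal.comap (algebraMap (𝓞 F1) (𝓞 F2)) = v.asIdeal := by
  let φ : (𝓞 F1)[X] →+* 𝓞 F2 := (Polynomial.aeval α).toRingHom
  have hφ : φ.IsIntegral := by
    refine RingHom.IsIntegral.tower_top (C : 𝓞 F1 →+* (𝓞 F1)[X]) φ ?_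
    have e : φ.comp C = algebraMap (𝓞 F1) (𝓞 F2) := by
      ext1 x
      simp [φ]
    rw [e]
    exact algebraMap_isIntegral_iff.2 inferInstance
  have hv := v.isPrime
  have hP : RingHom.ker φ ≤ v.asIdeal.comap (evalRingHom r) := by
    intro f hf
    obtain ⟨g, rfl⟩ := Kum_dvd hm hα hirr (f := f) hf
    rw [Ideal.mem_comap, coe_evalRingHom, eval_mul]
    exact v.asIdeal.mul_mem_right _ hr
  obtain ⟨Q, hQ, hQ2⟩ : ∃ Q : Ideal (𝓞 F2), Q.IsPrime ∧
      Q.comap φ = v.asIdeal.comap (evalRingHom r) := by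
    let := φ.toAlgebra
    have : Algebra.IsIntegral (𝓞 F1)[X] (𝓞 F2) := ⟨hφ⟩
    exact Ideal.exists_ideal_over_prime_of_isIntegral_of_isDomain _ hP
  have h1 : Q.comap (algebraMap (𝓞 F1) (𝓞 F2)) = v.asIdeal := by
    ext x
    have := SetLike.ext_iff.1 hQ2 (C x)
    simpa [φ, Ideal.mem_comap] using this
  refine ⟨⟨Q, hQ, ?_⟩, ?_, h1⟩
  · rintro rfl
    rw [Ideal.comap_bot_of_injective _ (FaithfulSMul.algebraMap_injective _ _)] at h1
    exact v.ne_bot h1.symm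
  · have := SetLike.ext_iff.1 hQ2 (X - C r)
    simpa [φ, Ideal.mem_comap] using this

theorem Kum_le {F1 F2 : Type} [Field F1] [NumberField F1] [Field F2] [NumberField F2]
    [Algebra F1 F2] {v : HS F1} {w : HS F2}
    (h : w.asIdeal.comap (algebraMap (𝓞 F1) (𝓞 F2)) = v.asIdeal) : qv v ≤ qv w := by
  rw [← card_quot, ← card_quot, ← h]
  have : Finite (𝓞 F2 ⧸ w.asIdeal) := Ideal.finiteQuotientOfFreeOfNeBot _ w.ne_bot
  exact Nat.card_le_card_of_injective _ Ideal.quotientMap_injective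

/-- A polynomial with `l` distinct roots modulo `v` splits `v` completely. -/
theorem split_of_roots {F1 F2 : Type} [Field F1] [NumberField F1] [Field F2] [NumberField F2]
    [Algebra F1 F2] {l : ℕ} (hl : Module.finrank F1 F2 = l) {α : 𝓞 F2} {m : (𝓞 F1)[X]}
    (hm : m.Monic) (hd : m.natDegree = l) (hα : Polynomial.aeval α m = 0)
    (hirr : Irreducible (m.map (algebraMap (𝓞 F1) F1))) (v : HS F1) (r : Fin l → 𝓞 F1)
    (hr : ∀ i, m.eval (r i) ∈ v.asIdeal) (hinj : ∀ i j, r i - r j ∈ v.asIdeal → i = j) :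
    ∃ g : Fin l → HS F2, Function.Injective g ∧
      ∀ i, qv (g i) = qv v ∧ (g i).asIdeal.comap (algebraMap (𝓞 F1) (𝓞 F2)) = v.asIdeal := by
  have _ := hd
  choose g hg1 hg2 using fun i => Kum_prime hm hα hirr v (hr i)
  have hg : Function.Injective g := by
    intro i j hij
    refine hinj i j ?_
    rw [← hg2 i, Ideal.mem_comap, map_sub]
    have := (g i).asIdeal.sub_mem (hij ▸ hg1 j) (hg1 i)
    rwa [sub_sub_sub_cancel_left] at this
  refine ⟨g, hg, fun i => ⟨?_, hg2 i⟩⟩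
  have h1 : ∏ i, (g i).asIdeal ∣ v.asIdeal.map (algebraMap (𝓞 F1) (𝓞 F2)) :=
    Finset.prod_dvd_of_coprime
      (fun i _ j _ hij => HeightOneSpectrum.isCoprime_of_ne _ _ (hg.ne hij))
      fun i _ => Ideal.dvd_iff_le.2 (Ideal.map_le_iff_le_comap.2 (hg2 i).ge)
  have h2 := map_dvd Ideal.absNorm h1
  rw [map_prod, Ideal.absNorm_algebraMap, ← IsFractionRing.finrank_eq (𝓞 F1) F1 (𝓞 F2) F2,
    hl] at h2
  have h0 : 0 < qv v := lt_of_lt_of_le two_pos (two_le_qv v)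
  have h3 : ∏ i, qv (g i) ≤ qv v ^ l := Nat.le_of_dvd (pow_pos h0 l) h2
  by_contra h4
  have h5 := Finset.prod_lt_prod (s := Finset.univ) (f := fun _ : Fin l => qv v)
    (g := fun i => qv (g i)) (fun _ _ => h0) (fun j _ => Kum_le (hg2 j))
    ⟨i, Finset.mem_univ _, lt_of_le_of_ne (Kum_le (hg2 i)) (Ne.symm h4)⟩
  rw [Finset.prod_const, Finset.card_univ, Fintype.card_fin] at h5
  omega

theorem Kum_lift {K : Type} [Field K] {l p : ℕ} (hl : l.Prime) {y : K} (h : y ^ l = p) :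
    ∃ Y : 𝓞 K, Y ^ l = p := by
  have hy : IsIntegral ℤ y := IsIntegral.of_pow hl.pos (h ▸ isIntegral_natCast p)
  obtain ⟨Y, rfl⟩ : ∃ Y : 𝓞 K, algebraMap (𝓞 K) K Y = y := ⟨⟨y, hy⟩, rfl⟩
  refine ⟨Y, RingOfIntegers.coe_injective ?_⟩
  rw [map_pow, map_natCast]
  exact h

theorem Kum_cyc (n : ℕ) [NeZero n] : @IsCyclotomicExtension {n} ℚ (CyclotomicField n ℚ) _ _
    DivisionRing.toRatAlgebra := by
  rw [Subsingleton.elim DivisionRing.toRatAlgebra (CyclotomicField.algebra n ℚ)]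
  exact CyclotomicField.isCyclotomicExtension n ℚ

theorem Kum_not_pow {K : Type} [Field K] [NumberField K] {n l p : ℕ} [NeZero n]
    [IsCyclotomicExtension {n} ℚ K] (hl : l.Prime) (hp : p.Prime) (hn : ¬ p ∣ n)
    (y : K) : y ^ l ≠ p := by
  intro h
  have := Fact.mk hp
  obtain ⟨Y, hY⟩ := Kum_lift hl h
  obtain ⟨⟨P, hP1, hP2⟩⟩ := (Ideal.span {(p : ℤ)}).nonempty_primesOver (S := 𝓞 K)
  have h1 := IsCyclotomicExtension.Rat.ramificationIdx_eq_of_not_dvd p K P hn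
  have h0 : Ideal.span {(p : ℤ)} ≠ ⊥ := by simpa using hp.ne_zero
  have h2 : (Ideal.span {(p : ℤ)}).map (algebraMap ℤ (𝓞 K)) ≤ P :=
    Ideal.map_le_of_le_comap (P.over_def _).le
  rw [← Ideal.ramificationIdx'_eq_ramificationIdx (Ideal.span {(p : ℤ)}) P h0] at h1
  refine (Ideal.ramificationIdx'_ne_one_iff h2).2 ?_ h1
  rw [Ideal.map_span, Set.image_singleton, Ideal.span_le, Set.singleton_subset_iff,
    map_natCast] at h2 ⊢
  rw [← hY] at h2 ⊢
  exact Ideal.pow_le_pow_right hl.two_le (Ideal.pow_mem_pow (hP1.mem_of_pow_mem _ h2) l)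

theorem not_pow_cyclo {n l p : ℕ} [NeZero n] (hl : l.Prime) (hp : p.Prime) (hn : ¬ p ∣ n)
    (y : CyclotomicField n ℚ) : y ^ l ≠ p := by
  have := Kum_cyc n
  exact Kum_not_pow hl hp hn y

theorem Kum_norm {F : Type} [Field F] {ζ : F} {n : ℕ} (hn : n ≠ 0) (h : ζ ^ n = 1)
    (φ : F →+* ℂ) : ‖φ ζ‖ = 1 :=
  Complex.norm_eq_one_of_pow_eq_one (by rw [← map_pow, h, map_one]) hn

theorem Kum_split {F1 F2 : Type} [Field F1] [NumberField F1] [Field F2] [NumberField F2]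
    [Algebra F1 F2] {l s p : ℕ} (hl : l.Prime) (hs : 0 < s) (hp : p.Prime) {ζ : F1}
    (hζ : IsPrimitiveRoot ζ (3 * l ^ s)) (hd : Module.finrank F1 F2 = l) {α : F2}
    (hα : α ^ l = p) (hirr : Irreducible (X ^ l - C (p : F1))) (v : HS F1) (hv : (qv v).Prime)
    (hT : qv v ∉ ({3, l, p} : Finset ℕ)) : l ^ s ∣ qv v - 1 ∧
      ((∃ x : ZMod (qv v), x ^ l = p) → ∃ g : Fin l → HS F2, Function.Injective g ∧
        ∀ i, qv (g i) = qv v ∧ (g i).under (𝓞 F1) = v) := by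
  have : NeZero (3 * l ^ s) := ⟨mul_ne_zero three_ne_zero (pow_ne_zero _ hl.ne_zero)⟩
  simp only [Finset.mem_insert, Finset.mem_singleton, not_or] at hT
  have hc : (qv v).Coprime (3 * l ^ s) :=
    Nat.Coprime.mul_right ((Nat.coprime_primes hv Nat.prime_three).2 hT.1)
      (Nat.Coprime.pow_right _ ((Nat.coprime_primes hv hl).2 hT.2.1))
  have h1 := hζ.toInteger_isPrimitiveRoot.idealQuotient_mk (I := v.asIdeal) hv.ne_one hc
  have hm := v.isMaximal
  have hf : Finite (𝓞 F1 ⧸ v.asIdeal) := Ideal.finiteQuotientOfFreeOfNeBot _ v.ne_bot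
  let := Ideal.Quotient.field v.asIdeal
  let := Fintype.ofFinite (𝓞 F1 ⧸ v.asIdeal)
  refine ⟨?_, ?_⟩
  · refine (Dvd.intro_left _ rfl).trans (h1.dvd_of_pow_eq_one _ ?_)
    rw [← card_quot, Nat.card_eq_fintype_card]
    exact FiniteField.pow_card_sub_one_eq_one _ (h1.ne_zero (NeZero.ne _))
  rintro ⟨x, hx⟩
  have : NeZero (qv v) := ⟨hv.ne_zero⟩
  have hq : ((qv v : ℕ) : 𝓞 F1) ∈ v.asIdeal := Ideal.absNorm_mem _
  have hx1 : ((x.val : ℕ) : 𝓞 F1) ^ l - p ∈ v.asIdeal := by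
    have h2 : ((qv v : ℕ) : ℤ) ∣ (x.val : ℤ) ^ l - p := by
      rw [← ZMod.intCast_zmod_eq_zero_iff_dvd]
      push_cast
      rw [ZMod.natCast_zmod_val, hx, sub_self]
    obtain ⟨c, hc⟩ := h2
    have h3 := congrArg (Int.cast : ℤ → 𝓞 F1) hc
    push_cast at h3
    rw [h3]
    exact v.asIdeal.mul_mem_right _ hq
  have hx2 : ((x.val : ℕ) : 𝓞 F1) ∉ v.asIdeal := fun h => by
    have h2 := v.asIdeal.sub_mem (v.asIdeal.pow_mem_of_mem h l hl.pos) hx1
    rw [sub_sub_cancel] at h2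
    exact Ord_cop ((Nat.coprime_primes hv hp).2 hT.2.2) hq h2
  have e : 3 * l ^ s = 3 * l ^ (s - 1) * l := by
    rw [mul_assoc, ← pow_succ, Nat.sub_add_cancel hs]
  have h2 := hζ.toInteger_isPrimitiveRoot.pow (NeZero.pos _) e
  have h3 := h1.pow (NeZero.pos _) e
  obtain ⟨Y, hY⟩ := Kum_lift hl hα
  obtain ⟨g, hg1, hg2⟩ := split_of_roots hd (α := Y) (m := X ^ l - C (p : 𝓞 F1))
    (monic_X_pow_sub_C _ hl.ne_zero) natDegree_X_pow_sub_C
    (by rw [map_sub, map_pow, aeval_X, aeval_C, map_natCast, hY, sub_self]) (by simpa using hirr) v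
    (fun i => x.val * (hζ.toInteger ^ (3 * l ^ (s - 1))) ^ (i : ℕ)) (fun i => by
      rw [eval_sub, eval_pow, eval_X, eval_C, mul_pow, ← pow_mul, mul_comm (i : ℕ), pow_mul,
        h2.pow_eq_one, one_pow, mul_one]
      exact hx1) fun i j hij => by
      rw [← mul_sub] at hij
      have h4 := (v.isPrime.mem_or_mem hij).resolve_left hx2
      rw [← Ideal.Quotient.eq, map_pow, map_pow, map_pow] at h4
      exact Fin.ext (h3.pow_inj i.2 j.2 h4)
  exact ⟨g, hg1, fun i => ⟨(hg2 i).1, HeightOneSpectrum.ext (hg2 i).2⟩⟩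

theorem Kum_core {F1 F2 : Type} [Field F1] [NumberField F1] [Field F2] [NumberField F2]
    [Algebra F1 F2] {l s p : ℕ} [NeZero (3 * l ^ s)] [IsCyclotomicExtension {3 * l ^ s} ℚ F1]
    (hl : l.Prime) (hs : 0 < s) (hp : p.Prime) (b : PowerBasis F1 F2) (hd : b.dim = l)
    (hα : b.gen ^ l = p) (hirr : Irreducible (X ^ l - C (p : F1))) :
    ∃ (w1 : F1) (w2 : F2) (π : HS F2 → HS F1), w1 ^ 2 + w1 + 1 = 0 ∧ w2 ^ 2 + w2 + 1 = 0 ∧
    Module.finrank ℚ F1 ≤ 3 * l ^ s ∧ Module.finrank ℚ F2 ≤ 3 * l ^ s * l ∧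
    Submodule.span ℚ {y : F1 | IsIntegral ℤ y ∧ ∀ φ : F1 →+* ℂ, ‖φ y‖ ≤ p} = ⊤ ∧
    Submodule.span ℚ {y : F2 | IsIntegral ℤ y ∧ ∀ φ : F2 →+* ℂ, ‖φ y‖ ≤ p} = ⊤ ∧
    ∀ v : HS F1, (qv v).Prime → qv v ∉ ({3, l, p} : Finset ℕ) → l ^ s ∣ qv v - 1 ∧
      ((∃ x : ZMod (qv v), x ^ l = p) →
        ∃ g : Fin l → HS F2, Function.Injective g ∧ ∀ i, qv (g i) = qv v ∧ π (g i) = v) := by
  have hζ := IsCyclotomicExtension.zeta_spec (3 * l ^ s) ℚ F1
  generalize IsCyclotomicExtension.zeta (3 * l ^ s) ℚ F1 = ζ at hζ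
  have hw : (ζ ^ l ^ s) ^ 2 + ζ ^ l ^ s + 1 = 0 := by
    have := (hζ.pow (NeZero.pos _) (mul_comm _ _)).geom_sum_eq_zero (by norm_num)
    simp only [Finset.sum_range_succ, Finset.sum_range_zero] at this
    linear_combination this
  have h1 : Module.finrank ℚ F1 ≤ 3 * l ^ s := by
    rw [IsCyclotomicExtension.Rat.finrank (3 * l ^ s) F1]
    exact Nat.totient_le _
  have h2 : Module.finrank F1 F2 = l := b.finrank.trans hd
  have hp1 : (1 : ℝ) ≤ p := by exact_mod_cast hp.one_le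
  have hi := hζ.isIntegral (NeZero.pos _)
  have hi2 : IsIntegral ℤ b.gen := IsIntegral.of_pow hl.pos (hα ▸ isIntegral_natCast p)
  refine ⟨ζ ^ l ^ s, algebraMap F1 F2 (ζ ^ l ^ s), fun w => w.under (𝓞 F1), hw, ?_, h1, ?_, ?_,
    ?_, Kum_split hl hs hp hζ h2 hα hirr⟩
  · simpa using congrArg (algebraMap F1 F2) hw
  · rw [← Module.finrank_mul_finrank ℚ F1 F2, h2]
    exact Nat.mul_le_mul_right _ h1
  · rw [eq_top_iff, ← (hζ.powerBasis ℚ).basis.span_eq]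
    refine Submodule.span_mono ?_
    rintro _ ⟨i, rfl⟩
    rw [PowerBasis.basis_eq_pow, IsPrimitiveRoot.powerBasis_gen]
    refine ⟨hi.pow _, fun φ => ?_⟩
    rwa [map_pow, norm_pow, Kum_norm (NeZero.ne _) hζ.pow_eq_one, one_pow]
  · rw [eq_top_iff, ← ((hζ.powerBasis ℚ).basis.smulTower b.basis).span_eq]
    refine Submodule.span_mono ?_
    rintro _ ⟨⟨i, j⟩, rfl⟩
    rw [Module.Basis.smulTower_apply, PowerBasis.basis_eq_pow, PowerBasis.basis_eq_pow,
      IsPrimitiveRoot.powerBasis_gen, Algebra.smul_def]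
    refine ⟨(hi.pow _).algebraMap.mul (hi2.pow _), fun φ => ?_⟩
    have h3 := Kum_norm (NeZero.ne _) hζ.pow_eq_one (φ.comp (algebraMap F1 F2))
    rw [RingHom.comp_apply] at h3
    have h4 : ‖φ b.gen‖ ^ l = p := by rw [← norm_pow, ← map_pow, hα, map_natCast, Complex.norm_natCast]
    have h5 : 1 ≤ ‖φ b.gen‖ := by
      rw [← one_le_pow_iff_of_nonneg (norm_nonneg _) hl.ne_zero, h4]
      exact hp1
    rw [map_mul, norm_mul, map_pow, map_pow, map_pow, norm_pow, norm_pow, h3, one_pow, one_mul,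
      ← h4]
    exact pow_le_pow_right₀ h5 (hd ▸ j.2.le)

theorem kum : Kum := by
  intro l s p hl hs hp h3 hlp
  have : NeZero (3 * l ^ s) := ⟨mul_ne_zero three_ne_zero (pow_ne_zero _ hl.ne_zero)⟩
  have hn : ¬ p ∣ 3 * l ^ s := fun h => by
    rcases (Nat.Prime.dvd_mul hp).1 h with h | h
    · exact absurd (Nat.le_of_dvd (by norm_num) h) (by omega)
    · exact hlp ((Nat.prime_dvd_prime_iff_eq hp hl).1 (hp.dvd_of_dvd_pow h)).symm
  have hirr := X_pow_sub_C_irreducible_of_prime hl (not_pow_cyclo hl hp hn)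
  have := Fact.mk hirr
  have := Kum_cyc (3 * l ^ s)
  let b := AdjoinRoot.powerBasis hirr.ne_zero
  have := b.finite
  have := NumberField.of_module_finite (CyclotomicField (3 * l ^ s) ℚ)
    (AdjoinRoot (X ^ l - C (p : CyclotomicField (3 * l ^ s) ℚ)))
  refine ⟨_, _, _, inferInstance, _, this, Kum_core hl hs hp b natDegree_X_pow_sub_C ?_ hirr⟩
  have := AdjoinRoot.aeval_eq (f := X ^ l - C (p : CyclotomicField (3 * l ^ s) ℚ))
    (X ^ l - C (p : CyclotomicField (3 * l ^ s) ℚ))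
  rw [AdjoinRoot.mk_self, map_sub, map_pow, aeval_X, aeval_C, sub_eq_zero] at this
  exact this.trans (map_natCast _ p)

end NQ
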