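import Vale.Agent.NQ.Tame

noncomputable section
namespace NQ
open NumberField IsDedekindDomain Polynomial
open scoped Classical

section
variable {F : Type} [Field F] [NumberField F] {G : HS F → Prop} {B : Subring F}

/-- The ideal of `B` attached to a multiset of places. -/
def LBJ (hB : ∀ y, y ∈ B ↔ ∀ v, G v → OG v 0 y) (l : Multiset (HS F)) : Ideal B where
  carrier := {x | ∀ v, G v → OG v (l.count v) (x : F)}
  add_mem' := fun ha hb v hv => OG.add (ha v hv) (hb v hv)
  zero_mem' := fun v _ => OG.zero v _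
  smul_mem' := fun c x hx v hv => by
    simpa using ((hB c).1 c.2 v hv).mul (hx v hv)

theorem LB_mem (hB : ∀ y, y ∈ B ↔ ∀ v, G v → OG v 0 y) {l : Multiset (HS F)} {x : B} :
    x ∈ LBJ hB l ↔ ∀ v, G v → OG v (l.count v) (x : F) := Iff.rfl

/-- The inclusion of the integers. -/
def LBi (hB : ∀ y, y ∈ B ↔ ∀ v, G v → OG v 0 y) : 𝓞 F →+* B :=
  (algebraMap (𝓞 F) F).codRestrict _ fun x => (hB _).2 fun v _ => OG_coe v x

theorem LB_coe (hB : ∀ y, y ∈ B ↔ ∀ v, G v → OG v 0 y) (x : 𝓞 F) : (LBi hB x : F) = x := rfl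

theorem LB_elt (l : Multiset (HS F)) (v0 : HS F) : ∃ y : 𝓞 F, (y : F) ≠ 0 ∧
    (∀ v, OG v (l.count v) (y : F)) ∧ ord v0 (y : F) = l.count v0 ∧
      ∀ v ∈ l, ord v (y : F) = l.count v := by
  obtain ⟨x, h0, h1, h2⟩ := exists_ord (insert v0 l.toFinset) (fun v => l.count v)
  have h3 : ∀ v, OG v (l.count v) x := fun v => Or.inr (by
    by_cases hv : v ∈ insert v0 l.toFinset
    · exact (h1 v hv).ge
    · have : v ∉ l := fun h => hv (Finset.mem_insert_of_mem (Multiset.mem_toFinset.2 h))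
      rw [Multiset.count_eq_zero.2 this]; exact h2 v hv)
  exact ⟨⟨x, isIntegral_iff_OG.2 fun v => (h3 v).mono (by omega)⟩, h0, h3,
    h1 _ (Finset.mem_insert_self _ _),
    fun v hv => h1 v (Finset.mem_insert_of_mem (Multiset.mem_toFinset.2 hv))⟩

theorem LB_surj (hB : ∀ y, y ∈ B ↔ ∀ v, G v → OG v 0 y) (l : Multiset (HS F)) (y : B) :
    ∃ x, y - LBi hB x ∈ LBJ hB l := by
  obtain ⟨x, h1, h2⟩ := approx (l.toFinset.filter G) (fun _ => (y : F)) (fun v => l.count v)
  have hx : IsIntegral ℤ x := isIntegral_iff_OG.2 fun v => by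
    by_cases hv : v ∈ l.toFinset.filter G
    · simpa using ((h1 v hv).mono (by omega)).add ((hB y).1 y.2 v (Finset.mem_filter.1 hv).2)
    · exact h2 v hv
  refine ⟨⟨x, hx⟩, fun v hv => ?_⟩
  change OG v _ ((y : F) - x)
  by_cases h : v ∈ l
  · simpa using (h1 v (Finset.mem_filter.2 ⟨Multiset.mem_toFinset.2 h, hv⟩)).neg
  · rw [Multiset.count_eq_zero.2 h]
    exact ((hB y).1 y.2 v hv).sub (isIntegral_iff_OG.1 hx v)

theorem LB_fin (hB : ∀ y, y ∈ B ↔ ∀ v, G v → OG v 0 y) (l : Multiset (HS F)) :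
    Finite (B ⧸ LBJ hB l) := by
  have hne : (LBJ hB l).comap (LBi hB) ≠ ⊥ := by
    by_cases hF : Nonempty (HS F)
    · obtain ⟨y, h0, h1, -⟩ := LB_elt l hF.some
      intro h
      have : y ∈ (LBJ hB l).comap (LBi hB) := fun v _ => h1 v
      rw [h, Ideal.mem_bot] at this
      exact h0 (by simp [this])
    · intro h
      have : (1 : 𝓞 F) ∈ (LBJ hB l).comap (LBi hB) := fun v _ => (hF ⟨v⟩).elim
      rw [h, Ideal.mem_bot] at this
      exact one_ne_zero this
  have := Ideal.finiteQuotientOfFreeOfNeBot _ hne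
  refine Finite.of_surjective (Ideal.quotientMap (LBJ hB l) (LBi hB) le_rfl) fun z => ?_
  obtain ⟨y, rfl⟩ := Ideal.Quotient.mk_surjective z
  obtain ⟨x, hx⟩ := LB_surj hB l y
  refine ⟨Ideal.Quotient.mk _ x, ?_⟩
  change Ideal.Quotient.mk _ (LBi hB x) = _
  rw [eq_comm, Ideal.Quotient.eq]
  exact hx

theorem LB_single (hB : ∀ y, y ∈ B ↔ ∀ v, G v → OG v 0 y) {v : HS F} (hv : G v) {x : B} :
    x ∈ LBJ hB {v} ↔ OG v 1 (x : F) := by
  constructor
  · intro h
    simpa using h v hv
  · intro h u hu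
    by_cases huv : u = v
    · subst huv; simpa using h
    · rw [Multiset.count_eq_zero.2 (by simpa using huv)]
      exact (hB x).1 x.2 u hu

theorem LB_one (hB : ∀ y, y ∈ B ↔ ∀ v, G v → OG v 0 y) {w : 𝓞 F} (hw : w ^ 2 + w + 1 = 0)
    {v : HS F} (hv : G v) (h3 : (3 : 𝓞 F) ∉ v.asIdeal) {g : B}
    (h : QOK (LBi hB w) g (LBJ hB {v})) : zq (LBi hB w) g (LBJ hB {v}) = zv w v g := by
  have h1 : ¬ OG v 1 (g : F) := by
    intro h1
    have h2 : LBJ hB {v} = ⊤ := by
      rw [← h.unit, left_eq_sup, Ideal.span_singleton_le_iff_mem]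
      exact (LB_single hB hv).2 h1
    have h4 := ((LB_single hB hv (x := 1)).1 (h2 ▸ Submodule.mem_top)).le (by simp)
    simp [ord_one] at h4
  have h0 : (g : F) ≠ 0 := fun h0 => h1 (Or.inl h0)
  have h2 : ord v (g : F) = 0 := by
    have h4 := ((hB g).1 g.2 v hv).le h0
    have h5 : ¬ 1 ≤ ord v (g : F) := fun h => h1 (Or.inr h)
    omega
  obtain ⟨c, hc, hc'⟩ := Tame_close h0 h2
  rw [zv_eq hw h3 hc hc', zq_congr _ (g' := LBi hB c) ((LB_single hB hv).2 hc')]
  exact (zq_map (LBi hB) (fun x => by rw [LB_single hB hv, mem_iff_OG, LB_coe]) (LB_surj hB _)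
    (qok_place hw h3 hc)).2

theorem LB_ind (hB : ∀ y, y ∈ B ↔ ∀ v, G v → OG v 0 y) {w : 𝓞 F} (hw : w ^ 2 + w + 1 = 0)
    (h3 : ∀ v, G v → (3 : 𝓞 F) ∉ v.asIdeal) {g : B} (l : Multiset (HS F)) (hl : ∀ v ∈ l, G v)
    (h : QOK (LBi hB w) g (LBJ hB l)) :
    zq (LBi hB w) g (LBJ hB l) = (l.map fun v => zv w v g).sum := by
  induction l using Multiset.induction_on with
  | empty =>
    have : LBJ hB 0 = ⊤ := by
      rw [Ideal.eq_top_iff_one]
      intro v hv
      simpa using OG_natCast v 1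
    rw [this, zq_top]; simp
  | cons v l ih =>
    have hv := hl v (Multiset.mem_cons_self _ _)
    obtain ⟨y, h0, h1, h2, h4⟩ := LB_elt l v
    have hle1 : LBJ hB (v ::ₘ l) ≤ LBJ hB {v} := fun x hx =>
      (LB_single hB hv).2 ((hx v hv).mono (by simp))
    have hle2 : LBJ hB (v ::ₘ l) ≤ LBJ hB l := fun x hx u hu =>
      (hx u hu).mono (by exact_mod_cast Multiset.count_le_count_cons u v l)
    rw [zq_step (y := LBi hB y) (J1 := LBJ hB {v}) (J2 := LBJ hB l) h, Multiset.map_cons,
      Multiset.sum_cons, LB_one hB hw hv (h3 v hv) (h.mono hle1),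
      ih (fun u hu => hl u (Multiset.mem_cons_of_mem hu)) (h.mono hle2)]
    · intro x
      rw [LB_single hB hv]
      have hx : (x : F) = ((LBi hB y * x : B) : F) / y := by
        change _ = (y : F) * x / y
        field_simp
      constructor
      · intro hyx
        rw [hx, OG_div_iff h0, h2]
        exact (hyx v hv).mono (by simp [add_comm])
      · intro hx1 u hu
        change OG u _ ((y : F) * x)
        by_cases huv : u = v
        · subst huv
          exact ((h1 u).mul hx1).mono (by simp)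
        · exact ((h1 u).mul ((hB x).1 x.2 u hu)).mono (by simp [Multiset.count_cons_of_ne huv])
    · refine le_antisymm (fun z hz => ?_)
        (sup_le hle2 ((Ideal.span_singleton_le_iff_mem _).2 fun u _ => h1 u))
      obtain ⟨c, hc⟩ := exists_int_close (v := v) (x := (z : F) / y)
        (by rw [OG_div_iff h0, h2, zero_add]; exact hz v hv) 1
      have h5 : z - LBi hB c * LBi hB y ∈ LBJ hB (v ::ₘ l) := by
        intro u hu
        change OG u _ ((z : F) - (c : F) * y)
        by_cases huv : u = v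
        · subst huv
          have : (z : F) - (c : F) * y = y * ((z : F) / y - c) := by field_simp
          rw [this]
          exact ((h1 u).mul hc).mono (by simp)
        · rw [Multiset.count_cons_of_ne huv]
          exact (hz u hu).sub (((OG_coe u c).mul (h1 u)).mono (by simp))
      rw [← sub_add_cancel z (LBi hB c * LBi hB y)]
      exact Submodule.add_mem_sup h5 (Ideal.mul_mem_left _ _ (Ideal.mem_span_singleton_self _))

end

theorem lB : LB := by
  intro s F _ _ w θ B wB m g hs hs3 hw hB hwB hm hg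
  let G : HS F → Prop := fun v => (s : 𝓞 F) ∉ v.asIdeal ∧ OG v 0 θ
  have hB' : ∀ y, y ∈ B ↔ ∀ v, G v → OG v 0 y := fun y => by
    rw [hB]; exact ⟨fun h v hv => h v hv.1 hv.2, fun h v h1 h2 => h v ⟨h1, h2⟩⟩
  have hm' : (m : F) ≠ 0 := by simpa using hm
  have hmo : ∀ v, G v → 0 ≤ ord v (m : F) := fun v hv => ((hB' m).1 m.2 v hv).le hm'
  obtain ⟨l, hl⟩ : ∃ l : Multiset (HS F), ∀ v,
      (l.count v : ℤ) = if G v then ord v (m : F) else 0 := by
    refine ⟨∑ u ∈ (finite_ord (m : F)).toFinset.filter G,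
      Multiset.replicate (ord u (m : F)).toNat u, fun v => ?_⟩
    rw [Multiset.count_sum']
    simp only [Multiset.count_replicate, Finset.sum_ite_eq', Finset.mem_filter,
      Set.Finite.mem_toFinset, Set.mem_ofPred_eq]
    by_cases hv : G v
    · have := hmo v hv
      by_cases h0 : ord v (m : F) = 0
      · simp [h0]
      · simp [hv, h0, this]
    · simp [hv]
  have hlG : ∀ v ∈ l, G v := fun v hv => by
    by_contra hn
    have := hl v
    rw [if_neg hn, Nat.cast_eq_zero, Multiset.count_eq_zero] at this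
    exact this hv
  have hJ : Ideal.span {m} = LBJ hB' l := by
    refine le_antisymm ((Ideal.span_singleton_le_iff_mem _).2 fun v hv =>
      Or.inr (by rw [hl, if_pos hv])) fun z hz => ?_
    rw [Ideal.mem_span_singleton']
    refine ⟨⟨(z : F) / m, (hB' _).2 fun v hv => ?_⟩, Subtype.ext (div_mul_cancel₀ _ hm')⟩
    rw [OG_div_iff hm', zero_add]
    have := hz v hv
    rwa [hl, if_pos hv] at this
  have hw' : wB = LBi hB' w := Subtype.ext hwB
  have h3 : ∀ v, G v → (3 : 𝓞 F) ∉ v.asIdeal := fun v hv => three_not_mem hs3 hv.1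
  have hq : QOK (LBi hB' w) g (LBJ hB' l) := by
    refine ⟨LB_fin hB' l, ?_, ?_, ?_⟩
    · have := congrArg (LBi hB') hw
      simp only [map_add, map_pow, map_one, map_zero] at this
      rw [this]; exact zero_mem _
    · have h4 : (3 : F)⁻¹ ∈ B := (hB' _).2 fun v hv => Or.inr (by
        have : ord v (3 : F) = 0 := by
          simpa [map_ofNat] using (ord_eq_zero_of_not_mem (h3 v hv)).2
        rw [ord_inv, this]; simp)
      have h5 : IsUnit (3 : B) :=
        IsUnit.of_mul_eq_one (⟨_, h4⟩ : B) (Subtype.ext (mul_inv_cancel₀ (three_ne_zero (α := F))))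
      rw [Ideal.span_singleton_eq_top.2 h5, sup_top_eq]
    · rw [← hJ, sup_comm, ← Ideal.isCoprime_iff_sup_eq, Ideal.isCoprime_span_singleton_iff]
      exact hg
  rw [hJ, hw']
  refine ⟨hq.fin, ?_⟩
  rw [LB_ind hB' hw h3 l hlG hq, Finset.sum_multiset_map_count,
    finsum_eq_sum_of_support_subset (s := l.toFinset)]
  · refine Finset.sum_congr rfl fun v hv => ?_
    have hv' := hlG v (Multiset.mem_toFinset.1 hv)
    have := hl v
    rw [if_pos hv'] at this
    rw [if_pos hv', ← this]
    simp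
  · intro v hv
    by_contra hn
    apply hv
    have h0 : l.count v = 0 := Multiset.count_eq_zero.2 fun h => hn (by simpa using h)
    have := hl v
    beta_reduce
    split_ifs with hG
    · rw [if_pos hG, h0] at this
      rw [← this]; simp
    · rfl

end NQ
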