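import Vale.Agent.NQ.ASb

noncomputable section
namespace NQ
open NumberField IsDedekindDomain Polynomial
open scoped Classical

/-- The ring `InB`. -/
theorem exists_InB {F : Type} [Field F] [NumberField F] (s : ℕ) (θ : F) :
    ∃ B : Subring F, ∀ y, y ∈ B ↔ InB s θ y :=
  ⟨{ carrier := {y | InB s θ y}
     mul_mem' := fun ha hb v h1 h2 => ((ha v h1 h2).mul (hb v h1 h2)).mono (by simp)
     one_mem' := fun v _ _ => Or.inr (ord_one v).ge
     add_mem' := fun ha hb v h1 h2 => (ha v h1 h2).add (hb v h1 h2)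
     zero_mem' := fun v _ _ => OG.zero v 0
     neg_mem' := fun ha v h1 h2 => (ha v h1 h2).neg }, fun _ => Iff.rfl⟩
theorem InB_decomp {F : Type} [Field F] [NumberField F] {s : ℕ} (hs : 0 < s) {θ y : F}
    (h : InB s θ y) : ∃ (n : ℕ) (a b : F), a ∈ RR F s ∧ b ∈ RR F s ∧ y = a + b * θ ^ n := by
  rcases eq_or_ne θ 0 with rfl | h0
  · exact ⟨0, y, 0, (mem_RR hs.ne').2 fun v hv => h v hv (OG.zero v 0), zero_mem _, by simp⟩
  obtain ⟨k, hk⟩ := Ord_bound y
  have hθ := pow_ne_zero k h0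
  obtain ⟨b, h1, h2⟩ := approx ((finite_ord θ).toFinset.filter fun v => ord v θ < 0)
    (fun _ => y / θ ^ k) fun v => -(k * ord v θ)
  have hT : ∀ v, v ∈ ((finite_ord θ).toFinset.filter fun v => ord v θ < 0) ↔ ord v θ < 0 :=
    fun v => by
      rw [Finset.mem_filter, Set.Finite.mem_toFinset]
      exact ⟨fun h => h.2, fun h => ⟨h.ne, h⟩⟩
  simp only [hT] at h1 h2
  refine ⟨k, y - b * θ ^ k, b, (mem_RR hs.ne').2 fun v hv => ?_, (mem_RR hs.ne').2 fun v _ => ?_,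
    by ring⟩
  · by_cases hv' : ord v θ < 0
    · rw [show y - b * θ ^ k = -((b - y / θ ^ k) * θ ^ k) by field_simp; ring]
      exact ((h1 v hv').mul ((OG.self v θ).pow k)).neg.mono (by simp)
    · have h3 : OG v 0 θ := Or.inr (not_lt.1 hv')
      exact (h v hv h3).sub (((h2 v hv').mul (h3.pow k)).mono (by simp))
  · by_cases hv' : ord v θ < 0
    · have h3 : OG v 0 (y / θ ^ k) := (OG_div_iff hθ).2 ((hk v).mono (by
        rw [ord_pow]
        nlinarith))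
      simpa using ((h1 v hv').mono (m := 0) (by nlinarith)).add h3
    · exact h2 v hv'

theorem Lch_gen {R B : Type} [CommRing R] [CommRing B] [IsDomain B] (ψ : R →+* B) {h u1 u2 w : R}
    (k : ∀ u, ψ u = 0 ↔ h ∣ u) (hw : w ^ 2 + w + 1 = 0) (h3 : IsUnit (3 : R))
    (ht : Ideal.span {h, u1, u2} = ⊤) (hq : QOK w u2 (Ideal.span {h, u1})) {c : ℕ}
    (hc : ∀ y, ∃ x, ψ x = c * y) (hcf : Finite (B ⧸ Ideal.span {(c : B)})) (m0 : ψ u1 ≠ 0)
    (hf : Finite (B ⧸ Ideal.span {ψ u1})) :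
    zq w u2 (Ideal.span {h, u1}) = zq (ψ w) (ψ u2) (Ideal.span {ψ u1}) := by
  simp only [← Ideal.mem_span_singleton] at k
  obtain ⟨x, y, z, e⟩ := span_top_iff.1 ht
  have q0 : Ideal.Quotient.mk (Ideal.span {h}) h = 0 :=
    Ideal.Quotient.eq_zero_iff_mem.2 (Ideal.mem_span_singleton_self h)
  have a1 := (zq_map (Ideal.Quotient.mk (Ideal.span {h})) (J := Ideal.span {h, u1})
    (J' := Ideal.span {Ideal.Quotient.mk _ u1}) (fun x => by
      rw [← Set.image_singleton, ← Ideal.map_span, Ideal.mem_quotient_iff_mem_sup,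
        Ideal.span_insert, sup_comm])
    (fun y => by
      obtain ⟨x, rfl⟩ := Ideal.Quotient.mk_surjective y
      exact ⟨x, by simp⟩) hq).2
  rw [← a1]
  exact (zq_lattice (Ideal.Quotient.lift _ ψ fun u => (k u).2)
    (RingHom.lift_injective_of_ker_le_ideal _ _ fun u => (k u).1)
    (w := Ideal.Quotient.mk _ w) (g := Ideal.Quotient.mk _ u2) (m := Ideal.Quotient.mk _ u1)
    (by simpa using congrArg (Ideal.Quotient.mk (Ideal.span {h})) hw)
    (h3.map (Ideal.Quotient.mk (Ideal.span {h})))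
    ⟨Ideal.Quotient.mk _ z, Ideal.Quotient.mk _ y, by
      simpa [q0, add_comm] using congrArg (Ideal.Quotient.mk (Ideal.span {h})) e⟩ (c := c)
    (fun y => (hc y).elim fun p hp => ⟨Ideal.Quotient.mk _ p, by rwa [map_natCast]⟩)
    (by rwa [map_natCast]) (fun y hy => (mul_eq_zero.1 hy).resolve_left m0) hf).2

section
variable {s : ℕ} {F : Type} [Field F] [NumberField F] {w : 𝓞 F} {h : (AS s)[X]}
  {ev : (AS s)[X] →+* F}

theorem Lch_den (hc : Chart s h F w ev) (hs : 0 < s) :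
    ∃ c : ℕ, c ≠ 0 ∧ ∀ y, InB s (ev X) y → (c : F) * y ∈ ev.range := by
  choose c c0 hc' using fun i => hc.gen (RingOfIntegers.basis F i : 𝓞 F)
  have h1 : ∀ y : 𝓞 F, ((∏ i, c i : ℕ) : F) * y ∈ ev.range := fun y => by
    rw [← (RingOfIntegers.basis F).sum_repr y, RingOfIntegers.coe_eq_algebraMap, map_sum,
      Finset.mul_sum]
    refine sum_mem fun i _ => ?_
    obtain ⟨e, he⟩ := Finset.dvd_prod_of_mem c (Finset.mem_univ i)
    rw [map_zsmul, mul_smul_comm, he, mul_comm (c i), Nat.cast_mul, mul_assoc]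
    exact zsmul_mem (mul_mem (natCast_mem _ e) (hc' i)) _
  have h2 : ∀ y ∈ RR F s, ((∏ i, c i : ℕ) : F) * y ∈ ev.range := fun y ⟨k, hk⟩ => by
    obtain ⟨t, ht⟩ := (AS_unit (s := s)).exists_left_inv
    have e : ev (C t) * s = 1 := by simpa using congrArg (ev.comp C) ht
    have : ev (C t) ^ k * (((∏ i, c i : ℕ) : F) * ((s : F) ^ k * y)) ∈ ev.range :=
      mul_mem (pow_mem (ev.mem_range_self (C t)) k) (h1 ⟨_, hk⟩)
    rwa [mul_left_comm, ← mul_assoc (_ ^ k), ← mul_pow, e, one_pow,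
      one_mul] at this
  refine ⟨∏ i, c i, Finset.prod_ne_zero_iff.2 fun i _ => c0 i, fun y hy => ?_⟩
  obtain ⟨n, a, b, ha, hb, rfl⟩ := InB_decomp hs hy
  rw [mul_add, ← mul_assoc]
  exact add_mem (h2 a ha) (mul_mem (h2 b hb) (pow_mem (ev.mem_range_self X) n))

theorem Lch_key (hL : LB) (hc : Chart s h F w ev) (hs : 0 < s) (h3 : 3 ∣ s) (hh : Prime h)
    {u1 u2 : (AS s)[X]} (h1 : ¬ h ∣ u1) (ht : Ideal.span {h, u1, u2} = ⊤) :
    zq (wP s) u2 (Ideal.span {h, u1}) = ∑ᶠ v : HS F,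
      if (s : 𝓞 F) ∉ v.asIdeal ∧ OG v 0 (ev X) then (ord v (ev u1) : ZMod 3) * zv w v (ev u2)
      else 0 := by
  obtain ⟨B, hB⟩ := exists_InB s (ev X)
  obtain ⟨c, c0, hd⟩ := Lch_den hc hs
  obtain ⟨ψ, hψ⟩ : ∃ ψ : (AS s)[X] →+* B, ∀ u, (ψ u : F) = ev u :=
    ⟨ev.codRestrict B fun u => (hB _).2 fun v hv hθ => hc.OG_ev hs hv hθ u, fun _ => rfl⟩
  have k : ∀ u, ψ u = 0 ↔ h ∣ u := fun u => by rw [← hc.ker, ← hψ, ZeroMemClass.coe_eq_zero]
  have m0 : ψ u1 ≠ 0 := fun h0 => h1 ((k _).1 h0)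
  have L := fun m g => hL s F w (ev X) B (ψ (wP s)) m g hs h3 hc.rel hB ((hψ _).trans hc.om)
  obtain ⟨x, y, z, e⟩ := span_top_iff.1 ht
  have a2 := L (ψ u1) (ψ u2) m0 ⟨ψ z, ψ y, by
    simpa [(k h).2 dvd_rfl, add_comm] using congrArg ψ e⟩
  rw [Lch_gen ψ k wP_rel ((AS_three h3).map (C : AS s →+* (AS s)[X])) ht
    (qok_poly hs h3 hh.ne_zero (fun p hp hph hpu =>
      h1 ((hp.associated_of_dvd hh hph).symm.dvd.trans hpu)) ht) (c := c)
    (fun y => (hd y ((hB _).1 y.2)).imp fun p hp => Subtype.ext ((hψ p).trans hp))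
    (L _ 1 (Nat.cast_ne_zero.2 c0) isCoprime_one_left).1 m0 a2.1, a2.2, hψ, hψ]

theorem Lch_one {v : HS F} : ¬ OG v 1 (1 : F) := fun h => by
  simpa [ord_one] using h.le one_ne_zero

end

theorem lch (h : LB) : Lch := by
  intro s f F _ _ w ev u1 u2 hs h3 hf _ hc h1 h2 ht hm
  have a0 : ev u1 ≠ 0 := fun e => h1 ((hc.ker _).1 e)
  have b0 : ev u2 ≠ 0 := fun e => h2 ((hc.ker _).1 e)
  have fin : ∀ a b : F, (Function.support fun v : HS F => if (s : 𝓞 F) ∉ v.asIdeal ∧ OG v 0 (ev X)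
      then (ord v a : ZMod 3) * zv w v b else 0).Finite := fun a b =>
    (finite_ord a).subset fun v hv e => hv (by simp [e])
  rw [Dz, Lch_key h hc hs h3 hf h1 ht, Lch_key h hc hs h3 hf h2 (span_top_perm ht).2.2.1,
    ← finsum_sub_distrib (fin _ _) (fin _ _), HF]
  refine finsum_congr fun v => ?_
  by_cases hv : (s : 𝓞 F) ∈ v.asIdeal
  · simp [hv]
  have t3 := three_not_mem h3 hv
  by_cases hθ : OG v 0 (ev X)
  · rw [if_neg hv, if_pos ⟨hv, hθ⟩, if_pos ⟨hv, hθ⟩]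
    by_cases e2 : ord v (ev u2) = 0
    · rw [hv_of_ord_right hc.rel t3 a0 b0 e2, e2]
      simp
    by_cases e1 : ord v (ev u1) = 0
    · rw [hv_swap hc.rel t3 b0 a0, hv_of_ord_right hc.rel t3 b0 a0 e1, e1]
      simp
    obtain ⟨x, y, z, e⟩ := span_top_iff.1 ht
    have o := hc.OG_ev hs hv hθ
    have p : ∀ u, ev u ≠ 0 → ord v (ev u) ≠ 0 → ∀ t, OG v 1 (ev t * ev u) := fun u u0 u1 t =>
      ((o t).mul (OG.self v _)).mono (by have := (o u).le u0; omega)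
    have e' : ev y * ev u1 + ev z * ev u2 = 1 := by
      simpa [(hc.ker f).2 dvd_rfl] using congrArg ev e
    exact (Lch_one (e' ▸ (p _ a0 e1 y).add (p _ b0 e2 z))).elim
  rw [if_neg hv, if_neg fun h => hθ h.2, if_neg fun h => hθ h.2, sub_zero]
  have θ0 : ev X ≠ 0 := fun e => hθ (Or.inl e)
  have cube : ∀ u, M3 u → ∀ b, b ≠ 0 → NQ.hv w v (ev u) b = 0 := fun u ⟨m1, j, m2⟩ b hb =>
    hv_cube_close hc.rel t3 (pow_ne_zero j θ0) (by
      rw [← pow_mul', ← m2]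
      exact hc.pole hs hv hθ m1) hb
  rcases hm with hm | hm | hm
  · have := (hc.pole hs hv hθ hm).neg
    rw [(hc.ker f).2 dvd_rfl, zero_div, zero_sub, neg_neg] at this
    exact (Lch_one this).elim
  · exact cube _ hm _ b0
  · rw [hv_swap hc.rel t3 b0 a0, cube _ hm _ a0, neg_zero]

end NQ
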