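import Vale.Agent.NQ.SFt
import Vale.Agent.NQ.Stm2

noncomputable section
namespace NQ
open Complex MeasureTheory NumberField Filter
open scoped ComplexConjugate Classical ContDiff Topology

variable [σ : St]

theorem LtB_small (T : Finset FF) : ∃ c : FF, c ≠ 0 ∧ ∀ t ∈ T, c * t ∈ OS := by
  obtain ⟨c, hc, h⟩ := exists_lat_sup T
  exact ⟨c⁻¹, inv_ne_zero hc, fun t ht => by rw [← div_eq_inv_mul]; exact h t ht⟩

theorem LtB_ne {B d ξ : FF} {z : ℂ} (h : ic 1 d * il B ξ * z ≠ 0) : Cl 1 d ∧ ξ / B ∈ OS := by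
  refine ⟨by_contra fun h1 => h ?_, by_contra fun h1 => h ?_⟩
  · simp [ic, h1]
  · simp [il, h1]

theorem LtB_inv {d : FF} (h : Cl 1 d) : d⁻¹ ∈ OS := by
  simpa using h.inv.div_mem

theorem LtB_ic {d d' : FF} (h : (d - d') / ss ^ 2 ∈ OS) : ic 1 d = ic 1 d' := by
  rw [ic_eq_il one_ne_zero, ic_eq_il one_ne_zero]
  exact SInt_il_congr (by rwa [sub_sub_sub_cancel_right, one_mul])

theorem LtB_cl {d d' : FF} (h : (d - d') / ss ^ 2 ∈ OS) (hd : Cl 1 d) : Cl 1 d' := by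
  have := LtB_ic h
  by_contra h1
  simp [ic, hd, h1] at this

theorem LtB_norm (B d ξ x : FF) : ‖ic 1 d * il B ξ * psiS x‖ ≤ 1 := by
  rw [norm_mul, norm_mul, norm_psiS, mul_one]
  exact mul_le_one₀ (norm_ic_le _ _) (norm_nonneg _) (norm_il_le _ _)

theorem LtB_three : (3 : FF) ∈ OS := ofNat_mem OS 3

theorem LtB_hSB2 {B : FF} (hB : B ≠ 0) (a b c : FF) :
    HSB2 fun d ξ => ic 1 d * il B ξ * psiS (a * ξ ^ 3 / d + b * d + c * ξ) := by
  obtain ⟨n, hn, h1⟩ := exists_lat_sup {1, B}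
  obtain ⟨m, hm, h2⟩ := LtB_small {1 / ss ^ 2, 1 / B, a * B ^ 3, a * B ^ 2, b, c}
  simp only [Finset.mem_insert, Finset.mem_singleton, forall_eq_or_imp, forall_eq] at h1 h2
  obtain ⟨m1, m2, m3, m4, m5, m6⟩ := h2
  rw [mul_one_div] at m1 m2
  refine hSB2_of hn hm (fun d ξ h => ?_) fun d d' ξ ξ' hd hξ h => ?_
  · exact ⟨div_mem_OS_trans one_ne_zero (LtB_ne h).1.div_mem h1.1,
      div_mem_OS_trans hB (LtB_ne h).2 h1.2⟩
  obtain ⟨c1, w1⟩ := LtB_ne h
  have e1 := div_mem_OS_trans hm hd m1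
  have e2 := div_mem_OS_trans hm hξ m2
  have c2 := LtB_cl e1 c1
  have w2 : ξ' / B ∈ OS := by
    have := OS.sub_mem w1 e2
    rwa [← sub_div, sub_sub_cancel] at this
  have i1 := LtB_inv c1
  have i2 := LtB_inv c2
  have n1 := c1.ne_zero
  have n2 := c2.ne_zero
  rw [LtB_ic e1, SInt_il_congr e2, psiS_congr (x := a * ξ ^ 3 / d + b * d + c * ξ)
    (y := a * ξ' ^ 3 / d' + b * d' + c * ξ')]
  have e : a * ξ ^ 3 / d + b * d + c * ξ - (a * ξ' ^ 3 / d' + b * d' + c * ξ') =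
      m * (a * B ^ 2) * ((ξ - ξ') / m) * ((ξ / B) ^ 2 + ξ / B * (ξ' / B) + (ξ' / B) ^ 2) * d'⁻¹ -
        m * (a * B ^ 3) * (ξ / B) ^ 3 * ((d - d') / m) * d⁻¹ * d'⁻¹ +
        m * b * ((d - d') / m) + m * c * ((ξ - ξ') / m) := by
    field_simp
    ring
  rw [e]
  repeat' first | assumption | apply add_mem | apply sub_mem | apply mul_mem | apply pow_mem

theorem hSB2_g0 {B : FF} (hB : B ≠ 0) (q C : FF) :
    HSB2 fun d ξ => ic 1 d * il B ξ * psiS (ξ ^ 3 * q / (d * C)) := by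
  have e : ∀ d ξ : FF, ξ ^ 3 * q / (d * C) = q / C * ξ ^ 3 / d + 0 * d + 0 * ξ := fun d ξ => by
    ring
  simp only [e]
  exact LtB_hSB2 hB _ _ _

theorem hSB2_Lt {B : FF} (hB : B ≠ 0) (q C δ ζ : FF) :
    HSB2 fun d ξ => ic 1 d * il B ξ * psiS ((ξ ^ 3 * q / d + d * δ / q - 3 * ξ * ζ) / C) := by
  have e : ∀ d ξ : FF, (ξ ^ 3 * q / d + d * δ / q - 3 * ξ * ζ) / C =
      q / C * ξ ^ 3 / d + δ / q / C * d + -(3 * ζ / C) * ξ := fun d ξ => by
    ring
  simp only [e]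
  exact LtB_hSB2 hB _ _ _

theorem HSB2.affine {f : FF → FF → ℂ} (hf : HSB2 f) {a : FF} (ha : a ≠ 0) (c : FF) :
    HSB2 fun x y => f (a * x + c) y := by
  obtain ⟨k, h1, h2⟩ := hf
  have hs := SInt_pow_ne k
  obtain ⟨n, hn, h3⟩ := exists_lat_sup {1 / (ss ^ k * a), c / a, 1 / ss ^ k}
  obtain ⟨m, hm, h4⟩ := LtB_small {a / ss ^ k, 1 / ss ^ k}
  simp only [Finset.mem_insert, Finset.mem_singleton, forall_eq_or_imp, forall_eq] at h3 h4
  refine hSB2_of hn hm (fun x y h => ⟨?_, ?_⟩) fun x x' y y' hx hy _ => (h2 _ _ _ _ ?_ ?_).symm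
  · have e : x / n = ss ^ k * (a * x + c) * (1 / (ss ^ k * a) / n) - c / a / n := by
      field_simp
      ring
    rw [e]
    exact OS.sub_mem (OS.mul_mem (h1 _ _ h).1 h3.1) h3.2.1
  · have e : y / n = ss ^ k * y * (1 / ss ^ k / n) := by field_simp
    rw [e]
    exact OS.mul_mem (h1 _ _ h).2 h3.2.2
  · have e : (a * x + c - (a * x' + c)) / ss ^ k = (x - x') / m * (m * (a / ss ^ k)) := by
      field_simp
      ring
    rw [e]
    exact OS.mul_mem hx h4.1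
  · have e : (y - y') / ss ^ k = (y - y') / m * (m * (1 / ss ^ k)) := by field_simp
    rw [e]
    exact OS.mul_mem hy h4.2

theorem fts2_g0 (B q C δ ζ : FF) :
    fts2 (fun d ξ => ic 1 d * il B ξ * psiS (ξ ^ 3 * q / (d * C))) (-(δ / (C * q))) (3 * ζ / C)
      = ((kap ^ 2 : ℝ) : ℂ) * Lt B q C δ ζ := by
  unfold fts2 Lt
  congr 2
  funext d ξ
  rw [mul_assoc, ← psiS_add]
  congr 2
  ring

theorem LtB_step {x y z : FF} (h : (x - (z + y)) * del ∈ OS) : psiS x = psiS z * psiS y := by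
  rw [psiS_congr_del h, psiS_add]

theorem LtB_zeta {B q c0 C δ ζ m : FF} (hB : B ≠ 0) (hc0 : c0 ≠ 0) (hC : C ≠ 0)
    (hCc : C / c0 ∈ OS) (m1 : m * (q * B ^ 2 * del) ∈ OS) (m2 : m * (c0 / B) ∈ OS)
    (h : Lt B q C δ ζ ≠ 0) : -(3 * ζ * m) * del ∈ OS := by
  by_contra hn
  obtain ⟨y, hy, hw⟩ := exists_psiS_ne hn
  obtain ⟨d, hd⟩ := exists_ne_of_sint h
  obtain ⟨ξ0, h0⟩ := exists_ne_of_sint hd
  have c1 := (LtB_ne h0).1
  have i1 := LtB_inv c1
  have n1 := c1.ne_zero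
  have h3 := LtB_three
  have ht : C * y * m / B ∈ OS := by
    rw [show C * y * m / B = C / c0 * y * (m * (c0 / B)) by field_simp]
    exact OS.mul_mem (OS.mul_mem hCc hy) m2
  refine hd (sft_zero (c := C * y * m) hw fun ξ => ?_)
  beta_reduce
  rw [SInt_il_congr (x := ξ + C * y * m) (y := ξ) (by rwa [add_sub_cancel_left])]
  by_cases hξ : ξ / B ∈ OS
  · rw [LtB_step (z := -(3 * ζ * m) * y) (y := (ξ ^ 3 * q / d + d * δ / q - 3 * ξ * ζ) / C)]
    · ring
    have e : (((ξ + C * y * m) ^ 3 * q / d + d * δ / q - 3 * (ξ + C * y * m) * ζ) / C -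
        (-(3 * ζ * m) * y + (ξ ^ 3 * q / d + d * δ / q - 3 * ξ * ζ) / C)) * del =
        m * (q * B ^ 2 * del) * (3 * (ξ / B) ^ 2 + 3 * (ξ / B) * (C * y * m / B) +
          (C * y * m / B) ^ 2) * y * d⁻¹ := by
      generalize d * δ / q = r
      field_simp
      ring
    rw [e]
    repeat' first | assumption | apply add_mem | apply sub_mem | apply mul_mem | apply pow_mem
  · simp [il, hξ]

theorem LtB_delta {B q c0 C δ ζ m : FF} (hB : B ≠ 0) (hq : q ≠ 0) (hc0 : c0 ≠ 0) (hC : C ≠ 0)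
    (hCc : C / c0 ∈ OS) (m1 : m * (q * B ^ 3 * del) ∈ OS) (m2 : m * (c0 / ss ^ 2) ∈ OS)
    (h : Lt B q C δ ζ ≠ 0) : m * δ / q * del ∈ OS := by
  by_contra hn
  obtain ⟨y, hy, hw⟩ := exists_psiS_ne hn
  rw [Lt, sint2_comm (hSB2_Lt hB q C δ ζ)] at h
  obtain ⟨ξ, hd⟩ := exists_ne_of_sint h
  obtain ⟨d0, h0⟩ := exists_ne_of_sint hd
  have hξ := (LtB_ne h0).2
  have hs := SInt_pow_ne 2
  have ht : C * y * m / ss ^ 2 ∈ OS := by
    rw [show C * y * m / ss ^ 2 = C / c0 * y * (m * (c0 / ss ^ 2)) by field_simp]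
    exact OS.mul_mem (OS.mul_mem hCc hy) m2
  refine hd (sft_zero (c := C * y * m) hw fun d => ?_)
  beta_reduce
  have e1 : (d + C * y * m - d) / ss ^ 2 ∈ OS := by rwa [add_sub_cancel_left]
  rw [LtB_ic e1]
  by_cases c1 : Cl 1 d
  · have c2 := LtB_cl (SInt_symm e1) c1
    have i1 := LtB_inv c1
    have i2 := LtB_inv c2
    have n1 := c1.ne_zero
    have n2 := c2.ne_zero
    rw [LtB_step (z := m * δ / q * y) (y := (ξ ^ 3 * q / d + d * δ / q - 3 * ξ * ζ) / C)]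
    · ring
    have e : ((ξ ^ 3 * q / (d + C * y * m) + (d + C * y * m) * δ / q - 3 * ξ * ζ) / C -
        (m * δ / q * y + (ξ ^ 3 * q / d + d * δ / q - 3 * ξ * ζ) / C)) * del =
        -(m * (q * B ^ 3 * del) * (ξ / B) ^ 3 * y * d⁻¹ * (d + C * y * m)⁻¹) := by
      field_simp
      ring
    rw [e]
    repeat' first | assumption | apply neg_mem | apply mul_mem | apply pow_mem
  · simp [ic, c1]

theorem LtB_split {v : HS FF} {n : ℤ} {x y : FF} (h : OG v n (x * y)) (hx : ¬ OG v (n / 2) x) :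
    OG v (n / 2) y := by
  by_contra hy
  simp only [OG, not_or, not_le] at hx hy
  have := h.le (mul_ne_zero hx.1 hy.1)
  rw [ord_mul v hx.1 hy.1] at this
  omega

/-- The solutions of a quadratic congruence lie in few cosets. -/
theorem LtB_cover {f : FF → ℂ} (h1 : ∀ x, ‖f x‖ ≤ 1) {μ ν : FF} (hμ : μ ≠ 0) (hν : ν ≠ 0)
    (hn : ∀ v : SP, ord v.1 ν = ord v.1 μ / 2)
    (h : ∀ x y, f x ≠ 0 → f y ≠ 0 → (x - y) * (x + y) / μ ∈ OS) :
    ‖sint f‖ ≤ Fintype.card (Finset SP) * sS ν := by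
  by_cases h0 : ∃ x, f x ≠ 0
  swap
  · rw [of_not_not fun h2 => h0 (exists_ne_of_sint h2), norm_zero]
    exact mul_nonneg (Nat.cast_nonneg _) (sS_pos _).le
  obtain ⟨x0, h0⟩ := h0
  let kd : FF → Finset SP := fun x => Finset.univ.filter fun v => OG v.1 (ord v.1 μ / 2) (x - x0)
  have := norm_sint_le_cover zero_le_one h1 (Finset.univ : Finset (Finset SP))
    (fun A => if h : ∃ x, f x ≠ 0 ∧ kd x = A then h.choose else 0) hν fun x hx => ?_
  · rwa [mul_one] at this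
  have h2 : ∃ y, f y ≠ 0 ∧ kd y = kd x := ⟨x, hx, rfl⟩
  refine ⟨kd x, Finset.mem_univ _, ?_⟩
  rw [dif_pos h2]
  obtain ⟨h3, h4⟩ := h2.choose_spec
  generalize h2.choose = y at h3 h4
  refine (div_mem_OS_iff hν).2 fun v => ?_
  have h5 : OG v.1 (ord v.1 μ / 2) (y - x0) ↔ OG v.1 (ord v.1 μ / 2) (x - x0) := by
    simpa [kd] using Finset.ext_iff.1 h4 v
  rw [hn]
  by_cases h6 : OG v.1 (ord v.1 μ / 2) (x - x0)
  · simpa using h6.sub (h5.2 h6)
  · simpa using (LtB_split ((div_mem_OS_iff hμ).1 (h x x0 hx h0) v) h6).sub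
      (LtB_split ((div_mem_OS_iff hμ).1 (h y x0 h3 h0) v) fun h7 => h6 (h5.1 h7))

theorem LtB_inner {B q C δ ζ j ν d : FF} (hB : B ≠ 0) (hq : q ≠ 0) (hC : C ≠ 0) (hj : j ≠ 0)
    (hν : ν ≠ 0) (j1 : j / B ∈ OS) (j2 : q * B * j ^ 2 * del / C ∈ OS)
    (hn : ∀ v : SP, ord v.1 ν = ord v.1 (C / (3 * q * j * del)) / 2) :
    ‖sint fun ξ => ic 1 d * il B ξ * psiS ((ξ ^ 3 * q / d + d * δ / q - 3 * ξ * ζ) / C)‖ ≤
      Fintype.card (Finset SP) * sS ν := by
  have hdel := del_ne_zero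
  have h3 := LtB_three
  obtain ⟨k, hk⟩ := hSB2_Lt hB q C δ ζ
  have hm : ∀ {x y : FF}, (x - y) / j ∈ OS → x / B ∈ OS → y / B ∈ OS := fun {x y} h hx => by
    have := OS.sub_mem hx (div_mem_OS_trans hj h j1)
    rwa [← sub_div, sub_sub_cancel] at this
  rw [sint_local ⟨k, hk.right d⟩ hj (fun ξ => 3 * j * (q * ξ ^ 2 / d - ζ) / C * del ∈ OS)]
  · refine LtB_cover (fun x => ?_) (div_ne_zero hC (by simp [hq, hj, hdel])) hν hn
      fun x y hx hy => ?_
    · split_ifs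
      · exact LtB_norm _ _ _ _
      · simp
    · rw [ne_eq, ite_eq_right_iff, Classical.not_imp] at hx hy
      have c1 := (LtB_ne hx.2).1
      have n1 := c1.ne_zero
      have e : (x - y) * (x + y) / (C / (3 * q * j * del)) = d / 1 *
          (3 * j * (q * x ^ 2 / d - ζ) / C * del - 3 * j * (q * y ^ 2 / d - ζ) / C * del) := by
        field_simp
        ring
      rw [e]
      exact OS.mul_mem c1.div_mem (OS.sub_mem hx.1 hy.1)
  · intro x y hxy hx hP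
    obtain ⟨c1, w1⟩ := LtB_ne hx
    have w2 := hm hxy w1
    have i1 := LtB_inv c1
    have n1 := c1.ne_zero
    have e : 3 * j * (q * y ^ 2 / d - ζ) / C * del = 3 * j * (q * x ^ 2 / d - ζ) / C * del -
        3 * (q * B * j ^ 2 * del / C) * ((x - y) / j) * (x / B + y / B) * d⁻¹ := by
      field_simp
      ring
    rw [e]
    repeat' first | assumption | apply add_mem | apply sub_mem | apply mul_mem
  · intro x y hxy hx
    obtain ⟨c1, w1⟩ := LtB_ne hx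
    simp only [ic, il, if_pos c1, if_pos (hm hxy w1), one_mul]
    exact norm_ne_zero_iff.1 (by rw [norm_psiS]; exact one_ne_zero)
  · intro x hx hP
    obtain ⟨c1, w1⟩ := LtB_ne hx
    obtain ⟨y0, hy0, hw⟩ := exists_psiS_ne hP
    have i1 := LtB_inv c1
    have n1 := c1.ne_zero
    have t1 : j * y0 / j ∈ OS := by rwa [mul_div_cancel_left₀ _ hj]
    refine ⟨_, j * y0, hw, t1, fun y hy => ?_⟩
    have w2 := hm (SInt_symm hy) w1
    rw [SInt_il_congr (x := y + j * y0) (y := y)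
      (by rw [add_sub_cancel_left]; exact div_mem_OS_trans hj t1 j1),
      LtB_step (z := 3 * j * (q * x ^ 2 / d - ζ) / C * y0)
        (y := (y ^ 3 * q / d + d * δ / q - 3 * y * ζ) / C)]
    · ring
    have e : (((y + j * y0) ^ 3 * q / d + d * δ / q - 3 * (y + j * y0) * ζ) / C -
        (3 * j * (q * x ^ 2 / d - ζ) / C * y0 + (y ^ 3 * q / d + d * δ / q - 3 * y * ζ) / C)) *
          del = q * B * j ^ 2 * del / C * d⁻¹ * (3 * ((y - x) / j) * (x / B + y / B) * y0 +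
            3 * (y / B) * y0 ^ 2 + j / B * y0 ^ 3) := by
      field_simp
      ring
    rw [e]
    repeat' first | assumption | apply add_mem | apply mul_mem | apply pow_mem

theorem ltB : LtB := by
  intro B q c0 hB hq hc0
  have hdel := del_ne_zero
  have h3 : (3 : FF) ≠ 0 := three_ne_zero
  obtain ⟨m, hm, h1⟩ := LtB_small {q * B ^ 2 * del, c0 / B, q * B ^ 3 * del, c0 / ss ^ 2}
  simp only [Finset.mem_insert, Finset.mem_singleton, forall_eq_or_imp, forall_eq] at h1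
  obtain ⟨m1, m2, m3, m4⟩ := h1
  obtain ⟨e, he, hoe⟩ := exists_ord_S fun v =>
    min (ord v.1 c0 - 2 * (ord v.1 (3 : FF) + ord v.1 q + ord v.1 del + ord v.1 B) - 2)
      (-2 * ord v.1 (3 : FF) - ord v.1 q - ord v.1 del + ord v.1 B - 3)
  have he' : (e : FF) ≠ 0 := fun h => he (Subtype.ext h)
  have hK : (0 : ℝ) < Fintype.card (Finset SP) := Nat.cast_pos.2 Fintype.card_pos
  refine ⟨Fintype.card (Finset SP) * sS e ^ (1 / 4 : ℝ), -(1 / (3 * m * del)), q / (m * del),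
    mul_pos hK (Real.rpow_pos_of_pos (sS_pos _) _), by simp [hm, hdel], by simp [hm, hdel, hq],
    fun C δ ζ hC hCc => ⟨?_, fun h => ⟨?_, ?_⟩⟩⟩
  · obtain ⟨j, hj, hoj⟩ := exists_ord_S fun v =>
      max (ord v.1 B) ((ord v.1 C - ord v.1 q - ord v.1 B - ord v.1 del + 1) / 2)
    have hj' : (j : FF) ≠ 0 := fun h => hj (Subtype.ext h)
    obtain ⟨ν, hν, hoν⟩ := exists_ord_S fun v => ord v.1 (C / (3 * q * j * del)) / 2
    have hν' : (ν : FF) ≠ 0 := fun h => hν (Subtype.ext h)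
    have j1 : (j : FF) / B ∈ OS := (div_mem_OS_iff hB).2 fun v => Or.inr (by
      rw [hoj]
      exact le_max_left _ _)
    have j2 : q * B * (j : FF) ^ 2 * del / C ∈ OS := (div_mem_OS_iff hC).2 fun v => Or.inr (by
      rw [ord_mul _ (by simp [hq, hB, hj']) hdel, ord_mul _ (by simp [hq, hB]) (by simp [hj']),
        ord_mul _ hq hB, ord_pow, hoj]
      omega)
    have j3 : (ν : FF) ^ 4 / (e * C) ∈ OS :=
      (div_mem_OS_iff (mul_ne_zero he' hC)).2 fun v => Or.inr (by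
        have := ((div_mem_OS_iff hc0).1 hCc v).le hC
        rw [ord_mul _ he' hC, ord_pow, hoν, hoe, ord_div _ hC (by simp [hq, hj', hdel]),
          ord_mul _ (by simp [hq, hj']) hdel, ord_mul _ (by simp [hq]) hj', ord_mul _ h3 hq, hoj]
        omega)
    have j4 := sS_mono (pow_ne_zero _ hν') (mul_ne_zero he' hC) j3
    rw [sS_pow, sS_mul he' hC] at j4
    have j5 : sS ν ≤ sS e ^ (1 / 4 : ℝ) * sS C ^ (1 / 4 : ℝ) := by
      rw [← Real.mul_rpow (sS_pos _).le (sS_pos _).le, one_div]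
      exact_mod_cast (Real.le_rpow_inv_iff_of_pos (sS_pos _).le
        (mul_pos (sS_pos _) (sS_pos _)).le (by norm_num : (0 : ℝ) < 4)).2 (by exact_mod_cast j4)
    have := norm_sint_le (b := 1) (mul_nonneg hK.le (sS_pos _).le)
      (fun d => LtB_inner (δ := δ) (ζ := ζ) (d := d) hB hq hC hj' hν' j1 j2 hoν) one_ne_zero
      fun d hd => (exists_ne_of_sint hd).elim fun ξ h => (LtB_ne h).1.div_mem
    rw [sS_one, mul_one] at this
    refine this.trans ?_
    rw [mul_assoc]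
    exact mul_le_mul_of_nonneg_left j5 hK.le
  · rw [show ζ / -(1 / (3 * m * del)) = -(3 * ζ * m) * del by field_simp]
    exact LtB_zeta hB hc0 hC hCc m1 m2 h
  · rw [show δ / (q / (m * del)) = m * δ / q * del by field_simp]
    exact LtB_delta hB hq hc0 hC hCc m3 m4 h

end NQ
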