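import Vale.Agent.NQ.Cnt

noncomputable section
namespace NQ
open Complex MeasureTheory NumberField Filter
open scoped ComplexConjugate Classical ContDiff Topology

theorem UCt_pi {ι α : Type} [Fintype ι] {f : α → ℝ} (h0 : ∀ a, 0 ≤ f a) (hf : Summable f)
    (S : Finset (ι → α)) : ∑ k ∈ S, ∏ i, f (k i) ≤ (∑' a, f a) ^ Fintype.card ι := by
  have hS : S ⊆ Fintype.piFinset fun _ : ι => S.biUnion fun k => Finset.univ.image k :=
    fun k hk => Fintype.mem_piFinset.2 fun i =>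
      Finset.mem_biUnion.2 ⟨k, hk, Finset.mem_image_of_mem _ (Finset.mem_univ i)⟩
  refine (Finset.sum_le_sum_of_subset_of_nonneg hS fun k _ _ =>
    Finset.prod_nonneg fun i _ => h0 _).trans ?_
  rw [← Finset.prod_univ_sum (fun _ : ι => S.biUnion fun k => Finset.univ.image k)
    (fun _ a => f a), Finset.prod_const, Finset.card_univ]
  exact pow_le_pow_left₀ (Finset.sum_nonneg fun a _ => h0 a)
    (hf.sum_le_tsum _ fun a _ => h0 a) _

theorem UCt_summable {ρ : ℝ} (h0 : 0 ≤ ρ) (h1 : ρ < 1) : Summable fun j : ℤ => ρ ^ j.natAbs := by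
  refine Summable.of_nat_of_neg ?_ ?_ <;> simpa using summable_geometric_of_lt_one h0 h1

theorem UCt_pow (θ : ℝ) (n : ℕ) : ((2 : ℝ) ^ (-θ)) ^ n = ((2 : ℝ) ^ n) ^ (-θ) := by
  rw [← Real.rpow_natCast, ← Real.rpow_mul two_pos.le, mul_comm, Real.rpow_mul two_pos.le,
    Real.rpow_natCast]

theorem UCt_arch {θ t : ℝ} (hθ : 0 < θ) (ht : 0 < t) :
    t ^ θ * (1 + t) ^ (-(2 * θ)) ≤ 2 ^ θ * (2 ^ (-θ)) ^ (Int.log 2 t).natAbs := by
  have h1 : (2 : ℝ) ^ Int.log 2 t ≤ t := by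
    simpa using Int.zpow_log_le_self (R := ℝ) (b := 2) one_lt_two ht
  have h2 : t < (2 : ℝ) ^ (Int.log 2 t + 1) := by
    simpa using Int.lt_zpow_succ_log_self (R := ℝ) (b := 2) one_lt_two t
  have h3 : (1 : ℝ) ≤ 2 ^ θ := Real.one_le_rpow one_le_two hθ.le
  rw [UCt_pow]
  rcases Int.natAbs_eq (Int.log 2 t) with h | h
  · rw [h, zpow_natCast] at h1
    have e1 : (1 + t) ^ (-(2 * θ)) ≤ t ^ (-(2 * θ)) :=
      Real.rpow_le_rpow_of_nonpos ht (by linarith) (by linarith)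
    have e2 : t ^ (-θ) ≤ ((2 : ℝ) ^ (Int.log 2 t).natAbs) ^ (-θ) :=
      Real.rpow_le_rpow_of_nonpos (by positivity) h1 (by linarith)
    calc _ ≤ t ^ θ * t ^ (-(2 * θ)) := by gcongr
      _ = t ^ (-θ) := by rw [← Real.rpow_add ht]; congr 1; ring
      _ ≤ 1 * ((2 : ℝ) ^ (Int.log 2 t).natAbs) ^ (-θ) := by rw [one_mul]; exact e2
      _ ≤ _ := by gcongr
  · rw [h, zpow_add_one₀ two_ne_zero, zpow_neg, zpow_natCast] at h2
    have e1 : (1 + t) ^ (-(2 * θ)) ≤ 1 :=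
      Real.rpow_le_one_of_one_le_of_nonpos (by linarith) (by linarith)
    calc _ ≤ (((2 : ℝ) ^ (Int.log 2 t).natAbs)⁻¹ * 2) ^ θ * 1 := by gcongr
      _ = _ := by
        rw [mul_one, Real.mul_rpow (by positivity) two_pos.le, Real.inv_rpow (by positivity),
          Real.rpow_neg (by positivity), mul_comm]

variable [σ : St]

theorem UCt_fin {θ : ℝ} (hθ : 0 < θ) {x b : FF} (hx : x ≠ 0) (hb : b ≠ 0) (h : x / b ∈ OS) :
    (sS x / sS b) ^ θ ≤ ∏ v : SP, (2 : ℝ) ^ θ * (2 ^ (-θ)) ^ (ord v.1 x - ord v.1 b).natAbs := by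
  rw [← sS_div hx hb, sS, ← Real.finsetProd_rpow _ _ fun v _ => (zpow_pos (b1b_pos v) _).le]
  refine Finset.prod_le_prod (fun v _ => Real.rpow_nonneg (zpow_pos (b1b_pos v) _).le _)
    fun v _ => ?_
  have h0 : 0 ≤ ord v.1 x - ord v.1 b := sub_nonneg.2 (((div_mem_OS_iff hb).1 h v).le hx)
  have h3 : (1 : ℝ) ≤ 2 ^ θ := Real.one_le_rpow one_le_two hθ.le
  obtain ⟨n, hn⟩ := Int.eq_ofNat_of_zero_le h0
  rw [ord_div _ hx hb, hn, Int.natAbs_natCast, UCt_pow, zpow_neg, zpow_natCast,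
    Real.inv_rpow (pow_pos (b1b_pos v) _).le, ← Real.rpow_neg (pow_pos (b1b_pos v) _).le]
  refine le_trans ?_ (le_mul_of_one_le_left (by positivity) h3)
  exact Real.rpow_le_rpow_of_nonpos (by positivity)
    (pow_le_pow_left₀ two_pos.le (b1b_two_le v) n) (by linarith)

/-- Sums over the generators of one ideal. -/
theorem unit_sum {θ : ℝ} (hθ : 0 < θ) : ∃ C : ℝ, 0 < C ∧ ∀ (b : FF) (R : Pl → ℝ) (x0 : E)
    (J : Finset E), b ≠ 0 → (∀ w, 0 < R w) →
    (∀ x ∈ J, x ≠ 0 ∧ Associated x x0 ∧ (x : FF) / b ∈ OS) →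
    ∑ x ∈ J, (sS x / sS b) ^ θ * ∏ w, (‖em w x‖ / R w) ^ θ * (1 + ‖em w x‖ / R w) ^ (-(2 * θ))
      ≤ C := by
  obtain ⟨C, hC, hw⟩ := card_window_le 4 (by norm_num)
  set f : ℤ → ℝ := fun j => (2 : ℝ) ^ θ * (2 ^ (-θ)) ^ j.natAbs with hf
  have f0 : ∀ j, 0 ≤ f j := fun j => by positivity
  have fs : Summable f := (UCt_summable (by positivity)
    (Real.rpow_lt_one_of_one_lt_of_neg one_lt_two (by linarith))).mul_left _
  have hM : 0 ≤ (∑' a, f a) ^ Fintype.card (SP ⊕ Pl) := pow_nonneg (tsum_nonneg f0) _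
  refine ⟨C * (∑' a, f a) ^ Fintype.card (SP ⊕ Pl) + 1, by positivity,
    fun b R x0 J hb hR hJ => ?_⟩
  let κ : E → SP ⊕ Pl → ℤ := fun x => Sum.elim (fun v => ord v.1 (x : FF) - ord v.1 b)
    fun w => Int.log 2 (‖em w x‖ / R w)
  have hne : ∀ x ∈ J, (x : FF) ≠ 0 := fun x hx h => (hJ x hx).1 (Subtype.ext h)
  have hpos : ∀ x ∈ J, ∀ w, 0 < ‖em w x‖ / R w := fun x hx w =>
    div_pos (norm_pos_iff.2 (em_ne_zero w (hne x hx))) (hR w)
  calc _ ≤ ∑ x ∈ J, ∏ i, f (κ x i) := by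
        refine Finset.sum_le_sum fun x hx => ?_
        rw [Fintype.prod_sum_type]
        refine mul_le_mul (UCt_fin hθ (hne x hx) hb (hJ x hx).2.2)
          (Finset.prod_le_prod (fun w _ => ?_) fun w _ => UCt_arch hθ (hpos x hx w))
          (Finset.prod_nonneg fun w _ => ?_) (Finset.prod_nonneg fun v _ => f0 _) <;>
        · have := hpos x hx w
          positivity
    _ = ∑ k ∈ J.image κ, (J.filter fun x => κ x = k).card • ∏ i, f (k i) :=
        Finset.sum_comp (fun k : SP ⊕ Pl → ℤ => ∏ i, f (k i)) κ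
    _ ≤ ∑ k ∈ J.image κ, C * ∏ i, f (k i) := by
        refine Finset.sum_le_sum fun k hk => ?_
        rw [nsmul_eq_mul]
        refine mul_le_mul_of_nonneg_right ?_ (Finset.prod_nonneg fun i _ => f0 _)
        obtain ⟨y, hy, rfl⟩ := Finset.mem_image.1 hk
        refine hw y (fun w => (2 ^ κ y (Sum.inr w) * R w) ^ 2) x0 _ (hne y hy) fun x hx => ?_
        obtain ⟨hx, he⟩ := Finset.mem_filter.1 hx
        have ho : ∀ v : SP, ord v.1 (x : FF) = ord v.1 (y : FF) := fun v => by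
          have := congrFun he (Sum.inl v)
          simpa [κ] using this
        refine ⟨(hJ x hx).1, (hJ x hx).2.1, (div_mem_OS_iff (hne y hy)).2 fun v => ?_,
          (div_mem_OS_iff (hne x hx)).2 fun v => ?_, fun w => ?_⟩
        · rw [← ho v]; exact OG.self _ _
        · rw [ho v]; exact OG.self _ _
        rw [← congrFun he (Sum.inr w)]
        have h1 : (2 : ℝ) ^ κ x (Sum.inr w) ≤ ‖em w x‖ / R w := by
          simpa [κ] using Int.zpow_log_le_self (R := ℝ) (b := 2) one_lt_two (hpos x hx w)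
        have h2 : ‖em w x‖ / R w < (2 : ℝ) ^ (κ x (Sum.inr w) + 1) := by
          simpa [κ] using Int.lt_zpow_succ_log_self (R := ℝ) (b := 2) one_lt_two (‖em w x‖ / R w)
        rw [le_div_iff₀ (hR w)] at h1
        rw [div_lt_iff₀ (hR w), zpow_add_one₀ two_ne_zero] at h2
        have h3 : 0 ≤ (2 : ℝ) ^ κ x (Sum.inr w) * R w := (mul_pos (by positivity) (hR w)).le
        exact ⟨pow_le_pow_left₀ h3 h1 2, by nlinarith [norm_nonneg (em w x)]⟩
    _ ≤ _ := by
        rw [← Finset.mul_sum]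
        linarith [mul_le_mul_of_nonneg_left (UCt_pi f0 fs (J.image κ)) hC.le]

/-- The number of generators of one ideal in a box. -/
theorem card_assoc_box {ε : ℝ} (hε : 0 < ε) : ∃ C : ℝ, 0 < C ∧ ∀ (b : FF) (T : Pl → ℝ) (x : E),
    b ≠ 0 → (∀ w, 0 < T w) → x ≠ 0 →
    (((box b T).filter fun y => Associated y x).card : ℝ) ≤ C * (sS b * (∏ w, T w) / nm x) ^ ε := by
  obtain ⟨C, hC, h⟩ := unit_sum hε
  have h2 : (0 : ℝ) < (2 ^ (-(2 * ε))) ^ rk := by positivity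
  refine ⟨C / (2 ^ (-(2 * ε))) ^ rk, by positivity, fun b T x hb hT hx => ?_⟩
  have hs : ∀ w, 0 < √(T w) := fun w => Real.sqrt_pos.2 (hT w)
  have hP : 0 < sS b * ∏ w, T w := mul_pos (sS_pos b) (Finset.prod_pos fun w _ => hT w)
  have hn : (0 : ℝ) < nm x := one_pos.trans_le (one_le_nmR hx)
  have hq : 0 < (nm x / (sS b * ∏ w, T w)) ^ ε := Real.rpow_pos_of_pos (div_pos hn hP) _
  have key := h b (fun w => √(T w)) x ((box b T).filter fun y => Associated y x) hb hs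
    fun y hy => ⟨((mem_box hb).1 (Finset.mem_filter.1 hy).1).1, (Finset.mem_filter.1 hy).2,
      ((mem_box hb).1 (Finset.mem_filter.1 hy).1).2.1⟩
  have low := Finset.card_nsmul_le_sum ((box b T).filter fun y => Associated y x)
    (fun y : E => (sS y / sS b) ^ ε *
      ∏ w, (‖em w y‖ / √(T w)) ^ ε * (1 + ‖em w y‖ / √(T w)) ^ (-(2 * ε)))
    ((nm x / (sS b * ∏ w, T w)) ^ ε * (2 ^ (-(2 * ε))) ^ rk) fun y hy => by
      obtain ⟨hy, ha⟩ := Finset.mem_filter.1 hy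
      obtain ⟨hy0, -, hyT⟩ := (mem_box hb).1 hy
      have ht : ∀ w, ‖em w y‖ / √(T w) ≤ 1 := fun w =>
        (div_le_one (hs w)).2 (Real.le_sqrt_of_sq_le (hyT w))
      have ht0 : ∀ w, 0 ≤ ‖em w y‖ / √(T w) := fun w => by positivity
      have ha0 : 0 ≤ sS y / sS b := (div_pos (sS_pos _) (sS_pos _)).le
      have e : nm x / (sS b * ∏ w, T w) = sS y / sS b * ∏ w, (‖em w y‖ / √(T w)) ^ 2 := by
        rw [← nm_assoc ha, nm_eq hy0, Ninf]
        simp only [div_pow, Real.sq_sqrt (hT _).le, Finset.prod_div_distrib]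
        rw [div_mul_div_comm, mul_comm]
      rw [e, Real.mul_rpow ha0 (Finset.prod_nonneg fun w _ => sq_nonneg _), mul_assoc,
        ← Real.finsetProd_rpow _ _ fun w _ => sq_nonneg _, ← prod_const_Pl,
        ← Finset.prod_mul_distrib]
      refine mul_le_mul_of_nonneg_left (Finset.prod_le_prod (fun w _ => by positivity)
        fun w _ => mul_le_mul ?_ ?_ (by positivity) (Real.rpow_nonneg (ht0 w) _))
        (Real.rpow_nonneg ha0 _)
      · exact Real.rpow_le_rpow (sq_nonneg _) (by nlinarith [ht w, ht0 w]) hε.le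
      · exact Real.rpow_le_rpow_of_nonpos (by linarith [ht0 w]) (by linarith [ht w]) (by linarith)
  rw [nsmul_eq_mul] at low
  rw [← inv_div (nm x : ℝ), Real.inv_rpow (div_pos hn hP).le, ← div_eq_mul_inv, div_div,
    le_div_iff₀ (mul_pos h2 hq), mul_comm ((2 ^ (-(2 * ε))) ^ rk : ℝ)]
  exact low.trans key

/-- From a box to a ball. -/
theorem sum_box_le_ball {ε : ℝ} (hε : 0 < ε) : ∃ C : ℝ, 0 < C ∧
    ∀ (b : FF) (T : Pl → ℝ) (R : ℝ) (F : E → ℝ), b ≠ 0 → (∀ w, 0 < T w) → sS b * ∏ w, T w ≤ R →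
    (∀ x, 0 ≤ F x) → (∀ (e : Eˣ) (x : E), F (e ^ 6 * x) = F x) →
    ∑ x ∈ box b T, F x ≤ C * R ^ ε * ∑ x ∈ ball R, F x := by
  obtain ⟨C, hC, h⟩ := card_assoc_box hε
  refine ⟨C, hC, fun b T R F hb hT hR hF hinv => ?_⟩
  have hP : 0 < sS b * ∏ w, T w := mul_pos (sS_pos b) (Finset.prod_pos fun w _ => hT w)
  have hex : ∀ x : E, ∃ e : Eˣ, x ∈ box b T → e ^ 6 * x ∈ ball R := fun x => by
    by_cases hx : x ∈ box b T
    · obtain ⟨e, he⟩ := exists_ball_rep ((mem_box hb).1 hx).1 ((nm_le_of_mem_box hb hx).trans hR)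
      exact ⟨e, fun _ => he⟩
    · exact ⟨1, fun h => absurd h hx⟩
  choose e he using hex
  rw [← Finset.sum_fiberwise_of_maps_to (g := fun x => (e x : E) ^ 6 * x) he, Finset.mul_sum]
  refine Finset.sum_le_sum fun y hy => ?_
  have hy0 := (mem_ball.1 hy).1
  rw [Finset.sum_congr rfl (g := fun _ => F y) fun x hx => by
    rw [← (Finset.mem_filter.1 hx).2, hinv], Finset.sum_const, nsmul_eq_mul]
  refine mul_le_mul_of_nonneg_right ?_ (hF y)
  have hsub : ((box b T).filter fun x => (e x : E) ^ 6 * x = y) ⊆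
      (box b T).filter fun x => Associated x y := fun x hx => by
    obtain ⟨h1, h2⟩ := Finset.mem_filter.1 hx
    exact Finset.mem_filter.2 ⟨h1, e x ^ 6, by rw [← h2, mul_comm, Units.val_pow_eq_pow_val]⟩
  refine (Nat.cast_le.2 (Finset.card_le_card hsub)).trans ((h b T y hb hT hy0).trans ?_)
  exact mul_le_mul_of_nonneg_left (Real.rpow_le_rpow (by positivity)
    ((div_le_self hP.le (one_le_nmR hy0)).trans hR) hε.le) hC.le

theorem card_prim_ge {ε : ℝ} (hε : 0 < ε) : ∃ c : ℝ, 0 < c ∧ ∀ R : ℝ, 1 ≤ R →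
    c * R ^ (1 - ε) ≤ (prim R).card := by
  obtain ⟨C, hC, h⟩ := card_assoc_box hε
  obtain ⟨c, R0, hc, hge⟩ := card_int_box_ge
  have hM : 0 < (|R0| + 1) ^ (2 * rk) := by positivity
  refine ⟨min (c / C) ((|R0| + 1) ^ (2 * rk))⁻¹, by positivity, fun R hR => ?_⟩
  have hR0 : 0 < R := one_pos.trans_le hR
  have ht : 0 < R ^ (1 / rk : ℝ) := Real.rpow_pos_of_pos hR0 _
  have hρ : √(R ^ (1 / rk : ℝ)) ^ (2 * rk) = R := by
    rw [pow_mul, Real.sq_sqrt ht.le, rpow_rk hR0.le]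
  have hp : 0 < R ^ (1 - ε) := Real.rpow_pos_of_pos hR0 _
  by_cases h0 : R0 ≤ √(R ^ (1 / rk : ℝ))
  · obtain ⟨T, hT, hcard⟩ := hge _ h0
    rw [hρ] at hcard
    have hP : sS 1 * ∏ _w : Pl, R ^ (1 / rk : ℝ) = R := by
      rw [sS_one, one_mul, prod_const_Pl, rpow_rk hR0.le]
    have hinj : Function.Injective toE := fun x y hxy =>
      RingOfIntegers.ext (by rw [← coe_toE, hxy, coe_toE])
    have hbox : ∀ x ∈ T, toE x ∈ box 1 fun _ => R ^ (1 / rk : ℝ) := fun x hx =>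
      (mem_box one_ne_zero).2 ⟨fun h => (hT x hx).1 (hinj (h.trans (map_zero toE).symm)), by
        rw [div_one]; exact mem_OS_of_integral x.isIntegral_coe, fun w =>
          (Real.le_sqrt (norm_nonneg _) ht.le).1 ((hT x hx).2 w)⟩
    have hmap : ∀ x ∈ T, pm (toE x) ∈ prim R := fun x hx =>
      mem_prim.2 ⟨prim_pm _, by
        rw [← nm_assoc (assoc_pm ((mem_box one_ne_zero).1 (hbox x hx)).1), ← hP]
        exact nm_le_of_mem_box one_ne_zero (hbox x hx)⟩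
    have hle : (T.card : ℝ) ≤ (prim R).card * (C * R ^ ε) := by
      rw [Finset.card_eq_sum_card_fiberwise hmap, Nat.cast_sum, ← nsmul_eq_mul]
      refine Finset.sum_le_card_nsmul _ _ _ fun y hy => ?_
      have hy0 := (mem_prim.1 hy).1.1
      have h1 := h 1 (fun _ => R ^ (1 / rk : ℝ)) y one_ne_zero (fun _ => ht) hy0
      rw [hP] at h1
      refine le_trans (Nat.cast_le.2 (Finset.card_le_card_of_injOn toE (fun x hx => ?_)
        hinj.injOn)) (h1.trans ?_)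
      · obtain ⟨h1, h2⟩ := Finset.mem_filter.1 (Finset.mem_coe.1 hx)
        exact Finset.mem_coe.2 (Finset.mem_filter.2 ⟨hbox x h1,
          h2 ▸ assoc_pm ((mem_box one_ne_zero).1 (hbox x h1)).1⟩)
      · exact mul_le_mul_of_nonneg_left (Real.rpow_le_rpow (by positivity)
          (div_le_self hR0.le (one_le_nmR hy0)) hε.le) hC.le
    have hε' : 0 < R ^ ε := Real.rpow_pos_of_pos hR0 _
    calc _ ≤ c / C * R ^ (1 - ε) := by gcongr; exact min_le_left _ _
      _ = c * R / (C * R ^ ε) := by rw [Real.rpow_sub hR0, Real.rpow_one]; field_simp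
      _ ≤ _ := by rw [div_le_iff₀ (mul_pos hC hε')]; exact hcard.trans hle
  · have h1 : 1 ≤ (prim R).card :=
      Finset.card_pos.2 ⟨1, mem_prim.2 ⟨prim_one, by rw [nm_one]; exact_mod_cast hR⟩⟩
    have h2 : R ≤ (|R0| + 1) ^ (2 * rk) := by
      rw [← hρ]
      exact pow_le_pow_left₀ (Real.sqrt_nonneg _) (by linarith [le_abs_self R0, not_le.1 h0]) _
    have h3 : R ^ (1 - ε) ≤ R := by
      simpa using Real.rpow_le_rpow_of_exponent_le hR (show 1 - ε ≤ 1 by linarith)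
    calc _ ≤ ((|R0| + 1) ^ (2 * rk))⁻¹ * (|R0| + 1) ^ (2 * rk) :=
          mul_le_mul (min_le_right _ _) (h3.trans h2) hp.le (by positivity)
      _ = 1 := inv_mul_cancel₀ hM.ne'
      _ ≤ _ := by exact_mod_cast h1

end NQ
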