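import Vale.Agent.NQ.Cnt
import Vale.Agent.NQ.SInt
import Vale.Agent.NQ.UCt
import Vale.Agent.NQ.Rearr
import Vale.Agent.P026.Wt

noncomputable section
namespace NQ
open Complex MeasureTheory NumberField Filter
open scoped ComplexConjugate Classical ContDiff Topology

variable [σ : St]

theorem WtS_del : del ≠ 0 := by
  unfold del
  split_ifs with h
  exacts [h.choose_spec.1, one_ne_zero]
theorem WtS_ic {a x : FF} (h : ic a x ≠ 0) : Cl a x := by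
  by_contra h1
  exact h (if_neg h1)
theorem WtS_sz (X : Sc) : sS X.a * ∏ w, 16 * X.T w = cW * X.sz := by
  rw [Finset.prod_mul_distrib, prod_const_Pl, mul_left_comm]
  rfl
theorem one_le_cW : 1 ≤ cW :=
  one_le_pow₀ (by norm_num)
theorem Sc.OK.sz_pos {X : Sc} (h : X.OK) : 0 < X.sz :=
  mul_pos (sS_pos _) (Finset.prod_pos fun w _ => h.2 w)
theorem Sc.OK.dv {X : Sc} (h : X.OK) {y : FF} (hy : y ≠ 0) : (X.dv y).OK :=
  ⟨div_ne_zero h.1 hy, fun w => div_pos (h.2 w) (em_sq_pos w hy)⟩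
theorem Sc.OK.sz_dv {X : Sc} (h : X.OK) {y : E} (hy : y ≠ 0) : (X.dv y).sz = X.sz / nm y := by
  have hy' := cnt_coe_ne hy
  simp only [Sc.sz, Sc.dv]
  rw [nm_eq hy, sS_div h.1 hy', Finset.prod_div_distrib, div_mul_div_comm, mul_comm (sS (y : FF))]
  rfl
theorem Sc.dv_dv (X : Sc) (y y' : FF) : (X.dv y).dv y' = X.dv (y * y') := by
  simp only [Sc.dv, div_div, map_mul, norm_mul, mul_pow]
theorem Sc.dv_one (X : Sc) : X.dv 1 = X := by
  simp only [Sc.dv, div_one, map_one, norm_one, one_pow]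
theorem Sc.OK.de {X : Sc} (h : X.OK) (d e : Finset P) : (X.de d e).OK :=
  h.dv (cnt_coe_ne (mul_ne_zero (pr_ne_zero d) (pr_ne_zero e)))
theorem Sc.OK.sz_de {X : Sc} (h : X.OK) (d e : Finset P) :
    (X.de d e).sz = X.sz / (Ns d * Ns e) := by
  rw [Sc.de, h.sz_dv (mul_ne_zero (pr_ne_zero d) (pr_ne_zero e)), nm_mul, Nat.cast_mul]
  rfl
theorem Sc.OK.du {X : Sc} (h : X.OK) {N1 : ℝ} (hN : 0 < N1) (d f : Finset P) : (X.du N1 d f).OK :=
  ⟨div_ne_zero (mul_ne_zero (pow_ne_zero 2 (div_ne_zero h.1 (cnt_coe_ne (pr_ne_zero d))))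
    (cnt_coe_ne (pr_ne_zero f))) WtS_del, fun w =>
    div_pos (mul_pos (pow_pos (div_pos (h.2 w) (em_sq_pos w (cnt_coe_ne (pr_ne_zero d)))) 2)
      (em_sq_pos w (cnt_coe_ne (pr_ne_zero f)))) hN⟩
theorem Sc.OK.sz_du {X : Sc} (h : X.OK) {N1 : ℝ} (hN : 0 < N1) (d f : Finset P) :
    (X.du N1 d f).sz = (X.sz / Ns d) ^ 2 * Ns f / (N1 ^ rk * sS del) := by
  have hd := cnt_coe_ne (pr_ne_zero d)
  have hf := cnt_coe_ne (pr_ne_zero f)
  have h1 := pow_ne_zero 2 (div_ne_zero h.1 hd)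
  simp only [Sc.sz, Sc.du]
  rw [sS_div (mul_ne_zero h1 hf) WtS_del, sS_mul h1 hf, sS_pow, sS_div h.1 hd, Ns_eq, Ns_eq,
    Finset.prod_div_distrib, Finset.prod_mul_distrib, Finset.prod_pow, Finset.prod_div_distrib,
    prod_const_Pl]
  unfold Ninf
  ring
theorem Kx_supp {X : Sc} (h : X.OK) {z : Pl → ℂ} {c : E} (hK : Kx X z c ≠ 0) :
    Cl X.a c ∧ (∀ w, X.T w < ‖em w c‖ ^ 2 ∧ ‖em w c‖ ^ 2 < 16 * X.T w) ∧ c ∈ bx X ∧
      X.sz < nm c ∧ nm c < cW * X.sz := by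
  have h1 : Cl X.a c := WtS_ic (left_ne_zero_of_mul hK)
  have h2 : ∀ w, X.T w < ‖em w c‖ ^ 2 ∧ ‖em w c‖ ^ 2 < 16 * X.T w := fun w => by
    have := QRH.wt_supp (Finset.prod_ne_zero_iff.1 (right_ne_zero_of_mul hK) w (Finset.mem_univ w))
    exact ⟨(one_lt_div (h.2 w)).1 this.1, (div_lt_iff₀ (h.2 w)).1 this.2⟩
  have hc : c ≠ 0 := fun h0 => h1.ne_zero (by rw [h0]; rfl)
  have h3 : (nm c : ℝ) = sS X.a * ∏ w, ‖em w c‖ ^ 2 := by
    rw [nm_eq hc, h1.sS_eq, mul_comm]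
    rfl
  refine ⟨h1, h2, (mem_box h.1).2 ⟨hc, h1.div_mem, fun w => (h2 w).2.le⟩, ?_, ?_⟩
  · rw [h3]
    exact mul_lt_mul_of_pos_left (Finset.prod_lt_prod_of_nonempty (fun w _ => h.2 w)
      (fun w _ => (h2 w).1) Finset.univ_nonempty) (sS_pos _)
  · rw [h3, ← WtS_sz]
    exact mul_lt_mul_of_pos_left (Finset.prod_lt_prod_of_nonempty
      (fun w _ => em_sq_pos w h1.ne_zero) (fun w _ => (h2 w).2) Finset.univ_nonempty) (sS_pos _)
theorem WtS_zero {X : Sc} (h : X.OK) {z : Pl → ℂ} {c : E} (hc : c ∉ bx X) : Kx X z c = 0 := by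
  by_contra h1
  exact hc (Kx_supp h h1).2.2.1
theorem Kx_dv (X : Sc) {y : E} (hy : y ≠ 0) (z : Pl → ℂ) (c : E) :
    Kx (X.dv y) z c = Kx X z (y * c) := by
  simp only [Kx, Sc.dv, ic, Cl_div_iff (cnt_coe_ne hy), Subring.coe_mul, map_mul, norm_mul, mul_pow,
    div_div_eq_mul_div, mul_comm (‖em _ (c : FF)‖ ^ 2)]
theorem mem_bx_dv {X : Sc} (h : X.OK) {y : E} (hy : y ≠ 0) {c : E} :
    c ∈ bx (X.dv y) ↔ y * c ∈ bx X := by
  have hy' := cnt_coe_ne hy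
  rw [bx, bx, mem_box (h.dv hy').1, mem_box h.1, mul_ne_zero_iff_left hy]
  refine and_congr Iff.rfl (and_congr ?_ (forall_congr' fun w => ?_))
  · simp only [Sc.dv, Subring.coe_mul, div_div_eq_mul_div, mul_comm (c : FF)]
  · simp only [Sc.dv, Subring.coe_mul, map_mul, norm_mul, mul_pow]
    rw [← mul_div_assoc, le_div_iff₀' (em_sq_pos w hy')]
theorem nm_le_of_mem_bx {X : Sc} (h : X.OK) {c : E} (hc : c ∈ bx X) :
    c ≠ 0 ∧ (nm c : ℝ) ≤ cW * X.sz :=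
  ⟨((mem_box h.1).1 hc).1, (nm_le_of_mem_box h.1 hc).trans_eq (WtS_sz X)⟩
theorem norm_Kx_le : ∃ C : ℝ, 0 < C ∧ ∀ (X : Sc) (z : Pl → ℂ) (c : E), (∀ w, |(z w).re| ≤ 4) →
    ‖Kx X z c‖ ≤ C := by
  obtain ⟨C, hC, h⟩ := QRH.norm_wt_le
  refine ⟨C ^ rk, by positivity, fun X z c hz => ?_⟩
  have h1 : ‖ic X.a c‖ ≤ 1 := by
    unfold ic
    split_ifs <;> simp
  rw [Kx, norm_mul, norm_prod, ← prod_const_Pl]
  exact (mul_le_of_le_one_left (by positivity) h1).trans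
    (Finset.prod_le_prod (fun w _ => norm_nonneg _) fun w _ => h _ _ (hz w))
theorem Kx_mul_cpow {X : Sc} (h : X.OK) (z s : Pl → ℂ) (c : E) :
    Kx X z c * ∏ w, ((‖em w c‖ ^ 2 / X.T w : ℝ) : ℂ) ^ s w = Kx X (z + s) c := by
  by_cases hc : Cl X.a c
  · rw [Kx, Kx, mul_assoc, ← Finset.prod_mul_distrib]
    congr 1
    exact Finset.prod_congr rfl fun w _ =>
      QRH.wt_mul_cpow (div_pos (em_sq_pos w hc.ne_zero) (h.2 w)) _ _
  · simp only [Kx, ic, if_neg hc, zero_mul]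
theorem S_eq_of_subset {X : Sc} (h : X.OK) {T : Finset E} (hT : bx X ⊆ T) (β : Finset P → ℂ)
    (z : Pl → ℂ) : S β X z = ∑ c ∈ T with Squarefree c, β (fac c) * Kx X z c := by
  refine Finset.sum_subset (Finset.filter_subset_filter _ hT) fun c hc hc' => ?_
  rw [WtS_zero h fun h1 => hc' (Finset.mem_filter.2 ⟨h1, (Finset.mem_filter.1 hc).2⟩), mul_zero]
theorem S_eq_tsum {X : Sc} (h : X.OK) (β : Finset P → ℂ) (z : Pl → ℂ) :
    S β X z = ∑' c : E, if Squarefree c then β (fac c) * Kx X z c else 0 := by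
  rw [S, Finset.sum_filter, tsum_eq_sum (s := bx X) fun c hc => ?_]
  rw [WtS_zero h hc, mul_zero, ite_self]
theorem Kw_supp {X : Sc} (h : X.OK) {z : Pl → ℂ} {s : Finset P} (hK : Kw X z s ≠ 0) :
    HasCl X.a s ∧ X.sz < Ns s ∧ Ns s < cW * X.sz := by
  obtain ⟨c, hc, h1⟩ := Finset.exists_ne_zero_of_sum_ne_zero hK
  have h2 := (Finset.mem_filter.1 hc).2
  obtain ⟨a1, -, -, a4, a5⟩ := Kx_supp h h1
  rw [nm_of_assoc_pr h2] at a4 a5
  exact ⟨⟨c, h2, a1⟩, a4, a5⟩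
theorem sum_norm_Kx_le : ∃ C : ℝ, 0 < C ∧ ∀ (X : Sc) (z : Pl → ℂ) (x : E), X.OK →
    (∀ w, |(z w).re| ≤ 4) → ∑ c ∈ bx X with Associated c x, ‖Kx X z c‖ ≤ C := by
  obtain ⟨C, hC, h⟩ := norm_Kx_le
  obtain ⟨C', hC', h'⟩ := card_window_le 16 (by norm_num)
  refine ⟨C' * C, by positivity, fun X z x hX hz => ?_⟩
  rw [← Finset.sum_filter_ne_zero]
  refine (Finset.sum_le_card_nsmul _ _ C fun c _ => h X z c hz).trans ?_
  rw [nsmul_eq_mul]
  refine mul_le_mul_of_nonneg_right (h' X.a X.T x _ hX.1 fun y hy => ?_) hC.le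
  obtain ⟨h1, h2⟩ := Finset.mem_filter.1 hy
  obtain ⟨a1, a2, a3, -⟩ := Kx_supp hX (norm_ne_zero_iff.1 h2)
  exact ⟨(nm_le_of_mem_bx hX a3).1, (Finset.mem_filter.1 h1).2, a1.div_mem, a1.symm.div_mem,
    fun w => ⟨(a2 w).1.le, (a2 w).2.le⟩⟩
theorem norm_Kw_le : ∃ C : ℝ, 0 < C ∧ ∀ (X : Sc) (z : Pl → ℂ) (s : Finset P), X.OK →
    (∀ w, |(z w).re| ≤ 4) → ‖Kw X z s‖ ≤ C := by
  obtain ⟨C, hC, h⟩ := sum_norm_Kx_le
  exact ⟨C, hC, fun X z s hX hz => (norm_sum_le _ _).trans (h X z _ hX hz)⟩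
/-- Generators of the ideal of `d ∪ c` are `pr d` times generators of the ideal of `c`. -/
theorem sum_gen_union {X : Sc} (h : X.OK) {d c : Finset P} (hd : Disjoint d c) (F : E → ℂ) :
    ∑ x ∈ bx X with Associated x (pr (d ∪ c)), F x
      = ∑ y ∈ bx (X.dv (pr d)) with Associated y (pr c), F (pr d * y) := by
  have h0 := pr_ne_zero d
  rw [pr_union hd]
  refine (Finset.sum_bij (fun y _ => pr d * y) (fun y hy => ?_)
    (fun _ _ _ _ h1 => mul_left_cancel₀ h0 h1) (fun x hx => ?_) fun _ _ => rfl).symm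
  · obtain ⟨h1, h2⟩ := Finset.mem_filter.1 hy
    exact Finset.mem_filter.2 ⟨(mem_bx_dv h h0).1 h1, h2.mul_left _⟩
  · obtain ⟨h1, h2⟩ := Finset.mem_filter.1 hx
    obtain ⟨y, rfl⟩ := (Dvd.intro _ rfl).trans h2.symm.dvd
    exact ⟨y, Finset.mem_filter.2 ⟨(mem_bx_dv h h0).2 h1, h2.of_mul_left (.refl _) h0⟩, rfl⟩
theorem sum_sqfree_eq {X : Sc} (h : X.OK) {T : Finset (Finset P)} (hT : sqf (cW * X.sz) ⊆ T)
    (F : E → ℂ) : ∑ c ∈ bx X with Squarefree c, F c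
      = ∑ s ∈ T, ∑ c ∈ bx X with Associated c (pr s), F c := by
  rw [← Finset.sum_fiberwise_of_maps_to (t := T) (g := fac) fun c hc => by
    have h1 := nm_le_of_mem_bx h (Finset.mem_filter.1 hc).1
    exact hT (mem_sqf.2 ((Ns_fac_le h1.1).trans h1.2))]
  refine Finset.sum_congr rfl fun s _ => ?_
  simp only [Finset.filter_filter, assoc_pr_iff]
theorem Kw_union {X : Sc} (h : X.OK) {d c : Finset P} (hd : Disjoint d c) (z : Pl → ℂ) :
    Kw X z (d ∪ c) = Kw (X.dv (pr d)) z c := by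
  rw [Kw, sum_gen_union h hd, Kw]
  exact Finset.sum_congr rfl fun y _ => (Kx_dv X (pr_ne_zero d) z y).symm
theorem S_eq_sum {X : Sc} (h : X.OK) {T : Finset (Finset P)} (hT : sqf (cW * X.sz) ⊆ T)
    (β : Finset P → ℂ) (z : Pl → ℂ) : S β X z = ∑ s ∈ T, β s * Kw X z s := by
  rw [S, sum_sqfree_eq h hT]
  refine Finset.sum_congr rfl fun s _ => ?_
  rw [Kw, Finset.mul_sum]
  exact Finset.sum_congr rfl fun c hc => by rw [(assoc_pr_iff.1 (Finset.mem_filter.1 hc).2).2]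
theorem S_eq_zero {X : Sc} (h : X.OK) (hX : cW * X.sz < 1) (β : Finset P → ℂ) (z : Pl → ℂ) :
    S β X z = 0 := by
  rw [S_eq_sum h (sqf_eq_empty hX).subset, Finset.sum_empty]
theorem S_smul (κ : ℂ) (β : Finset P → ℂ) (X : Sc) (z : Pl → ℂ) :
    S (fun s => κ * β s) X z = κ * S β X z := by
  simp only [S, Finset.mul_sum, mul_assoc]
theorem S_congr {β β' : Finset P → ℂ} {X : Sc} (h : ∀ s, HasCl X.a s → β s = β' s) (z : Pl → ℂ) :
    S β X z = S β' X z := by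
  refine Finset.sum_congr rfl fun c hc => ?_
  by_cases h1 : Cl X.a c
  · rw [h _ ⟨c, squarefree_iff_assoc.1 (Finset.mem_filter.1 hc).2, h1⟩]
  · simp only [Kx, ic, if_neg h1, zero_mul, mul_zero]
theorem norm_S_le : ∃ C : ℝ, 0 < C ∧ ∀ (β : Finset P → ℂ) (X : Sc) (z : Pl → ℂ), X.OK →
    (∀ s, ‖β s‖ ≤ 1) → (∀ w, |(z w).re| ≤ 4) → ‖S β X z‖ ≤ C * X.sz := by
  obtain ⟨C, hC, h⟩ := norm_Kx_le
  obtain ⟨C', hC', h'⟩ := card_box_le
  have h0 := one_le_cW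
  refine ⟨C' * cW * C, by positivity, fun β X z hX hβ hz => (norm_sum_le _ _).trans ?_⟩
  refine (Finset.sum_le_card_nsmul _ _ C fun c _ => ?_).trans ?_
  · rw [norm_mul]
    exact (mul_le_of_le_one_left (norm_nonneg _) (hβ _)).trans (h X z c hz)
  · have h1 := h' X.a (fun w => 16 * X.T w) hX.1 fun w => mul_pos (by norm_num) (hX.2 w)
    have h2 : (((bx X).filter Squarefree).card : ℝ) ≤ (bx X).card :=
      Nat.cast_le.2 (Finset.card_filter_le _ _)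
    rw [WtS_sz] at h1
    rw [nsmul_eq_mul]
    exact (mul_le_mul_of_nonneg_right (h2.trans h1) hC.le).trans_eq (by ring)
theorem ic_cl {a a' : FF} (h : Cl a a') : ic a = ic a' := by
  funext x
  exact if_congr ⟨h.symm.trans, h.trans⟩ rfl rfl
theorem box_congr {a a' : FF} (ha : a ≠ 0) (ha' : a' ≠ 0) (h : a / a' ∈ OS) (h' : a' / a ∈ OS)
    (T : Pl → ℝ) : box a T = box a' T := by
  ext x
  rw [mem_box ha, mem_box ha']
  exact and_congr Iff.rfl (and_congr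
    ⟨fun h1 => div_mem_OS_trans ha h1 h, fun h1 => div_mem_OS_trans ha' h1 h'⟩ Iff.rfl)
/-- The normalised scale of `exists_norm`. -/
def Sc.nz (X : Sc) (e : Eˣ) (a0 : FF) : Sc := ⟨a0, fun w => ‖em w (((e : E) : FF) ^ 6)‖ ^ 2 * X.T w⟩
theorem Sc.OK.nz {X : Sc} (h : X.OK) {e : Eˣ} {a0 : FF} (hcl : Cl a0 (((e : E) : FF) ^ 6 * X.a)) :
    (X.nz e a0).OK ∧ (X.nz e a0).sz = X.sz := by
  have he := pow_ne_zero 6 (Unit_coe_ne e)
  refine ⟨⟨hcl.1, fun w => mul_pos (em_sq_pos w he) (h.2 w)⟩, ?_⟩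
  have h1 : Ninf (((e : E) : FF) ^ 6) * sS (((e : E) : FF) ^ 6) = 1 := by
    rw [Ninf_pow, sS_pow, ← mul_pow, sS_unit e.isUnit, one_pow]
  simp only [Sc.sz, Sc.nz]
  rw [← hcl.sS_eq, sS_mul he h.1, Finset.prod_mul_distrib]
  unfold Ninf at h1
  linear_combination (sS X.a * ∏ w, X.T w) * h1
theorem Kx_nz {X : Sc} {e : Eˣ} {a0 : FF} (hcl : Cl a0 (((e : E) : FF) ^ 6 * X.a)) (z : Pl → ℂ)
    (c : E) : Kx (X.nz e a0) z (e ^ 6 * c) = Kx X z c := by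
  have he := pow_ne_zero 6 (Unit_coe_ne e)
  simp only [Kx, Sc.nz, ic_cl hcl]
  simp only [cnt_coe_mul, ic, Cl_mul_left he, map_mul, norm_mul, mul_pow,
    mul_div_mul_left _ _ (em_sq_pos _ he).ne']
theorem sum_bx_nz {X : Sc} (h : X.OK) {e : Eˣ} {a0 : FF}
    (hcl : Cl a0 (((e : E) : FF) ^ 6 * X.a)) (F : E → ℂ) :
    ∑ c ∈ bx (X.nz e a0), F c = ∑ c ∈ bx X, F (e ^ 6 * c) := by
  have he := pow_ne_zero 6 (Unit_coe_ne e)
  have he' : (e : E) ^ 6 ≠ 0 := pow_ne_zero 6 e.ne_zero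
  have h1 : Cl (a0 / ((e : E) : FF) ^ 6) X.a := (Cl_div_iff he).2 hcl
  have h2 : bx ((X.nz e a0).dv ((e : E) ^ 6 : E)) = bx X := by
    rw [bx, bx, ← box_congr h1.1 h.1 h1.symm.div_mem h1.div_mem]
    congr 1
    funext w
    exact congrArg (16 * ·) (mul_div_cancel_left₀ _ (em_sq_pos w he).ne')
  have h3 : ∀ c : E, c ∈ bx X ↔ e ^ 6 * c ∈ bx (X.nz e a0) := fun c => by
    rw [← h2, mem_bx_dv (h.nz hcl).1 he']
  refine (Finset.sum_bij (fun y _ => (e : E) ^ 6 * y) (fun y hy => (h3 y).1 hy)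
    (fun _ _ _ _ h1 => mul_left_cancel₀ he' h1) (fun x hx => ?_) fun _ _ => rfl).symm
  obtain ⟨y, rfl⟩ := (e.isUnit.pow 6).dvd (a := x)
  exact ⟨y, (h3 y).2 hx, rfl⟩
theorem S_nz {X : Sc} (h : X.OK) {e : Eˣ} {a0 : FF} (hcl : Cl a0 (((e : E) : FF) ^ 6 * X.a))
    (β : Finset P → ℂ) (z : Pl → ℂ) : S β (X.nz e a0) z = S β X z := by
  rw [S, S, Finset.sum_filter, Finset.sum_filter, sum_bx_nz h hcl]
  refine Finset.sum_congr rfl fun c _ => ?_
  rw [Kx_nz hcl, ← fac_assoc (cnt_assoc e 6 c)]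
  exact if_congr (cnt_assoc e 6 c).squarefree_iff.symm rfl rfl
theorem hasCl_nz {a a0 : FF} {e : Eˣ} (hcl : Cl a0 (((e : E) : FF) ^ 6 * a)) (s : Finset P) :
    HasCl a0 s ↔ HasCl a s := by
  have he := pow_ne_zero 6 (Unit_coe_ne e)
  have h1 : ∀ c : E, Cl a0 ((e ^ 6 * c : E) : FF) ↔ Cl a c := fun c => by
    rw [cnt_coe_mul, ← Cl_mul_left he (a := a)]
    exact ⟨hcl.symm.trans, hcl.trans⟩
  refine ⟨fun ⟨x, h2, h3⟩ => ?_, fun ⟨c, h2, h3⟩ => ⟨_, (cnt_assoc e 6 c).symm.trans h2, (h1 c).2 h3⟩⟩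
  obtain ⟨y, rfl⟩ := (e.isUnit.pow 6).dvd (a := x)
  exact ⟨y, (cnt_assoc e 6 y).trans h2, (h1 y).1 h3⟩
theorem S_split {X : Sc} (h : X.OK) (K : Finset P) (β : Finset P → ℂ) (z : Pl → ℂ) :
    S β X z = ∑ d ∈ K.powerset,
      S (fun c => if Disjoint c K then β (d ∪ c) else 0) (X.dv (pr d)) z := by
  rw [S_eq_sum h subset_rfl, sum_sqf_split _ K]
  refine Finset.sum_congr rfl fun d hd => ?_
  rw [S_eq_sum (h.dv (cnt_coe_ne (pr_ne_zero d))) subset_rfl, h.sz_dv (pr_ne_zero d),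
    Finset.sum_filter, mul_div_assoc]
  refine Finset.sum_congr rfl fun c _ => ?_
  split_ifs with hc
  · rw [Kw_union h (hc.mono_right (Finset.mem_powerset.1 hd)).symm]
  · rw [zero_mul]
theorem continuous_S (β : Finset P → ℂ) {a : FF} (ha : a ≠ 0) (z : Pl → ℂ) :
    Continuous fun u : Pl → ℝ => S β ⟨a, fun w => Real.exp (u w)⟩ z := by
  refine continuous_iff_continuousAt.2 fun u0 => ?_
  have h1 : Continuous fun u : Pl → ℝ =>
      ∑ c ∈ box a (fun w => 16 * Real.exp (u0 w + 1)) with Squarefree c,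
        β (fac c) * Kx ⟨a, fun w => Real.exp (u w)⟩ z c := by
    simp only [Kx]
    refine continuous_finsetSum _ fun c hc => continuous_const.mul (continuous_const.mul
      (continuous_finsetProd _ fun w _ => ?_))
    have hc0 := em_sq_pos w (cnt_coe_ne (Finset.mem_filter.1 hc).2.ne_zero)
    have h2 : Continuous fun u : Pl → ℝ => ‖em w c‖ ^ 2 / Real.exp (u w) :=
      continuous_const.div (by fun_prop) fun u => (Real.exp_pos _).ne'
    exact (QRH.continuous_V0.comp h2).mul ((continuous_ofReal.comp h2).cpow continuous_const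
      fun u => ofReal_mem_slitPlane.2 (div_pos hc0 (Real.exp_pos _)))
  refine h1.continuousAt.congr ?_
  filter_upwards [Metric.ball_mem_nhds u0 one_pos] with u hu
  refine (S_eq_of_subset (X := ⟨a, fun w => Real.exp (u w)⟩) ⟨ha, fun w => Real.exp_pos _⟩
    (fun c hc => ?_) β z).symm
  obtain ⟨a1, a2, a3⟩ := (mem_box ha).1 hc
  refine (mem_box ha).2 ⟨a1, a2, fun w => (a3 w).trans ?_⟩
  have h3 := (dist_le_pi_dist u u0 w).trans_lt hu
  rw [Real.dist_eq, abs_lt] at h3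
  exact mul_le_mul_of_nonneg_left (Real.exp_le_exp.2 (by linarith [h3.2])) (by norm_num)
theorem one_le_Tb (z : Pl → ℂ) : 1 ≤ Tb z :=
  Finset.prod_induction _ (1 ≤ ·) (fun _ _ => one_le_mul_of_one_le_of_one_le) le_rfl
    fun w _ => le_add_of_nonneg_right (norm_nonneg _)
theorem Tb_add_le (z s : Pl → ℂ) : Tb (z + s) ≤ Tb z * Tb s := by
  rw [Tb, Tb, Tb, ← Finset.prod_mul_distrib]
  refine Finset.prod_le_prod (fun w _ => by positivity) fun w _ => ?_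
  have h1 := norm_add_le (z w) (s w)
  have h2 := mul_nonneg (norm_nonneg (z w)) (norm_nonneg (s w))
  rw [Pi.add_apply]
  linarith
theorem Tb_neg (z : Pl → ℂ) : Tb (-z) = Tb z := by simp only [Tb, Pi.neg_apply, norm_neg]
theorem Tb_iT (τ : Pl → ℝ) : Tb (iT τ) = ∏ w, (1 + |τ w|) := by simp [Tb, iT]
theorem iT_re (τ : Pl → ℝ) (w : Pl) : (iT τ w).re = 0 := by simp [iT]
theorem integrable_beta_pi {F : (Pl → ℝ) → ℂ} (hF : Continuous F) :
    Integrable fun v : Pl → ℝ => (∏ w, ((beta (v w) : ℝ) : ℂ)) * F v := by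
  refine ((continuous_finsetProd _ fun w _ => continuous_ofReal.comp
    (QRH.contDiff_beta.continuous.comp (continuous_apply w))).mul hF).integrable_of_hasCompactSupport
    (HasCompactSupport.intro (isCompact_Icc (a := fun _ => 0) (b := fun _ => Real.log 4))
      fun v hv => ?_)
  by_contra h
  have h1 := fun w => QRH.beta_supp (ofReal_ne_zero.1
    (Finset.prod_ne_zero_iff.1 (left_ne_zero_of_mul h) w (Finset.mem_univ w)))
  exact hv ⟨fun w => (h1 w).1.le, fun w => (h1 w).2.le⟩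
theorem norm_integral_beta_pi {F : (Pl → ℝ) → ℂ} {M : ℝ} (hM : 0 ≤ M)
    (h : ∀ v : Pl → ℝ, (∀ w, 1 < Real.exp (v w) ∧ Real.exp (v w) < 4) → ‖F v‖ ≤ M) :
    ‖∫ v : Pl → ℝ, (∏ w, ((beta (v w) : ℝ) : ℂ)) * F v‖ ≤ 2 ^ rk * M := by
  have h0 : Integrable fun v : Pl → ℝ => ∏ w, beta (v w) :=
    Integrable.fintype_prod (f := fun _ => beta) fun _ => QRH.integrable_beta
  refine (norm_integral_le_of_norm_le (h0.mul_const M) (Eventually.of_forall fun v => ?_)).trans ?_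
  · have h1 : 0 ≤ ∏ w, beta (v w) := Finset.prod_nonneg fun w _ => QRH.beta_nonneg _
    rw [norm_mul, ← ofReal_prod, norm_real, Real.norm_of_nonneg h1]
    by_cases hv : ∏ w, beta (v w) = 0
    · rw [hv, zero_mul, zero_mul]
    · exact mul_le_mul_of_nonneg_left (h v fun w =>
        QRH.beta_exp (Finset.prod_ne_zero_iff.1 hv w (Finset.mem_univ w))) h1
  · rw [integral_mul_const, integral_fintype_prod_volume_eq_prod (fun _ : Pl => beta), prod_const_Pl]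
    exact mul_le_mul_of_nonneg_right
      (pow_le_pow_left₀ QRH.integral_beta_pos.le QRH.integral_beta_le _) hM
theorem prod_sm (s : Pl → ℂ) (G : Pl → ℝ → ℂ) (l : Pl → ℝ) : ∏ w, sm (s w) (G w) (l w)
    = ∫ v : Pl → ℝ, (∏ w, ((beta (v w) : ℝ) : ℂ)) *
        ∏ w, Complex.exp (s w * v w) * G w (v w + l w) := by
  unfold QRH.sm
  rw [← integral_fintype_prod_volume_eq_prod
    fun w (v : ℝ) => ((beta v : ℝ) : ℂ) * Complex.exp (s w * v) * G w (v + l w)]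
  simp only [mul_assoc, Finset.prod_mul_distrib]
/-- Dyadic blocks in several variables. -/
theorem exists_blk (y Δ : Pl → ℝ) (hΔ : ∀ w, 0 < Δ w) : ∃ j : Pl → ℕ, ∀ w,
    y w ≤ 2 ^ j w * Δ w ∧ (j w ≠ 0 → 2 ^ j w * Δ w < 2 * y w) := by
  have h : ∀ w, ∃ j : ℕ, y w ≤ 2 ^ j * Δ w := fun w => by
    obtain ⟨j, hj⟩ := pow_unbounded_of_one_lt (y w / Δ w) one_lt_two
    exact ⟨j, ((div_lt_iff₀ (hΔ w)).1 hj).le⟩
  refine ⟨fun w => Nat.find (h w), fun w => ⟨Nat.find_spec (h w), fun h0 => ?_⟩⟩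
  obtain ⟨k, hk⟩ := Nat.exists_eq_succ_of_ne_zero h0
  beta_reduce at hk ⊢
  have h1 := Nat.find_min (h w) (m := k) (by rw [hk]; exact Nat.lt_succ_self k)
  rw [hk, pow_succ]
  linarith [not_le.1 h1]
theorem sum_geom_pi {r : ℝ} (h0 : 0 ≤ r) (h1 : r < 1) (T : Finset (Pl → ℕ)) :
    ∑ j ∈ T, r ^ (∑ w, j w) ≤ (1 - r)⁻¹ ^ rk := by
  have h := UCt_pi (f := fun k : ℕ => r ^ k) (fun k => pow_nonneg h0 k)
    (summable_geometric_of_lt_one h0 h1) T
  simpa only [Finset.prod_pow_eq_pow_sum, tsum_geometric_of_lt_one h0 h1, rk] using h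

end NQ
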