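import Vale.Agent.NQ.DualC
import Vale.Agent.NQ.WtS
import Vale.Agent.NQ.UCt

noncomputable section
namespace NQ
open Complex MeasureTheory NumberField Filter
open scoped ComplexConjugate Classical ContDiff Topology

variable [σ : St]

theorem HA.mono {η η1 : ℝ} (h : HA η) (hη : η ≤ η1) : HA η1 := by
  intro ε hε
  obtain ⟨B, C, hC, h⟩ := h ε hε
  refine ⟨B, C, hC, fun Z N X τ ρ hX0 hX hXZ hN hNZ hρ hR =>
    (h Z N X τ ρ hX0 hX hXZ hN hNZ hρ hR).trans ?_⟩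
  have h1 : X.sz ^ (1 + η) ≤ X.sz ^ (1 + η1) := Real.rpow_le_rpow_of_exponent_le hX (by linarith)
  have h2 := one_le_Rr ρ
  have hZ : 0 < Z := by linarith
  have h3 := one_le_Tb (iT τ)
  gcongr

theorem hA_all (h1 : HA 1) (h : ∀ η : ℝ, 0 < η → η ≤ 1 → HA η → HA (2 * η / (2 + η))) {η : ℝ}
    (hη : 0 < η) : HA η := by
  have h2 : ∀ k : ℕ, HA (2 / (k + 2)) := by
    intro k
    induction k with
    | zero => simpa using h1
    | succ k ih =>
      have h3 := h _ (by positivity) ((div_le_one (by positivity)).2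
        (by linarith [Nat.cast_nonneg (α := ℝ) k])) ih
      have e : 2 * (2 / ((k : ℝ) + 2)) / (2 + 2 / ((k : ℝ) + 2)) = 2 / (((k + 1 : ℕ) : ℝ) + 2) := by
        push_cast; field_simp; ring
      rwa [e] at h3
  obtain ⟨k, hk⟩ := exists_nat_gt (2 / η)
  refine (h2 k).mono ?_
  rw [div_lt_iff₀ hη] at hk
  rw [div_le_iff₀ (by positivity)]
  nlinarith

theorem MoB_split {X : Sc} (hX : X.OK) {k : E} (hk : k ≠ 0) (z : Pl → ℂ) :
    S mu X z = ∑ d ∈ (fac k).powerset, mu d * S (cAK 1 ∅ (k ^ 6)) (X.dv (pr d)) z := by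
  rw [S_split hX (fac k)]
  refine Finset.sum_congr rfl fun d hd => ?_
  rw [Finset.mem_powerset] at hd
  rw [← S_smul, cAK_empty]
  congr 1
  funext c
  have e : (∀ p ∈ c, ¬ p.1 ∣ k) ↔ Disjoint c (fac k) := by
    simp only [Finset.disjoint_left, mem_fac hk]
  rw [cA, xs_six, xs_one ch_c6, map_one, mul_one]
  by_cases hc : Disjoint c (fac k)
  · have h1 : Disjoint d c := (hc.mono_right hd).symm
    rw [if_pos hc, if_pos (e.2 hc), mu_union h1, mul_one]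
  · rw [if_neg hc, if_neg (mt e.1 hc)]
    simp

theorem MoB_fibre (U : ℝ) (n0 : E) :
    (((prim U).filter fun k => Associated (k ^ 6) n0).card : ℝ) ≤ 1 := by
  have h1 : ((prim U).filter fun k => Associated (k ^ 6) n0).card ≤ 1 := by
    refine Finset.card_le_one.2 fun a ha b hb => ?_
    rw [Finset.mem_filter, mem_prim] at ha hb
    refine prim_unique ha.1.1 hb.1.1 (assoc_of_vp ha.1.1.1 hb.1.1.1 fun p => ?_)
    have h2 := vp_assoc (p := p.1) (ha.2.trans hb.2.symm)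
    rw [vp_pow p.prime ha.1.1.1, vp_pow p.prime hb.1.1.1] at h2
    omega
  exact_mod_cast h1

theorem MoB_Rr : Rr 1 = 1 := by rw [Rr, fac_unit isUnit_one, Ns_empty]

theorem moB (h : ∀ η : ℝ, 0 < η → HAs η) {θ : ℝ} (hθ : 11 / 12 < θ) : MoB θ := by
  intro τ
  obtain ⟨η, hη, hη1, hηθ⟩ : ∃ η : ℝ, 0 < η ∧ η ≤ 1 ∧ 2 * η ≤ θ - 11 / 12 :=
    ⟨min 1 ((θ - 11 / 12) / 2), lt_min one_pos (by linarith), min_le_left _ _, by
      have := min_le_right 1 ((θ - 11 / 12) / 2); linarith⟩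
  obtain ⟨B, C, hC, h⟩ := h η hη η hη
  obtain ⟨C1, hC1, h1⟩ := pow_card_le (A := 2) (by norm_num) hη
  obtain ⟨C2, hC2, h2⟩ := sum_sqf_inv hη
  obtain ⟨c, hc0, hc⟩ := card_prim_ge hη
  have hTb := one_le_Tb (iT τ)
  obtain ⟨D, hD⟩ : ∃ D : ℝ, D = C * Tb (iT τ) ^ B * 2 := ⟨_, rfl⟩
  have hD0 : 0 ≤ D := by rw [hD]; positivity
  refine ⟨√(C1 * D * C2 / c), fun Y hY hX => ?_⟩
  obtain ⟨X, hXe⟩ : ∃ X : ℝ, X = Y.sz := ⟨_, rfl⟩
  rw [← hXe] at hX ⊢
  have hX0 : 0 < X := by linarith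
  obtain ⟨U, hU⟩ : ∃ U : ℝ, U = X ^ ((1 + η) / 6) := ⟨_, rfl⟩
  have hU1 : 1 ≤ U := hU ▸ Real.one_le_rpow hX (by positivity)
  have hU0 : 0 < U := by linarith
  have hU6 : U ^ 6 = X ^ (1 + η) := by
    rw [hU, ← Real.rpow_natCast, ← Real.rpow_mul hX0.le]
    congr 1; push_cast; ring
  have hXU : X ≤ U ^ 6 := hU6 ▸ Real.self_le_rpow_of_one_le hX (by linarith)
  obtain ⟨T, hT⟩ : ∃ T : Finset P → E → ℂ, T = fun d k =>
    mu d * S (cAK 1 ∅ (k ^ 6)) (Y.dv (pr d)) (iT τ) := ⟨_, rfl⟩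
  have h3 : ∀ d, ∑ k ∈ prim U, ‖T d k‖ ^ 2 ≤ D * (U ^ 6) ^ η * (X * U ^ 6) * (Ns d)⁻¹ := by
    intro d
    have hd := one_le_Ns d
    simp only [hT, norm_mul, norm_mu, one_mul]
    have h4 : X / Ns d ≤ X := div_le_self hX0.le hd
    have hsz : (Y.dv (pr d)).sz = X / Ns d := by rw [hY.sz_dv (pr_ne_zero d), hXe, Ns]
    refine (h E (prim U) (fun k => k ^ 6) (fun _ => Y.dv (pr d)) 1
      (U ^ 6) (X / Ns d) (U ^ 6) (iT τ) 1 ∅ (by positivity) (h4.trans hXU) (hX.trans hXU) le_rfl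
      (fun w => by rw [iT_re]; simp) one_ne_zero (MoB_Rr ▸ hX.trans hXU)
      (Ns_empty ▸ hX.trans hXU) (fun k hk => ?_) (MoB_fibre _)).trans ?_
    · rw [mem_prim] at hk
      refine ⟨pow_ne_zero _ hk.1.1, ?_, hY.dv (cnt_coe_ne (pr_ne_zero d)), hsz.ge,
        hsz.le.trans (le_mul_of_one_le_left (by positivity) one_le_two)⟩
      rw [nm_pow]; push_cast
      exact pow_le_pow_left₀ (by positivity) hk.2 6
    · have h5 : (X / Ns d) ^ (1 + η) ≤ U ^ 6 :=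
        hU6 ▸ Real.rpow_le_rpow (by positivity) h4 (by linarith)
      rw [MoB_Rr, mul_one, mul_one, hD]
      calc _ ≤ C * (U ^ 6) ^ η * Tb (iT τ) ^ B * (X / Ns d * (U ^ 6 + U ^ 6)) := by gcongr
        _ = _ := by ring
  have h4 : ∀ k ∈ prim U, ‖S mu Y (iT τ)‖ ^ 2 ≤ C1 * U ^ η * ∑ d ∈ sqf U, ‖T d k‖ ^ 2 := by
    intro k hk
    rw [mem_prim] at hk
    have h5 : Ns (fac k) ≤ U := (Ns_fac_le hk.1.1).trans hk.2
    rw [MoB_split hY hk.1.1]
    refine (QRH.norm_sum_sq_le _ _).trans (mul_le_mul ?_ ?_ (by positivity) (by positivity))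
    · rw [Finset.card_powerset]
      push_cast
      exact (h1 _).trans (mul_le_mul_of_nonneg_left
        (Real.rpow_le_rpow (Ns_pos _).le h5 hη.le) hC1.le)
    · rw [hT]
      exact Finset.sum_le_sum_of_subset_of_nonneg (fun d hd =>
        mem_sqf.2 ((Ns_mono (Finset.mem_powerset.1 hd)).trans h5)) fun _ _ _ => by positivity
  have h5 := Finset.sum_le_sum h4
  rw [Finset.sum_const, nsmul_eq_mul, ← Finset.mul_sum, Finset.sum_comm] at h5
  have h6 : ∑ d ∈ sqf U, ∑ k ∈ prim U, ‖T d k‖ ^ 2 ≤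
      D * (U ^ 6) ^ η * (X * U ^ 6) * (C2 * U ^ η) := by
    refine (Finset.sum_le_sum fun d _ => h3 d).trans ?_
    rw [← Finset.mul_sum]
    exact mul_le_mul_of_nonneg_left (h2 U hU0.le) (by positivity)
  have h7 := ((mul_le_mul_of_nonneg_right (hc U hU1) (sq_nonneg _)).trans h5).trans
    (mul_le_mul_of_nonneg_left h6 (by positivity))
  have h8 : X * U ^ 5 * (U ^ η) ^ 9 ≤ (X ^ θ) ^ 2 := by
    rw [hU, ← Real.rpow_mul hX0.le, ← Real.rpow_natCast, ← Real.rpow_natCast, ← Real.rpow_natCast,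
      ← Real.rpow_mul hX0.le, ← Real.rpow_mul hX0.le, ← Real.rpow_mul hX0.le, mul_assoc,
      ← Real.rpow_add hX0, ← Real.rpow_one_add' hX0.le (by positivity)]
    refine Real.rpow_le_rpow_of_exponent_le hX ?_
    push_cast
    nlinarith
  have h9 : (U ^ 6) ^ η = (U ^ η) ^ 6 := by
    rw [← Real.rpow_natCast, ← Real.rpow_natCast, ← Real.rpow_mul hU0.le, ← Real.rpow_mul hU0.le,
      mul_comm]
  have h10 : U ^ (1 - η) = U / U ^ η := by rw [Real.rpow_sub hU0, Real.rpow_one]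
  have h11 : 0 < U ^ η := by positivity
  refine (pow_le_pow_iff_left₀ (norm_nonneg _) (by positivity) two_ne_zero).1 ?_
  rw [mul_pow, Real.sq_sqrt (by positivity)]
  refine le_trans (le_of_mul_le_mul_left (h7.trans_eq ?_) (by positivity : 0 < c * U ^ (1 - η)))
    (mul_le_mul_of_nonneg_left h8 (by positivity))
  rw [h9, h10]; field_simp

end NQ
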