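import Vale.Agent.NQ.Tame
import Vale.Agent.P026.Eis2

noncomputable section
namespace NQ
open NumberField IsDedekindDomain Polynomial
open scoped Classical

/-- A generator of the residue field with prescribed trace. -/
theorem mono_gen {k K : Type} [Field k] [Field K] [Finite K] [Algebra k K]
    (hd : ((Module.finrank k K : ℕ) : k) ≠ 0) (i : k) :
    ∃ γ : K, Algebra.adjoin k {γ} = ⊤ ∧ (minpoly k γ).nextCoeff = i := by
  have : Module.Finite k K := Module.Finite.of_finite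
  obtain ⟨α, hα⟩ := Field.exists_primitive_element_of_finite_top k K
  have hα' := (IntermediateField.adjoin_simple_eq_top_iff_of_isAlgebraic
    (IsAlgebraic.of_finite k α)).1 hα
  set c : k := (-i - Algebra.trace k K α) / (Module.finrank k K : k) with hc
  have h1 : Algebra.adjoin k {α + algebraMap k K c} = ⊤ := by
    rw [eq_top_iff, ← hα', Algebra.adjoin_le_iff, Set.singleton_subset_iff]
    have h2 : α + algebraMap k K c ∈ Algebra.adjoin k {α + algebraMap k K c} :=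
      Algebra.self_mem_adjoin_singleton _ _
    simpa using Subalgebra.sub_mem _ h2 (Subalgebra.algebraMap_mem _ c)
  refine ⟨α + algebraMap k K c, h1, ?_⟩
  have h3 := (IntermediateField.adjoin_simple_eq_top_iff_of_isAlgebraic
    (IsAlgebraic.of_finite k (α + algebraMap k K c))).2 h1
  have h4 := trace_eq_finrank_mul_minpoly_nextCoeff k (α + algebraMap k K c)
  rw [h3, IntermediateField.finrank_top, map_add, Algebra.trace_algebraMap, nsmul_eq_mul, hc,
    mul_div_cancel₀ _ hd] at h4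
  linear_combination h4

section
variable {F : Type} [Field F] [NumberField F]

omit [NumberField F] in
theorem Mono_ev {l : ℕ} {I : Ideal (𝓞 F)} (φ : ZMod l →+* 𝓞 F ⧸ I) (θ : 𝓞 F) (f : ℤ[X]) :
    eval₂ φ (Ideal.Quotient.mk I θ) (f.map (Int.castRingHom _))
      = Ideal.Quotient.mk I (aeval θ f) := by
  rw [eval₂_map, aeval_def, hom_eval₂]
  congr 1
  exact RingHom.ext_int _ _

theorem Mono_char {l : ℕ} (hl : l.Prime) {V : HS F} (hV : (l : 𝓞 F) ∈ V.asIdeal) :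
    CharP (𝓞 F ⧸ V.asIdeal) l := by
  have : Fact l.Prime := ⟨hl⟩
  have := V.isPrime
  refine (CharP.charP_iff_prime_eq_zero hl).2 ?_
  simpa using Ideal.Quotient.eq_zero_iff_mem.2 hV

theorem Mono_cop {l : ℕ} (hl : l.Prime) {V : HS F} (hV : (l : 𝓞 F) ∈ V.asIdeal) {f1 f2 : ℤ[X]}
    (h : IsCoprime (f1.map (Int.castRingHom (ZMod l))) (f2.map (Int.castRingHom (ZMod l))))
    (θ : 𝓞 F) (h1 : aeval θ f1 ∈ V.asIdeal) (h2 : aeval θ f2 ∈ V.asIdeal) : False := by
  have := Mono_char hl hV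
  have := V.isPrime
  have h3 := h.map (eval₂RingHom (ZMod.castHom (dvd_refl l) (𝓞 F ⧸ V.asIdeal))
    (Ideal.Quotient.mk _ θ))
  rw [coe_eval₂RingHom, Mono_ev, Mono_ev, Ideal.Quotient.eq_zero_iff_mem.2 h1,
    Ideal.Quotient.eq_zero_iff_mem.2 h2] at h3
  exact not_isCoprime_zero_zero h3

omit [NumberField F] in
theorem Mono_sub (I : Ideal (𝓞 F)) {x y : 𝓞 F} (h : x - y ∈ I) (f : ℤ[X]) :
    aeval x f - aeval y f ∈ I := by
  rw [← Ideal.Quotient.eq] at h ⊢
  rw [aeval_def, aeval_def, hom_eval₂, hom_eval₂, h]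

theorem Mono_loc {l : ℕ} (hl : l.Prime) {V : HS F} (hV : (l : 𝓞 F) ∈ V.asIdeal)
    (hN : Module.finrank ℚ F < l) (i : ZMod l) :
    ∃ (f : ℤ[X]) (θ : 𝓞 F), Irreducible (f.map (Int.castRingHom (ZMod l))) ∧
      (f.map (Int.castRingHom (ZMod l))).Monic ∧
      (f.map (Int.castRingHom (ZMod l))).nextCoeff = i ∧
      aeval θ f ∈ V.asIdeal ∧ aeval θ f ∉ V.asIdeal ^ 2 ∧
      ∀ a : 𝓞 F, ∃ p : ℤ[X], a - aeval θ p ∈ V.asIdeal := by
  have : Fact l.Prime := ⟨hl⟩
  have := Mono_char hl hV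
  have := V.isMaximal
  let _ : Field (𝓞 F ⧸ V.asIdeal) := Ideal.Quotient.field _
  let _ : Algebra (ZMod l) (𝓞 F ⧸ V.asIdeal) := ZMod.algebra _ _
  have hfin : Finite (𝓞 F ⧸ V.asIdeal) := Ideal.finiteQuotientOfFreeOfNeBot _ V.ne_bot
  have hmf : Module.Finite (ZMod l) (𝓞 F ⧸ V.asIdeal) := Module.Finite.of_finite
  have hd : ((Module.finrank (ZMod l) (𝓞 F ⧸ V.asIdeal) : ℕ) : ZMod l) ≠ 0 := by
    have h1 := Module.natCard_eq_pow_finrank (K := ZMod l) (V := 𝓞 F ⧸ V.asIdeal)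
    have h2 := Ideal.absNorm_dvd_absNorm_of_le ((Ideal.span_singleton_le_iff_mem _).2 hV)
    rw [Ideal.absNorm_span_natCast, RingOfIntegers.rank, ← qv, ← card_quot, h1, Nat.card_zmod,
      Nat.pow_dvd_pow_iff_le_right hl.one_lt] at h2
    rw [Ne, ZMod.natCast_eq_zero_iff]
    intro h3
    have := Nat.le_of_dvd Module.finrank_pos h3
    omega
  obtain ⟨γ, hγ, hi⟩ := mono_gen hd i
  have hint : IsIntegral (ZMod l) γ := IsIntegral.of_finite _ _
  have hsurj := Polynomial.map_surjective (Int.castRingHom (ZMod l)) (ZMod.ringHom_surjective _)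
  obtain ⟨f, hf⟩ := hsurj (minpoly (ZMod l) γ)
  obtain ⟨θ, rfl⟩ := Ideal.Quotient.mk_surjective γ
  have hev : ∀ p : ℤ[X], aeval (Ideal.Quotient.mk V.asIdeal θ) (p.map (Int.castRingHom (ZMod l)))
      = Ideal.Quotient.mk V.asIdeal (aeval θ p) := fun p => by rw [aeval_def, Mono_ev]
  have h0 : aeval θ f ∈ V.asIdeal := by
    rw [← Ideal.Quotient.eq_zero_iff_mem, ← hev, hf, minpoly.aeval]
  have hder : aeval θ (derivative f) ∉ V.asIdeal := by
    rw [← Ideal.Quotient.eq_zero_iff_mem, ← hev, ← derivative_map, hf]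
    exact (PerfectField.separable_of_irreducible (minpoly.irreducible hint)).aeval_derivative_ne_zero
      (minpoly.aeval _ _)
  have hgen : ∀ a : 𝓞 F, ∃ p : ℤ[X], a - aeval θ p ∈ V.asIdeal := by
    intro a
    have h1 : Ideal.Quotient.mk V.asIdeal a ∈
        Algebra.adjoin (ZMod l) {Ideal.Quotient.mk V.asIdeal θ} := by rw [hγ]; trivial
    rw [Algebra.adjoin_singleton_eq_range_aeval] at h1
    obtain ⟨q, hq⟩ := h1
    obtain ⟨p, rfl⟩ := hsurj q
    refine ⟨p, Ideal.Quotient.eq.1 ?_⟩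
    rw [← hev]; exact hq.symm
  have hA : Irreducible (f.map (Int.castRingHom (ZMod l))) := hf ▸ minpoly.irreducible hint
  have hB : (f.map (Int.castRingHom (ZMod l))).Monic := hf ▸ minpoly.monic hint
  have hC : (f.map (Int.castRingHom (ZMod l))).nextCoeff = i := hf ▸ hi
  by_cases h2 : aeval θ f ∈ V.asIdeal ^ 2
  swap
  · exact ⟨f, θ, hA, hB, hC, h0, h2, hgen⟩
  obtain ⟨π, hπ1, hπ2⟩ := Ideal.exists_mem_pow_notMem_pow_succ V.asIdeal V.ne_bot
    V.isPrime.ne_top 1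
  rw [pow_one] at hπ1
  have hs : θ + π - θ ∈ V.asIdeal := by simpa using hπ1
  refine ⟨f, θ + π, hA, hB, hC, ?_, fun h3 => ?_, fun a => ?_⟩
  · simpa using add_mem (Mono_sub _ hs f) h0
  · obtain ⟨c, hc⟩ := exists_mul_sq_add_linear_part_eq_eval_add (f.map (algebraMap ℤ (𝓞 F))) θ π
    rw [derivative_map, eval_map_algebraMap, eval_map_algebraMap, eval_map_algebraMap] at hc
    have h4 : aeval θ (derivative f) * π ∈ V.asIdeal ^ 2 := by
      have : aeval θ (derivative f) * π = aeval (θ + π) f - aeval θ f - c * π ^ 2 := by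
        rw [← hc]; ring
      rw [this]
      exact sub_mem (sub_mem h3 h2) (Ideal.mul_mem_left _ _ (Ideal.pow_mem_pow hπ1 2))
    rcases Ideal.IsPrime.mul_mem_pow V.asIdeal h4 with h5 | h5
    · exact hder h5
    · exact hπ2 h5
  · obtain ⟨p, hp⟩ := hgen a
    refine ⟨p, ?_⟩
    have := sub_mem hp (Mono_sub _ hs p)
    simpa using this

theorem Mono_ind (T : Finset (HS F)) (S : Subring F) (hS : ∀ x ∈ S, IsIntegral ℤ x) (g : HS F → F)
    (hg : ∀ V ∈ T, g V ∈ S ∧ g V ≠ 0 ∧ ∀ W ∈ T, ord W (g V) = if W = V then 1 else 0)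
    (hres : ∀ V ∈ T, ∀ a : 𝓞 F, ∃ q ∈ S, OG V 1 ((a : F) - q)) (m : Multiset (HS F))
    (hm : ∀ V ∈ m, V ∈ T) :
    (∃ y0 ∈ S, y0 ≠ 0 ∧ ∀ W ∈ T, ord W y0 = m.count W) ∧
      ∀ y : F, IsIntegral ℤ y → ∃ p ∈ S, ∀ W ∈ T, OG W (m.count W) (y - p) := by
  induction m using Multiset.induction_on with
  | empty =>
    refine ⟨⟨1, one_mem _, one_ne_zero, fun W _ => by simp [ord_one]⟩, fun y hy =>
      ⟨0, zero_mem _, fun W _ => ?_⟩⟩
    simpa using isIntegral_iff_OG.1 hy W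
  | cons V m ih =>
    obtain ⟨⟨y0, hy0, h0, hord⟩, ih2⟩ := ih fun W hW => hm W (Multiset.mem_cons_of_mem hW)
    have hV := hm V (Multiset.mem_cons_self _ _)
    obtain ⟨g1, g2, g3⟩ := hg V hV
    refine ⟨⟨y0 * g V, mul_mem hy0 g1, mul_ne_zero h0 g2, fun W hW => ?_⟩, fun y hy => ?_⟩
    · rw [ord_mul W h0 g2, hord W hW, g3 W hW, Multiset.count_cons]
      split_ifs <;> simp
    · obtain ⟨p, hp, hp2⟩ := ih2 y hy
      have h1 : OG V 0 ((y - p) / y0) := by
        rw [OG_div_iff h0, hord V hV, zero_add]; exact hp2 V hV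
      obtain ⟨a, ha⟩ := exists_int_close h1 1
      obtain ⟨q, hq, hq2⟩ := hres V hV a
      refine ⟨p + y0 * q, add_mem hp (mul_mem hy0 hq), fun W hW => ?_⟩
      by_cases hWV : W = V
      · subst hWV
        have h2 := (OG.self W y0).mul (ha.add hq2)
        have h3 : y0 * ((y - p) / y0 - a + (a - q)) = y - (p + y0 * q) := by field_simp; ring
        rw [h3, hord W hW] at h2
        rw [Multiset.count_cons_self]
        exact_mod_cast h2
      · rw [Multiset.count_cons_of_ne hWV, ← sub_sub]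
        refine (hp2 W hW).sub ?_
        have h2 := (OG.self W y0).mul (isIntegral_iff_OG.1 (hS q hq) W)
        rwa [add_zero, hord W hW] at h2

theorem Mono_theta {l : ℕ} (hl : l.Prime) (hN : Module.finrank ℚ F < l) :
    ∃ θ : 𝓞 F, ∀ y : 𝓞 F, ∃ (p : ℤ[X]) (z : 𝓞 F), y = aeval θ p + l * z := by
  have : Fact l.Prime := ⟨hl⟩
  have hl0 : (l : 𝓞 F) ≠ 0 := Nat.cast_ne_zero.2 hl.ne_zero
  have hlF : (l : F) ≠ 0 := Nat.cast_ne_zero.2 hl.ne_zero
  set T : Finset (HS F) := (Ord_fin hl0).toFinset with hT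
  have hmem : ∀ V, V ∈ T ↔ (l : 𝓞 F) ∈ V.asIdeal := fun V => Set.Finite.mem_toFinset _
  have hcard : T.card ≤ Fintype.card (ZMod l) := by
    rw [ZMod.card]
    exact (card_above_le hl T fun V hV => (hmem V).1 hV).trans hN.le
  obtain ⟨i, hi⟩ : ∃ i : HS F → ZMod l, Set.InjOn i T := by
    obtain ⟨i⟩ := Function.Embedding.nonempty_of_card_le (α := T) (β := ZMod l)
      (by simpa using hcard)
    exact Set.exists_injOn_iff_injective.2 ⟨i, i.injective⟩
  choose! f θ0 hA hB hC h1 h2 h3 using fun (V : HS F) (hV : V ∈ T) =>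
    Mono_loc hl ((hmem V).1 hV) hN (i V)
  obtain ⟨θ, hθ⟩ := IsDedekindDomain.exists_forall_sub_mem_ideal (s := T)
    (fun v : HS F => v.asIdeal) (fun _ => 2)
    (fun v _ => v.prime) (fun v _ w _ hvw h => hvw (HeightOneSpectrum.ext h)) (fun v => θ0 v)
  have hθ1 : ∀ V ∈ T, θ - θ0 V ∈ V.asIdeal := fun V hV =>
    Ideal.pow_le_self two_ne_zero (hθ V hV)
  have k1 : ∀ V ∈ T, aeval θ (f V) ∈ V.asIdeal := fun V hV => by
    simpa using add_mem (Mono_sub _ (hθ1 V hV) (f V)) (h1 V hV)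
  have k2 : ∀ V ∈ T, aeval θ (f V) ∉ V.asIdeal ^ 2 := fun V hV h => h2 V hV (by
    simpa using sub_mem h (Mono_sub _ (hθ V hV) (f V)))
  have k3 : ∀ V ∈ T, ∀ W ∈ T, W ≠ V → aeval θ (f V) ∉ W.asIdeal := by
    intro V hV W hW hne h
    refine Mono_cop hl ((hmem W).1 hW) ?_ θ h (k1 W hW)
    rw [(hA V hV).coprime_iff_not_dvd]
    intro hdvd
    have h4 := eq_of_monic_of_associated (hB V hV) (hB W hW)
      ((hA V hV).associated_of_dvd (hA W hW) hdvd)
    refine hne (hi hW hV ?_)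
    rw [← hC V hV, ← hC W hW, h4]
  let S : Subring F := ((algebraMap (𝓞 F) F).comp (aeval θ : ℤ[X] →ₐ[ℤ] 𝓞 F).toRingHom).range
  obtain ⟨k, hk⟩ := Ord_bound (l : F)⁻¹
  obtain ⟨-, key⟩ := Mono_ind T S (by rintro _ ⟨p, rfl⟩; exact (aeval θ p).isIntegral_coe)
    (fun V => ((aeval θ (f V) : 𝓞 F) : F)) (fun V hV => by
      have h0 : ((aeval θ (f V) : 𝓞 F) : F) ≠ 0 := fun h =>
        k2 V hV ((mem_pow_iff_OG V _ 2).2 (Or.inl h))
      refine ⟨⟨f V, rfl⟩, h0, fun W hW => ?_⟩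
      split_ifs with h
      · subst h
        have h5 := ((mem_iff_OG W _).1 (k1 W hW)).le h0
        have h6 : ¬ ((2 : ℕ) : ℤ) ≤ ord W ((aeval θ (f W) : 𝓞 F) : F) := fun h =>
          k2 W hW ((mem_pow_iff_OG W _ 2).2 (Or.inr h))
        omega
      · exact (ord_eq_zero_of_not_mem (k3 V hV W hW h)).2)
    (fun V hV a => by
      obtain ⟨p, hp⟩ := h3 V hV a
      refine ⟨_, ⟨p, rfl⟩, ?_⟩
      have h4 : a - aeval θ p ∈ V.asIdeal := by
        simpa using sub_mem hp (Mono_sub _ (hθ1 V hV) p)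
      simpa using (mem_iff_OG V _).1 h4)
    (k • T.val) (fun V hV => Multiset.mem_of_mem_nsmul hV)
  refine ⟨θ, fun y => ?_⟩
  obtain ⟨_, ⟨p, rfl⟩, hp⟩ := key y y.isIntegral_coe
  have hz : IsIntegral ℤ (((y : F) - (aeval θ p : 𝓞 F)) / l) := by
    refine isIntegral_iff_OG.2 fun W => ?_
    rw [OG_div_iff hlF, zero_add]
    by_cases hW : W ∈ T
    · refine (hp W hW).mono ?_
      have h4 := (hk W).le (inv_ne_zero hlF)
      rw [ord_inv] at h4
      rw [Multiset.count_nsmul, Multiset.count_eq_one_of_mem T.nodup hW]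
      omega
    · have h4 := (ord_eq_zero_of_not_mem (fun h => hW ((hmem W).2 h))).2
      have hc : (((l : 𝓞 F)) : F) = (l : F) := by simp
      rw [hc] at h4
      rw [h4]
      exact (OG_coe W y).sub (OG_coe W _)
  obtain ⟨z, hz'⟩ : ∃ z : 𝓞 F, (z : F) = ((y : F) - (aeval θ p : 𝓞 F)) / l := ⟨⟨_, hz⟩, rfl⟩
  refine ⟨p, z, RingOfIntegers.ext ?_⟩
  change (y : F) = algebraMap (𝓞 F) F (_ + _ * _)
  rw [map_add, map_mul, map_natCast]
  change (y : F) = (aeval θ p : 𝓞 F) + l * (z : F)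
  rw [hz']
  field_simp
  ring

theorem Mono_int {l : ℕ} (hl : l.Prime) (hN : Module.finrank ℚ F < l) :
    ∃ (θ : 𝓞 F) (t : ℤ), (l : ℤ) ∣ t - 1 ∧ ∀ y : 𝓞 F, ∃ p : ℤ[X], t * y = aeval θ p := by
  obtain ⟨θ, hθ⟩ := Mono_theta hl hN
  obtain ⟨t, ht, h⟩ := Submodule.exists_sub_one_mem_and_smul_le_of_fg_of_le_sup
    (I := Ideal.span {(l : ℤ)}) (N := LinearMap.range (aeval θ : ℤ[X] →ₐ[ℤ] 𝓞 F).toLinearMap)
    (N' := ⊤) (P := ⊤) Module.Finite.fg_top le_rfl (fun y _ => by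
      obtain ⟨p, z, rfl⟩ := hθ y
      refine Submodule.add_mem_sup ⟨p, rfl⟩ ?_
      have := Submodule.smul_mem_smul (Ideal.mem_span_singleton_self (l : ℤ))
        (Submodule.mem_top (R := ℤ) (x := z))
      simpa using this)
  refine ⟨θ, t, Ideal.mem_span_singleton.1 ht, fun y => ?_⟩
  obtain ⟨p, hp⟩ := h (Submodule.smul_mem_pointwise_smul y t ⊤ trivial)
  exact ⟨p, by simpa using hp.symm⟩

end

theorem mono : Mono := by
  intro s F _ _ w hw v hs hv
  obtain ⟨l, f, hl, -, hm, -⟩ := exists_prime_below v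
  have hN : Module.finrank ℚ F < l := by
    by_contra hle
    obtain ⟨c, rfl⟩ := hs.2.2 l hl (not_lt.1 hle)
    exact hv (by rw [Nat.cast_mul]; exact Ideal.mul_mem_right _ _ hm)
  obtain ⟨θ, t, ⟨c, hc⟩, h⟩ := Mono_int hl hN
  have ht : (t : 𝓞 F) ∉ v.asIdeal := by
    intro h1
    apply v.isPrime.ne_top
    rw [Ideal.eq_top_iff_one]
    have h2 : (1 : 𝓞 F) = t - l * c := by
      have : (1 : ℤ) = t - l * c := by linarith
      exact_mod_cast congrArg (fun z : ℤ => (z : 𝓞 F)) this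
    rw [h2]
    exact sub_mem h1 (Ideal.mul_mem_right _ _ hm)
  obtain ⟨ht0, ht1⟩ := ord_eq_zero_of_not_mem ht
  have hc : (((t : 𝓞 F)) : F) = (t : F) := by simp
  rw [hc] at ht0 ht1
  refine ⟨θ, (t : QRH.E), ⟨θ.isIntegral_coe, fun h0 => ht0 ?_, fun y hy => ?_⟩, ?_⟩
  · rw [← map_intCast (eis w hw), h0, map_zero]
  · obtain ⟨y, rfl⟩ : ∃ z : 𝓞 F, (z : F) = y := ⟨⟨_, hy⟩, rfl⟩
    obtain ⟨p, hp⟩ := h y
    refine ⟨p.map (Int.castRingHom _), ?_⟩
    have h1 := congrArg (algebraMap (𝓞 F) F) hp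
    rw [map_mul, map_intCast, aeval_def, hom_eval₂] at h1
    rw [map_intCast, eval₂_map]
    refine h1.trans ?_
    congr 1
    exact RingHom.ext_int _ _
  · rwa [map_intCast]

end NQ
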