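import Vale.Agent.NQ.Tame

noncomputable section
namespace NQ
open NumberField IsDedekindDomain Polynomial
open scoped Classical

theorem Move_unit {F : Type} [Field F] [NumberField F] {v : HS F} {x : F} (h : OG v 1 (x - 1)) :
    x ≠ 0 ∧ ord v x = 0 := by
  have := ord_eq_of_OG (v := v) (y := x) one_ne_zero (by rwa [ord_one, zero_add])
  rwa [ord_one] at this

theorem Move_step {F : Type} [Field F] [NumberField F] {v : HS F} {a : F}
    {m : ℤ} (h1 : 1 ≤ m) (h2 : 2 * ord v (3 : F) ≤ m) (h : OG v m (a - 1)) :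
    ∃ γ : F, γ ≠ 0 ∧ ord v γ = 0 ∧ OG v (m + 1) (a * γ ^ 3 - 1) := by
  have h3 : (3 : F) ≠ 0 := by norm_num
  have he : 0 ≤ ord v (3 : F) := (show OG v 0 (3 : F) by simpa using OG_natCast v 3).le h3
  have hz : OG v (m - ord v (3 : F)) ((a - 1) / 3) := by
    rw [OG_div_iff h3]
    simpa using h
  obtain ⟨h4, h5⟩ := Move_unit (v := v) (x := 1 - (a - 1) / 3) (by
    simpa using (hz.neg.mono (by omega) : OG v 1 _))
  refine ⟨_, h4, h5, ?_⟩
  have e : a * (1 - (a - 1) / 3) ^ 3 - 1 = ((8 : ℕ) : F) * ((a - 1) / 3) ^ 3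
      - ((2 : ℕ) : F) * ((a - 1) * ((a - 1) / 3)) - (a - 1) * ((a - 1) / 3) ^ 3 := by
    push_cast
    ring
  rw [e]
  exact ((((OG_natCast v 8).mul (hz.pow 3)).mono (by push_cast; omega)).sub
    (((OG_natCast v 2).mul (h.mul hz)).mono (by omega))).sub
    ((h.mul (hz.pow 3)).mono (by push_cast; omega))

/-- Elements close to one are cubes up to an arbitrarily small error. -/
theorem exists_cube_root {F : Type} [Field F] [NumberField F] {v : HS F} {a : F}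
    {m : ℤ} (h1 : 1 ≤ m) (h2 : 2 * ord v (3 : F) ≤ m) (h : OG v m (a - 1)) (n : ℤ) :
    ∃ γ : F, γ ≠ 0 ∧ ord v γ = 0 ∧ OG v n (a * γ ^ 3 - 1) := by
  have key : ∀ k : ℕ, ∃ γ : F, γ ≠ 0 ∧ ord v γ = 0 ∧ OG v (m + k) (a * γ ^ 3 - 1) := by
    intro k
    induction k with
    | zero => exact ⟨1, one_ne_zero, ord_one v, by simpa using h⟩
    | succ k ih =>
      obtain ⟨γ, g0, g1, g2⟩ := ih
      obtain ⟨δ, d0, d1, d2⟩ := Move_step (by omega) (by omega) g2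
      refine ⟨γ * δ, mul_ne_zero g0 d0, by rw [ord_mul v g0 d0, g1, d1, add_zero], ?_⟩
      rw [mul_pow, ← mul_assoc]
      exact d2.mono (by push_cast; omega)
  obtain ⟨γ, g0, g1, g2⟩ := key n.toNat
  exact ⟨γ, g0, g1, g2.mono (by omega)⟩

/-- The local condition on the cube at a place where `a` is close to one. -/
theorem Move_near {F : Type} [Field F] [NumberField F] {v : HS F} {a : F}
    {m : ℤ} (h1 : 1 ≤ m) (h2 : 2 * ord v (3 : F) ≤ m) (h : OG v m (a - 1)) (n : ℤ) :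
    ∃ (t : F) (p : ℤ), t ≠ 0 ∧ ord v t + 1 ≤ p ∧ ∀ γ, OG v p (γ - t) →
      OG v n (a * γ ^ 3 - 1) ∧ ord v (a * γ ^ 3) = 0 := by
  obtain ⟨t, t0, t1, t2⟩ := exists_cube_root h1 h2 h (max 1 n)
  refine ⟨t, max 1 n, t0, by omega, fun γ hγ => ?_⟩
  have ha : OG v 0 a := (Move_unit (h.mono h1)).2 ▸ OG.self v a
  have ht : OG v 0 t := t1 ▸ OG.self v t
  have hg : OG v 0 γ := by simpa using (hγ.mono (by omega)).add ht
  have e : a * γ ^ 3 - 1 = a * ((γ - t) * (γ * γ + γ * t + t * t)) + (a * t ^ 3 - 1) := by ring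
  have h3 : OG v (max 1 n) (a * γ ^ 3 - 1) := by
    rw [e]
    exact ((ha.mul (hγ.mul (((hg.mul hg).add (hg.mul ht)).add (ht.mul ht)))).mono
      (by omega)).add t2
  exact ⟨h3.mono (by omega), (Move_unit (h3.mono (by omega))).2⟩

/-- The local condition on the cube at the other places. -/
theorem Move_far {F : Type} [Field F] [NumberField F] (v : HS F) {a : F} (ha : a ≠ 0) :
    ∃ (t : F) (p : ℤ), t ≠ 0 ∧ ord v t + 1 ≤ p ∧ ∀ γ, OG v p (γ - t) →
      OG v 0 (a * γ ^ 3 - 1) ∧ (3 ∣ ord v a → ord v (a * γ ^ 3) = 0) := by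
  obtain ⟨t, t0, t1, -⟩ := exists_ord {v}
    fun _ => if 3 ∣ ord v a then -(ord v a / 3) else |ord v a|
  have t2 := t1 v (Finset.mem_singleton_self v)
  refine ⟨t, _, t0, le_rfl, fun γ hγ => ?_⟩
  obtain ⟨g0, g1⟩ := ord_eq_of_OG t0 hγ
  have e : ord v (a * γ ^ 3) = ord v a + 3 * ord v t := by
    rw [ord_mul v ha (pow_ne_zero _ g0), ord_pow, g1]
    rfl
  have h0 := neg_abs_le (ord v a)
  have h1 := abs_nonneg (ord v a)
  refine ⟨OG.sub (Or.inr ?_) (by simpa using OG_natCast v 1), fun h => ?_⟩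
  · rw [e, t2]
    split_ifs <;> omega
  · rw [e, t2, if_pos h]
    omega

theorem move : Move := by
  intro s F _ _ w τ a b hs h3 hw τ0 hτ a0 b0 hcl hD hτa
  have hs0 : (s : F) ≠ 0 := by exact_mod_cast hs.ne'
  have hτ' : ∀ v : HS F, 0 ≤ ord v τ := fun v => (isIntegral_iff_OG.1 hτ v).le τ0
  have hsn : ∀ v : HS F, (s : 𝓞 F) ∉ v.asIdeal → ord v (s : F) = 0 := fun v hv => by
    simpa using (ord_eq_zero_of_not_mem hv).2
  obtain ⟨c, c0, hc, hc'⟩ := exists_ord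
    ((finite_ord a).toFinset ∪ (finite_ord b).toFinset ∪ (finite_ord τ).toFinset)
    fun v => if (s : 𝓞 F) ∉ v.asIdeal ∧ ¬ 3 ∣ ord v a then -(ord v b / 3)
      else |ord v b| + ord v τ
  simp only [Finset.mem_union, Set.Finite.mem_toFinset, Set.mem_ofPred_eq] at hc hc'
  have b10 : b * c ^ 3 ≠ 0 := mul_ne_zero b0 (pow_ne_zero _ c0)
  have hb1 : ∀ v : HS F, ord v (b * c ^ 3) = ord v b + 3 * ord v c := fun v => by
    rw [ord_mul v b0 (pow_ne_zero _ c0), ord_pow]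
    rfl
  have hz : ∀ v : HS F, (s : 𝓞 F) ∉ v.asIdeal → ¬ 3 ∣ ord v a → ord v (b * c ^ 3) = 0 := by
    intro v hv h
    have h1 := (hD v hv).resolve_left h
    rw [hb1, hc v (Or.inl (Or.inl fun h0 => h (h0 ▸ dvd_zero 3))), if_pos ⟨hv, h⟩]
    omega
  refine ⟨b * c ^ 3, b10, isIntegral_iff_OG.2 fun v => ?_, fun k => ?_⟩
  · rw [OG_div_iff τ0, zero_add]
    right
    have h0 := hτ' v
    by_cases h : (s : 𝓞 F) ∉ v.asIdeal ∧ ¬ 3 ∣ ord v a
    · rw [hz v h.1 h.2]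
      by_contra h1
      exact h.2 ((Move_unit (hτa v h.1 (by omega))).2 ▸ dvd_zero 3)
    · rw [hb1]
      by_cases h1 : (ord v a ≠ 0 ∨ ord v b ≠ 0) ∨ ord v τ ≠ 0
      · have h2 := neg_abs_le (ord v b)
        have h4 := abs_nonneg (ord v b)
        rw [hc v h1, if_neg h]
        omega
      · have := hc' v h1
        omega
  have loc : ∀ v : HS F, ∃ (t : F) (p : ℤ), t ≠ 0 ∧ ord v t + 1 ≤ p ∧ ∀ γ, OG v p (γ - t) →
      OG v (ord v ((s : F) ^ k * τ ^ 2)) (a * γ ^ 3 - 1) ∧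
      ((s : 𝓞 F) ∉ v.asIdeal → ord v (a * γ ^ 3) = 0 ∨ ord v (b * c ^ 3) = 0) := by
    intro v
    by_cases hv : (s : 𝓞 F) ∈ v.asIdeal
    · have h1 : 1 ≤ ord v (s : F) := (show OG v 1 (s : F) by
        simpa using (mem_iff_OG v _).1 hv).le hs0
      have h2 : ord v (3 : F) ≤ ord v (s : F) := by
        obtain ⟨r, rfl⟩ := h3
        have := (OG.self v (3 : F)).mul (OG_natCast v r)
        rw [add_zero] at this
        push_cast at hs0 ⊢
        exact this.le hs0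
      obtain ⟨t, p, t0, t1, ht⟩ := Move_near (by omega) (by omega)
        ((close_iff hs.ne').1 hcl v hv) (ord v ((s : F) ^ k * τ ^ 2))
      exact ⟨t, p, t0, t1, fun γ hγ => ⟨(ht γ hγ).1, fun h => absurd hv h⟩⟩
    by_cases h1 : 0 < ord v τ
    · have h2 : ord v (3 : F) = 0 := (ord_eq_zero_of_not_mem (three_not_mem h3 hv)).2
      obtain ⟨t, p, t0, t1, ht⟩ := Move_near le_rfl (by omega) (hτa v hv h1)
        (ord v ((s : F) ^ k * τ ^ 2))
      exact ⟨t, p, t0, t1, fun γ hγ => ⟨(ht γ hγ).1, fun _ => Or.inl (ht γ hγ).2⟩⟩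
    · obtain ⟨t, p, t0, t1, ht⟩ := Move_far v a0
      refine ⟨t, p, t0, t1, fun γ hγ => ⟨(ht γ hγ).1.mono ?_, fun _ => ?_⟩⟩
      · rw [ord_mul v (pow_ne_zero _ hs0) (pow_ne_zero _ τ0), ord_pow, ord_pow, hsn v hv]
        push_cast
        omega
      · by_cases h2 : 3 ∣ ord v a
        · exact Or.inl ((ht γ hγ).2 h2)
        · exact Or.inr (hz v hv h2)
  choose t p t0 t1 ht using loc
  obtain ⟨P, hP, hP'⟩ := Ring.not_isField_iff_exists_prime.1 (RingOfIntegers.not_isField F)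
  have d0 : (s : F) ^ k * τ ^ 2 ≠ 0 := mul_ne_zero (pow_ne_zero _ hs0) (pow_ne_zero _ τ0)
  have hs1 : (s : 𝓞 F) ≠ 0 := by exact_mod_cast hs.ne'
  obtain ⟨γ, hγ, hγ'⟩ := approx (insert ⟨P, hP', hP⟩ ((finite_ord a).toFinset ∪
    (finite_ord (b * c ^ 3)).toFinset ∪ (finite_ord ((s : F) ^ k * τ ^ 2)).toFinset)) t p
  have g0 : γ ≠ 0 :=
    (ord_eq_of_OG (t0 _) ((hγ _ (Finset.mem_insert_self _ _)).mono (t1 _))).1
  simp only [Finset.mem_insert, Finset.mem_union, Set.Finite.mem_toFinset, Set.mem_ofPred_eq]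
    at hγ hγ'
  refine ⟨a * γ ^ 3, mul_ne_zero a0 (pow_ne_zero _ g0), isIntegral_iff_OG.2 fun v => ?_,
    fun v hv => ?_, ?_⟩
  · rw [OG_div_iff d0, zero_add]
    by_cases h : v = ⟨P, hP', hP⟩ ∨ (ord v a ≠ 0 ∨ ord v (b * c ^ 3) ≠ 0) ∨
      ord v ((s : F) ^ k * τ ^ 2) ≠ 0
    · exact (ht v γ (hγ v h)).1
    · have h1 := ((OG.self v a).mul ((hγ' v h).pow 3)).mono (show 0 ≤ _ by push_cast; omega)
      exact (h1.sub (by simpa using OG_natCast v 1)).mono (by omega)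
  · by_cases h : ord v (b * c ^ 3) = 0
    · exact Or.inr h
    · exact (ht v γ (hγ v (Or.inr (Or.inl (Or.inr h))))).2 hv
  · rw [HF_cube_left hw h3 a0 b10 g0, HF_cube_right hw h3 a0 b0 c0]

end NQ
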