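import Vale.Agent.NQ.UnfL
import Vale.Agent.NQ.WtS

noncomputable section
namespace NQ
open Complex MeasureTheory NumberField Filter
open scoped ComplexConjugate Classical ContDiff Topology

theorem MuC_cpow (y : ℝ) (s : ℂ) : ((Real.exp y : ℝ) : ℂ) ^ s = cexp (s * y) := by
  rw [cpow_def_of_ne_zero (by exact_mod_cast (Real.exp_pos y).ne'),
    ← Complex.ofReal_log (Real.exp_pos y).le, Real.log_exp, mul_comm]

/-- The one variable weight. -/
def MuC_g (s z : ℂ) (y : ℝ) : ℂ := wt (Real.exp (-y)) s * cexp (-z * y)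

theorem MuC_g_eq (s z : ℂ) (y : ℝ) :
    MuC_g s z y = cexp (-(z + s) * y) * V0 (Real.exp (-y)) := by
  rw [MuC_g, wt, MuC_cpow, mul_assoc, ← Complex.exp_add, mul_comm]
  congr 2
  push_cast
  ring

theorem MuC_g_int (s z : ℂ) : Integrable (MuC_g s z) := by
  have hc : Continuous (MuC_g s z) := by
    rw [show MuC_g s z = fun y : ℝ => cexp (-(z + s) * y) * V0 (Real.exp (-y)) from
      funext (MuC_g_eq s z)]
    exact (by fun_prop : Continuous fun y : ℝ => cexp (-(z + s) * y)).mul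
      (QRH.continuous_V0.comp (by fun_prop))
  refine hc.integrable_of_hasCompactSupport
    (HasCompactSupport.intro (isCompact_Icc (a := -16) (b := 0)) fun y hy => ?_)
  by_contra h
  rw [MuC_g_eq] at h
  obtain ⟨h1, h2⟩ := QRH.V0_supp (right_ne_zero_of_mul h)
  have h3 := Real.add_one_le_exp (-y)
  have h4 : 0 < -y := Real.one_lt_exp_iff.1 h1
  exact hy ⟨by linarith, by linarith⟩

theorem MuC_g_integral (s z : ℂ) : ∫ y, MuC_g s z y = mellin V0 (z + s) := by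
  have h1 : ∀ x ∈ Set.univ, HasDerivWithinAt (fun y : ℝ => Real.exp (-y)) (-Real.exp (-x))
      Set.univ x := fun x _ => by
    simpa using (hasDerivAt_neg x).exp
  have h2 : (fun y : ℝ => Real.exp (-y)) '' Set.univ = Set.Ioi 0 := by
    ext x
    constructor
    · rintro ⟨y, -, rfl⟩
      exact Real.exp_pos _
    · intro hx
      exact ⟨-Real.log x, trivial, by simpa using Real.exp_log hx⟩
  have h3 : Set.univ.InjOn fun y : ℝ => Real.exp (-y) := fun x _ y _ h =>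
    neg_injective (Real.exp_injective h)
  rw [mellin, ← h2, integral_image_eq_integral_abs_deriv_smul MeasurableSet.univ h1 h3,
    Measure.restrict_univ]
  refine integral_congr_ae (ae_of_all _ fun y => ?_)
  simp only
  rw [MuC_g_eq, abs_neg, abs_of_pos (Real.exp_pos _), MuC_cpow, smul_eq_mul, real_smul,
    ← mul_assoc, Complex.ofReal_exp, ← Complex.exp_add]
  congr 2
  push_cast
  ring

variable [σ : St]

theorem MuC_int (hF : PushF) {φ : (Pl → ℝ) → ℝ} (hφ : IsPhi φ) {δ : ℝ} (hδ : 0 < δ) (l : ℝ) :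
    Integrable fun u : Pl → ℝ =>
      φ u * (Set.Ici (0 : ℝ)).indicator (fun t => Real.exp (-δ * t)) (∑ w, u w + l) := by
  obtain ⟨V, -, hV⟩ := hF φ hφ
  have h1 : Integrable ((Set.Ici (0 : ℝ)).indicator fun t => Real.exp (-δ * t)) := by
    rw [integrable_indicator_iff measurableSet_Ici, integrableOn_Ici_iff_integrableOn_Ioi]
    exact exp_neg_integrableOn_Ioi 0 hδ
  have h2 := (hV _ (h1.comp_add_right l).ofReal).1
  exact h2.re.congr (ae_of_all _ fun u => by simp)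

theorem MuC_diff0 (hF : PushF) {φ : (Pl → ℝ) → ℝ} (hφ : IsPhi φ) {f : (Pl → ℝ) → ℂ}
    (hf : Continuous f) {θ C l : ℝ} (h0 : ∀ u, ∑ w, u w + l < 0 → f u = 0)
    (hb : ∀ u, ‖f u‖ ≤ C * Real.exp (θ * (∑ w, u w + l))) {z : ℂ} (hz : θ < z.re) :
    Integrable (fun u => (φ u : ℂ) * f u * cexp (-z * (∑ w, u w + l : ℝ))) ∧
    DifferentiableAt ℂ (fun z : ℂ => ∫ u, (φ u : ℂ) * f u * cexp (-z * (∑ w, u w + l : ℝ))) z := by
  have hC : 0 ≤ C := nonneg_of_mul_nonneg_left ((norm_nonneg _).trans (hb 0)) (Real.exp_pos _)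
  have hm : ∀ x : ℂ, AEStronglyMeasurable
      (fun u : Pl → ℝ => (φ u : ℂ) * f u * cexp (-x * (∑ w, u w + l : ℝ))) volume := fun x =>
    (((Complex.measurable_ofReal.comp hφ.1).aestronglyMeasurable).mul
      hf.aestronglyMeasurable).mul (Continuous.aestronglyMeasurable (by fun_prop))
  have key : ∀ (x : ℂ) (δ : ℝ) (u : Pl → ℝ), θ + δ ≤ x.re →
      ‖(φ u : ℂ) * f u * cexp (-x * (∑ w, u w + l : ℝ))‖
        ≤ C * (φ u * (Set.Ici (0 : ℝ)).indicator (fun t => Real.exp (-δ * t)) (∑ w, u w + l)) := by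
    intro x δ u hx
    have hp := (hφ.2.1 u).1
    by_cases ht : ∑ w, u w + l < 0
    · rw [h0 u ht, Set.indicator_of_notMem (by simpa using ht)]
      simp
    rw [not_lt] at ht
    rw [Set.indicator_of_mem (by simpa using ht), norm_mul, norm_mul, norm_real,
      Real.norm_of_nonneg hp, Complex.norm_exp]
    have h1 : (-x * (∑ w, u w + l : ℝ)).re = -x.re * (∑ w, u w + l) := by
      rw [re_mul_ofReal, neg_re]
    rw [h1]
    obtain ⟨t, htt⟩ : ∃ t, t = ∑ w, u w + l := ⟨_, rfl⟩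
    have h2 := hb u
    rw [← htt] at ht h2 ⊢
    have h3 : Real.exp (θ * t) * Real.exp (-x.re * t) ≤ Real.exp (-δ * t) := by
      rw [← Real.exp_add]
      exact Real.exp_le_exp.2 (by nlinarith)
    calc φ u * ‖f u‖ * Real.exp (-x.re * t)
        ≤ φ u * (C * Real.exp (θ * t)) * Real.exp (-x.re * t) := by gcongr
      _ = C * (φ u * (Real.exp (θ * t) * Real.exp (-x.re * t))) := by ring
      _ ≤ _ := by gcongr
  obtain ⟨δ, hδ⟩ : ∃ δ, δ = (z.re - θ) / 3 := ⟨_, rfl⟩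
  have hδ0 : 0 < δ := by rw [hδ]; linarith
  have hi : Integrable (fun u => (φ u : ℂ) * f u * cexp (-z * (∑ w, u w + l : ℝ))) :=
    ((MuC_int hF hφ hδ0 l).const_mul C).mono' (hm z)
      (ae_of_all _ fun u => key z δ u (by linarith))
  refine ⟨hi, ?_⟩
  have hs : {x : ℂ | θ + 2 * δ < x.re} ∈ 𝓝 z :=
    (isOpen_lt continuous_const continuous_re).mem_nhds (by simp only [Set.mem_ofPred_eq]; linarith)
  refine (hasDerivAt_integral_of_dominated_loc_of_deriv_le hs (Eventually.of_forall hm) hi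
    (F' := fun x u => (φ u : ℂ) * f u * cexp (-x * (∑ w, u w + l : ℝ)) * -((∑ w, u w + l : ℝ) : ℂ))
    ((hm z).mul (Continuous.aestronglyMeasurable (by fun_prop)))
    (ae_of_all _ fun u x hx => ?_) ((MuC_int hF hφ hδ0 l).const_mul (C / δ))
    (ae_of_all _ fun u x _ => ?_)).2.differentiableAt
  · have hp := (hφ.2.1 u).1
    have h1 := key x (2 * δ) u (le_of_lt hx)
    rw [norm_mul, norm_neg, norm_real]
    refine (mul_le_mul_of_nonneg_right h1 (norm_nonneg _)).trans ?_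
    obtain ⟨t, htt⟩ : ∃ t, t = ∑ w, u w + l := ⟨_, rfl⟩
    rw [← htt]
    by_cases ht : t < 0
    · rw [Set.indicator_of_notMem (by simpa using ht), Set.indicator_of_notMem (by simpa using ht)]
      simp
    rw [not_lt] at ht
    rw [Set.indicator_of_mem (by simpa using ht), Set.indicator_of_mem (by simpa using ht),
      Real.norm_of_nonneg ht]
    have h2 : t ≤ Real.exp (δ * t) / δ := by
      rw [le_div_iff₀ hδ0]
      linarith [Real.add_one_le_exp (δ * t)]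
    have h3 : Real.exp (-(2 * δ) * t) * Real.exp (δ * t) = Real.exp (-δ * t) := by
      rw [← Real.exp_add]
      congr 1
      ring
    calc C * (φ u * Real.exp (-(2 * δ) * t)) * t
        ≤ C * (φ u * Real.exp (-(2 * δ) * t)) * (Real.exp (δ * t) / δ) := by gcongr
      _ = C / δ * (φ u * (Real.exp (-(2 * δ) * t) * Real.exp (δ * t))) := by ring
      _ = _ := by rw [h3]
  · have h1 : HasDerivAt (fun x : ℂ => -x * ((∑ w, u w + l : ℝ) : ℂ))
        (-1 * ((∑ w, u w + l : ℝ) : ℂ)) x := (hasDerivAt_neg x).mul_const _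
    have h2 := h1.cexp.const_mul ((φ u : ℂ) * f u)
    rw [neg_one_mul, ← mul_assoc] at h2
    exact h2

theorem MuC_diff (hF : PushF) {φ : (Pl → ℝ) → ℝ} (hφ : IsPhi φ) {f : (Pl → ℝ) → ℂ}
    (hf : Continuous f) {θ C l t0 : ℝ} (h0 : ∀ u, ∑ w, u w + l < t0 → f u = 0)
    (hb : ∀ u, ‖f u‖ ≤ C * Real.exp (θ * (∑ w, u w + l))) {z : ℂ} (hz : θ < z.re) :
    Integrable (fun u => (φ u : ℂ) * f u * cexp (-z * (∑ w, u w + l : ℝ))) ∧
    DifferentiableAt ℂ (fun z : ℂ => ∫ u, (φ u : ℂ) * f u * cexp (-z * (∑ w, u w + l : ℝ))) z := by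
  have h1 := MuC_diff0 hF hφ hf (θ := θ) (C := C * Real.exp (θ * t0)) (l := l - t0)
    (fun u hu => h0 u (by linarith)) (fun u => by
      rw [mul_assoc, ← Real.exp_add]
      refine (hb u).trans (le_of_eq ?_)
      congr 2
      ring) hz
  have h2 : ∀ (x : ℂ) (u : Pl → ℝ), (φ u : ℂ) * f u * cexp (-x * (∑ w, u w + l : ℝ))
      = cexp (-x * t0) * ((φ u : ℂ) * f u * cexp (-x * (∑ w, u w + (l - t0) : ℝ))) := by
    intro x u
    rw [mul_left_comm, ← Complex.exp_add]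
    congr 2
    push_cast
    ring
  simp_rw [h2, integral_const_mul]
  exact ⟨h1.1.const_mul _, DifferentiableAt.fun_mul (by fun_prop) h1.2⟩

theorem MuC_sz (a : FF) (u : Pl → ℝ) :
    (⟨a, fun w => Real.exp (u w)⟩ : Sc).sz = Real.exp (∑ w, u w + Real.log (sS a)) := by
  rw [Sc.sz, Real.exp_add, Real.exp_log (sS_pos a), Real.exp_sum, mul_comm]

/-- One class. -/
theorem MuC_one (hF : PushF) {φ : (Pl → ℝ) → ℝ} (hφ : IsPhi φ) {τ : Pl → ℝ} {θ C : ℝ}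
    (h : ∀ X : Sc, X.OK → 1 ≤ X.sz → ‖S mu X (iT τ)‖ ≤ C * X.sz ^ θ) {a : FF} (ha : a ≠ 0)
    {z : ℂ} (hz : θ < z.re) :
    Integrable (fun u => (φ u : ℂ) * S mu ⟨a, fun w => Real.exp (u w)⟩ (iT τ)
      * cexp (-z * (∑ w, u w + Real.log (sS a) : ℝ))) ∧
    DifferentiableAt ℂ (fun z : ℂ => ∫ u, (φ u : ℂ) * S mu ⟨a, fun w => Real.exp (u w)⟩ (iT τ)
      * cexp (-z * (∑ w, u w + Real.log (sS a) : ℝ))) z := by
  obtain ⟨C1, hC1, h1⟩ := norm_S_le
  have hW : 0 < cW := one_pos.trans_le one_le_cW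
  have hL : 0 ≤ Real.log cW := Real.log_nonneg one_le_cW
  have hok : ∀ u : Pl → ℝ, (⟨a, fun w => Real.exp (u w)⟩ : Sc).OK := fun u =>
    ⟨ha, fun w => Real.exp_pos _⟩
  have h0 : ∀ u : Pl → ℝ, ∑ w, u w + Real.log (sS a) < -Real.log cW →
      S mu ⟨a, fun w => Real.exp (u w)⟩ (iT τ) = 0 := by
    intro u hu
    refine S_eq_zero (hok u) ?_ _ _
    rw [MuC_sz, ← Real.exp_log hW, ← Real.exp_add, Real.exp_lt_one_iff]
    linarith
  refine MuC_diff hF hφ (continuous_S mu ha _) (C := |C| + C1 * Real.exp (|θ| * Real.log cW))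
    h0 (fun u => ?_) hz
  have h2 := h _ (hok u)
  have h3 := h1 mu _ (iT τ) (hok u) (fun s => (norm_mu s).le) fun w => by rw [iT_re]; norm_num
  have h4 := h0 u
  rw [MuC_sz] at h2 h3
  obtain ⟨t, ht⟩ : ∃ t, t = ∑ w, u w + Real.log (sS a) := ⟨_, rfl⟩
  rw [← ht] at h2 h3 h4 ⊢
  have h5 : 0 ≤ |C| * Real.exp (θ * t) := by positivity
  have h6 : 0 ≤ C1 * Real.exp (|θ| * Real.log cW) * Real.exp (θ * t) := by positivity
  rw [add_mul]
  rcases le_total 0 t with h7 | h7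
  · have h8 := h2 (Real.one_le_exp h7)
    rw [← Real.exp_mul, mul_comm t] at h8
    have h9 : C * Real.exp (θ * t) ≤ |C| * Real.exp (θ * t) := by gcongr; exact le_abs_self C
    linarith
  · by_cases h8 : t < -Real.log cW
    · rw [h4 h8, norm_zero]
      linarith
    rw [not_lt] at h8
    have h9 : Real.exp t ≤ Real.exp (|θ| * Real.log cW) * Real.exp (θ * t) := by
      rw [← Real.exp_add]
      refine Real.exp_le_exp.2 ?_
      have := abs_nonneg θ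
      have := le_abs_self θ
      nlinarith
    have h10 : C1 * Real.exp t ≤ C1 * (Real.exp (|θ| * Real.log cW) * Real.exp (θ * t)) := by
      gcongr
    linarith

theorem MuC_T {A : Finset FF} (hA : IsA0 A) : ∃ T : Finset FF, (∀ a ∈ T, a ≠ 0) ∧
    ∀ x : FF, x ≠ 0 → ∑ a ∈ T, ic a x = if ∃ b ∈ A, x / b ∈ OS ∧ b / x ∈ OS then 1 else 0 := by
  have h1 : ∀ b : FF, ∃ C : Finset FF, b ≠ 0 → (∀ a ∈ C, a ≠ 0 ∧ a / b ∈ OS ∧ b / a ∈ OS) ∧
      ∀ x : FF, x ≠ 0 → x / b ∈ OS → b / x ∈ OS → ∃! a, a ∈ C ∧ Cl a x := by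
    intro b
    by_cases hb : b = 0
    · exact ⟨∅, fun h => absurd hb h⟩
    · obtain ⟨C, hC⟩ := exists_cls hb
      exact ⟨C, fun _ => hC⟩
  choose C hC using h1
  have h2 : ∀ x : FF, ∀ b ∈ A, ∀ a ∈ C b, Cl a x → x / b ∈ OS ∧ b / x ∈ OS := by
    intro x b hb a ha hcl
    obtain ⟨ha0, h3, h4⟩ := (hC b (hA.1 b hb)).1 a ha
    exact ⟨div_mem_OS_trans ha0 hcl.div_mem h3, div_mem_OS_trans ha0 h4 hcl.symm.div_mem⟩
  refine ⟨A.biUnion C, fun a ha => ?_, fun x hx => ?_⟩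
  · obtain ⟨b, hb, ha⟩ := Finset.mem_biUnion.1 ha
    exact ((hC b (hA.1 b hb)).1 a ha).1
  split_ifs with h
  · obtain ⟨b, hb, h3, h4⟩ := h
    obtain ⟨a, ⟨ha, hcl⟩, hu⟩ := (hC b (hA.1 b hb)).2 x hx h3 h4
    rw [Finset.sum_eq_single_of_mem a (Finset.mem_biUnion.2 ⟨b, hb, ha⟩), ic, if_pos hcl]
    intro a' ha' hne
    rw [ic, if_neg]
    intro hcl'
    obtain ⟨b', hb', ha'⟩ := Finset.mem_biUnion.1 ha'
    obtain ⟨h5, h6⟩ := h2 x b' hb' a' ha' hcl'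
    obtain rfl := hA.unique hx hb hb' h3 h4 h5 h6
    exact hne (hu a' ⟨ha', hcl'⟩)
  · refine Finset.sum_eq_zero fun a ha => ?_
    rw [ic, if_neg]
    intro hcl
    obtain ⟨b, hb, ha⟩ := Finset.mem_biUnion.1 ha
    exact h ⟨b, hb, h2 x b hb a ha hcl⟩

theorem MuC_par {A : Finset FF} (hA : IsA0 A) :
    ∃ (c0 : Finset P → Pl → ℝ) (cc : Finset P × (𝓞 FF)ˣ → E), Function.Injective cc ∧
      (∀ i, Associated (cc i) (pr i.1) ∧ (∃ b ∈ A, (cc i : FF) / b ∈ OS ∧ b / cc i ∈ OS) ∧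
        -lg (cc i) = c0 i.1 + lg ((i.2 : 𝓞 FF) : FF)) ∧
      ∀ c : E, Squarefree c → (∃ b ∈ A, (c : FF) / b ∈ OS ∧ b / c ∈ OS) → c ∈ Set.range cc := by
  choose c0 h1 h2 using fun s : Finset P => gen_orbit hA (pr_ne_zero s)
  have h0 : ∀ s, (c0 s : FF) ≠ 0 := fun s =>
    cnt_coe_ne ((h1 s).ne_zero_iff.2 (pr_ne_zero s))
  have hc : ∀ i : Finset P × (𝓞 FF)ˣ, ((toE ((i.2⁻¹ : (𝓞 FF)ˣ) : 𝓞 FF) * c0 i.1 : E) : FF)
      = ((i.2⁻¹ : (𝓞 FF)ˣ) : 𝓞 FF) * c0 i.1 := fun i => by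
    rw [Subring.coe_mul, coe_toE]
  have h3 := fun i : Finset P × (𝓞 FF)ˣ => (h2 i.1 _).2 ⟨i.2⁻¹, hc i⟩
  refine ⟨fun s => -lg (c0 s), fun i => toE ((i.2⁻¹ : (𝓞 FF)ˣ) : 𝓞 FF) * c0 i.1, ?_,
    fun i => ⟨(h3 i).1, (h3 i).2, ?_⟩, fun c hc1 hc2 => ?_⟩
  · rintro ⟨s, e⟩ ⟨s', e'⟩ h
    have h4 := (assoc_pr_iff.1 (h3 (s, e)).1).2
    have h5 := (assoc_pr_iff.1 (h3 (s', e')).1).2
    simp only at h h4 h5
    rw [h, h5] at h4
    subst h4
    have h6 := hc (s', e)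
    simp only at h6
    rw [h, hc (s', e')] at h6
    exact Prod.ext rfl (inv_injective (Phi0_inj (mul_right_cancel₀ (h0 s') h6))).symm
  · have h4 : (((i.2⁻¹ : (𝓞 FF)ˣ) : 𝓞 FF) : FF) ≠ 0 := by
      simp
    rw [hc, lg_mul h4 (h0 _), Phi0_lg_inv, neg_add, neg_neg, add_comm]
  · obtain ⟨e, he⟩ := (h2 (fac c) c).1 ⟨squarefree_iff_assoc.1 hc1, hc2⟩
    refine ⟨(fac c, e⁻¹), Subtype.ext ?_⟩
    rw [he]
    simpa using hc (fac c, e⁻¹)

theorem MuC_term (s : Pl → ℂ) (z : ℂ) (u : Pl → ℝ) {c : E} (hc : c ≠ 0) :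
    (∏ w, wt (‖em w c‖ ^ 2 / Real.exp (u w)) (s w)) * cexp (-z * (∑ w, u w + Real.log (sS c) : ℝ))
      = ((nm c : ℝ) : ℂ) ^ (-z) * ∏ w, MuC_g (s w) z ((u + -lg c) w) := by
  have hc' := cnt_coe_ne hc
  have h1 : ∀ w, Real.exp (-(u + -lg c) w) = ‖em w c‖ ^ 2 / Real.exp (u w) := by
    intro w
    rw [Pi.add_apply, Pi.neg_apply, neg_add, neg_neg, Real.exp_add, lg,
      Real.exp_log (em_sq_pos w hc'), Real.exp_neg, mul_comm, div_eq_mul_inv]
  have h2 : (nm c : ℝ) = Real.exp (∑ w, lg c w + Real.log (sS c)) := by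
    rw [Real.exp_add, sum_lg hc', Real.exp_log (Ninf_pos hc'), Real.exp_log (sS_pos _), nm_eq hc]
  simp only [MuC_g, h1]
  rw [Finset.prod_mul_distrib, mul_left_comm, h2, MuC_cpow, ← Complex.exp_sum, ← Complex.exp_add]
  congr 2
  simp only [Pi.add_apply, Pi.neg_apply]
  push_cast
  rw [← Finset.mul_sum, Finset.sum_add_distrib, Finset.sum_neg_distrib]
  ring

theorem MuC_pt {A T : Finset FF} (hT0 : ∀ a ∈ T, a ≠ 0)
    (hT : ∀ x : FF, x ≠ 0 → ∑ a ∈ T, ic a x = if ∃ b ∈ A, x / b ∈ OS ∧ b / x ∈ OS then 1 else 0)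
    (s : Pl → ℂ) (z : ℂ) (u : Pl → ℝ) :
    HasSum (fun c : E => if Squarefree c ∧ ∃ b ∈ A, (c : FF) / b ∈ OS ∧ b / c ∈ OS then
        mu (fac c) * ((nm c : ℝ) : ℂ) ^ (-z) * ∏ w, MuC_g (s w) z ((u + -lg c) w) else 0)
      (∑ a ∈ T, S mu ⟨a, fun w => Real.exp (u w)⟩ s
        * cexp (-z * (∑ w, u w + Real.log (sS a) : ℝ))) := by
  have h1 : ∀ a ∈ T, HasSum (fun c : E => (if Squarefree c then
      mu (fac c) * Kx ⟨a, fun w => Real.exp (u w)⟩ s c else 0)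
        * cexp (-z * (∑ w, u w + Real.log (sS a) : ℝ)))
      (S mu ⟨a, fun w => Real.exp (u w)⟩ s * cexp (-z * (∑ w, u w + Real.log (sS a) : ℝ))) := by
    intro a ha
    have hok : (⟨a, fun w => Real.exp (u w)⟩ : Sc).OK := ⟨hT0 a ha, fun w => Real.exp_pos _⟩
    refine HasSum.mul_right _ ?_
    rw [S, Finset.sum_filter]
    refine hasSum_sum_of_ne_finset_zero fun c hc => ?_
    split_ifs
    · by_contra h
      exact hc (Kx_supp hok (right_ne_zero_of_mul h)).2.2.1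
    · rfl
  refine (hasSum_sum h1).congr_fun fun c => ?_
  by_cases hc : Squarefree c
  swap
  · simp [hc]
  have h2 : ∀ a ∈ T, (if Squarefree c then
      mu (fac c) * Kx ⟨a, fun w => Real.exp (u w)⟩ s c else 0)
        * cexp (-z * (∑ w, u w + Real.log (sS a) : ℝ))
      = ic a c * (mu (fac c) * ((nm c : ℝ) : ℂ) ^ (-z)
        * ∏ w, MuC_g (s w) z ((u + -lg c) w)) := by
    intro a _
    rw [if_pos hc, Kx, mul_assoc (mu _) (_ ^ _), ← MuC_term s z u hc.ne_zero, ic]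
    split_ifs with h
    · rw [h.sS_eq]
      ring
    · ring
  rw [Finset.sum_congr rfl h2, ← Finset.sum_mul, hT _ (cnt_coe_ne hc.ne_zero)]
  by_cases h : ∃ b ∈ A, (c : FF) / b ∈ OS ∧ b / c ∈ OS
  · rw [if_pos ⟨hc, h⟩, if_pos h, one_mul]
  · rw [if_neg fun h' => h h'.2, if_neg h, zero_mul]

/-- The unfolding identity. -/
theorem MuC_unf {φ : (Pl → ℝ) → ℝ} (hφ : IsPhi φ) {A T : Finset FF} (hA : IsA0 A)
    (hT0 : ∀ a ∈ T, a ≠ 0)
    (hT : ∀ x : FF, x ≠ 0 → ∑ a ∈ T, ic a x = if ∃ b ∈ A, x / b ∈ OS ∧ b / x ∈ OS then 1 else 0)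
    (s : ℂ) {z : ℂ} (hz : 1 < z.re) :
    ∫ u, ∑ a ∈ T, (φ u : ℂ) * S mu ⟨a, fun w => Real.exp (u w)⟩ (fun _ => s)
        * cexp (-z * (∑ w, u w + Real.log (sS a) : ℝ))
      = (∑' t : Finset P, mu t * (Ns t : ℂ) ^ (-z)) * mellin V0 (z + s) ^ rk := by
  have := Phi0_countable
  obtain ⟨c0, cc, hinj, hcc, hsurj⟩ := MuC_par hA
  obtain ⟨g, hg⟩ : ∃ g : (Pl → ℝ) → ℂ, g = fun y => ∏ w, MuC_g s z (y w) := ⟨_, rfl⟩
  have hgi : Integrable g := by
    rw [hg]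
    exact Integrable.fintype_prod (f := fun _ : Pl => MuC_g s z) fun _ => MuC_g_int s z
  have hgv : ∫ y, g y = mellin V0 (z + s) ^ rk := by
    rw [hg, integral_fintype_prod_volume_eq_pow, MuC_g_integral, rk]
  obtain ⟨F, hF⟩ : ∃ F : Finset P × (𝓞 FF)ˣ → (Pl → ℝ) → ℂ, F = fun i u =>
    mu i.1 * (Ns i.1 : ℂ) ^ (-z) * ((φ u : ℂ) * g (u + c0 i.1 + lg ((i.2 : 𝓞 FF) : FF))) :=
    ⟨_, rfl⟩
  have h1 : ∀ u, ∑ a ∈ T, (φ u : ℂ) * S mu ⟨a, fun w => Real.exp (u w)⟩ (fun _ => s)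
      * cexp (-z * (∑ w, u w + Real.log (sS a) : ℝ)) = ∑' i, F i u := by
    intro u
    have h2 := (hinj.hasSum_iff fun c hc => if_neg fun h => hc (hsurj c h.1 h.2)).2
      (MuC_pt hT0 hT (fun _ => s) z u)
    have h3 := h2.mul_left (φ u : ℂ)
    rw [Finset.mul_sum] at h3
    simp only [← mul_assoc] at h3
    rw [← h3.tsum_eq]
    refine tsum_congr fun i => ?_
    obtain ⟨h4, h5, h6⟩ := hcc i
    obtain ⟨h7, h8⟩ := assoc_pr_iff.1 h4
    rw [Function.comp_apply, if_pos ⟨h7, h5⟩, h8, nm_of_assoc_pr h4, h6, hF, hg, ← add_assoc]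
    ring
  have hn : ∀ t : Finset P, ‖mu t * (Ns t : ℂ) ^ (-z)‖ = Ns t ^ (-z.re) := fun t => by
    rw [norm_mul, norm_mu, one_mul, norm_cpow_eq_rpow_re_of_pos (Ns_pos t), neg_re]
  have h2 : ∀ i, Integrable (F i) := fun i => by
    rw [hF]
    exact ((unfold hφ hgi (c0 i.1)).1 i.2).const_mul _
  have h3 : ∀ t, HasSum (fun e => ∫ u, ‖F (t, e) u‖) (Ns t ^ (-z.re) * ∫ u, ‖g u‖) := fun t => by
    refine ((unfold hφ hgi (c0 t)).2.2.mul_left (Ns t ^ (-z.re))).congr_fun fun e => ?_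
    rw [← integral_const_mul, hF]
    refine integral_congr_ae (ae_of_all _ fun u => ?_)
    simp only
    rw [norm_mul, hn]
  have h4 : Summable fun i => ∫ u, ‖F i u‖ := by
    rw [summable_prod_of_nonneg fun i => integral_nonneg fun _ => norm_nonneg _]
    refine ⟨fun t => (h3 t).summable, ?_⟩
    simp_rw [fun t => (h3 t).tsum_eq]
    exact (summable_Ns_rpow hz).mul_right _
  have h5 : ∀ t, HasSum (fun e => ∫ u, F (t, e) u) (mu t * (Ns t : ℂ) ^ (-z) * ∫ u, g u) :=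
    fun t => by
    refine ((unfold hφ hgi (c0 t)).2.1.mul_left _).congr_fun fun e => ?_
    rw [← integral_const_mul, hF]
  have h6 := (hasSum_integral_of_summable_integral_norm h2 h4).prod_fiberwise h5
  simp_rw [h1]
  rw [← h6.tsum_eq, tsum_mul_right, hgv]

theorem muC (hF : PushF) {θ : ℝ} (h : MoB θ) : MuC θ := by
  intro γ
  obtain ⟨φ, hφ⟩ := exists_phi
  obtain ⟨A, hA⟩ := exists_A0
  obtain ⟨T, hT0, hT⟩ := MuC_T hA
  obtain ⟨C, hC⟩ := h fun _ => -γ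
  obtain ⟨C1, -, h1⟩ := norm_S_le
  refine ⟨fun z => ∑ a ∈ T, ∫ u, (φ u : ℂ) * S mu ⟨a, fun w => Real.exp (u w)⟩ (iT fun _ => -γ)
      * cexp (-z * (∑ w, u w + Real.log (sS a) : ℝ)), fun z hz => ?_, fun z hz => ?_⟩
  · exact (DifferentiableAt.fun_sum fun a ha =>
      (MuC_one hF hφ hC (hT0 a ha) hz).2).differentiableWithinAt
  · have h2 : ∀ X : Sc, X.OK → 1 ≤ X.sz → ‖S mu X (iT fun _ => -γ)‖ ≤ C1 * X.sz ^ (1 : ℝ) := by
      intro X hX _
      rw [Real.rpow_one]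
      exact h1 mu X _ hX (fun s => (norm_mu s).le) fun w => by rw [iT_re]; norm_num
    simp only
    rw [← integral_finsetSum _ fun a ha => (MuC_one hF hφ h2 (hT0 a ha) hz).1]
    have h3 := MuC_unf hφ hA hT0 hT (((-γ : ℝ) : ℂ) * I) hz
    rw [show z + ((-γ : ℝ) : ℂ) * I = z - γ * I by push_cast; ring] at h3
    exact h3

end NQ
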