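import Vale.Agent.NQ.Ord

noncomputable section
namespace NQ
open NumberField IsDedekindDomain Polynomial
open scoped Classical nonZeroDivisors

theorem MkSt_nat {F : Type} [Field F] [NumberField F] (n : ℕ) : IsIntegral ℤ (n : F) := by
  simpa using isIntegral_algebraMap (R := ℤ) (A := F) (x := n)

theorem MkSt_dual (F : Type) [Field F] [NumberField F] : ∃ D : ℕ, D ≠ 0 ∧
    ∀ x : F, (∀ y : F, IsIntegral ℤ y → ∃ n : ℤ, Algebra.trace ℚ F (x * y) = n) →
      IsIntegral ℤ ((D : F) * x) := by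
  set b := integralBasis F with hb
  choose d hd0 hd using fun i => exists_nat_mul_integral (b.traceDual i)
  refine ⟨∏ i, d i, Finset.prod_ne_zero_iff.2 fun i _ => hd0 i, fun x hx => ?_⟩
  have hxe : x = ∑ i, (b.traceDual.repr x i) • b.traceDual i := (b.traceDual.sum_repr x).symm
  rw [hxe, Finset.mul_sum]
  refine IsIntegral.sum _ fun i _ => ?_
  have hbi : IsIntegral ℤ (b i) := by
    rw [hb, integralBasis_apply]
    exact RingOfIntegers.isIntegral_coe _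
  obtain ⟨n, hn⟩ := hx (b i) hbi
  rw [Module.Basis.traceDual_repr_apply, Algebra.traceForm_apply, hn]
  obtain ⟨e, he⟩ : d i ∣ ∏ j, d j := Finset.dvd_prod_of_mem _ (Finset.mem_univ i)
  have h1 : ((∏ j, d j : ℕ) : F) * ((n : ℚ) • b.traceDual i)
      = (n : F) * (e : F) * ((d i : F) * b.traceDual i) := by
    rw [he, Algebra.smul_def]
    simp only [Nat.cast_mul, map_intCast]
    ring
  rw [h1]
  have hn' : IsIntegral ℤ (n : F) := by
    simpa using isIntegral_algebraMap (R := ℤ) (A := F) (x := n)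
  exact (hn'.mul (MkSt_nat e)).mul (hd i)

theorem MkSt_cls (F : Type) [Field F] [NumberField F] : ∃ A : ℕ, A ≠ 0 ∧
    ∀ I : Ideal (𝓞 F), I ≠ ⊥ → ∃ x ∈ I, ∀ y ∈ I, x ∣ (A : 𝓞 F) * y := by
  choose J hJ using fun c : ClassGroup (𝓞 F) => ClassGroup.mk0_surjective c
  have hJ0 : ∀ c, Ideal.absNorm (J c : Ideal (𝓞 F)) ≠ 0 := fun c =>
    Ideal.absNorm_ne_zero_of_nonZeroDivisors (J c)
  refine ⟨∏ c, Ideal.absNorm (J c : Ideal (𝓞 F)), Finset.prod_ne_zero_iff.2 fun c _ => hJ0 c,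
    fun I hI => ?_⟩
  let I1 : (Ideal (𝓞 F))⁰ := ⟨I, mem_nonZeroDivisors_of_ne_zero hI⟩
  set c := (ClassGroup.mk0 I1)⁻¹ with hc
  have h1 : ClassGroup.mk0 I1 = (ClassGroup.mk0 (J c))⁻¹ := by rw [hJ, hc, inv_inv]
  obtain ⟨x, -, hx⟩ := ClassGroup.mk0_eq_mk0_inv_iff.1 h1
  have hx' : I * (J c : Ideal (𝓞 F)) = Ideal.span {x} := hx
  refine ⟨x, ?_, fun y hy => ?_⟩
  · have : x ∈ I * (J c : Ideal (𝓞 F)) := by rw [hx']; exact Ideal.mem_span_singleton_self x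
    exact (Ideal.mul_le_inf (I := I) (J := (J c : Ideal (𝓞 F))) this).1
  · rw [← Ideal.mem_span_singleton, ← hx', mul_comm (_ : 𝓞 F) y]
    refine Ideal.mul_mem_mul hy ?_
    obtain ⟨e, he⟩ : Ideal.absNorm (J c : Ideal (𝓞 F)) ∣ ∏ c, Ideal.absNorm (J c : Ideal (𝓞 F)) :=
      Finset.dvd_prod_of_mem _ (Finset.mem_univ c)
    rw [he, Nat.cast_mul]
    exact Ideal.mul_mem_right _ _ (Ideal.absNorm_mem _)

/-- The inclusion of the integers. -/
def MkSt_inc (F : Type) [Field F] [NumberField F] (s : ℕ) : 𝓞 F →+* RR F s :=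
  (algebraMap (𝓞 F) F).codRestrict (RR F s) fun x =>
    ⟨0, by simpa using RingOfIntegers.isIntegral_coe x⟩

theorem MkSt_pid (F : Type) [Field F] [NumberField F] {A s : ℕ} (hs : s ≠ 0) (hAs : A ∣ s)
    (hA : ∀ I : Ideal (𝓞 F), I ≠ ⊥ → ∃ x ∈ I, ∀ y ∈ I, x ∣ (A : 𝓞 F) * y) :
    IsPrincipalIdealRing (RR F s) := by
  have hsF : (s : F) ≠ 0 := Nat.cast_ne_zero.2 hs
  have hinv : ∀ k : ℕ, ((s : F) ^ k)⁻¹ ∈ RR F s := fun k =>
    ⟨k, by rw [mul_inv_cancel₀ (pow_ne_zero k hsF)]; exact isIntegral_one⟩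
  have hlift : ∀ (I : Ideal (RR F s)) (y : RR F s), y ∈ I → ∃ (k : ℕ) (z : 𝓞 F),
      z ∈ I.comap (MkSt_inc F s) ∧ (z : F) = (s : F) ^ k * y := by
    intro I y hy
    obtain ⟨k, hk⟩ := y.2
    obtain ⟨z, hz⟩ : ∃ z : 𝓞 F, (z : F) = (s : F) ^ k * y := ⟨⟨_, hk⟩, rfl⟩
    refine ⟨k, z, ?_, hz⟩
    rw [Ideal.mem_comap]
    have : MkSt_inc F s z = (s : RR F s) ^ k * y := by
      apply Subtype.ext
      push_cast
      exact hz
    rw [this]
    exact Ideal.mul_mem_left _ _ hy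
  refine ⟨fun I => ?_⟩
  by_cases hI : I.comap (MkSt_inc F s) = ⊥
  · refine ⟨⟨0, ?_⟩⟩
    rw [Ideal.submodule_span_eq, Ideal.span_singleton_eq_bot.2 rfl, eq_bot_iff]
    intro y hy
    obtain ⟨k, z, hz, hzy⟩ := hlift I y hy
    rw [hI, Ideal.mem_bot] at hz
    rw [hz] at hzy
    have h0 : (s : F) ^ k * (y : F) = 0 := by simpa using hzy.symm
    rw [Ideal.mem_bot]
    apply Subtype.ext
    exact (mul_eq_zero.1 h0).resolve_left (pow_ne_zero k hsF)
  · obtain ⟨x, hx, hxy⟩ := hA _ hI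
    refine ⟨⟨MkSt_inc F s x, ?_⟩⟩
    rw [Ideal.submodule_span_eq]
    apply le_antisymm
    · intro y hy
      obtain ⟨k, z, hz, hzy⟩ := hlift I y hy
      obtain ⟨t, ht⟩ := hxy z hz
      obtain ⟨e, he⟩ := hAs
      rw [Ideal.mem_span_singleton]
      refine ⟨MkSt_inc F s t * (e : RR F s) * ⟨_, hinv (k + 1)⟩, ?_⟩
      apply Subtype.ext
      have ht' : (A : F) * (z : F) = (x : F) * (t : F) := by
        have := congrArg (algebraMap (𝓞 F) F) ht
        simpa using this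
      have he' : (s : F) = (A : F) * (e : F) := by rw [he, Nat.cast_mul]
      have h2 : ((MkSt_inc F s x * (MkSt_inc F s t * (e : RR F s) * ⟨_, hinv (k + 1)⟩) : RR F s) : F)
          = (x : F) * ((t : F) * (e : F) * ((s : F) ^ (k + 1))⁻¹) := by
        push_cast
        rfl
      rw [h2]
      have h3 : (x : F) * ((t : F) * (e : F) * ((s : F) ^ (k + 1))⁻¹)
          = ((x : F) * (t : F)) * (e : F) * ((s : F) ^ (k + 1))⁻¹ := by ring
      rw [h3, ← ht', hzy]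
      have h4 : (A : F) * ((s : F) ^ k * (y : F)) * (e : F) = (s : F) ^ (k + 1) * (y : F) := by
        rw [pow_succ]
        nth_rewrite 3 [he']
        ring
      rw [h4]
      field_simp
    · rw [Ideal.span_singleton_le_iff_mem]
      exact hx

theorem exists_s (F : Type) [Field F] [NumberField F] : ∃ s : ℕ, 0 < s ∧ 12 ∣ s ∧
    (∀ p : ℕ, p.Prime → p ≤ Module.finrank ℚ F → p ∣ s) ∧ IsPrincipalIdealRing (RR F s) ∧
    ∀ x : F, (∀ y : F, IsIntegral ℤ y → ∃ n : ℤ, Algebra.trace ℚ F (x * y) = n) →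
      IsIntegral ℤ ((s : F) * x) := by
  obtain ⟨D, hD0, hD⟩ := MkSt_dual F
  obtain ⟨A, hA0, hA⟩ := MkSt_cls F
  have hs : 12 * (Module.finrank ℚ F).factorial * A * D ≠ 0 :=
    mul_ne_zero (mul_ne_zero (mul_ne_zero (by norm_num) (Nat.factorial_ne_zero _)) hA0) hD0
  refine ⟨12 * (Module.finrank ℚ F).factorial * A * D, Nat.pos_of_ne_zero hs, ?_, ?_, ?_, ?_⟩
  · exact Dvd.dvd.mul_right (Dvd.dvd.mul_right (dvd_mul_right _ _) _) _
  · intro p hp hle
    exact Dvd.dvd.mul_right (Dvd.dvd.mul_right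
      (Dvd.dvd.mul_left (Nat.dvd_factorial hp.pos hle) _) _) _
  · exact MkSt_pid F hs (Dvd.dvd.mul_right (dvd_mul_left _ _) _) hA
  · intro x hx
    rw [Nat.cast_mul, mul_assoc]
    exact (MkSt_nat _).mul (hD x hx)

end NQ
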