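import Vale.Agent.NQ.KapB
import Vale.Agent.NQ.MkSt
import Vale.Agent.NQ.EulB

noncomputable section
namespace NQ
open Complex MeasureTheory NumberField Filter
open scoped ComplexConjugate Classical Topology

theorem PIT_num {n H k z : ℝ} {m : ℕ} (hm : (m : ℝ) = n) (hn : 1 ≤ n) (hH : 1 ≤ H) (hk0 : 0 ≤ k)
    (hk : k ≤ (3 * n * H) ^ m) (hz : z ≤ Real.exp (2 * n)) :
    4 * k ^ 6 * z ≤ Real.exp (30 * (n ^ 3 * (1 + Real.log H))) := by
  have hl : 0 ≤ Real.log H := Real.log_nonneg hH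
  have h1 : 3 * n * H ≤ Real.exp (3 * n + Real.log H) := by
    rw [Real.exp_add, Real.exp_log (by linarith)]
    have := Real.add_one_le_exp (3 * n)
    exact mul_le_mul_of_nonneg_right (by linarith) (by linarith)
  have h2 : k ≤ Real.exp (n * (3 * n + Real.log H)) := by
    refine hk.trans ?_
    rw [← hm, Real.exp_nat_mul, hm]
    exact pow_le_pow_left₀ (by positivity) h1 m
  have h3 : k ^ 6 ≤ Real.exp (6 * (n * (3 * n + Real.log H))) := by
    have := pow_le_pow_left₀ hk0 h2 6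
    rw [← Real.exp_nat_mul] at this
    exact_mod_cast this
  have h4 : (4 : ℝ) ≤ Real.exp 3 := by
    have := Real.add_one_le_exp 3
    linarith
  have h5 : 4 * k ^ 6 * z ≤ Real.exp 3 * Real.exp (6 * (n * (3 * n + Real.log H)))
      * Real.exp (2 * n) := by
    calc 4 * k ^ 6 * z ≤ 4 * k ^ 6 * Real.exp (2 * n) :=
          mul_le_mul_of_nonneg_left hz (by positivity)
      _ ≤ _ := by gcongr
  refine h5.trans ?_
  rw [← Real.exp_add, ← Real.exp_add]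
  apply Real.exp_le_exp.2
  have a1 : n ≤ n ^ 2 := by nlinarith
  have a2 : n ^ 2 ≤ n ^ 3 := by nlinarith
  have a3 : n * Real.log H ≤ n ^ 3 * Real.log H :=
    mul_le_mul_of_nonneg_right (by linarith) hl
  have a4 : 0 ≤ n ^ 3 * Real.log H := by positivity
  nlinarith

theorem pit (h1 : ∀ [St], Hecke) (h2 : ∀ [St], ZF) (h3 : LDer) (h4 : Cont) : PIT := by
  obtain ⟨C3, hC3, h3⟩ := h3
  obtain ⟨C4, hC4, h4⟩ := h4
  refine ⟨C4 * C3 * 30, by positivity, ?_⟩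
  intro F _ _ w H hw hH hsp x hx
  obtain ⟨s, hs0, hs12, hsm, hpid, hdual⟩ := exists_s F
  let σ : St := ⟨F, s, w, hw, hs0, hs12, hsm, hpid, hdual⟩
  obtain ⟨Λ, hΛ, hΛ1, hΛb⟩ := @h1 σ
  have hzf := @h2 σ Λ hΛ
  obtain ⟨z1, z2, z3, z4⟩ := zetaF F
  have hk : kap⁻¹ ≤ (3 * Module.finrank ℚ F * H) ^ Module.finrank ℚ F := kap_inv_le hH hsp
  have hrk : 2 * rk = Module.finrank ℚ F := two_mul_rk
  have hrp : 0 < rk := rk_pos
  have hkp : 0 < kap := kap_pos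
  obtain ⟨n, hn⟩ : ∃ n : ℝ, (Module.finrank ℚ F : ℝ) = n := ⟨_, rfl⟩
  have hrn : 2 * (rk : ℝ) = n := by rw [← hn]; exact_mod_cast hrk
  have hr1 : (1 : ℝ) ≤ rk := by exact_mod_cast hrp
  have hn1 : 1 ≤ n := by linarith
  rw [hn] at hk z3 z4 ⊢
  have hl : 0 ≤ Real.log H := Real.log_nonneg hH
  obtain ⟨L, hL⟩ : ∃ L : ℝ, L = 30 * (n ^ 3 * (1 + Real.log H)) := ⟨_, rfl⟩
  have hnL : 2 * n ≤ L := by
    have a1 : n ≤ n ^ 2 := by nlinarith
    have a2 : n ^ 2 ≤ n ^ 3 := by nlinarith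
    have a4 : 0 ≤ n ^ 3 * Real.log H := by positivity
    rw [hL]; nlinarith
  have hb := PIT_num hn hn1 hH (inv_nonneg.2 hkp.le) hk z3
  rw [← hL] at hb
  obtain ⟨h, hd, he, hbd⟩ := h3 rk L Λ (zeta F) (fun z => ∑' i : HS F × ℕ,
      (Real.log (qv i.1) : ℂ) * (((qv i.1 : ℝ) ^ (i.2 + 1) : ℝ) : ℂ) ^ (-z)) (by linarith)
    (by linarith) hΛ.1
    (fun z hz => by
      by_cases hz1 : z = 1
      · rw [hz1]; exact hΛ1
      · exact hzf z hz hz1)
    hΛ.2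
    (fun z a b => (hΛb z a b).trans (by
      have e : 4 * (1 + ‖z‖) ^ 2 * kap⁻¹ ^ 6 * (zeta FF 2).re
          = (1 + ‖z‖) ^ 2 * (4 * kap⁻¹ ^ 6 * (zeta F 2).re) := by
        show 4 * (1 + ‖z‖) ^ 2 * kap⁻¹ ^ 6 * (zeta F 2).re = _
        ring
      rw [e]
      exact mul_le_mul_of_nonneg_left hb (by positivity)))
    (fun t => (Real.exp_le_exp.2 (by linarith)).trans (z4 t)) z2
  have hq : ∀ i : HS F × ℕ, (0 : ℝ) < (qv i.1 : ℝ) ^ (i.2 + 1) := fun i => by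
    have : 0 < qv i.1 := Nat.pos_of_ne_zero (by
      unfold qv
      rw [Ne, Ideal.absNorm_eq_zero_iff]
      exact i.1.ne_bot)
    positivity
  have key := h4 (HS F × ℕ) inferInstance (fun i => (qv i.1 : ℝ) ^ (i.2 + 1))
    (fun i => Real.log (qv i.1)) h (C3 * L) (mul_nonneg hC3.le (by linarith)) hq
    (fun i => Real.log_natCast_nonneg _) (z1 2 (by norm_num)) hd
    (fun t => he _ (by simp)) hbd x hx
  calc |cheb F x - mm x| ≤ C4 * (C3 * L) * x ^ (24 / 25 : ℝ) := key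
    _ = _ := by rw [hL]; ring

end NQ
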