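import Vale.Agent.NQ.PairP
import Vale.Agent.NQ.Rearr
import Vale.Agent.NQ.WtS

noncomputable section
namespace NQ
open Complex MeasureTheory NumberField Filter
open scoped ComplexConjugate Classical ContDiff Topology

theorem pla_Vg_pos (y : ℝ) : 0 < Vg y := Real.exp_pos _

theorem pla_Vg_anti {x y : ℝ} (h : x ≤ y) : Vg y ≤ Vg x := by
  refine Real.exp_le_exp.2 ?_
  have : 0 < 2 * Real.pi / √3 := by positivity
  nlinarith

theorem pla_Vg_cont : Continuous Vg := by unfold QRH.Vg; fun_prop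

/-- The integrated Gaussian. -/
def plaK (y : ℝ) : ℂ := ∫ v : ℝ, (beta v : ℂ) * ((Real.exp v * Vg (y * Real.exp v) : ℝ) : ℂ)

theorem pla_pt {y v : ℝ} (hy : 0 ≤ y) (h1 : 1 < Real.exp v) (h4 : Real.exp v < 4) :
    ‖((Real.exp v * Vg (y * Real.exp v) : ℝ) : ℂ)‖ ≤ 4 * Vg y := by
  rw [Complex.norm_real, Real.norm_of_nonneg (mul_pos (Real.exp_pos _) (pla_Vg_pos _)).le]
  exact mul_le_mul h4.le (pla_Vg_anti (le_mul_of_one_le_right hy h1.le)) (pla_Vg_pos _).le
    (by norm_num)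

theorem pla_norm_K {y : ℝ} (hy : 0 ≤ y) : ‖plaK y‖ ≤ 8 * Vg y := by
  have h := QRH.norm_integral_beta_le
    (F := fun v => ((Real.exp v * Vg (y * Real.exp v) : ℝ) : ℂ))
    (M := 4 * Vg y) (by have := pla_Vg_pos y; positivity) fun v => pla_pt hy
  unfold plaK
  linarith

theorem pla_sm {y : ℝ} (hy : 0 < y) :
    sm 1 (fun v => (Vg (Real.exp v) : ℝ)) (Real.log y) = plaK y := by
  unfold QRH.sm plaK
  congr 1
  funext v
  beta_reduce
  rw [Real.exp_add, Real.exp_log hy, one_mul, mul_comm y, mul_assoc]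
  push_cast
  rfl

variable [σ : St]

theorem pla_hs {f g : E → ℂ} {a b : ℂ} (h : HasSum f a) (h1 : ∀ n, g n = f n) (h2 : b = a) :
    HasSum g b := by rw [funext h1, h2]; exact h

/-- The product of the bumps. -/
def plaB (v : Pl → ℝ) : ℝ := ∏ w, beta (v w)

/-- The product of the Gaussians. -/
def plaE (y v : Pl → ℝ) : ℂ := ∏ w, ((Real.exp (v w) * Vg (y w * Real.exp (v w)) : ℝ) : ℂ)

theorem plaB_nonneg (v : Pl → ℝ) : 0 ≤ plaB v :=
  Finset.prod_nonneg fun _ _ => QRH.beta_nonneg _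

theorem plaB_le (v : Pl → ℝ) : plaB v ≤ 1 :=
  Finset.prod_le_one (fun _ _ => QRH.beta_nonneg _) fun _ _ => QRH.beta_le_one _

theorem plaB_exp {v : Pl → ℝ} (h : plaB v ≠ 0) (w : Pl) :
    1 < Real.exp (v w) ∧ Real.exp (v w) < 4 :=
  QRH.beta_exp (Finset.prod_ne_zero_iff.1 h w (Finset.mem_univ w))

theorem plaB_cont : Continuous plaB :=
  continuous_finsetProd _ fun w _ => QRH.contDiff_beta.continuous.comp (continuous_apply w)

theorem plaB_int : Integrable plaB :=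
  Integrable.fintype_prod (f := fun _ : Pl => beta) (μ := fun _ => volume)
    fun _ => QRH.integrable_beta

theorem plaB_pos : 0 < ∫ v, plaB v := by
  have h := integral_fintype_prod_volume_eq_pow (ι := Pl) (E := ℝ) beta
  unfold plaB
  rw [h]
  exact pow_pos QRH.integral_beta_pos _

theorem plaE_cont (y : Pl → ℝ) : Continuous (plaE y) :=
  continuous_finsetProd _ fun w _ => continuous_ofReal.comp
    ((Real.continuous_exp.comp (continuous_apply w)).mul (pla_Vg_cont.comp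
      (continuous_const.mul (Real.continuous_exp.comp (continuous_apply w)))))

theorem plaE_le {y v : Pl → ℝ} (hy : ∀ w, 0 ≤ y w) (h : plaB v ≠ 0) :
    ‖plaE y v‖ ≤ 4 ^ rk * ∏ w, Vg (y w) := by
  rw [plaE, norm_prod, ← prod_const_Pl, ← Finset.prod_mul_distrib]
  exact Finset.prod_le_prod (fun _ _ => norm_nonneg _) fun w _ =>
    pla_pt (hy w) (plaB_exp h w).1 (plaB_exp h w).2

theorem plaE_int (y : Pl → ℝ) : ∫ v, (plaB v : ℂ) * plaE y v = ∏ w, plaK (y w) := by
  have h := integral_fintype_prod_volume_eq_prod (E := fun _ : Pl => ℝ)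
    fun w t => (beta t : ℂ) * ((Real.exp t * Vg (y w * Real.exp t) : ℝ) : ℂ)
  unfold plaK
  rw [← h]
  congr 1
  funext v
  rw [plaB, plaE, Complex.ofReal_prod, Finset.prod_mul_distrib]

theorem pla_prodK {y : Pl → ℝ} (hy : ∀ w, 0 ≤ y w) :
    ‖∏ w, plaK (y w)‖ ≤ 8 ^ rk * ∏ w, Vg (y w) := by
  rw [norm_prod, ← prod_const_Pl, ← Finset.prod_mul_distrib]
  exact Finset.prod_le_prod (fun _ _ => norm_nonneg _) fun w _ => pla_norm_K (hy w)

theorem pla_summable {b : FF} (hb : b ≠ 0) {κ : Pl → ℝ} (hκ : ∀ w, 0 < κ w) :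
    Summable fun m : E => if (m : FF) / b ∈ OS then ∏ w, Vg (‖em w m‖ ^ 2 * κ w) else 0 := by
  obtain ⟨C, -, h⟩ := gauss_tail (B := 0) le_rfl
  simpa only [div_inv_eq_mul] using (h b (fun w => (κ w)⁻¹) 1 hb (fun w => inv_pos.2 (hκ w))
    one_pos).1

/-- The integral of `A` against the bumps is the sum of `h`. -/
def PlaT (A : (Pl → ℝ) → ℂ) (h : E → ℂ) : Prop :=
  Integrable (fun v => (plaB v : ℂ) * A v) ∧ HasSum h (∫ v, (plaB v : ℂ) * A v)

theorem PlaT.sum {ι : Type} {I : Finset ι} {A : ι → (Pl → ℝ) → ℂ} {h : ι → E → ℂ}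
    (H : ∀ i ∈ I, PlaT (A i) (h i)) : PlaT (fun v => ∑ i ∈ I, A i v) fun m => ∑ i ∈ I, h i m := by
  unfold PlaT
  simp only [Finset.mul_sum]
  refine ⟨integrable_finsetSum _ fun i hi => (H i hi).1, ?_⟩
  rw [integral_finsetSum _ fun i hi => (H i hi).1]
  exact hasSum_sum fun i hi => (H i hi).2

theorem PlaT.smul {a : ℂ} {A : (Pl → ℝ) → ℂ} {h : E → ℂ} (H : a ≠ 0 → PlaT A h) :
    PlaT (fun v => a * A v) fun m => a * h m := by
  by_cases ha : a = 0
  · simp [PlaT, ha, hasSum_zero]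
  obtain ⟨h1, h2⟩ := H ha
  unfold PlaT
  simp only [mul_left_comm _ a]
  refine ⟨h1.const_mul a, ?_⟩
  rw [integral_const_mul]
  exact h2.mul_left a

theorem PlaT.le {A : (Pl → ℝ) → ℂ} {h : E → ℂ} (H : PlaT A h) {L G : ℝ} {g : E → ℝ}
    (hL : ∀ v, plaB v ≠ 0 → L ≤ (A v).re) (hg : HasSum g G) (hb : ∀ m, ‖h m‖ ≤ g m) :
    (∫ v, plaB v) * L ≤ G := by
  rw [← integral_mul_const]
  refine (integral_mono (plaB_int.mul_const _) H.1.re fun v => ?_).trans ?_
  · by_cases h0 : plaB v = 0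
    · simp [h0]
    · simp only [RCLike.re_to_complex, Complex.re_ofReal_mul]
      exact mul_le_mul_of_nonneg_left (hL v h0) (plaB_nonneg v)
  rw [integral_re H.1]
  exact (RCLike.re_le_norm _).trans (H.2.norm_le_of_bounded hg hb)

theorem pla_term {b : FF} (hb0 : b ≠ 0) {κ : Pl → ℝ} (hκ : ∀ w, 0 < κ w) {M : ℝ} {co : E → ℂ}
    (hM : ∀ m, ‖co m‖ ≤ M) :
    PlaT (fun v => ∑' m : E, il b m * co m * plaE (fun w => ‖em w m‖ ^ 2 * κ w) v)
      fun m => il b m * co m * ∏ w, plaK (‖em w m‖ ^ 2 * κ w) := by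
  have hM0 : 0 ≤ M := (norm_nonneg _).trans (hM 0)
  set F : E → (Pl → ℝ) → ℂ := fun m v =>
    (plaB v : ℂ) * (il b m * co m * plaE (fun w => ‖em w m‖ ^ 2 * κ w) v) with hF
  set g : E → ℝ := fun m =>
    M * (4 ^ rk * if (m : FF) / b ∈ OS then ∏ w, Vg (‖em w m‖ ^ 2 * κ w) else 0) with hg
  have hs : Summable g := ((pla_summable hb0 hκ).mul_left _).mul_left M
  have hb : ∀ m v, ‖F m v‖ ≤ plaB v * g m := fun m v => by
    by_cases h : plaB v = 0
    · simp [hF, h]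
    rw [hF, norm_mul, Complex.norm_real, Real.norm_of_nonneg (plaB_nonneg v)]
    refine mul_le_mul_of_nonneg_left ?_ (plaB_nonneg v)
    simp only [hg, il]
    split_ifs
    · rw [one_mul, norm_mul]
      exact mul_le_mul (hM m) (plaE_le (fun w => mul_nonneg (by positivity) (hκ w).le) h)
        (norm_nonneg _) hM0
    · simp
  have hg0 : ∀ m, 0 ≤ g m := fun m => by
    simp only [hg]
    split_ifs
    · have := Finset.prod_nonneg (s := Finset.univ)
        fun (w : Pl) _ => (pla_Vg_pos (‖em w m‖ ^ 2 * κ w)).le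
      positivity
    · simp
  have hc : ∀ m, Continuous (F m) := fun m =>
    (continuous_ofReal.comp plaB_cont).mul (continuous_const.mul (plaE_cont _))
  have he : (fun v => (plaB v : ℂ) *
      ∑' m : E, il b m * co m * plaE (fun w => ‖em w m‖ ^ 2 * κ w) v) =
      fun v => ∑' m, F m v := funext fun v => tsum_mul_left.symm
  unfold PlaT
  rw [he]
  constructor
  · refine (plaB_int.mul_const (∑' m : E, g m)).mono'
      (continuous_tsum hc hs fun m v => (hb m v).trans (mul_le_of_le_one_left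
        (hg0 m) (plaB_le v))).aestronglyMeasurable (Eventually.of_forall fun v => ?_)
    exact tsum_of_norm_bounded (hs.hasSum.mul_left (plaB v)) (hb · v)
  · have h := hasSum_integral_of_dominated_convergence (μ := volume) (F := F)
      (f := fun v => ∑' m, F m v) (fun m v => plaB v * g m)
      (fun m => (hc m).aestronglyMeasurable) (fun m => Eventually.of_forall (hb m))
      (Eventually.of_forall fun v => hs.mul_left _)
      (by simpa only [tsum_mul_left] using plaB_int.mul_const _)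
      (Eventually.of_forall fun v => ((hs.mul_left (plaB v)).of_norm_bounded (hb · v)).hasSum)
    refine pla_hs h (fun m => ?_) rfl
    rw [← plaE_int, ← integral_const_mul]
    congr 1
    funext v
    simp only [hF]
    ring

variable {χ : P → E → ℂ}

theorem pla_il {a a' : FF} (h : Cl a a') (m : FF) : il a' m = il a m := by
  unfold il
  exact if_congr ⟨fun h1 => div_mem_OS_trans h.ne_zero h1 h.div_mem,
    fun h1 => div_mem_OS_trans h.ne_left h1 h.symm.div_mem⟩ rfl rfl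

theorem pla_ne {x : E} {s : Finset P} (h : Associated x (pr s)) : (x : FF) ≠ 0 :=
  cnt_coe_ne (ga_ne h)

theorem pla_pr_ne (s : Finset P) : ((pr s : E) : FF) ≠ 0 := cnt_coe_ne (pr_ne_zero s)

/-- The dual coefficient. -/
def plaG (χ : P → E → ℂ) (C f : Finset P) (x m : E) : ℂ :=
  xs χ C (pr f) * gamE χ C x * conj (xs χ C m)

theorem pla_norm_G (hc : Ch χ) {C : Finset P} (f : Finset P) {x : E} (hx : Associated x (pr C))
    (m : E) : ‖plaG χ C f x m‖ ≤ 1 := by
  rw [plaG, norm_mul, norm_mul, RCLike.norm_conj, norm_gamE hc hx, mul_one]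
  exact mul_le_one₀ (norm_xs_le hc _ _) (norm_nonneg _) (norm_xs_le hc _ _)

/-- The dual scale. -/
def plak (N : ℝ) (f : Finset P) (x x' : E) (w : Pl) : ℝ :=
  N / (‖em w (pr f)‖ ^ 2 * (‖em w x‖ ^ 2 * ‖em w x'‖ ^ 2))

/-- The term of a pair after Poisson summation. -/
def plaD (χ : P → E → ℂ) (X : Sc) (N : ℝ) (d C C' f : Finset P) (x x' m : E) : ℂ :=
  il (X.du N d f).a m * (mu f * ((kap * N ^ rk / (Ns f * √(Ns C * Ns C')) : ℝ) : ℂ) *
    (plaG χ C f x m * conj (plaG χ C' f x' m))) * ∏ w, plaK (‖em w m‖ ^ 2 * plak N f x x' w)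

theorem pla_pair (h : PSG) (hc : Ch χ) (hr : Rec χ) {X : Sc} (hX : X.OK) {N : ℝ} (hN : 0 < N)
    {d C C' : Finset P} (h1 : Disjoint d C) (h2 : Disjoint d C') (h3 : Disjoint C C') {x x' : E}
    (hx : Associated x (pr C)) (hx' : Associated x' (pr C')) (k : Cl (X.dv (pr d)).a x)
    (k' : Cl (X.dv (pr d)).a x') :
    PlaT (fun v => ∑' n : E, Gw 1 (fun w => N * Real.exp (v w)) n *
        (cop d n * xs χ C n * conj (xs χ C' n)))
      fun m => ∑ f ∈ d.powerset, plaD χ X N d C C' f x x' m := by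
  have H := PlaT.sum (I := d.powerset) fun f _ => pla_term (hX.du hN d f).1
    (κ := plak N f x x') (fun w => div_pos hN (mul_pos (em_sq_pos w (pla_pr_ne f))
      (mul_pos (em_sq_pos w (pla_ne hx)) (em_sq_pos w (pla_ne hx')))))
    (co := fun m => mu f * ((kap * N ^ rk / (Ns f * √(Ns C * Ns C')) : ℝ) : ℂ) *
      (plaG χ C f x m * conj (plaG χ C' f x' m)))
    (M := ‖mu f * ((kap * N ^ rk / (Ns f * √(Ns C * Ns C')) : ℝ) : ℂ)‖) fun m => by
      rw [norm_mul _ (_ * _), norm_mul (plaG χ C f x m), RCLike.norm_conj]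
      exact mul_le_of_le_one_right (norm_nonneg _)
        (mul_le_one₀ (pla_norm_G hc f hx m) (norm_nonneg _) (pla_norm_G hc f hx' m))
  have he : (fun v : Pl → ℝ => ∑' n : E, Gw 1 (fun w => N * Real.exp (v w)) n *
      (cop d n * xs χ C n * conj (xs χ C' n))) = fun v => ∑ f ∈ d.powerset, ∑' m : E,
        il (X.du N d f).a m * (mu f * ((kap * N ^ rk / (Ns f * √(Ns C * Ns C')) : ℝ) : ℂ) *
          (plaG χ C f x m * conj (plaG χ C' f x' m))) *
            plaE (fun w => ‖em w m‖ ^ 2 * plak N f x x' w) v := by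
    funext v
    rw [pair_poisson h hc hr one_ne_zero (fun w => mul_pos hN (Real.exp_pos _)) h1 h2 h3 hx hx'
      (k.symm.trans k')]
    refine Finset.sum_congr rfl fun f _ => ?_
    rw [← tsum_mul_left]
    congr 1
    funext m
    have e1 : Cl (X.du N d f).a ((x : FF) * x' * pr f / (1 * del)) := by
      rw [one_mul]
      have := ((k.mul k').mul (Cl.refl (pla_pr_ne f))).div (Cl.refl del_ne_zero)
      rwa [← sq] at this
    have e2 : ∀ w, ‖em w m‖ ^ 2 / (‖em w (pr f)‖ ^ 2 * (‖em w x‖ ^ 2 * ‖em w x'‖ ^ 2) /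
        (N * Real.exp (v w))) = ‖em w m‖ ^ 2 * plak N f x x' w * Real.exp (v w) := fun w => by
      rw [plak, div_div_eq_mul_div]
      ring
    simp only [Gw, pla_il e1, e2, plaE, plaG, sS_one, Finset.prod_mul_distrib, prod_const_Pl,
      map_mul, Complex.conj_conj]
    push_cast
    rw [Finset.prod_mul_distrib]
    ring
  rw [he]
  exact H

/-- The sum over the generators. -/
def plaP (χ : P → E → ℂ) (β : Finset P → ℂ) (X : Sc) (N : ℝ) (z : Pl → ℂ) (d C C' f : Finset P)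
    (m : E) : ℂ :=
  ∑ x ∈ bx (X.dv (pr d)) with Associated x (pr C),
    ∑ x' ∈ bx (X.dv (pr d)) with Associated x' (pr C'),
      β (d ∪ C) * Kx (X.dv (pr d)) z x * conj (β (d ∪ C') * Kx (X.dv (pr d)) z x') *
        plaD χ X N d C C' f x x' m

theorem pla_Gw {t : Pl → ℝ} (ht : ∀ w, 0 < t w) (hc : Ch χ) (d C C' : Finset P) :
    Summable fun n : E => Gw 1 t n * (cop d n * xs χ C n * conj (xs χ C' n)) := by
  refine summable_Gw one_ne_zero ht (M := 1) fun n => ?_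
  rw [norm_mul, norm_mul, RCLike.norm_conj]
  refine mul_le_one₀ (mul_le_one₀ ?_ (norm_nonneg _) (norm_xs_le hc _ _)) (norm_nonneg _)
    (norm_xs_le hc _ _)
  unfold cop
  split_ifs <;> simp

theorem pla_two (h : PSG) (hc : Ch χ) (hr : Rec χ) (β : Finset P → ℂ) {X : Sc} (hX : X.OK)
    {N : ℝ} (hN : 0 < N) (z : Pl → ℂ) {d C C' : Finset P} (h1 : Disjoint d C) (h2 : Disjoint d C')
    (h3 : Disjoint C C') : ∃ A : (Pl → ℝ) → ℂ,
    PlaT A (fun m => ∑ f ∈ d.powerset, plaP χ β X N z d C C' f m) ∧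
    ∀ v, HasSum (fun n : E => Gw 1 (fun w => N * Real.exp (v w)) n *
      (β (d ∪ C) * xs χ (d ∪ C) n * Kw X z (d ∪ C) *
        conj (β (d ∪ C') * xs χ (d ∪ C') n * Kw X z (d ∪ C')))) (A v) := by
  have hd := hX.dv (pla_pr_ne d)
  have H := PlaT.sum (I := (bx (X.dv (pr d))).filter fun x => Associated x (pr C)) fun x hx =>
    PlaT.sum (I := (bx (X.dv (pr d))).filter fun x => Associated x (pr C')) fun x' hx' =>
      PlaT.smul
        (a := β (d ∪ C) * Kx (X.dv (pr d)) z x * conj (β (d ∪ C') * Kx (X.dv (pr d)) z x'))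
        fun h0 => pla_pair h hc hr hX hN h1 h2 h3 (Finset.mem_filter.1 hx).2
          (Finset.mem_filter.1 hx').2
          (Kx_supp hd (right_ne_zero_of_mul (left_ne_zero_of_mul h0))).1
          (Kx_supp hd (right_ne_zero_of_mul ((map_ne_zero _).1 (right_ne_zero_of_mul h0)))).1
  refine ⟨_, ⟨H.1, pla_hs H.2 (fun m => ?_) rfl⟩, fun v => ?_⟩
  · simp only [plaP, Finset.mul_sum, Finset.sum_comm (s := d.powerset)]
  · refine pla_hs (hasSum_sum fun x _ => hasSum_sum fun x' _ =>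
      (pla_Gw (fun w => mul_pos hN (Real.exp_pos (v w))) hc d C C').hasSum.mul_left _)
      (fun n => ?_) rfl
    rw [Kw_union hX h1, Kw_union hX h2, Kw, Kw, xs_union h1, xs_union h2, cop, ← xs_mul_conj hc,
      Finset.mul_sum, Finset.mul_sum, map_sum, Finset.sum_mul_sum, Finset.mul_sum]
    refine Finset.sum_congr rfl fun x _ => ?_
    rw [Finset.mul_sum]
    refine Finset.sum_congr rfl fun x' _ => ?_
    simp only [map_mul]
    ring

theorem pla_main (h : PSG) (hc : Ch χ) (hr : Rec χ) (β : Finset P → ℂ) {X : Sc} (hX : X.OK)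
    {N : ℝ} (hN : 0 < N) (z : Pl → ℂ) {g : E → ℝ} {G : ℝ} (hg : HasSum g G)
    (hb : ∀ m, ‖∑ s ∈ sqf (cW * X.sz), ∑ s' ∈ sqf (cW * X.sz), ∑ f ∈ (s ∩ s').powerset,
      plaP χ β X N z (s ∩ s') (s \ s') (s' \ s) f m‖ ≤ g m) :
    (∫ v, plaB v) * (Vg 1 ^ rk *
      ∑ n ∈ box 1 (fun _ => N), ‖S (fun s => β s * xs χ s n) X z‖ ^ 2) ≤ G := by
  have H := fun s s' : Finset P => pla_two h hc hr β hX hN z (d := s ∩ s') (C := s \ s')
    (C' := s' \ s) (Finset.disjoint_sdiff_inter s s').symm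
    (by rw [Finset.inter_comm]; exact (Finset.disjoint_sdiff_inter s' s).symm) disjoint_sdiff_sdiff
  choose A hA1 hA2 using H
  refine (PlaT.sum fun s (_ : s ∈ sqf (cW * X.sz)) =>
    PlaT.sum fun s' (_ : s' ∈ sqf (cW * X.sz)) => hA1 s s').le (fun v hv => ?_) hg hb
  have h1 := hasSum_sum fun s (_ : s ∈ sqf (cW * X.sz)) =>
    hasSum_sum fun s' (_ : s' ∈ sqf (cW * X.sz)) => hA2 s s' v
  have e1 : ∀ s s' : Finset P, s ∩ s' ∪ s \ s' = s := fun s s' => by
    rw [Finset.union_comm, Finset.sdiff_union_inter]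
  have e2 : ∀ s s' : Finset P, s ∩ s' ∪ s' \ s = s' := fun s s' => by
    rw [Finset.inter_comm, e1]
  have e3 : ∀ n : E, ∑ s ∈ sqf (cW * X.sz), ∑ s' ∈ sqf (cW * X.sz),
      Gw 1 (fun w => N * Real.exp (v w)) n *
        (β s * xs χ s n * Kw X z s * conj (β s' * xs χ s' n * Kw X z s')) =
      (((if (n : FF) / 1 ∈ OS then ∏ w, Vg (‖em w n‖ ^ 2 / (N * Real.exp (v w))) else 0) *
        ‖S (fun s => β s * xs χ s n) X z‖ ^ 2 : ℝ) : ℂ) := fun n => by
    have e4 : Gw 1 (fun w => N * Real.exp (v w)) n = (((if (n : FF) / 1 ∈ OS then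
        ∏ w, Vg (‖em w n‖ ^ 2 / (N * Real.exp (v w))) else 0) : ℝ) : ℂ) := by
      unfold Gw il
      split_ifs <;> simp
    rw [Complex.ofReal_mul, ← e4, Complex.ofReal_pow, ← Complex.mul_conj',
      S_eq_sum hX subset_rfl, map_sum, Finset.sum_mul_sum]
    simp only [Finset.mul_sum]
  simp only [e1, e2, e3] at h1
  have h2 := sum_le_hasSum (box 1 fun _ => N) (fun n _ => by
    simp only [Complex.ofReal_re]
    refine mul_nonneg ?_ (by positivity)
    split_ifs
    · exact Finset.prod_nonneg fun w _ => (pla_Vg_pos _).le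
    · exact le_rfl) (Complex.hasSum_re h1)
  simp only [Complex.ofReal_re] at h2
  refine le_trans ?_ h2
  rw [Finset.mul_sum]
  refine Finset.sum_le_sum fun n hn => mul_le_mul_of_nonneg_right ?_ (by positivity)
  obtain ⟨-, n1, n2⟩ := (mem_box one_ne_zero).1 hn
  rw [if_pos n1, ← prod_const_Pl]
  refine Finset.prod_le_prod (fun _ _ => (pla_Vg_pos _).le) fun w _ => pla_Vg_anti ?_
  rw [div_le_one (by positivity)]
  exact (n2 w).trans (le_mul_of_one_le_right hN.le (plaB_exp hv w).1.le)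

theorem pla_mu (s : Finset P) : ‖∑ f ∈ s.powerset, mu f * ((Ns f)⁻¹ : ℝ)‖ ≤ 1 := by
  have h1 : ∑ f ∈ s.powerset, mu f * ((Ns f)⁻¹ : ℝ) = ∏ p ∈ s, (1 + -((nm p.1 : ℂ))⁻¹) := by
    rw [Finset.prod_one_add]
    refine Finset.sum_congr rfl fun f _ => ?_
    rw [Finset.prod_neg, Finset.prod_inv_distrib, Ns_eq_prod, mu]
    push_cast
    rfl
  rw [h1, norm_prod]
  refine Finset.prod_le_one (fun _ _ => norm_nonneg _) fun p _ => ?_
  have h3 : (1 + -((nm p.1 : ℂ))⁻¹) = ((1 - (nm p.1 : ℝ)⁻¹ : ℝ) : ℂ) := by push_cast; ring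
  have h4 : (nm p.1 : ℝ)⁻¹ ≤ 1 := inv_le_one_of_one_le₀ (one_le_nmR p.ne_zero)
  have h5 : 0 ≤ (nm p.1 : ℝ)⁻¹ := by positivity
  rw [h3, Complex.norm_real, Real.norm_of_nonneg (by linarith)]
  linarith

theorem pla_diag (hc : Ch χ) {β : Finset P → ℂ} (hβ : ∀ s, ‖β s‖ ≤ 1) (X : Sc) {N W : ℝ}
    (hN : 0 < N) (z : Pl → ℂ) (s : Finset P)
    (hW : ∑ x ∈ bx (X.dv (pr s)) with Associated x (pr ∅), ‖Kx (X.dv (pr s)) z x‖ ≤ W) :
    ‖∑ f ∈ s.powerset, plaP χ β X N z s ∅ ∅ f 0‖ ≤ W ^ 2 * (kap * N ^ rk * 8 ^ rk) := by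
  have hk := kap_pos
  have h1 : ∀ x x' : E, Associated x (pr ∅) → Associated x' (pr ∅) →
      ‖∑ f ∈ s.powerset, plaD χ X N s ∅ ∅ f x x' 0‖ ≤ kap * N ^ rk * 8 ^ rk := fun x x' hx hx' => by
    have h2 : ∑ f ∈ s.powerset, plaD χ X N s ∅ ∅ f x x' 0 =
        ((kap * N ^ rk : ℝ) : ℂ) * (∏ _w : Pl, plaK 0) * (gamE χ ∅ x * conj (gamE χ ∅ x') *
          ∑ f ∈ s.powerset, mu f * ((Ns f)⁻¹ : ℝ)) := by
      rw [Finset.mul_sum, Finset.mul_sum]
      refine Finset.sum_congr rfl fun f _ => ?_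
      have h3 : il (X.du N s f).a 0 = 1 := by
        unfold il
        rw [if_pos (by simp)]
      simp only [plaD, h3, plaG, xs_empty, Ns_empty, Subring.coe_zero, map_zero, norm_zero,
        map_one, mul_one, one_mul, Real.sqrt_one, ne_eq, OfNat.ofNat_ne_zero, not_false_eq_true,
        zero_pow, zero_mul]
      push_cast
      ring
    have h4 := pla_prodK (y := fun _ => 0) fun _ => le_rfl
    rw [show Vg 0 = 1 by simp [QRH.Vg], Finset.prod_const_one, mul_one] at h4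
    rw [h2, norm_mul, norm_mul, norm_mul, norm_mul, RCLike.norm_conj, norm_gamE hc hx,
      norm_gamE hc hx', Complex.norm_real, Real.norm_of_nonneg (by positivity), one_mul, one_mul]
    exact (mul_le_of_le_one_right (by positivity) (pla_mu s)).trans
      (mul_le_mul_of_nonneg_left h4 (by positivity))
  have h5 : ∀ x, ‖β (s ∪ ∅) * Kx (X.dv (pr s)) z x‖ ≤ ‖Kx (X.dv (pr s)) z x‖ := fun x => by
    rw [norm_mul]
    exact mul_le_of_le_one_left (norm_nonneg _) (hβ _)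
  have h6 := (Finset.sum_nonneg fun x _ => norm_nonneg (Kx (X.dv (pr s)) z x)).trans hW
  simp only [plaP, Finset.sum_comm (s := s.powerset), ← Finset.mul_sum]
  refine le_trans ?_ (mul_le_mul_of_nonneg_right
    (pow_le_pow_left₀ (Finset.sum_nonneg fun x _ => norm_nonneg _) hW 2) (by positivity))
  rw [sq, Finset.sum_mul_sum, Finset.sum_mul]
  refine (norm_sum_le _ _).trans (Finset.sum_le_sum fun x hx => ?_)
  rw [Finset.sum_mul]
  refine (norm_sum_le _ _).trans (Finset.sum_le_sum fun x' hx' => ?_)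
  rw [norm_mul, norm_mul, RCLike.norm_conj]
  exact mul_le_mul (mul_le_mul (h5 x) (h5 x') (norm_nonneg _) (norm_nonneg _))
    (h1 x x' (Finset.mem_filter.1 hx).2 (Finset.mem_filter.1 hx').2) (norm_nonneg _)
    (by positivity)

theorem pla_zero (hc : Ch χ) {β : Finset P → ℂ} (hβ : ∀ s, ‖β s‖ ≤ 1) (X : Sc) {N W : ℝ}
    (hN : 0 < N) (z : Pl → ℂ) (T : Finset (Finset P))
    (hW : ∀ s, ∑ x ∈ bx (X.dv (pr s)) with Associated x (pr ∅), ‖Kx (X.dv (pr s)) z x‖ ≤ W) :
    ‖∑ s ∈ T, ∑ s' ∈ T, ∑ f ∈ (s ∩ s').powerset, plaP χ β X N z (s ∩ s') (s \ s') (s' \ s) f 0‖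
      ≤ T.card * (W ^ 2 * (kap * N ^ rk * 8 ^ rk)) := by
  have hG : ∀ (C f : Finset P) (x : E), C ≠ ∅ → plaG χ C f x 0 = 0 := fun C f x hC => by
    obtain ⟨p, hp⟩ := Finset.nonempty_iff_ne_empty.2 hC
    rw [plaG, (xs_eq_zero_iff hc (n := 0)).2 ⟨p, hp, dvd_zero _⟩]
    simp
  rw [← nsmul_eq_mul]
  refine (norm_sum_le _ _).trans (Finset.sum_le_card_nsmul _ _ _ fun s hs => ?_)
  rw [Finset.sum_eq_single_of_mem s hs fun s' _ hne => Finset.sum_eq_zero fun f _ => ?_]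
  · rw [Finset.inter_self, Finset.sdiff_self]
    exact pla_diag hc hβ X hN z s (hW s)
  · have : s \ s' ≠ ∅ ∨ s' \ s ≠ ∅ := by
      by_contra h
      simp only [not_or, not_not, Finset.sdiff_eq_empty_iff_subset] at h
      exact hne (Finset.Subset.antisymm h.2 h.1)
    rcases this with h | h <;> simp [plaP, plaD, hG _ _ _ h]

theorem pla_half {X : Sc} (hX : X.OK) (z : Pl → ℂ) {y : E} {c : Finset P}
    (hy : Associated y (pr c)) :
    Kx X z y = Kx X (fun w => z w - 1 / 2) y * (√(Ns c / X.sz) : ℝ) := by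
  have h := Kx_mul_cpow hX (fun w => z w - 1 / 2) (fun _ => 1 / 2) y
  have e : ((fun w => z w - 1 / 2) + fun _ => 1 / 2 : Pl → ℂ) = z := by
    funext w
    simp
  rw [e] at h
  rw [← h]
  by_cases h0 : Kx X (fun w => z w - 1 / 2) y = 0
  · rw [h0, zero_mul, zero_mul]
  congr 1
  have hp : ∀ w, 0 ≤ ‖em w y‖ ^ 2 / X.T w := fun w => div_nonneg (by positivity) (hX.2 w).le
  have e1 : Ns c / X.sz = ∏ w, ‖em w y‖ ^ 2 / X.T w := by
    have := sS_pos X.a
    rw [← nm_of_assoc_pr hy, nm_eq (ga_ne hy), (Kx_supp hX h0).1.sS_eq, Sc.sz,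
      Finset.prod_div_distrib, Ninf, mul_comm (sS X.a), mul_div_mul_right _ _ this.ne']
  rw [e1, Real.sqrt_eq_rpow, ← Real.finsetProd_rpow _ _ (fun w _ => hp w), Complex.ofReal_prod]
  refine Finset.prod_congr rfl fun w _ => ?_
  rw [Complex.ofReal_cpow (hp w)]
  push_cast
  rfl

theorem pla_de (X : Sc) (d e : Finset P) : (X.dv (pr d)).dv (pr e) = X.de d e := by
  rw [Sc.dv_dv]
  rfl

theorem pla_split (hc : Ch χ) (hu : Uni χ) (β : Finset P → ℂ) {X : Sc} (hX : X.OK) (z : Pl → ℂ)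
    {d e c : Finset P} (f : Finset P) (m : E) (hcd : Disjoint c (d ∪ e)) {y : E}
    (hy : Associated y (pr c)) :
    β (d ∪ (e ∪ c)) * Kx (X.dv (pr d)) z (pr e * y) * plaG χ (e ∪ c) f (pr e * y) m =
      plaG χ e f (pr e) m * (dual χ β (X.de d e).a d f e m c *
        Kx (X.de d e) (fun w => z w - 1 / 2) y) * ((√(Ns c / (X.de d e).sz) : ℝ) : ℂ) := by
  have hec : Disjoint e c := (Finset.disjoint_union_right.1 hcd).2.symm
  rw [← Kx_dv _ (pr_ne_zero e), pla_de, pla_half (hX.de d e) z hy]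
  by_cases h0 : Kx (X.de d e) (fun w => z w - 1 / 2) y = 0
  · rw [h0]
    simp
  have hcl := (Kx_supp (hX.de d e) h0).1
  rw [dual, if_pos hcd, gamA_eq hc hu hy hcl, xs_el hc hu hy hcl, ← Finset.union_assoc]
  simp only [plaG, xs_union hec, gamE_union hc hec (Associated.refl _) hy, map_mul]
  ring

theorem pla_dbl {X : Sc} (hX : X.OK) {T : Finset (Finset P)} (hT : sqf (cW * X.sz) ⊆ T)
    (Φ : Finset P → E → Finset P → E → ℂ) :
    ∑ y ∈ bx X with Squarefree y, ∑ y' ∈ bx X with Squarefree y', Φ (fac y) y (fac y') y' =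
      ∑ c ∈ T, ∑ c' ∈ T, ∑ y ∈ bx X with Associated y (pr c),
        ∑ y' ∈ bx X with Associated y' (pr c'), Φ c y c' y' := by
  rw [sum_sqfree_eq hX hT]
  refine Finset.sum_congr rfl fun c _ => ?_
  rw [Finset.sum_comm (s := T)]
  refine Finset.sum_congr rfl fun y hy => ?_
  rw [sum_sqfree_eq hX hT]
  refine Finset.sum_congr rfl fun c' _ => Finset.sum_congr rfl fun y' hy' => ?_
  rw [(assoc_pr_iff.1 (Finset.mem_filter.1 hy).2).2, (assoc_pr_iff.1 (Finset.mem_filter.1 hy').2).2]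

theorem pla_arg {X : Sc} (hX : X.OK) {N : ℝ} (hN : 0 < N) (d f e : Finset P) {y y' : E}
    (hy : y ≠ 0) (hy' : y' ≠ 0) (m : E) (w : Pl) :
    ‖em w m‖ ^ 2 / (X.du N d f).T w / (‖em w y‖ ^ 2 / (X.de d e).T w *
      (‖em w y'‖ ^ 2 / (X.de d e).T w)) = ‖em w m‖ ^ 2 * plak N f (pr e * y) (pr e * y') w := by
  have h1 := norm_pos_iff.2 (em_ne_zero w (pla_pr_ne d))
  have h2 := norm_pos_iff.2 (em_ne_zero w (pla_pr_ne e))
  have h3 := norm_pos_iff.2 (em_ne_zero w (pla_pr_ne f))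
  have h4 := norm_pos_iff.2 (em_ne_zero w (cnt_coe_ne hy))
  have h5 := norm_pos_iff.2 (em_ne_zero w (cnt_coe_ne hy'))
  have h6 := hX.2 w
  simp only [plak, Sc.du, Sc.de, Sc.dv, Subring.coe_mul, map_mul, norm_mul, mul_pow]
  field_simp

theorem plak_pos {N : ℝ} (hN : 0 < N) (f : Finset P) {x x' : E} (hx : x ≠ 0) (hx' : x' ≠ 0)
    (w : Pl) : 0 < plak N f x x' w :=
  div_pos hN (mul_pos (em_sq_pos w (pla_pr_ne f))
    (mul_pos (em_sq_pos w (cnt_coe_ne hx)) (em_sq_pos w (cnt_coe_ne hx'))))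

theorem pla_inner (hc : Ch χ) (hu : Uni χ) (β : Finset P → ℂ) {X : Sc} (hX : X.OK) {N : ℝ}
    (hN : 0 < N) (z : Pl → ℂ) (d e f : Finset P) {m : E} (hm : m ≠ 0) :
    ∑ c ∈ sqf (cW * X.sz / (Ns d * Ns e)) with Disjoint c (d ∪ e),
      ∑ c' ∈ sqf (cW * X.sz / (Ns d * Ns e)) with Disjoint c' (d ∪ e),
        plaP χ β X N z d (e ∪ c) (e ∪ c') f m =
      il (X.du N d f).a m * (mu f * (plaG χ e f (pr e) m * conj (plaG χ e f (pr e) m))) *
        ((kap * N ^ rk * Ns d / (X.sz * Ns f) : ℝ) : ℂ) * bil χ β d f e m X N z := by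
  have hd := Ns_pos d
  have he := Ns_pos e
  have hf := Ns_pos f
  have hz := hX.sz_pos
  have hb := pla_dbl (hX.de d e) (T := sqf (cW * X.sz / (Ns d * Ns e)))
    (by rw [hX.sz_de, mul_div_assoc]) fun c y c' y' =>
    dual χ β (X.de d e).a d f e m c * Kx (X.de d e) (fun w => z w - 1 / 2) y
      * conj (dual χ β (X.de d e).a d f e m c' * Kx (X.de d e) (fun w => z w - 1 / 2) y')
      * ∏ w, sm 1 (fun v => (Vg (Real.exp v) : ℝ)) (Real.log (‖em w m‖ ^ 2 / (X.du N d f).T w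
          / (‖em w y‖ ^ 2 / (X.de d e).T w * (‖em w y'‖ ^ 2 / (X.de d e).T w))))
  rw [bil, hb, Finset.sum_filter, Finset.mul_sum]
  refine Finset.sum_congr rfl fun c _ => ?_
  split_ifs with h1
  swap
  · simp [dual, h1]
  rw [Finset.sum_filter, Finset.mul_sum]
  refine Finset.sum_congr rfl fun c' _ => ?_
  split_ifs with h2
  swap
  · simp [dual, h2]
  have hcp := Ns_pos c
  have hcp' := Ns_pos c'
  have d1 := (Finset.disjoint_union_right.1 h1).2.symm
  have d2 := (Finset.disjoint_union_right.1 h2).2.symm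
  have h4 : kap * N ^ rk / (Ns f * √(Ns (e ∪ c) * Ns (e ∪ c'))) * (√(Ns c / (X.de d e).sz) *
      √(Ns c' / (X.de d e).sz)) = kap * N ^ rk * Ns d / (X.sz * Ns f) := by
    have h5 : √(Ns (e ∪ c) * Ns (e ∪ c')) = Ns e * √(Ns c * Ns c') := by
      rw [Ns_union d1, Ns_union d2, mul_mul_mul_comm, Real.sqrt_mul (by positivity),
        Real.sqrt_mul_self he.le]
    have h6 : √(Ns c / (X.de d e).sz) * √(Ns c' / (X.de d e).sz) =
        √(Ns c * Ns c') / (X.de d e).sz := by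
      have := (hX.de d e).sz_pos
      rw [← Real.sqrt_mul (by positivity), div_mul_div_comm, Real.sqrt_div (by positivity),
        Real.sqrt_mul_self this.le]
    have h7 : 0 < √(Ns c * Ns c') := by positivity
    rw [h5, h6, hX.sz_de]
    field_simp
  rw [plaP, sum_gen_union (hX.dv (pla_pr_ne d)) d1, pla_de, Finset.mul_sum]
  refine Finset.sum_congr rfl fun y hy => ?_
  rw [sum_gen_union (hX.dv (pla_pr_ne d)) d2, pla_de, Finset.mul_sum]
  refine Finset.sum_congr rfl fun y' hy' => ?_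
  have a1 := (Finset.mem_filter.1 hy).2
  have a2 := (Finset.mem_filter.1 hy').2
  have s1 := pla_split hc hu β hX z f m h1 a1
  have s2 := congrArg conj (pla_split hc hu β hX z f m h2 a2)
  have h8 : ∀ w, sm 1 (fun v => (Vg (Real.exp v) : ℝ)) (Real.log (‖em w m‖ ^ 2 / (X.du N d f).T w
      / (‖em w y‖ ^ 2 / (X.de d e).T w * (‖em w y'‖ ^ 2 / (X.de d e).T w)))) =
      plaK (‖em w m‖ ^ 2 * plak N f (pr e * y) (pr e * y') w) := fun w => by
    rw [pla_arg hX hN d f e (ga_ne a1) (ga_ne a2), pla_sm (mul_pos (em_sq_pos w (cnt_coe_ne hm))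
      (plak_pos hN f (mul_ne_zero (pr_ne_zero e) (ga_ne a1))
        (mul_ne_zero (pr_ne_zero e) (ga_ne a2)) w))]
  simp only [h8]
  rw [← h4, plaD]
  rw [map_mul, map_mul _ (_ * _), map_mul _ (plaG χ e f (pr e) m), Complex.conj_ofReal] at s2
  rw [Complex.ofReal_mul _ (_ * _), Complex.ofReal_mul (√_)]
  linear_combination (il (X.du N d f).a m * mu f *
    ((kap * N ^ rk / (Ns f * √(Ns (e ∪ c) * Ns (e ∪ c'))) : ℝ) : ℂ) *
    ∏ w, plaK (‖em w m‖ ^ 2 * plak N f (pr e * y) (pr e * y') w)) *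
      (conj (β (d ∪ (e ∪ c')) * Kx (X.dv (pr d)) z (pr e * y')) *
        conj (plaG χ (e ∪ c') f (pr e * y') m) * s1 +
        plaG χ e f (pr e) m * (dual χ β (X.de d e).a d f e m c *
          Kx (X.de d e) (fun w => z w - 1 / 2) y) * ((√(Ns c / (X.de d e).sz) : ℝ) : ℂ) * s2)

theorem pla_nz (hc : Ch χ) (hu : Uni χ) (β : Finset P → ℂ) {X : Sc} (hX : X.OK) {N N1 K : ℝ}
    (hN1 : 0 < N1) (hK : N1 ^ rk = K * N) (z : Pl → ℂ) {m : E} (hm : m ≠ 0) :
    ‖∑ s ∈ sqf (cW * X.sz), ∑ s' ∈ sqf (cW * X.sz), ∑ f ∈ (s ∩ s').powerset,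
      plaP χ β X N1 z (s ∩ s') (s \ s') (s' \ s) f m‖ ≤
      kap * K * PSum X.sz N fun d f e => if m ≠ 0 ∧ m / (X.du N1 d f).a ∈ OS then
        ‖bil χ β d f e m X N1 z‖ else 0 := by
  rw [rearr (cW * X.sz) fun d C C' => ∑ f ∈ d.powerset, plaP χ β X N1 z d C C' f m, PSum,
    Finset.mul_sum]
  refine (norm_sum_le _ _).trans (Finset.sum_le_sum fun d _ => ?_)
  rw [Finset.sum_comm, Finset.mul_sum]
  refine (norm_sum_le _ _).trans (Finset.sum_le_sum fun e _ => ?_)
  simp only [Finset.sum_comm (t := d.powerset), pla_inner hc hu β hX hN1 z d e _ hm]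
  rw [norm_mul, norm_mu, one_mul, Finset.mul_sum]
  refine (norm_sum_le _ _).trans (Finset.sum_le_sum fun f _ => ?_)
  have hd := Ns_pos d
  have hf := Ns_pos f
  have hz := hX.sz_pos
  have hk := kap_pos
  unfold il
  by_cases ho : m / (X.du N1 d f).a ∈ OS
  · rw [if_pos ho, if_pos ⟨hm, ho⟩, one_mul, norm_mul, norm_mul, norm_mul, norm_mul, norm_mu,
      one_mul, RCLike.norm_conj, Complex.norm_real, Real.norm_of_nonneg (by positivity),
      ← mul_assoc]
    refine mul_le_mul_of_nonneg_right ?_ (norm_nonneg _)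
    have h1 := pla_norm_G hc f (Associated.refl (pr e)) m
    refine (mul_le_of_le_one_left (by positivity)
      (mul_le_one₀ h1 (norm_nonneg _) h1)).trans (le_of_eq ?_)
    rw [hK]
    ring
  · simp [ho]

theorem pla_bil (hc : Ch χ) {β : Finset P → ℂ} (hβ : ∀ s, ‖β s‖ ≤ 1) {X : Sc} (hX : X.OK) {N : ℝ}
    (hN : 0 < N) (z : Pl → ℂ) (d f e : Finset P) :
    Summable fun m : E => if m ≠ 0 ∧ m / (X.du N d f).a ∈ OS then
      ‖bil χ β d f e m X N z‖ else 0 := by
  have hD : ∀ m c, ‖dual χ β (X.de d e).a d f e m c‖ ≤ 1 := fun m c => by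
    unfold dual
    split_ifs
    · simp only [norm_mul, RCLike.norm_conj, norm_gamA hc, mul_one]
      exact mul_le_one₀ (mul_le_one₀ (mul_le_one₀ (mul_le_one₀ (hβ _) (norm_nonneg _)
        (norm_xs_le hc _ _)) (norm_nonneg _) (norm_xs_le hc _ _)) (norm_nonneg _)
        (norm_xs_le hc _ _)) (norm_nonneg _) (norm_xs_le hc _ _)
    · simp
  have hk : ∀ y y' : E, Squarefree y → Squarefree y' → ∀ w,
      0 < plak N f (pr e * y) (pr e * y') w := fun y y' hy hy' =>
    plak_pos hN f (mul_ne_zero (pr_ne_zero e) hy.ne_zero) (mul_ne_zero (pr_ne_zero e) hy'.ne_zero)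
  refine Summable.of_nonneg_of_le (fun m => by positivity) (fun m => ?_)
    (summable_sum (s := (bx (X.de d e)).filter Squarefree) fun y hy =>
      summable_sum (s := (bx (X.de d e)).filter Squarefree) fun y' hy' =>
        ((pla_summable (hX.du hN d f).1
          (hk y y' (Finset.mem_filter.1 hy).2 (Finset.mem_filter.1 hy').2)).mul_left
            (8 ^ rk)).mul_left (‖Kx (X.de d e) (fun w => z w - 1 / 2) y‖ *
              ‖Kx (X.de d e) (fun w => z w - 1 / 2) y'‖))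
  have hp : ∀ y y' : E, 0 ≤ ∏ w, Vg (‖em w m‖ ^ 2 * plak N f (pr e * y) (pr e * y') w) :=
    fun y y' => Finset.prod_nonneg fun w _ => (pla_Vg_pos _).le
  by_cases hm : m ≠ 0 ∧ m / (X.du N d f).a ∈ OS
  swap
  · rw [if_neg hm]
    refine Finset.sum_nonneg fun y _ => Finset.sum_nonneg fun y' _ => ?_
    have := hp y y'
    split_ifs <;> positivity
  rw [if_pos hm, bil]
  refine (norm_sum_le _ _).trans (Finset.sum_le_sum fun y hy =>
    (norm_sum_le _ _).trans (Finset.sum_le_sum fun y' hy' => ?_))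
  have a1 := (Finset.mem_filter.1 hy).2
  have a2 := (Finset.mem_filter.1 hy').2
  have h8 : ∀ w, sm 1 (fun v => (Vg (Real.exp v) : ℝ)) (Real.log (‖em w m‖ ^ 2 / (X.du N d f).T w
      / (‖em w y‖ ^ 2 / (X.de d e).T w * (‖em w y'‖ ^ 2 / (X.de d e).T w)))) =
      plaK (‖em w m‖ ^ 2 * plak N f (pr e * y) (pr e * y') w) := fun w => by
    rw [pla_arg hX hN d f e a1.ne_zero a2.ne_zero,
      pla_sm (mul_pos (em_sq_pos w (cnt_coe_ne hm.1)) (hk y y' a1 a2 w))]
  simp only [h8]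
  rw [if_pos hm.2, norm_mul, norm_mul, RCLike.norm_conj, norm_mul, norm_mul]
  exact mul_le_mul (mul_le_mul (mul_le_of_le_one_left (norm_nonneg _) (hD _ _))
    (mul_le_of_le_one_left (norm_nonneg _) (hD _ _)) (by positivity) (norm_nonneg _))
    (pla_prodK fun w => mul_nonneg (by positivity) (hk y y' a1 a2 w).le) (norm_nonneg _)
    (by positivity)

theorem pLa (h : PSG) {χ : P → E → ℂ} (hc : Ch χ) (hr : Rec χ) (hu : Uni χ) (h6 : Six χ) :
    PLa χ := by
  obtain ⟨W, hW, hwt⟩ := sum_norm_Kx_le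
  obtain ⟨K, hK, hbox⟩ := sum_ball_le_box
  have hI := plaB_pos
  have hV := pla_Vg_pos 1
  have hk := kap_pos
  have hKb : 0 < Kb := one_pos.trans_le one_le_Kb
  have hcW : 0 < cW := one_pos.trans_le one_le_cW
  have hK0 : 0 < K := one_pos.trans_le hK
  refine ⟨kap * K ^ rk * (1 + Kb * cW * W ^ 2 * 8 ^ rk) / ((∫ v, plaB v) * Vg 1 ^ rk), K,
    by positivity, hK, fun β X N τ hX _ hN hβ => ?_⟩
  have hX0 := hX.sz_pos
  have hN0 : 0 < N := by linarith
  have hN1 : 0 < K * N ^ (1 / rk : ℝ) := by positivity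
  have hN2 : (K * N ^ (1 / rk : ℝ)) ^ rk = K ^ rk * N := by rw [mul_pow, rpow_rk hN0.le]
  have h0 := hbox N (fun n => ‖S (fun s => β s * xs χ s n) X (iT τ)‖ ^ 2) hN0
    (fun _ => by positivity) fun e x => by simp only [xs_unit_six hc h6]
  generalize K * N ^ (1 / rk : ℝ) = N1 at hN1 hN2 h0
  have hs := pla_bil hc hβ hX hN1 (iT τ)
  refine ⟨hs, ?_⟩
  have hg : HasSum (fun m : E =>
      (if m = 0 then kap * K ^ rk * (Kb * cW * W ^ 2 * 8 ^ rk * (N * X.sz)) else 0) +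
      kap * K ^ rk * PSum X.sz N fun d f e => if m ≠ 0 ∧ m / (X.du N1 d f).a ∈ OS then
        ‖bil χ β d f e m X N1 (iT τ)‖ else 0)
      (kap * K ^ rk * (Kb * cW * W ^ 2 * 8 ^ rk * (N * X.sz)) + kap * K ^ rk *
        PSum X.sz N fun d f e => ∑' m : E, if m ≠ 0 ∧ m / (X.du N1 d f).a ∈ OS then
          ‖bil χ β d f e m X N1 (iT τ)‖ else 0) :=
    (hasSum_ite_eq 0 _).add ((hasSum_sum fun d _ => hasSum_sum fun f _ => hasSum_sum fun e _ =>
      (hs d f e).hasSum.mul_left _).mul_left _)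
  have h1 := pla_main h hc hr β hX hN1 (iT τ) hg fun m => by
    by_cases hm : m = 0
    · subst hm
      refine (pla_zero hc hβ X hN1 _ _ (W := W) fun s =>
        hwt _ _ _ (hX.dv (pla_pr_ne s)) fun w => by simp [iT_re]).trans ?_
      have := mul_le_mul_of_nonneg_right (card_sqf_le (R := cW * X.sz) (by positivity))
        (show 0 ≤ W ^ 2 * (kap * N1 ^ rk * 8 ^ rk) by positivity)
      simp only [PSum, if_true, ne_eq, not_true_eq_false, false_and, if_false, mul_zero,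
        Finset.sum_const_zero, add_zero]
      refine this.trans (le_of_eq ?_)
      rw [hN2]
      ring
    · rw [if_neg hm, zero_add]
      exact pla_nz hc hu β hX hN1 hN2 (iT τ) hm
  have h2 : 0 ≤ PSum X.sz N fun d f e => ∑' m : E, if m ≠ 0 ∧ m / (X.du N1 d f).a ∈ OS then
      ‖bil χ β d f e m X N1 (iT τ)‖ else 0 :=
    Finset.sum_nonneg fun d _ => Finset.sum_nonneg fun f _ => Finset.sum_nonneg fun e _ =>
      mul_nonneg (div_pos (mul_pos hN0 (Ns_pos d)) (mul_pos hX0 (Ns_pos f))).le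
        (tsum_nonneg fun m => by positivity)
  rw [div_mul_eq_mul_div, le_div_iff₀ (by positivity), mul_comm, mul_assoc]
  refine (mul_le_mul_of_nonneg_left (mul_le_mul_of_nonneg_left h0 (by positivity)) hI.le).trans
    (h1.trans ?_)
  rw [← mul_add, mul_assoc (kap * K ^ rk)]
  refine mul_le_mul_of_nonneg_left ?_ (by positivity)
  have h3 : 0 < Kb * cW * W ^ 2 * 8 ^ rk := by positivity
  nlinarith [mul_pos hN0 hX0, mul_nonneg h3.le h2]

end NQ
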