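import Vale.Agent.NQ.Fld
import Vale.Agent.NQ.B2
import Vale.Agent.NQ.Stm2
noncomputable section
namespace NQ
open Complex MeasureTheory NumberField Filter
open scoped ComplexConjugate Classical ContDiff Topology
variable [σ : St]
theorem sy_three_mul (p : P) : 3 * ((nm p.1 - 1) / 3) = nm p.1 - 1 := by
  have := p.nm_mod
  omega
theorem sy_e_pos (p : P) : 0 < (nm p.1 - 1) / 3 := by
  have := p.four_le_nm
  omega
theorem sy_om_inj {p : P} {i j : ℕ} (h : p.1 ∣ om ^ i - om ^ j) : i % 3 = j % 3 := by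
  rw [pow_eq_pow_mod i om_cube, pow_eq_pow_mod j om_cube, ← rd_eq_iff, map_pow, map_pow] at h
  exact (rd_om_prim p).pow_inj (Nat.mod_lt _ (by norm_num)) (Nat.mod_lt _ (by norm_num)) h
theorem sy_c3_zero {p : P} {x : E} (h : p.1 ∣ x) : c3 p x = 0 := if_pos h
theorem sy_c2_zero {p : P} {x : E} (h : p.1 ∣ x) : c2 p x = 0 := if_pos h
theorem c3_spec {p : P} {x : E} (h : ¬ p.1 ∣ x) :
    ∃ j < 3, p.1 ∣ x ^ ((nm p.1 - 1) / 3) - om ^ j ∧ c3 p x = omC ^ j := by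
  by_cases h1 : p.1 ∣ x ^ ((nm p.1 - 1) / 3) - 1
  · exact ⟨0, by norm_num, by rwa [pow_zero], by rw [c3, if_neg h, if_pos h1, pow_zero]⟩
  by_cases h2 : p.1 ∣ x ^ ((nm p.1 - 1) / 3) - om
  · exact ⟨1, by norm_num, by rwa [pow_one], by rw [c3, if_neg h, if_neg h1, if_pos h2, pow_one]⟩
  refine ⟨2, by norm_num, ?_, by rw [c3, if_neg h, if_neg h1, if_neg h2]⟩
  have h3 := fermat h
  rw [← sy_three_mul p, mul_comm, pow_mul] at h3
  generalize x ^ ((nm p.1 - 1) / 3) = y at h1 h2 h3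
  have h4 : y ^ 3 - 1 = (y - 1) * ((y - om) * (y - om ^ 2)) := by
    linear_combination (y ^ 2 - y) * om_rel + (1 - y) * om_cube
  rw [h4] at h3
  exact (p.2.1.dvd_or_dvd ((p.2.1.dvd_or_dvd h3).resolve_left h1)).resolve_left h2
theorem c3_eq_of {p : P} {x : E} {j : ℕ} (h : p.1 ∣ x ^ ((nm p.1 - 1) / 3) - om ^ j) :
    c3 p x = omC ^ j := by
  have hx : ¬ p.1 ∣ x := fun hx => p.not_dvd_unit (isUnit_om.pow j) (by
    have h1 := dvd_sub (dvd_pow hx (sy_e_pos p).ne') h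
    rwa [sub_sub_cancel] at h1)
  obtain ⟨i, -, hi, hi'⟩ := c3_spec hx
  rw [hi', QRH.omC_pow_eq_iff]
  apply sy_om_inj (p := p)
  have h1 := dvd_sub h hi
  rwa [sub_sub_sub_cancel_left] at h1
theorem c3_mc (p : P) : Mc p (c3 p) := by
  refine ⟨fun x y => ?_, fun x y hxy => ?_, fun x hx => sy_c3_zero hx, fun x hx => ?_⟩
  · by_cases hx : p.1 ∣ x
    · rw [sy_c3_zero hx, sy_c3_zero (hx.mul_right y), zero_mul]
    by_cases hy : p.1 ∣ y
    · rw [sy_c3_zero hy, sy_c3_zero (hy.mul_left x), mul_zero]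
    obtain ⟨i, -, hi, hi'⟩ := c3_spec hx
    obtain ⟨j, -, hj, hj'⟩ := c3_spec hy
    rw [hi', hj', ← pow_add]
    apply c3_eq_of
    have h1 : (x * y) ^ ((nm p.1 - 1) / 3) - om ^ (i + j) =
        (x ^ ((nm p.1 - 1) / 3) - om ^ i) * y ^ ((nm p.1 - 1) / 3)
          + om ^ i * (y ^ ((nm p.1 - 1) / 3) - om ^ j) := by ring
    rw [h1]
    exact dvd_add (hi.mul_right _) (hj.mul_left _)
  · by_cases hy : p.1 ∣ y
    · have hx : p.1 ∣ x := by
        have h1 := dvd_add hxy hy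
        rwa [sub_add_cancel] at h1
      rw [sy_c3_zero hx, sy_c3_zero hy]
    obtain ⟨j, -, hj, hj'⟩ := c3_spec hy
    rw [hj']
    apply c3_eq_of
    have h1 := dvd_add (hxy.trans (sub_dvd_pow_sub_pow x y ((nm p.1 - 1) / 3))) hj
    rwa [sub_add_sub_cancel] at h1
  · obtain ⟨j, -, -, hj'⟩ := c3_spec hx
    rw [hj', norm_pow, QRH.norm_omC, one_pow]
theorem sy_c3_one_iff {p : P} {x : E} (h : ¬ p.1 ∣ x) :
    c3 p x = 1 ↔ rd p x ^ ((nm p.1 - 1) / 3) = 1 := by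
  rw [← map_pow, ← map_one (rd p), rd_eq_iff]
  constructor
  · intro h1
    obtain ⟨j, hj3, hj, hj'⟩ := c3_spec h
    have h2 : j % 3 = 0 % 3 := (QRH.omC_pow_eq_iff j 0).1 (by rw [← hj', h1, pow_zero])
    have h3 : j = 0 := by omega
    rwa [h3, pow_zero] at hj
  · intro h1
    rw [c3, if_neg h, if_pos h1]
theorem c3_nt (p : P) : Nt p (c3 p) := by
  by_contra hn
  have h1 : ∀ u : (Fp p)ˣ, u ^ ((nm p.1 - 1) / 3) = 1 := fun u => by
    obtain ⟨x, hx⟩ := rd_surj p u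
    have hx0 : ¬ p.1 ∣ x := fun h => u.ne_zero (hx ▸ rd_eq_zero.2 h)
    have h2 : c3 p x = 1 := by
      by_contra h2
      exact hn ⟨x, hx0, h2⟩
    rw [sy_c3_one_iff hx0, hx] at h2
    exact Units.ext (by rw [Units.val_pow_eq_pow_val, h2, Units.val_one])
  have h2 := (FiniteField.forall_pow_eq_one_iff (Fp p) _).1 h1
  rw [card_Fp] at h2
  have h3 := Nat.le_of_dvd (sy_e_pos p) h2
  have h4 := p.four_le_nm
  omega
theorem c3_cube {p : P} {x : E} (h : ¬ p.1 ∣ x) : c3 p x ^ 3 = 1 := by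
  obtain ⟨j, -, -, hj'⟩ := c3_spec h
  rw [hj', ← pow_mul, mul_comm, pow_mul, QRH.omC_cube, one_pow]
theorem conj_c3 (p : P) (x : E) : conj (c3 p x) = c3 p x ^ 2 := by
  by_cases h : p.1 ∣ x
  · rw [sy_c3_zero h]
    simp
  obtain ⟨j, -, -, hj'⟩ := c3_spec h
  rw [hj', map_pow, QRH.conj_omC, ← pow_mul, ← pow_mul, mul_comm]
theorem c3_neg_one (p : P) : c3 p (-1) = 1 := by
  have h : (-1 : E) = (-1) ^ 3 := by norm_num
  rw [h, (c3_mc p).map_pow]
  exact c3_cube (p.not_dvd_unit isUnit_one.neg)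
theorem c3_neg (p : P) (x : E) : c3 p (-x) = c3 p x := by
  rw [← neg_one_mul, (c3_mc p).mul, c3_neg_one, one_mul]
theorem c3_om (p : P) : c3 p om = omC ^ ((nm p.1 - 1) / 3) :=
  c3_eq_of (by rw [sub_self]; exact dvd_zero _)
theorem c3_eq_one_iff {p : P} {x : E} (h : ¬ p.1 ∣ x) :
    c3 p x = 1 ↔ ∃ y, p.1 ∣ x - y ^ 3 := by
  constructor
  · intro h1
    rw [sy_c3_one_iff h] at h1
    obtain ⟨g, hg⟩ := IsCyclic.exists_generator (α := (Fp p)ˣ)
    have hx0 : rd p x ≠ 0 := fun h0 => h (rd_eq_zero.1 h0)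
    obtain ⟨k, hk⟩ := (mem_powers_iff_mem_zpowers.2 (hg (Units.mk0 _ hx0)))
    have hk' : (g : Fp p) ^ k = rd p x := by
      have h2 := congrArg Units.val hk
      simpa using h2
    have h2 : g ^ (k * ((nm p.1 - 1) / 3)) = 1 :=
      Units.ext (by rw [Units.val_pow_eq_pow_val, pow_mul, hk', h1, Units.val_one])
    have h3 := orderOf_dvd_of_pow_eq_one h2
    rw [orderOf_eq_card_of_forall_mem_zpowers hg, Nat.card_eq_fintype_card, Fintype.card_units,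
      card_Fp, ← sy_three_mul p] at h3
    rw [sy_three_mul p, ← sy_three_mul p] at h3
    have h4 : 3 ∣ k := by
      have h5 : 3 * ((nm p.1 - 1) / 3) / 3 = (nm p.1 - 1) / 3 := by omega
      rw [h5] at h3
      exact Nat.dvd_of_mul_dvd_mul_right (sy_e_pos p) h3
    obtain ⟨m, rfl⟩ := h4
    obtain ⟨y, hy⟩ := rd_surj p ((g : Fp p) ^ m)
    exact ⟨y, rd_eq_iff.1 (by rw [map_pow, hy, ← hk', ← pow_mul, mul_comm])⟩
  · rintro ⟨y, hy⟩
    have hy0 : ¬ p.1 ∣ y := fun h0 => h (by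
      have h1 := dvd_add hy (dvd_pow h0 (by norm_num : 3 ≠ 0))
      rwa [sub_add_cancel] at h1)
    rw [(c3_mc p).per _ _ hy, (c3_mc p).map_pow, c3_cube hy0]
theorem c3_pow_mod {p : P} {x : E} (h : ¬ p.1 ∣ x) (k : ℕ) : c3 p x ^ k = c3 p x ^ (k % 3) :=
  pow_eq_pow_mod k (c3_cube h)
theorem sy_c2_eq (p : P) (x : E) :
    c2 p x = ((quadraticChar (Fp p) (rd p x) : ℤ) : ℂ) := by
  by_cases h : p.1 ∣ x
  · rw [sy_c2_zero h, rd_eq_zero.2 h, quadraticChar_zero, Int.cast_zero]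
  have h0 : rd p x ≠ 0 := fun h0 => h (rd_eq_zero.1 h0)
  have h1 : IsSquare (rd p x) ↔ ∃ y, p.1 ∣ x - y ^ 2 := by
    constructor
    · rintro ⟨z, hz⟩
      obtain ⟨y, rfl⟩ := rd_surj p z
      exact ⟨y, rd_eq_iff.1 (by rw [hz, map_pow, sq])⟩
    · rintro ⟨y, hy⟩
      exact ⟨rd p y, by rw [rd_eq_iff.2 hy, map_pow, sq]⟩
  by_cases h2 : ∃ y, p.1 ∣ x - y ^ 2
  · rw [c2, if_neg h, if_pos h2, (quadraticChar_one_iff_isSquare h0).2 (h1.2 h2), Int.cast_one]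
  · rw [c2, if_neg h, if_neg h2, quadraticChar_neg_one_iff_not_isSquare.2 (fun h3 => h2 (h1.1 h3))]
    simp
theorem sy_c2_cases {p : P} {x : E} (h : ¬ p.1 ∣ x) : c2 p x = 1 ∨ c2 p x = -1 := by
  by_cases h2 : ∃ y, p.1 ∣ x - y ^ 2
  · exact Or.inl (by rw [c2, if_neg h, if_pos h2])
  · exact Or.inr (by rw [c2, if_neg h, if_neg h2])
theorem c2_mc (p : P) : Mc p (c2 p) := by
  refine ⟨fun x y => ?_, fun x y hxy => ?_, fun x hx => sy_c2_zero hx, fun x hx => ?_⟩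
  · rw [sy_c2_eq, sy_c2_eq, sy_c2_eq, map_mul, map_mul, Int.cast_mul]
  · rw [sy_c2_eq, sy_c2_eq, rd_eq_iff.2 hxy]
  · rcases sy_c2_cases hx with h | h <;> simp [h]
theorem c2_nt (p : P) : Nt p (c2 p) := by
  obtain ⟨a, ha⟩ := quadraticChar_exists_neg_one (ringChar_ne_two p)
  obtain ⟨x, rfl⟩ := rd_surj p a
  have h1 : c2 p x = -1 := by
    rw [sy_c2_eq, ha]
    simp
  refine ⟨x, fun hx => ?_, by rw [h1]; norm_num⟩
  rw [sy_c2_zero hx] at h1
  norm_num at h1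
theorem c2_sq {p : P} {x : E} (h : ¬ p.1 ∣ x) : c2 p x ^ 2 = 1 := by
  rcases sy_c2_cases h with h | h <;> simp [h]
theorem conj_c2 (p : P) (x : E) : conj (c2 p x) = c2 p x := by
  rw [sy_c2_eq, map_intCast]
theorem c2_om (p : P) : c2 p om = 1 := by
  have h : om = (om ^ 2) ^ 2 := by linear_combination (-om) * om_cube
  rw [h, (c2_mc p).map_pow]
  exact c2_sq (p.not_dvd_unit (isUnit_om.pow 2))
theorem c2_eq_quadraticChar (p : P) (x : E) :
    c2 p x = ((quadraticChar (Fp p) (rd p x) : ℤ) : ℂ) := sy_c2_eq p x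
theorem rsum_sq (p : P) {f : E → ℂ} (hf : Per p.1 f) :
    rsum p.1 (fun x => f (x ^ 2)) = rsum p.1 fun y => (1 + c2 p y) * f y := by
  obtain ⟨F, hF⟩ : ∃ F : Fp p → ℂ, ∀ x, f x = F (rd p x) :=
    ⟨fun z => f (rd_surj p z).choose, fun x =>
      hf _ _ (rd_eq_iff.1 (rd_surj p (rd p x)).choose_spec.symm)⟩
  have h1 : rsum p.1 (fun x => f (x ^ 2)) = ∑ z : Fp p, F (z ^ 2) := by
    rw [← rsum_rd p (fun z => F (z ^ 2))]
    simp only [hF, map_pow]
  have h2 : (rsum p.1 fun y => (1 + c2 p y) * f y) =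
      ∑ z : Fp p, (1 + ((quadraticChar (Fp p) z : ℤ) : ℂ)) * F z := by
    rw [← rsum_rd p (fun z => (1 + ((quadraticChar (Fp p) z : ℤ) : ℂ)) * F z)]
    simp only [hF, sy_c2_eq]
  rw [h1, h2, ← Finset.sum_fiberwise (s := Finset.univ) (g := fun z : Fp p => z ^ 2)]
  refine Finset.sum_congr rfl fun a _ => ?_
  have h3 := quadraticChar_card_sqrts (ringChar_ne_two p) a
  have h4 : ∑ z ∈ Finset.univ with z ^ 2 = a, F (z ^ 2) =
      ∑ z ∈ Finset.univ with z ^ 2 = a, F a :=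
    Finset.sum_congr rfl fun z hz => by rw [(Finset.mem_filter.1 hz).2]
  rw [h4, Finset.sum_const, nsmul_eq_mul]
  congr 1
  have h5 : ({x : Fp p | x ^ 2 = a} : Set (Fp p)).toFinset =
      Finset.univ.filter fun z => z ^ 2 = a := by
    ext z
    simp
  rw [h5] at h3
  rw [add_comm]
  exact_mod_cast congrArg (fun t : ℤ => (t : ℂ)) h3
theorem c6_mc (p : P) : Mc p (c6 p) := ((c3_mc p).pow two_ne_zero).mul' (c2_mc p)
theorem sy_c6_zero {p : P} {x : E} (h : p.1 ∣ x) : c6 p x = 0 := (c6_mc p).zero x h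
theorem sy_c6_sq (p : P) (x : E) : c6 p x ^ 2 = c3 p x := by
  by_cases h : p.1 ∣ x
  · rw [sy_c6_zero h, sy_c3_zero h]
    simp
  rw [c6]
  linear_combination c3 p x ^ 4 * c2_sq h + c3 p x * c3_cube h
theorem c6_nt (p : P) : Nt p (c6 p) := by
  obtain ⟨x, hx, hx'⟩ := c3_nt p
  exact ⟨x, hx, fun h => hx' (by rw [← sy_c6_sq, h, one_pow])⟩
theorem c6_sq (p : P) (x : E) : c6 p x ^ 2 = c3 p x := sy_c6_sq p x
theorem c6_cube (p : P) (x : E) : c6 p x ^ 3 = c2 p x := by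
  by_cases h : p.1 ∣ x
  · rw [sy_c6_zero h, sy_c2_zero h]
    simp
  rw [c6]
  linear_combination c3 p x ^ 6 * c2 p x * c2_sq h + c2 p x * (c3 p x ^ 3 + 1) * c3_cube h
theorem c6_six {p : P} {x : E} (h : ¬ p.1 ∣ x) : c6 p x ^ 6 = 1 := by
  rw [show 6 = 3 * 2 from rfl, pow_mul, c6_cube, c2_sq h]
theorem conj_c6 (p : P) (x : E) : conj (c6 p x) = c6 p x ^ 5 := by
  by_cases h : p.1 ∣ x
  · rw [sy_c6_zero h]
    simp
  linear_combination c6 p x ^ 5 * (c6_mc p).mul_conj h - conj (c6 p x) * c6_six h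
theorem ch_c3 : Ch c3 := ⟨c3_mc, c3_nt⟩
theorem ch_c2 : Ch c2 := ⟨c2_mc, c2_nt⟩
theorem ch_c6 : Ch c6 := ⟨c6_mc, c6_nt⟩
theorem Ch.cj {χ : P → E → ℂ} (h : Ch χ) : Ch (cj χ) :=
  ⟨fun p => (h.mc p).conj, fun p => (h.nt p).conj⟩
theorem cj_cj (χ : P → E → ℂ) : cj (cj χ) = χ := by
  funext p x
  simp [cj]
section
variable {χ : P → E → ℂ}
theorem xs_empty (n : E) : xs χ ∅ n = 1 := Finset.prod_empty
theorem xs_union {s t : Finset P} (h : Disjoint s t) (n : E) :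
    xs χ (s ∪ t) n = xs χ s n * xs χ t n := Finset.prod_union h
theorem xs_cj (s : Finset P) (n : E) : xs (cj χ) s n = conj (xs χ s n) := by
  simp [xs, cj]
theorem xs_mul (h : Ch χ) (s : Finset P) (m n : E) :
    xs χ s (m * n) = xs χ s m * xs χ s n := by
  simp only [xs, ← Finset.prod_mul_distrib, (h.mc _).mul]
theorem xs_one (h : Ch χ) (s : Finset P) : xs χ s 1 = 1 :=
  Finset.prod_eq_one fun p _ => (h.mc p).one
theorem xs_pow (h : Ch χ) (s : Finset P) (n : E) (k : ℕ) : xs χ s (n ^ k) = xs χ s n ^ k := by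
  simp only [xs, ← Finset.prod_pow, (h.mc _).map_pow]
theorem xs_per (h : Ch χ) (s : Finset P) : Per (pr s) (xs χ s) := fun x y hxy =>
  Finset.prod_congr rfl fun p hp => (h.mc p).per x y ((dvd_pr_iff.2 hp).trans hxy)
theorem xs_eq_zero_iff (h : Ch χ) {s : Finset P} {n : E} :
    xs χ s n = 0 ↔ ∃ p ∈ s, p.1 ∣ n := by
  simp only [xs, Finset.prod_eq_zero_iff, (h.mc _).eq_zero_iff]
theorem norm_xs (h : Ch χ) {s : Finset P} {n : E} (hn : ∀ p ∈ s, ¬ p.1 ∣ n) :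
    ‖xs χ s n‖ = 1 := by
  rw [xs, norm_prod]
  exact Finset.prod_eq_one fun p hp => (h.mc p).norm n (hn p hp)
theorem norm_xs_le (h : Ch χ) (s : Finset P) (n : E) : ‖xs χ s n‖ ≤ 1 := by
  rw [xs, norm_prod]
  exact Finset.prod_le_one (fun _ _ => norm_nonneg _) fun p _ => (h.mc p).norm_le n
theorem xs_mul_conj (h : Ch χ) (s : Finset P) (n : E) :
    xs χ s n * conj (xs χ s n) = if ∀ p ∈ s, ¬ p.1 ∣ n then 1 else 0 := by
  split_ifs with hn
  · rw [Complex.mul_conj, Complex.normSq_eq_norm_sq, norm_xs h hn]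
    simp
  · have h1 : xs χ s n = 0 := by
      rw [xs_eq_zero_iff h]
      by_contra h2
      exact hn fun p hp hd => h2 ⟨p, hp, hd⟩
    rw [h1, zero_mul]
theorem xs_six (s : Finset P) (n : E) :
    xs c6 s (n ^ 6) = if ∀ p ∈ s, ¬ p.1 ∣ n then 1 else 0 := by
  split_ifs with hn
  · exact Finset.prod_eq_one fun p hp => by rw [(c6_mc p).map_pow, c6_six (hn p hp)]
  · rw [xs_eq_zero_iff ch_c6]
    by_contra h2
    exact hn fun p hp hd => h2 ⟨p, hp, dvd_pow hd (by norm_num)⟩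
theorem conj_xs_c6 (s : Finset P) (n : E) : conj (xs c6 s n) = xs c6 s (n ^ 5) := by
  simp only [xs, map_prod, conj_c6, (c6_mc _).map_pow]
theorem xs_c6 (s : Finset P) (n : E) : xs c6 s n = xs c3 s n ^ 2 * xs c2 s n := by
  simp only [xs, c6, Finset.prod_mul_distrib, Finset.prod_pow]
theorem conj_xs_c2 (s : Finset P) (n : E) : conj (xs c2 s n) = xs c2 s n := by
  simp only [xs, map_prod, conj_c2]
theorem xv_eq_prod {c : E} (hc : c ≠ 0) {S : Finset P} (hS : fac c ⊆ S) (n : E) :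
    xv χ c n = ∏ p ∈ S, χ p n ^ vp p.1 c :=
  Finset.prod_subset hS fun p _ hp => by
    rw [vp_of_not_dvd (fun h => hp ((mem_fac hc).2 h)), pow_zero]
theorem xv_pr (s : Finset P) (n : E) : xv χ (pr s) n = xs χ s n := by
  rw [xv, fac_pr]
  exact Finset.prod_congr rfl fun p hp => by rw [vp_pr, if_pos hp, pow_one]
theorem xv_unit {u : E} (hu : IsUnit u) (n : E) : xv χ u n = 1 := by
  rw [xv, fac_unit hu, Finset.prod_empty]
theorem xv_prime (p : P) (n : E) : xv χ p.1 n = χ p n := by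
  rw [← pr_singleton, xv_pr, xs, Finset.prod_singleton]
theorem xv_mul_left {c c' : E} (hc : c ≠ 0) (hc' : c' ≠ 0) (n : E) :
    xv χ (c * c') n = xv χ c n * xv χ c' n := by
  rw [xv_eq_prod hc (S := fac (c * c')) (fac_mono (mul_ne_zero hc hc') (dvd_mul_right _ _)),
    xv_eq_prod hc' (S := fac (c * c')) (fac_mono (mul_ne_zero hc hc') (dvd_mul_left _ _)),
    ← Finset.prod_mul_distrib, xv]
  exact Finset.prod_congr rfl fun p _ => by rw [vp_mul p.2.1 hc hc', pow_add]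
theorem xv_pow_left {c : E} (hc : c ≠ 0) (k : ℕ) (n : E) : xv χ (c ^ k) n = xv χ c n ^ k := by
  induction k with
  | zero => rw [pow_zero, pow_zero, xv_unit isUnit_one]
  | succ k ih => rw [pow_succ, pow_succ, xv_mul_left (pow_ne_zero k hc) hc, ih]
theorem xv_mul (h : Ch χ) (c m n : E) : xv χ c (m * n) = xv χ c m * xv χ c n := by
  simp only [xv, ← Finset.prod_mul_distrib, (h.mc _).mul, mul_pow]
theorem xv_one (h : Ch χ) (c : E) : xv χ c 1 = 1 :=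
  Finset.prod_eq_one fun p _ => by rw [(h.mc p).one, one_pow]
theorem xv_pow (h : Ch χ) (c n : E) (k : ℕ) : xv χ c (n ^ k) = xv χ c n ^ k := by
  induction k with
  | zero => rw [pow_zero, pow_zero, xv_one h]
  | succ k ih => rw [pow_succ, pow_succ, xv_mul h, ih]
theorem xv_per (h : Ch χ) {c : E} (hc : c ≠ 0) : Per (pr (fac c)) (xv χ c) := by
  have _ := hc
  exact fun x y hxy => Finset.prod_congr rfl fun p hp => by
    rw [(h.mc p).per x y ((dvd_pr_iff.2 hp).trans hxy)]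
theorem xv_eq_zero_iff (h : Ch χ) {c : E} (hc : c ≠ 0) {n : E} :
    xv χ c n = 0 ↔ ∃ p : P, p.1 ∣ c ∧ p.1 ∣ n := by
  rw [xv, Finset.prod_eq_zero_iff]
  constructor
  · rintro ⟨p, hp, h0⟩
    exact ⟨p, (mem_fac hc).1 hp, (h.mc p).eq_zero_iff.1 (pow_eq_zero_iff'.1 h0).1⟩
  · rintro ⟨p, hp, h0⟩
    exact ⟨p, (mem_fac hc).2 hp, by
      rw [(h.mc p).zero n h0, zero_pow ((dvd_iff_vp p.2.1 hc).1 hp)]⟩
theorem norm_xv (h : Ch χ) {c n : E} (hc : c ≠ 0) (hn : ∀ p : P, ¬ (p.1 ∣ c ∧ p.1 ∣ n)) :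
    ‖xv χ c n‖ = 1 := by
  rw [xv, norm_prod]
  exact Finset.prod_eq_one fun p hp => by
    rw [norm_pow, (h.mc p).norm n fun hd => hn p ⟨(mem_fac hc).1 hp, hd⟩, one_pow]
theorem norm_xv_le (h : Ch χ) (c n : E) : ‖xv χ c n‖ ≤ 1 := by
  rw [xv, norm_prod]
  exact Finset.prod_le_one (fun _ _ => norm_nonneg _) fun p _ => by
    rw [norm_pow]
    exact pow_le_one₀ (norm_nonneg _) ((h.mc p).norm_le n)
theorem xv_c6 (c n : E) : xv c6 c n = xv c3 c n ^ 2 * xv c2 c n := by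
  rw [xv, xv, xv, ← Finset.prod_pow, ← Finset.prod_mul_distrib]
  exact Finset.prod_congr rfl fun p _ => by rw [c6, mul_pow, ← pow_mul, ← pow_mul, mul_comm 2]
theorem xv_c3_cube {c n : E} (hc : c ≠ 0) (hn : ∀ p : P, ¬ (p.1 ∣ c ∧ p.1 ∣ n)) :
    xv c3 c n ^ 3 = 1 := by
  rw [xv, ← Finset.prod_pow]
  exact Finset.prod_eq_one fun p hp => by
    rw [← pow_mul, mul_comm, pow_mul, c3_cube fun hd => hn p ⟨(mem_fac hc).1 hp, hd⟩, one_pow]
theorem xv_c2_sq {c n : E} (hc : c ≠ 0) (hn : ∀ p : P, ¬ (p.1 ∣ c ∧ p.1 ∣ n)) :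
    xv c2 c n ^ 2 = 1 := by
  rw [xv, ← Finset.prod_pow]
  exact Finset.prod_eq_one fun p hp => by
    rw [← pow_mul, mul_comm, pow_mul, c2_sq fun hd => hn p ⟨(mem_fac hc).1 hp, hd⟩, one_pow]
end
theorem xv_assoc {χ : P → E → ℂ} {c c' : E} (h : Associated c c') (n : E) : xv χ c n = xv χ c' n :=
  by simp only [xv, fac_assoc h, vp_assoc h]
theorem six_c2 : Six c2 := fun p x h => by
  rw [show 6 = 2 * 3 from rfl, pow_mul, c2_sq h, one_pow]
theorem six_c3 : Six c3 := fun p x h => by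
  rw [show 6 = 3 * 2 from rfl, pow_mul, c3_cube h, one_pow]
theorem six_c6 : Six c6 := fun _ _ h => c6_six h
theorem Six.cj {χ : P → E → ℂ} (h : Six χ) : Six (cj χ) := fun p x hx => by
  rw [NQ.cj, ← map_pow, h p x hx, map_one]
theorem xs_unit_six {χ : P → E → ℂ} (h : Ch χ) (h6 : Six χ) (s : Finset P) (e : Eˣ) (n : E) :
    xs χ s (e ^ 6 * n) = xs χ s n :=
  Finset.prod_congr rfl fun p _ => by
    rw [(h.mc p).mul, (h.mc p).map_pow, h6 p e (p.not_dvd_unit e.isUnit), one_mul]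
theorem xv_unit_six {χ : P → E → ℂ} (h : Ch χ) (h6 : Six χ) (c : E) (e : Eˣ) (n : E) :
    xv χ c (e ^ 6 * n) = xv χ c n :=
  Finset.prod_congr rfl fun p _ => by
    rw [(h.mc p).mul, (h.mc p).map_pow, h6 p e (p.not_dvd_unit e.isUnit), one_mul]
theorem xs_c2_unit_sq (s : Finset P) (e : Eˣ) (n : E) : xs c2 s (e ^ 2 * n) = xs c2 s n :=
  Finset.prod_congr rfl fun p _ => by
    rw [(c2_mc p).mul, (c2_mc p).map_pow, c2_sq (p.not_dvd_unit e.isUnit), one_mul]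
theorem Uni.cj {χ : P → E → ℂ} (h : Uni χ) : Uni (cj χ) := fun s u hu hc => by
  rw [xs_cj, h s u hu hc, map_one]
/-- Two generators in the same class give the same symbol. -/
theorem Uni.xs_eq {χ : P → E → ℂ} (h : Uni χ) (hc : Ch χ) {x y : E} (h1 : Associated x y)
    (h2 : Cl x y) (s : Finset P) : xs χ s x = xs χ s y := by
  obtain ⟨u, rfl⟩ := h1
  have h3 := (Cl_iff_one h2.ne_left).1 h2
  rw [Subring.coe_mul, mul_div_cancel_left₀ _ h2.ne_left] at h3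
  rw [xs_mul hc, h s u u.isUnit h3, mul_one]
end NQ
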