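import Vale.Agent.NQ.Rearr
import Vale.Agent.NQ.WtS
import Vale.Agent.NQ.UCt
import Vale.Agent.NQ.Sym
import Vale.Agent.NQ.Chr

noncomputable section
namespace NQ
open Complex MeasureTheory NumberField Filter
open scoped ComplexConjugate Classical ContDiff Topology

theorem PLb_amgm {w : ℝ} (hw : 0 ≤ w) (u v : ℝ) :
    w * (u * v) ≤ 1 / 2 * (w * u ^ 2 + w * v ^ 2) := by
  nlinarith [mul_nonneg hw (sq_nonneg (u - v))]

theorem PLb_norm {w : ℝ} (hw : 0 ≤ w) (z : ℂ) : w * ‖z‖ = ‖(w : ℂ) * z‖ := by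
  rw [norm_mul, norm_real, Real.norm_of_nonneg hw]

theorem PLb_Vg_pos (y : ℝ) : 0 < Vg y := Real.exp_pos _

theorem PLb_Vg : ∃ C : ℝ, 0 < C ∧ ∀ (y T u : ℝ) (j : ℕ), 0 < y → 0 < T →
    |u| ≤ 2 * Real.log 16 + 2 → (j ≠ 0 → 2 ^ j * T < 2 * y) →
    Vg (Real.exp (u + Real.log (y / T))) ≤ C * (1 / 16) ^ j := by
  obtain ⟨C, hC, h⟩ := QRH.Vg_le_rpow (A := 4) (by norm_num)
  obtain ⟨c, hc⟩ : ∃ c : ℝ, c = Real.exp (-(2 * Real.log 16 + 2)) := ⟨_, rfl⟩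
  have hc0 : 0 < c := hc ▸ Real.exp_pos _
  refine ⟨1 + C * (2 / c) ^ 4, by positivity, fun y T u j hy hT hu hj => ?_⟩
  have hC' : 0 < C * (2 / c) ^ 4 := by positivity
  rcases eq_or_ne j 0 with rfl | h0
  · rw [pow_zero, mul_one]
    refine le_trans (Real.exp_le_one_iff.2 ?_) (by linarith)
    have : 0 ≤ 2 * Real.pi / √3 * Real.exp (u + Real.log (y / T)) := by positivity
    linarith
  have h1 : c * (2 ^ j / 2) ≤ Real.exp (u + Real.log (y / T)) := by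
    rw [Real.exp_add, Real.exp_log (div_pos hy hT)]
    refine mul_le_mul (hc ▸ Real.exp_le_exp.2 (abs_le.1 hu).1) ?_ (by positivity)
      (Real.exp_pos _).le
    rw [div_le_div_iff₀ two_pos hT]
    linarith [hj h0]
  refine (h _ (Real.exp_pos _)).trans ((mul_le_mul_of_nonneg_left
    (Real.rpow_le_rpow_of_nonpos (by positivity) h1 (by norm_num)) hC.le).trans ?_)
  have e1 : (c * (2 ^ j / 2)) ^ (-4 : ℝ) = (2 / c) ^ 4 * (1 / 16) ^ j := by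
    rw [Real.rpow_neg (by positivity), show (4 : ℝ) = (4 : ℕ) by norm_num, Real.rpow_natCast,
      one_div_pow, show (16 : ℝ) = 2 ^ 4 by norm_num, ← pow_mul, mul_comm 4 j, pow_mul]
    field_simp
  rw [e1, ← mul_assoc]
  exact mul_le_mul_of_nonneg_right (by linarith) (by positivity)

variable [σ : St]

/-- The index type of the Poisson sums. -/
abbrev PLbIx (ι : Type) : Type := Σ _ : ι, Σ _ : Finset P, Σ _ : Finset P, Finset P × E

/-- The index set of the Poisson sums. -/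
def PLbI {ι : Type} (J : Finset ι) (X : ℝ) (T : Finset P → Finset P → Finset E) :
    Finset (PLbIx ι) :=
  J.sigma fun _ => (sqf (cW * X)).sigma fun d => d.powerset.sigma fun f =>
    ((sqf (cW * X)).filter fun e => Disjoint d e) ×ˢ T d f

theorem PLb_sum {ι : Type} (J : Finset ι) (X N : ℝ) (T : Finset P → Finset P → Finset E)
    (F : ι → Finset P → Finset P → Finset P → E → ℝ) :
    ∑ i ∈ J, PSum X N (fun d f e => ∑ m ∈ T d f, F i d f e m) =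
      ∑ q ∈ PLbI J X T, N * Ns q.2.1 / (X * Ns q.2.2.1) *
        F q.1 q.2.1 q.2.2.1 q.2.2.2.1 q.2.2.2.2 := by
  simp only [PLbI, PSum, Finset.sum_sigma, Finset.sum_product, Finset.mul_sum]

theorem PLb_mem {ι : Type} {J : Finset ι} {X : ℝ} {T : Finset P → Finset P → Finset E}
    {q : PLbIx ι} (h : q ∈ PLbI J X T) : q.2.2.2.2 ∈ T q.2.1 q.2.2.1 ∧
    ∀ T' : Finset P → Finset P → Finset E, q.2.2.2.2 ∈ T' q.2.1 q.2.2.1 → q ∈ PLbI J X T' := by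
  simp only [PLbI, Finset.mem_sigma, Finset.mem_product] at h ⊢
  exact ⟨h.2.2.2.2, fun T' h' => ⟨h.1, h.2.1, h.2.2.1, h.2.2.2.1, h'⟩⟩

theorem PLb_w {X N : ℝ} (hX : 0 < X) (hN : 0 < N) (d f : Finset P) :
    0 ≤ N * Ns d / (X * Ns f) := by
  have := Ns_pos d
  have := Ns_pos f
  positivity

theorem PLb_mono {X N : ℝ} (hX : 0 < X) (hN : 0 < N) {c : ℝ}
    {F G : Finset P → Finset P → Finset P → ℝ} (h : ∀ d f e, f ⊆ d → F d f e ≤ c * G d f e) :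
    PSum X N F ≤ c * PSum X N G := by
  simp only [PSum, Finset.mul_sum]
  exact Finset.sum_le_sum fun d _ => Finset.sum_le_sum fun f hf => Finset.sum_le_sum fun e _ =>
    (mul_le_mul_of_nonneg_left (h d f e (Finset.mem_powerset.1 hf)) (PLb_w hX hN d f)).trans_eq
      (mul_left_comm _ _ _)

theorem PLb_nonneg {X N : ℝ} (hX : 0 < X) (hN : 0 < N)
    {F : Finset P → Finset P → Finset P → ℝ} (h : ∀ d f e, 0 ≤ F d f e) : 0 ≤ PSum X N F :=
  Finset.sum_nonneg fun d _ => Finset.sum_nonneg fun f _ => Finset.sum_nonneg fun e _ =>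
    mul_nonneg (PLb_w hX hN d f) (h d f e)

theorem PLb_S1 {X : Sc} (hX : X.OK) (γ : Finset P → ℂ) (r : ℂ) (z s : Pl → ℂ) :
    ∑ c ∈ bx X with Squarefree c, r * (γ (fac c) * Kx X z c)
        * ∏ w, ((‖em w c‖ ^ 2 / X.T w : ℝ) : ℂ) ^ s w = r * S γ X (z + s) := by
  rw [S, Finset.mul_sum]
  refine Finset.sum_congr rfl fun c _ => ?_
  rw [← Kx_mul_cpow hX]
  ring

theorem PLb_S2 {X : Sc} (hX : X.OK) (γ : Finset P → ℂ) (r : ℂ) (z : Pl → ℂ) (τ : Pl → ℝ) :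
    ∑ c ∈ bx X with Squarefree c, r * conj (γ (fac c) * Kx X z c)
        * ∏ w, ((‖em w c‖ ^ 2 / X.T w : ℝ) : ℂ) ^ iT τ w = r * conj (S γ X (z + -iT τ)) := by
  rw [S, map_sum, Finset.mul_sum]
  refine Finset.sum_congr rfl fun c hc => ?_
  have h0 := cnt_coe_ne (Finset.mem_filter.1 hc).2.ne_zero
  rw [← Kx_mul_cpow hX, ← mul_assoc (γ _), map_mul _ (γ _ * _), map_prod, mul_assoc]
  congr 2
  refine Finset.prod_congr rfl fun w _ => ?_
  rw [QRH.conj_cpow_ofReal (div_pos (em_sq_pos w h0) (hX.2 w))]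
  congr 1
  simp [iT]

theorem PLb_pow (τ : Pl → ℝ) {s : Pl → ℂ} (hs : ∀ w, (s w).re = 0) (B : ℕ) :
    (∀ w, |(((fun w => iT τ w - 1 / 2) + s : Pl → ℂ) w).re| ≤ 3) ∧
      Tb ((fun w => iT τ w - 1 / 2) + s) ^ B
        ≤ Tb (fun _ => -(1 / 2)) ^ B * Tb (iT τ) ^ B * Tb s ^ B := by
  refine ⟨fun w => ?_, ?_⟩
  · rw [Pi.add_apply, add_re, sub_re, hs, iT_re]
    norm_num
  · rw [← mul_pow, ← mul_pow]
    refine pow_le_pow_left₀ (zero_le_one.trans (one_le_Tb _)) ((Tb_add_le _ _).trans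
      (mul_le_mul_of_nonneg_right ?_ (zero_le_one.trans (one_le_Tb _)))) B
    refine le_trans (le_of_eq (congrArg Tb ?_)) (Tb_add_le _ _)
    funext w
    rw [Pi.add_apply]
    ring

theorem PLb_sm {a b y : Pl → ℝ} (ha : ∀ w, 0 < a w) (hb : ∀ w, 0 < b w) (hy : ∀ w, 0 < y w) :
    ∏ w, sm 1 (fun v => (Vg (Real.exp v) : ℝ)) (Real.log (y w / (a w * b w)))
      = ∫ v : Pl → ℝ, (∏ w, ((beta (v w) * Real.exp (v w) : ℝ) : ℂ)) *
        ∏ w, ((Vg (Real.exp (v w - Real.log (a w) - Real.log (b w) + Real.log (y w))) : ℝ) : ℂ) := by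
  rw [prod_sm (fun _ => 1) (fun _ v => (Vg (Real.exp v) : ℝ))]
  refine congrArg _ (funext fun v => ?_)
  rw [← Finset.prod_mul_distrib, ← Finset.prod_mul_distrib]
  refine Finset.prod_congr rfl fun w _ => ?_
  rw [Real.log_div (hy w).ne' (mul_pos (ha w) (hb w)).ne', Real.log_mul (ha w).ne' (hb w).ne',
    one_mul, ofReal_mul, ofReal_exp, mul_assoc]
  congr 5
  ring

theorem PLb_block (h : SepW) (χ : P → E → ℂ) (B : ℕ) :
    ∃ C : ℝ, 0 < C ∧ ∀ (ι : Type) (I : Finset (PLbIx ι)) (β : ι → Finset P → ℂ) (X : Sc)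
      (N N1 K Y : ℝ) (τ : Pl → ℝ), X.OK → 0 < N → 0 < N1 → 0 ≤ K → 0 ≤ Y →
      (∀ s : Pl → ℂ, (∀ w, |(s w).re| ≤ 3) → ∑ q ∈ I, N * Ns q.2.1 / (X.sz * Ns q.2.2.1) *
        ‖S (dual χ (β q.1) (X.de q.2.1 q.2.2.2.1).a q.2.1 q.2.2.1 q.2.2.2.1 q.2.2.2.2)
          (X.de q.2.1 q.2.2.2.1) s‖ ^ 2 ≤ K * Tb s ^ B) →
      (∀ q ∈ I, q.2.2.2.2 ≠ 0 ∧ ∀ u : Pl → ℝ, (∀ w, |u w| ≤ 2 * Real.log 16 + 2) →
        ∏ w, Vg (Real.exp (u w + Real.log (‖em w q.2.2.2.2‖ ^ 2 / (X.du N1 q.2.1 q.2.2.1).T w)))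
          ≤ Y) →
      ∑ q ∈ I, N * Ns q.2.1 / (X.sz * Ns q.2.2.1) *
        ‖bil χ (β q.1) q.2.1 q.2.2.1 q.2.2.2.1 q.2.2.2.2 X N1 (iT τ)‖
        ≤ C * (Y * K * Tb (iT τ) ^ B) := by
  obtain ⟨C, hC, hs⟩ := h 16 B (by norm_num)
  have hc0 : 0 < Tb (fun _ => -(1 / 2)) := zero_lt_one.trans_le (one_le_Tb _)
  refine ⟨C * Tb (fun _ => -(1 / 2)) ^ B, by positivity,
    fun ι I β X N N1 K Y τ hX hN hN1 hK hY hb hy => ?_⟩
  have hX0 := hX.sz_pos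
  have hsup : ∀ (X : Sc) (z : Pl → ℂ) (c : E), X.OK → Kx X z c ≠ 0 → ∀ w,
      1 ≤ ‖em w c‖ ^ 2 / X.T w ∧ ‖em w c‖ ^ 2 / X.T w ≤ 16 := fun X z c hX h0 w => by
    obtain ⟨h1, h2⟩ := (Kx_supp hX h0).2.1 w
    exact ⟨(one_le_div (hX.2 w)).2 h1.le, (div_le_iff₀ (hX.2 w)).2 h2.le⟩
  have key := hs (PLbIx ι) E I
    (fun q => (bx (X.de q.2.1 q.2.2.2.1)).filter Squarefree)
    (fun q => (bx (X.de q.2.1 q.2.2.2.1)).filter Squarefree)
    (fun q u => ∏ w, ((Vg (Real.exp (u w + Real.log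
      (‖em w q.2.2.2.2‖ ^ 2 / (X.du N1 q.2.1 q.2.2.1).T w))) : ℝ) : ℂ))
    (fun _ => Y) (Y * K * (Tb (fun _ => -(1 / 2)) ^ B * Tb (iT τ) ^ B))
    (fun q c => (√(N * Ns q.2.1 / (X.sz * Ns q.2.2.1)) : ℝ) *
      (dual χ (β q.1) (X.de q.2.1 q.2.2.2.1).a q.2.1 q.2.2.1 q.2.2.2.1 q.2.2.2.2 (fac c)
        * Kx (X.de q.2.1 q.2.2.2.1) (fun w => iT τ w - 1 / 2) c))
    (fun q c => (√(N * Ns q.2.1 / (X.sz * Ns q.2.2.1)) : ℝ) *
      conj (dual χ (β q.1) (X.de q.2.1 q.2.2.2.1).a q.2.1 q.2.2.1 q.2.2.2.1 q.2.2.2.2 (fac c)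
        * Kx (X.de q.2.1 q.2.2.2.1) (fun w => iT τ w - 1 / 2) c))
    (fun q c w => ‖em w c‖ ^ 2 / (X.de q.2.1 q.2.2.2.1).T w)
    (fun q c w => ‖em w c‖ ^ 2 / (X.de q.2.1 q.2.2.2.1).T w)
    (fun q _ => by
      unfold Vg
      fun_prop)
    (fun q hq u hu => by
      rw [← ofReal_prod, norm_real,
        Real.norm_of_nonneg (Finset.prod_nonneg fun w _ => (PLb_Vg_pos _).le)]
      exact (hy q hq).2 u hu)
    (fun q _ c _ h0 => hsup _ _ c (hX.de _ _) (right_ne_zero_of_mul (right_ne_zero_of_mul h0)))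
    (fun q _ c _ h0 => hsup _ _ c (hX.de _ _)
      (right_ne_zero_of_mul ((map_ne_zero _).1 (right_ne_zero_of_mul h0))))
    (fun τ1 => by
      obtain ⟨a1, b1⟩ := PLb_pow τ (iT_re τ1) B
      obtain ⟨a2, b2⟩ := PLb_pow τ (s := -iT τ1) (fun w => by rw [Pi.neg_apply, neg_re, iT_re,
        neg_zero]) B
      rw [Tb_neg] at b2
      have c1 := (hb _ a1).trans (mul_le_mul_of_nonneg_left b1 hK)
      have c2 := (hb _ a2).trans (mul_le_mul_of_nonneg_left b2 hK)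
      have c3 := mul_le_mul_of_nonneg_left (add_le_add c1 c2) (half_pos zero_lt_one).le
      have c4 := mul_le_mul_of_nonneg_left c3 hY
      rw [← Finset.sum_add_distrib, Finset.mul_sum, Finset.mul_sum] at c4
      refine le_trans (Finset.sum_le_sum fun q hq => ?_) (c4.trans_eq (by ring))
      rw [PLb_S1 (hX.de _ _), PLb_S2 (hX.de _ _), norm_mul, norm_mul, norm_conj, norm_real,
        Real.norm_of_nonneg (Real.sqrt_nonneg _), mul_assoc]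
      refine mul_le_mul_of_nonneg_left ?_ hY
      rw [mul_mul_mul_comm, Real.mul_self_sqrt (PLb_w hX0 hN _ _)]
      exact PLb_amgm (PLb_w hX0 hN _ _) _ _)
  refine le_trans (le_of_eq (Finset.sum_congr rfl fun q hq => ?_)) (key.trans_eq (by ring))
  have hw := PLb_w hX0 hN q.2.1 q.2.2.1
  rw [PLb_norm hw, bil, Finset.mul_sum]
  refine congrArg _ (Finset.sum_congr rfl fun c hc => ?_)
  rw [Finset.mul_sum]
  refine Finset.sum_congr rfl fun c' hc' => ?_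
  have h1 := cnt_coe_ne (Finset.mem_filter.1 hc).2.ne_zero
  have h2 := cnt_coe_ne (Finset.mem_filter.1 hc').2.ne_zero
  have h3 := cnt_coe_ne (hy q hq).1
  rw [mul_mul_mul_comm ((√(N * Ns q.2.1 / (X.sz * Ns q.2.2.1)) : ℝ) : ℂ), ← ofReal_mul,
    Real.mul_self_sqrt hw, PLb_sm (fun w => div_pos (em_sq_pos w h1) ((hX.de _ _).2 w))
      (fun w => div_pos (em_sq_pos w h2) ((hX.de _ _).2 w))
      fun w => div_pos (em_sq_pos w h3) ((hX.du hN1 _ _).2 w)]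
  exact (mul_assoc _ _ _).symm

theorem PLb_dual {χ : P → E → ℂ} (hc : Ch χ) (h6 : Six χ) (β : Finset P → ℂ) (a : FF)
    (d f e : Finset P) (u : Eˣ) (m : E) : dual χ β a d f e (u ^ 6 * m) = dual χ β a d f e m := by
  funext c
  simp only [dual, xs_unit_six hc h6]

theorem PLb_M0 {X N : ℝ} (hX : 0 < X) (hN : 1 ≤ N) {d f : Finset P} (hf : f ⊆ d) :
    0 ≤ M0 X N d f ∧ M0 X N d f ≤ X ^ 2 := by
  have g1 := Ns_mono hf
  have g2 := one_le_Ns d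
  have g3 := Ns_pos f
  unfold M0
  refine ⟨by positivity, ?_⟩
  rw [div_pow, div_mul_eq_mul_div, div_div, div_le_iff₀ (by positivity)]
  refine mul_le_mul_of_nonneg_left ?_ (sq_nonneg X)
  nlinarith [mul_le_mul_of_nonneg_left hN (sq_nonneg (Ns d))]

theorem PLb_box {χ : P → E → ℂ} (hc : Ch χ) (h6 : Six χ) {ε : ℝ} (hε : 0 < ε) :
    ∃ (C : ℝ) (j0 : ℕ), 0 < C ∧ ∀ (β : Finset P → ℂ) (X : Sc) (N N1 : ℝ) (j : Pl → ℕ)
      (s : Pl → ℂ) (d f e : Finset P), X.OK → 1 ≤ X.sz → 1 ≤ N → 0 < N1 → N ≤ N1 ^ rk → f ⊆ d →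
      ∑ m ∈ box (X.du N1 d f).a (fun w => 2 ^ j w * (X.du N1 d f).T w),
          ‖S (dual χ β (X.de d e).a d f e m) (X.de d e) s‖ ^ 2
        ≤ C * 2 ^ (∑ w, j w) * X.sz ^ ε * ∑ m ∈ ball (2 ^ (∑ w, j w + j0) * M0 X.sz N d f),
          ‖S (dual χ β (X.de d e).a d f e m) (X.de d e) s‖ ^ 2 := by
  obtain ⟨η, hη0, hη1, hηε⟩ : ∃ η : ℝ, 0 < η ∧ η ≤ 1 ∧ 2 * η ≤ ε :=
    ⟨min 1 (ε / 2), lt_min one_pos (half_pos hε), min_le_left _ _,
      by linarith [min_le_right 1 (ε / 2)]⟩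
  obtain ⟨C, hC, h⟩ := sum_box_le_ball hη0
  obtain ⟨j0, hj0⟩ := pow_unbounded_of_one_lt (sS del)⁻¹ one_lt_two
  refine ⟨C * 2 ^ j0, j0, by positivity, fun β X N N1 j s d f e hX hX1 hN hN1 hNN hf => ?_⟩
  have hD := hX.du hN1 d f
  have hX0 := hX.sz_pos
  obtain ⟨hM0, hM⟩ := PLb_M0 hX0 hN hf
  have hdel := sS_pos del
  refine (h _ _ (2 ^ (∑ w, j w + j0) * M0 X.sz N d f) _ hD.1
    (fun w => mul_pos (by positivity) (hD.2 w)) ?_ (fun _ => sq_nonneg _)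
    fun u m => by rw [PLb_dual hc h6]).trans ?_
  · rw [Finset.prod_mul_distrib, Finset.prod_pow_eq_pow_sum, mul_left_comm, pow_add, mul_assoc]
    refine mul_le_mul_of_nonneg_left ((hX.sz_du hN1 d f).trans_le ?_) (by positivity)
    have := Ns_pos f
    rw [← div_div, div_eq_mul_inv _ (sS del), mul_comm]
    exact mul_le_mul hj0.le (div_le_div_of_nonneg_left (by positivity) (by linarith) hNN)
      (by positivity) (by positivity)
  · refine mul_le_mul_of_nonneg_right ?_ (Finset.sum_nonneg fun _ _ => sq_nonneg _)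
    rw [mul_assoc C, mul_assoc C, ← pow_add, add_comm j0]
    refine mul_le_mul_of_nonneg_left ?_ hC.le
    rw [Real.mul_rpow (by positivity) hM0]
    refine mul_le_mul (Real.rpow_le_self_of_one_le (one_le_pow₀ one_le_two) hη1)
      ((Real.rpow_le_rpow hM0 hM hη0.le).trans ?_) (by positivity) (by positivity)
    rw [← Real.rpow_natCast, ← Real.rpow_mul hX0.le]
    exact Real.rpow_le_rpow_of_exponent_le hX1 (by push_cast; linarith)

theorem PLb_fin (h : SepW) {χ : P → E → ℂ} (hc : Ch χ) (h6 : Six χ) {ε : ℝ} (hε : 0 < ε) (B : ℕ) :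
    ∃ C : ℝ, 0 < C ∧ ∀ (ι : Type) (J : Finset ι) (β : ι → Finset P → ℂ) (X : Sc)
      (N N1 K : ℝ) (τ : Pl → ℝ) (T : Finset P → Finset P → Finset E), X.OK → 1 ≤ X.sz → 1 ≤ N →
      0 < N1 → N ≤ N1 ^ rk → 0 ≤ K →
      (∀ (j : ℕ) (s : Pl → ℂ), (∀ w, |(s w).re| ≤ 3) → ∑ i ∈ J, PSum X.sz N (fun d f e =>
        ∑ m ∈ ball (2 ^ j * M0 X.sz N d f),
          ‖S (dual χ (β i) (X.de d e).a d f e m) (X.de d e) s‖ ^ 2) ≤ K * 6 ^ j * Tb s ^ B) →
      (∀ d f, ∀ m ∈ T d f, m ≠ 0 ∧ m / (X.du N1 d f).a ∈ OS) →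
      ∑ i ∈ J, PSum X.sz N (fun d f e => ∑ m ∈ T d f, ‖bil χ (β i) d f e m X N1 (iT τ)‖)
        ≤ C * (X.sz ^ ε * K * Tb (iT τ) ^ B) := by
  obtain ⟨C1, hC1, h1⟩ := PLb_block h χ B
  obtain ⟨C2, j0, hC2, h2⟩ := PLb_box hc h6 hε
  obtain ⟨C3, hC3, h3⟩ := PLb_Vg
  refine ⟨C1 * C3 ^ rk * C2 * 6 ^ j0 * 4 ^ rk, by positivity,
    fun ι J β X N N1 K τ T hX hX1 hN hN1 hNN hK hb hT => ?_⟩
  have hX0 := hX.sz_pos
  have hN0 : 0 < N := by linarith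
  have hτ := one_le_Tb (iT τ)
  choose blk hblk using fun q : PLbIx ι => exists_blk (fun w => ‖em w q.2.2.2.2‖ ^ 2)
    (X.du N1 q.2.1 q.2.2.1).T (hX.du hN1 _ _).2
  rw [PLb_sum, ← Finset.sum_fiberwise_of_maps_to (t := (PLbI J X.sz T).image blk) (g := blk)
    fun q hq => Finset.mem_image_of_mem _ hq]
  refine (Finset.sum_le_sum (g := fun j => C1 * C3 ^ rk * C2 * 6 ^ j0 *
    (X.sz ^ ε * K * Tb (iT τ) ^ B) * (3 / 4) ^ (∑ w, j w)) fun j _ => ?_).trans ?_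
  · refine (h1 ι _ β X N N1 (C2 * 2 ^ (∑ w, j w) * X.sz ^ ε * (K * 6 ^ (∑ w, j w + j0)))
      (C3 ^ rk * (1 / 16) ^ (∑ w, j w)) τ hX hN0 hN1 (by positivity) (by positivity)
      (fun s hs => ?_) fun q hq => ?_).trans_eq ?_
    · refine (Finset.sum_le_sum_of_subset_of_nonneg (t := PLbI J X.sz fun d f =>
        box (X.du N1 d f).a fun w => 2 ^ j w * (X.du N1 d f).T w) (fun q hq => ?_)
        fun q _ _ => mul_nonneg (PLb_w hX0 hN0 _ _) (sq_nonneg _)).trans ?_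
      · obtain ⟨g1, rfl⟩ := Finset.mem_filter.1 hq
        obtain ⟨g2, g3⟩ := PLb_mem g1
        exact g3 _ ((mem_box (hX.du hN1 _ _).1).2
          ⟨(hT _ _ _ g2).1, (hT _ _ _ g2).2, fun w => (hblk q w).1⟩)
      · rw [← PLb_sum J X.sz N _ fun i d f e m =>
          ‖S (dual χ (β i) (X.de d e).a d f e m) (X.de d e) s‖ ^ 2]
        refine (Finset.sum_le_sum fun i _ => PLb_mono hX0 hN0 fun d f e hf =>
          h2 (β i) X N N1 j s d f e hX hX1 hN hN1 hNN hf).trans ?_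
        rw [← Finset.mul_sum, mul_assoc _ (K * _)]
        exact mul_le_mul_of_nonneg_left (hb _ s hs) (by positivity)
    · obtain ⟨g1, rfl⟩ := Finset.mem_filter.1 hq
      have g2 := (hT _ _ _ (PLb_mem g1).1).1
      refine ⟨g2, fun u hu => ?_⟩
      rw [← prod_const_Pl, ← Finset.prod_pow_eq_pow_sum, ← Finset.prod_mul_distrib]
      exact Finset.prod_le_prod (fun w _ => (PLb_Vg_pos _).le) fun w _ =>
        h3 _ _ _ _ (em_sq_pos w (cnt_coe_ne g2)) ((hX.du hN1 _ _).2 w) (hu w) (hblk q w).2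
    · have e1 : (3 / 4 : ℝ) ^ (∑ w, j w)
          = (1 / 16) ^ (∑ w, j w) * 2 ^ (∑ w, j w) * 6 ^ (∑ w, j w) := by
        rw [← mul_pow, ← mul_pow]
        norm_num
      rw [e1, pow_add]
      ring
  · rw [← Finset.mul_sum]
    refine (mul_le_mul_of_nonneg_left (sum_geom_pi (by norm_num) (by norm_num) _)
      (by positivity)).trans_eq ?_
    norm_num
    ring

theorem pL (h : SepW) {χ : P → E → ℂ} (hc : Ch χ) (h6 : Six χ) (h1 : PLa χ) : PL χ := by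
  intro ε B hε
  obtain ⟨C1, K1, hC1, hK1, h1⟩ := h1
  obtain ⟨C2, hC2, h2⟩ := PLb_fin h hc h6 hε B
  refine ⟨C1 * (1 + C2), by positivity, fun ι J β X N K τ hX hX1 hN hβ hK => ?_⟩
  have hX0 := hX.sz_pos
  have hN0 : 0 < N := by linarith
  have hτ := one_le_Tb (iT τ)
  have hK0 : 0 ≤ K := by
    have g1 := (Finset.sum_nonneg fun i _ => PLb_nonneg hX0 hN0 fun d f e =>
      Finset.sum_nonneg fun m _ => sq_nonneg _).trans (hK 0 0 (by simp))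
    rw [pow_zero, mul_one] at g1
    exact nonneg_of_mul_nonneg_left g1 (pow_pos (zero_lt_one.trans_le (one_le_Tb _)) _)
  have hN1 : 0 < K1 * N ^ (1 / rk : ℝ) := by positivity
  have hNN : N ≤ (K1 * N ^ (1 / rk : ℝ)) ^ rk := by
    rw [mul_pow, rpow_rk hN0.le]
    exact le_mul_of_one_le_left hN0.le (one_le_pow₀ hK1)
  generalize hN2 : K1 * N ^ (1 / rk : ℝ) = N1 at hN1 hNN
  have h3 := fun i hi => h1 (β i) X N τ hX hX1 hN (hβ i hi)
  rw [hN2] at h3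
  have hT : Tendsto (fun s : Finset E => ∑ i ∈ J, PSum X.sz N (fun d f e =>
      ∑ m ∈ s, if m ≠ 0 ∧ m / (X.du N1 d f).a ∈ OS then ‖bil χ (β i) d f e m X N1 (iT τ)‖ else 0))
      atTop (𝓝 (∑ i ∈ J, PSum X.sz N fun d f e => ∑' m : E,
        if m ≠ 0 ∧ m / (X.du N1 d f).a ∈ OS then ‖bil χ (β i) d f e m X N1 (iT τ)‖ else 0)) :=
    tendsto_finsetSum _ fun i hi => tendsto_finsetSum _ fun d _ => tendsto_finsetSum _ fun f _ =>
      tendsto_finsetSum _ fun e _ => Tendsto.const_mul _ ((h3 i hi).1 d f e).hasSum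
  have h4 := le_of_tendsto' hT (b := C2 * (X.sz ^ ε * K * Tb (iT τ) ^ B)) fun s => by
    simp only [← Finset.sum_filter]
    exact h2 ι J β X N N1 K τ _ hX hX1 hN hN1 hNN hK0 hK fun d f m hm =>
      (Finset.mem_filter.1 hm).2
  refine (Finset.sum_le_sum fun i hi => (h3 i hi).2).trans ?_
  rw [← Finset.mul_sum, Finset.sum_add_distrib, Finset.sum_const, nsmul_eq_mul, mul_assoc C1]
  refine mul_le_mul_of_nonneg_left ?_ hC1.le
  have g1 : 0 ≤ (J.card : ℝ) * N * X.sz := by positivity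
  have g2 : 0 ≤ X.sz ^ ε * K * Tb (iT τ) ^ B := by positivity
  nlinarith [mul_nonneg hC2.le g1]

end NQ
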