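import Vale.Agent.NQ.Phi1
noncomputable section
namespace NQ
open Complex MeasureTheory NumberField Filter
open scoped ComplexConjugate Classical ContDiff Topology
variable [σ : St]
theorem p2_le {p : P} {a b c u w : E} (hc : c ≠ 0) {k : ℕ} (ha : p.1 ^ k ∣ a) (hb : p.1 ^ k ∣ b)
    (h : c = u * a + w * b) : k ≤ vp p.1 c :=
  (pow_dvd_iff p.2.1 hc k).1 (h ▸ (ha.mul_left u).add (hb.mul_left w))
theorem p2_succ {p : P} {κ d : E} {k : ℕ} (hκ : p.1 ∣ κ) (hd : p.1 ^ k ∣ d) :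
    p.1 ^ (k + 1) ∣ κ * d := by
  rw [pow_succ']
  exact mul_dvd_mul hκ hd
theorem p2_unit {p : P} {α β κ η : E} (hdet : α * η - β * κ = 1) (hκ : p.1 ∣ κ) : ¬ p.1 ∣ α :=
  fun h => p.not_dvd_unit isUnit_one (((h.mul_right η).sub (hκ.mul_left β)).trans hdet.dvd)
theorem p2_ia (p : P) {α β κ η c d c1 d1 : E} (x : E) (hdet : α * η - β * κ = 1) (hκ : κ ≠ 0)
    (hc : c ≠ 0) (hc1 : c1 ≠ 0) (e1 : c1 = α * c + κ * d) (e2 : d1 = β * c + η * d)
    (hA : p.1 ^ vp p.1 c ∣ d) (hB : p.1 ^ vp p.1 c1 ∣ d1) :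
    phip p c d x = c3 p α ^ vp p.1 κ * hs p c c1 * hs p κ c * hs p c1 κ
      * psq p.1 (x ^ 3 * κ) (c * c1) * phip p c1 d1 x := by
  have e3 : c = η * c1 + -κ * d1 := by rw [e1, e2]; linear_combination (-c) * hdet
  have hv : vp p.1 c = vp p.1 c1 := le_antisymm (p2_le hc1 (ph_pow_vp_dvd _ _) hA e1)
    (p2_le hc (ph_pow_vp_dvd _ _) hB e3)
  rw [phip_of_dvd hA, phip_of_dvd hB, Tp_change hc1 hc hv]
  by_cases h3 : Tp p c1 x = 0
  · simp [h3]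
  rw [psq_of_dvd (by
    rw [vp_mul p.2.1 hc hc1, hv, ← two_mul]
    exact (Tp_supp h3).mul_right _)]
  have key : c3 p α ^ vp p.1 κ * hs p κ c * hs p c1 κ = 1 := by
    by_cases hk : p.1 ∣ κ
    · have hα := p2_unit hdet hk
      have hα0 := ph_ne_zero hα
      have h1 : p.1 ^ (vp p.1 (α * c) + 1) ∣ c1 - α * c := by
        rw [ph_vp_unit_mul hα hc, e1, add_sub_cancel_left]
        exact p2_succ hk hA
      rw [hs_congr_left p (mul_ne_zero hα0 hc) h1, hs_mul_left p hα0 hc hκ, hs_unit_left hα]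
      have h2 := hs_mul_swap p hκ hc
      have h4 : c3 p α ^ vp p.1 κ * conj (c3 p α) ^ vp p.1 κ = 1 := by
        rw [← mul_pow, (c3_mc p).mul_conj hα, one_pow]
      linear_combination (c3 p α ^ vp p.1 κ * conj (c3 p α) ^ vp p.1 κ) * h2 + h4
    · rw [vp_of_not_dvd hk, pow_zero, one_mul, hs_unit_left hk, hs_unit_right hk, hv, ← mul_pow,
        mul_comm, (c3_mc p).mul_conj hk, one_pow]
  linear_combination (-(hs p c c1 * Tp p c1 x)) * key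
theorem p2_ib (p : P) {α β κ η c d c1 d1 : E} (x : E) (hdet : α * η - β * κ = 1) (hκ : κ ≠ 0)
    (hc : c ≠ 0) (hc1 : c1 ≠ 0) (e1 : c1 = α * c + κ * d) (e2 : d1 = β * c + η * d)
    (hA : ¬ p.1 ^ vp p.1 c ∣ d) (hB : p.1 ^ vp p.1 c1 ∣ d1) :
    phip p c d x = c3 p α ^ vp p.1 κ * hs p c c1 * hs p κ c * hs p c1 κ
      * psq p.1 (x ^ 3 * κ) (c * c1) * phip p c1 d1 x := by
  obtain ⟨hd, hlt⟩ := ph_lt hA
  have e4 : d = -β * c1 + α * d1 := by rw [e1, e2]; linear_combination (-d) * hdet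
  have hcd : p.1 ^ (vp p.1 d + 1) ∣ c := (pow_dvd_iff p.2.1 hc _).2 hlt
  have hv : vp p.1 c1 = vp p.1 d := le_antisymm (p2_le hd (ph_pow_vp_dvd _ _) hB e4)
    (p2_le hc1 ((pow_dvd_pow _ (Nat.le_succ _)).trans hcd) (ph_pow_vp_dvd _ _) e1)
  have hk : ¬ p.1 ∣ κ := fun hk => by
    have := (pow_dvd_iff p.2.1 hc1 _).1
      (e1 ▸ (hcd.mul_left α).add (p2_succ hk (ph_pow_vp_dvd p.1 d)))
    omega
  have hκd := mul_ne_zero hκ hd
  have h1 : p.1 ^ (vp p.1 (κ * d) + 1) ∣ c1 - κ * d := by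
    rw [ph_vp_unit_mul hk hd, e1, add_sub_cancel_right]
    exact hcd.mul_left α
  rw [phip_of_le hc hd hlt.le, phip_of_dvd hB, Tp_change hd hc1 hv, hs_congr_right p hκd h1,
    hs_congr_left p hκd h1, hs_congr_left p hκd h1, hs_mul_right p hc hκ hd,
    hs_mul_left p hκ hd hκ, hs_mul_left p hκ hd hd, hs_self p hκ, hs_self p hd, vp_of_not_dvd hk]
  by_cases h3 : Tp p d x = 0
  · simp [h3]
  have h4 : psq p.1 (x ^ 3 * κ) (c * c1) = psq p.1 (x ^ 3) (c * d) := by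
    refine psq_eq_of p.2.1 (mul_ne_zero hc hc1) (mul_ne_zero hc hd) ?_
    rw [vp_mul p.2.1 hc hc1, vp_mul p.2.1 hc hd, hv]
    have b1 := mul_dvd_mul (mul_dvd_mul (Tp_supp h3) (ph_pow_vp_dvd p.1 c)) (ph_pow_vp_dvd p.1 c)
    have e5 : x ^ 3 * κ * (c * d) - x ^ 3 * (c * c1) = -α * (x ^ 3 * c * c) := by rw [e1]; ring
    have e6 : p.1 ^ (vp p.1 c + vp p.1 d + (vp p.1 c + vp p.1 d)) =
        p.1 ^ (2 * vp p.1 d) * p.1 ^ vp p.1 c * p.1 ^ vp p.1 c := by ring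
    rw [e5, e6]
    exact b1.mul_left _
  rw [h4]
  have h5 := hs_mul_swap p hc hκ
  have h6 := hs_mul_swap p hd hκ
  linear_combination (-(hs p c d * psq p.1 (x ^ 3) (c * d) * Tp p d x)) *
    (hs p d κ * hs p κ d * h5 + h6)
theorem p2_iia (p : P) {α β κ η c d c1 d1 : E} (x : E) (hdet : α * η - β * κ = 1) (hκ : κ ≠ 0)
    (hc : c ≠ 0) (hc1 : c1 ≠ 0) (e1 : c1 = α * c + κ * d) (e2 : d1 = β * c + η * d)
    (hA : p.1 ^ vp p.1 c ∣ d) (hB : ¬ p.1 ^ vp p.1 c1 ∣ d1) :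
    phip p c d x = c3 p α ^ vp p.1 κ * hs p c c1 * hs p κ c * hs p c1 κ
      * psq p.1 (x ^ 3 * κ) (c * c1) * phip p c1 d1 x := by
  obtain ⟨hd, hlt⟩ := ph_lt hB
  have e3 : c = η * c1 + -κ * d1 := by rw [e1, e2]; linear_combination (-c) * hdet
  have hcd : p.1 ^ (vp p.1 d1 + 1) ∣ c1 := (pow_dvd_iff p.2.1 hc1 _).2 hlt
  have hv : vp p.1 c = vp p.1 d1 := le_antisymm (p2_le hd (ph_pow_vp_dvd _ _) hA e2)
    (p2_le hc ((pow_dvd_pow _ (Nat.le_succ _)).trans hcd) (ph_pow_vp_dvd _ _) e3)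
  have hk : ¬ p.1 ∣ κ := fun hk => by
    have := (pow_dvd_iff p.2.1 hc _).1
      (e3 ▸ (hcd.mul_left η).add (p2_succ (dvd_neg.2 hk) (ph_pow_vp_dvd p.1 d1)))
    omega
  have hk' : ¬ p.1 ∣ -κ := fun h => hk (dvd_neg.1 h)
  have hκ' := neg_ne_zero.2 hκ
  have hκd := mul_ne_zero hκ' hd
  have h1 : p.1 ^ (vp p.1 (-κ * d1) + 1) ∣ c - -κ * d1 := by
    rw [ph_vp_unit_mul hk' hd, e3, add_sub_cancel_right]
    exact hcd.mul_left η
  rw [phip_of_le hc1 hd hlt.le, phip_of_dvd hA, Tp_change hd hc hv, hs_congr_right p hκd h1,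
    hs_congr_left p hκd h1, hs_congr_left p hκd h1, hs_mul_right p hκ hκ' hd,
    hs_mul_left p hκ' hd hc1, hs_mul_left p hκ' hd hd, hs_neg_right p hκ, hs_neg_left p hκ,
    hs_neg_left p hκ, hs_self p hκ, hs_self p hd, vp_of_not_dvd hk]
  by_cases h3 : Tp p d1 x = 0
  · simp [h3]
  have h4 : psq p.1 (x ^ 3 * κ) (c * c1) = conj (psq p.1 (x ^ 3) (c1 * d1)) := by
    rw [← psq_neg]
    refine psq_eq_of p.2.1 (mul_ne_zero hc hc1) (mul_ne_zero hc1 hd) ?_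
    rw [vp_mul p.2.1 hc hc1, vp_mul p.2.1 hc1 hd, hv]
    have b1 := mul_dvd_mul (mul_dvd_mul (Tp_supp h3) (ph_pow_vp_dvd p.1 c1)) (ph_pow_vp_dvd p.1 c1)
    have e5 : x ^ 3 * κ * (c1 * d1) - -x ^ 3 * (c * c1) = η * (x ^ 3 * c1 * c1) := by
      linear_combination (x ^ 3 * c1) * e3
    have e6 : p.1 ^ (vp p.1 d1 + vp p.1 c1 + (vp p.1 c1 + vp p.1 d1)) =
        p.1 ^ (2 * vp p.1 d1) * p.1 ^ vp p.1 c1 * p.1 ^ vp p.1 c1 := by ring
    rw [e5, e6]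
    exact b1.mul_left _
  rw [h4]
  have h5 := hs_mul_swap p hκ hc1
  have h6 := hs_mul_swap p hd hc1
  have h7 := psq_mul_conj p.1 (x ^ 3) (c1 * d1)
  linear_combination (-(hs p κ d1 * Tp p d1 x)) *
    (hs p d1 c1 * hs p c1 d1 * (psq p.1 (x ^ 3) (c1 * d1) * conj (psq p.1 (x ^ 3) (c1 * d1))) * h5 +
      (psq p.1 (x ^ 3) (c1 * d1) * conj (psq p.1 (x ^ 3) (c1 * d1))) * h6 + h7)
theorem p2_iib (p : P) {α β κ η c d c1 d1 : E} (x : E) (hdet : α * η - β * κ = 1) (hκ : κ ≠ 0)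
    (hc : c ≠ 0) (hc1 : c1 ≠ 0) (e1 : c1 = α * c + κ * d) (e2 : d1 = β * c + η * d)
    (hA : ¬ p.1 ^ vp p.1 c ∣ d) (hB : ¬ p.1 ^ vp p.1 c1 ∣ d1) :
    phip p c d x = c3 p α ^ vp p.1 κ * hs p c c1 * hs p κ c * hs p c1 κ
      * psq p.1 (x ^ 3 * κ) (c * c1) * phip p c1 d1 x := by
  obtain ⟨hd, hlt⟩ := ph_lt hA
  obtain ⟨hd1, hlt1⟩ := ph_lt hB
  have e3 : c = η * c1 + -κ * d1 := by rw [e1, e2]; linear_combination (-c) * hdet
  have e4 : d = -β * c1 + α * d1 := by rw [e1, e2]; linear_combination (-d) * hdet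
  have hcd : p.1 ^ (vp p.1 d + 1) ∣ c := (pow_dvd_iff p.2.1 hc _).2 hlt
  have hcd1 : p.1 ^ (vp p.1 d1 + 1) ∣ c1 := (pow_dvd_iff p.2.1 hc1 _).2 hlt1
  have hv : vp p.1 d = vp p.1 d1 := le_antisymm
    (p2_le hd1 ((pow_dvd_pow _ (Nat.le_succ _)).trans hcd) (ph_pow_vp_dvd _ _) e2)
    (p2_le hd ((pow_dvd_pow _ (Nat.le_succ _)).trans hcd1) (ph_pow_vp_dvd _ _) e4)
  have hk : p.1 ∣ κ := by
    by_contra hk
    have h1 : p.1 ^ (vp p.1 d + 1) ∣ κ * d := by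
      have e : κ * d = c1 - α * c := by rw [e1]; ring
      rw [e]
      exact (hv ▸ hcd1).sub (hcd.mul_left α)
    have := (pow_dvd_iff p.2.1 (mul_ne_zero hκ hd) _).1 h1
    rw [ph_vp_unit_mul hk hd] at this
    omega
  have hα := p2_unit hdet hk
  have hα0 := ph_ne_zero hα
  have hαd := mul_ne_zero hα0 hd1
  have h1 : p.1 ^ (vp p.1 (α * d1) + 1) ∣ d - α * d1 := by
    rw [ph_vp_unit_mul hα hd1, e4, add_sub_cancel_right]
    exact hcd1.mul_left _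
  have hst := hs_stein p (mul_ne_zero hα0 hc) (mul_ne_zero hκ hd) hc1 e1.symm
  have a1 : hs p α d = hs p α d1 := by rw [hs_unit_left hα, hs_unit_left hα, hv]
  rw [hs_mul_left p hα0 hc (mul_ne_zero hκ hd), hs_mul_right p hα0 hκ hd, hs_mul_right p hc hκ hd,
    hs_mul_left p hκ hd hc1, hs_mul_right p hc1 hα0 hc, hs_congr_left p hαd h1 c1,
    hs_mul_left p hα0 hd1 hc1, a1, hs_unit_left hα κ] at hst
  rw [phip_of_le hc hd hlt.le, phip_of_le hc1 hd1 hlt1.le, Tp_change hd1 hd hv,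
    hs_congr_left p hαd h1 d1, hs_mul_left p hα0 hd1 hd1, hs_self p hd1]
  by_cases h3 : Tp p d1 x = 0
  · simp [h3]
  have h4 : psq p.1 (x ^ 3) (c * d) = psq p.1 (x ^ 3 * κ) (c * c1) * psq p.1 (x ^ 3) (c1 * d1) := by
    rw [← psq_frac p.2.1 (mul_ne_zero hc hc1) (mul_ne_zero hc1 hd1)]
    refine psq_eq_of p.2.1 (mul_ne_zero hc hd)
      (mul_ne_zero (mul_ne_zero hc hc1) (mul_ne_zero hc1 hd1)) ?_
    rw [vp_mul p.2.1 (mul_ne_zero hc hc1) (mul_ne_zero hc1 hd1), vp_mul p.2.1 hc hc1,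
      vp_mul p.2.1 hc1 hd1, vp_mul p.2.1 hc hd, hv]
    have b1 := mul_dvd_mul (mul_dvd_mul (Tp_supp h3)
      (mul_dvd_mul (ph_pow_vp_dvd p.1 c) (ph_pow_vp_dvd p.1 c)))
      (mul_dvd_mul (ph_pow_vp_dvd p.1 c1) (ph_pow_vp_dvd p.1 c1))
    have e5 : x ^ 3 * (c * c1 * (c1 * d1)) - (x ^ 3 * κ * (c1 * d1) + x ^ 3 * (c * c1)) * (c * d) =
        β * (x ^ 3 * (c * c) * (c1 * c1)) := by
      linear_combination (-(x ^ 3 * c1 * c * d)) * e3 + (x ^ 3 * c * c1 * c1) * e2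
    have e6 : p.1 ^ (vp p.1 c + vp p.1 d1 + (vp p.1 c + vp p.1 c1 + (vp p.1 c1 + vp p.1 d1))) =
        p.1 ^ (2 * vp p.1 d1) * (p.1 ^ vp p.1 c * p.1 ^ vp p.1 c) *
          (p.1 ^ vp p.1 c1 * p.1 ^ vp p.1 c1) := by ring
    rw [e5, e6]
    exact b1.mul_left _
  have h5 : c3 p α ^ vp p.1 κ * conj (c3 p α) ^ vp p.1 κ = 1 := by
    rw [← mul_pow, (c3_mc p).mul_conj hα, one_pow]
  have h6 := hs_mul_swap p hκ hc
  have h7 := hs_mul_swap p hc1 hκ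
  have h8 := hs_mul_swap p hc1 hd1
  have h9 := hs_mul_swap p hc hc1
  have h10 := hs_mul_swap p hα0 hc1
  have key : hs p c d * hs p α d1 =
      c3 p α ^ vp p.1 κ * hs p c c1 * hs p κ c * hs p c1 κ * hs p c1 d1 := by
    have h11 : (c3 p α ^ vp p.1 κ * conj (c3 p α) ^ vp p.1 κ) * (hs p κ c * hs p c κ) *
        (hs p c1 κ * hs p κ c1) * (hs p c1 d1 * hs p d1 c1) * (hs p c c1 * hs p c1 c) *
        (hs p α c1 * hs p c1 α) = 1 := by
      rw [h5, h6, h7, h8, h9, h10]; norm_num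
    linear_combination (c3 p α ^ vp p.1 κ * hs p c c1 * hs p κ c * hs p c1 κ * hs p c1 d1) * hst -
      (hs p c d * hs p α d1) * h11
  rw [h4]
  linear_combination (psq p.1 (x ^ 3 * κ) (c * c1) * psq p.1 (x ^ 3) (c1 * d1) * Tp p d1 x) * key
theorem phip_eqv (p : P) {α β κ η c d : E} (x : E) (hdet : α * η - β * κ = 1) (hκ : κ ≠ 0)
    (hc : c ≠ 0) (hc1 : α * c + κ * d ≠ 0) :
    phip p c d x = c3 p α ^ vp p.1 κ * hs p c (α * c + κ * d) * hs p κ c * hs p (α * c + κ * d) κ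
      * psq p.1 (x ^ 3 * κ) (c * (α * c + κ * d)) * phip p (α * c + κ * d) (β * c + η * d) x := by
  by_cases hA : p.1 ^ vp p.1 c ∣ d <;>
    by_cases hB : p.1 ^ vp p.1 (α * c + κ * d) ∣ β * c + η * d
  · exact p2_ia p x hdet hκ hc hc1 rfl rfl hA hB
  · exact p2_iia p x hdet hκ hc hc1 rfl rfl hA hB
  · exact p2_ib p x hdet hκ hc hc1 rfl rfl hA hB
  · exact p2_iib p x hdet hκ hc hc1 rfl rfl hA hB
theorem eqv : Eqv := by
  intro α β κ η c d x hdet hκ hc hc1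
  have h0 : c * (α * c + κ * d) * κ ≠ 0 := mul_ne_zero (mul_ne_zero hc hc1) hκ
  have m1 : ∀ a b : E, c * (α * c + κ * d) * κ = a * b →
      fac a ⊆ fac (c * (α * c + κ * d) * κ) := fun a b h => fac_mono h0 ⟨b, h⟩
  rw [phig_eq_prod hc (m1 _ ((α * c + κ * d) * κ) (by ring)),
    xv_eq_prod hκ (m1 _ (c * (α * c + κ * d)) (by ring)), H_eq_prod hc hc1 (m1 _ κ rfl),
    H_eq_prod hκ hc (m1 _ (α * c + κ * d) (by ring)), H_eq_prod hc1 hκ (m1 _ c (by ring)),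
    psf_eq_prod (mul_ne_zero hc hc1) (m1 _ κ rfl), phig_eq_prod hc1 (m1 _ (c * κ) (by ring))]
  simp only [← Finset.prod_mul_distrib]
  exact Finset.prod_congr rfl fun p _ => phip_eqv p x hdet hκ hc hc1
theorem asw : Asw := by
  intro c d x hc hd
  have h := eqv 0 (-1) 1 0 c d x (by ring) one_ne_zero hc (by simpa using hd)
  simp only [zero_mul, one_mul, zero_add, add_zero, mul_one, neg_mul, xv_unit isUnit_one,
    H_one_left hc, H_one_right hd] at h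
  exact h
theorem glS (h : LocS) : GlS := by
  intro c δ ξ hc
  have hass : Associated c (∏ p ∈ fac c, p.1 ^ vp p.1 c) := assoc_pm hc
  have h1 := rsum2_crt_prod (fac c) (fun p => p.1 ^ vp p.1 c) (fun p _ => pow_ne_zero _ p.ne_zero)
    (fun p _ q _ hpq => (P.coprime hpq).pow)
    (fun p y x => phip p c y x * psq p.1 (y * δ + 3 * x * ξ) c) fun p _ =>
      (phip_per p hc).mul fun y y' x x' hy hx => psq_congr (by
        have e : y * δ + 3 * x * ξ - (y' * δ + 3 * x' * ξ) = (y - y') * δ + 3 * ξ * (x - x') := by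
          ring
        rw [e]
        exact (hy.mul_right _).add (hx.mul_left _))
  simp only [h _ c δ ξ hc, Finset.prod_mul_distrib] at h1
  rw [nm_eq_prod hc]
  push_cast
  rw [phig, ← h1]
  simp only [rsum2, rsum_assoc hass, phig, psf_eq_prod hc subset_rfl]

end NQ
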