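import Vale.Agent.NQ.SFt
import Vale.Agent.NQ.Rsum
import Vale.Agent.NQ.Lat

noncomputable section
namespace NQ
open Complex MeasureTheory NumberField Filter
open scoped ComplexConjugate Classical ContDiff Topology

variable [σ : St]

/-- A system of representatives of `s^(-k) OS` modulo `a OS`. -/
theorem pois_reps (k : ℕ) (a : FF) : ∃ T : Finset FF,
    (∀ t ∈ T, ∀ t' ∈ T, (t - t') / a ∈ OS → t = t') ∧
    ∀ x, ss ^ k * x ∈ OS → ∃ t ∈ T, (x - t) / a ∈ OS := by
  obtain ⟨l, hl⟩ := exists_pow_mem_OS a⁻¹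
  have hl' : ss ^ (k + l) / a ∈ OS := by
    rw [div_eq_mul_inv]; exact pow_mul_mem_OS hl (by omega)
  let R : Setoid FF :=
    ⟨fun x y => (x - y) / a ∈ OS, fun x => by simp, fun {x y} h => by
      have := OS.neg_mem h
      rwa [← neg_div, neg_sub] at this, fun {x y z} h1 h2 => by
      have := OS.add_mem h1 h2
      rwa [← add_div, sub_add_sub_cancel] at this⟩
  refine ⟨(sreps (k + l)).image fun x => (Quotient.mk R x).out, ?_, fun x hx => ?_⟩
  · intro t ht t' ht' h
    obtain ⟨x, -, rfl⟩ := Finset.mem_image.1 ht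
    obtain ⟨y, -, rfl⟩ := Finset.mem_image.1 ht'
    have h1 : Quotient.mk R (Quotient.mk R x).out = Quotient.mk R (Quotient.mk R y).out :=
      Quotient.sound h
    rw [Quotient.out_eq, Quotient.out_eq] at h1
    rw [h1]
  · obtain ⟨y, hy, h⟩ := exists_srep (pow_mul_mem_OS hx (Nat.le_add_right k l))
    refine ⟨_, Finset.mem_image_of_mem _ hy, ?_⟩
    have h1 : R x y := div_mem_OS_trans (pow_ne_zero _ ss_ne_zero) h hl'
    exact R.trans h1 (R.symm (Quotient.exact (Quotient.out_eq (Quotient.mk R y))))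

theorem pois_sumD {a : FF} (ha : a ≠ 0) :
    Summable fun ξ : FF => if Dl ξ then ∏ w, (1 + ‖em w (ξ / a)‖) ^ (-3 : ℝ) else 0 := by
  have h1 := summable_int_decay (θ := 3) (by norm_num) (fun w => (em w (ss * a))⁻¹) 0
    fun w => inv_ne_zero (em_ne_zero w (mul_ne_zero ss_ne_zero ha))
  have h2 : Function.Injective fun ξ : {ξ // Dl ξ} => (⟨ss * ξ.1, ξ.2.integral⟩ : 𝓞 FF) :=
    fun k l e => Subtype.ext
      (mul_left_cancel₀ ss_ne_zero (congrArg (fun x : 𝓞 FF => (x : FF)) e))
  rw [← (Subtype.val_injective (p := Dl)).summable_iff fun ξ hξ => if_neg fun h => hξ ⟨⟨ξ, h⟩, rfl⟩]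
  refine (h1.comp_injective h2).congr fun ξ => ?_
  simp only [Function.comp_apply, if_pos ξ.2]
  refine Finset.prod_congr rfl fun w _ => ?_
  have : (em w (ss * a))⁻¹ * em w (ss * ξ.1) = em w (ξ.1 / a) := by
    have := ss_ne_zero
    rw [← map_inv₀, ← map_mul]
    congr 1
    field_simp
  rw [← this, Pi.zero_apply, add_zero]
  rfl

theorem pois_coset {a : E} (ha : a ≠ 0) (y : E) {f : Pl → ℂ → ℂ} {M : ℝ}
    (h1 : ∀ w, Dec M (f w)) :
    Summable (fun x : E => if IsIntegral ℤ (((x : FF) - y) / a) then ∏ w, f w (em w x) else 0) ∧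
    (∑' x : E, if IsIntegral ℤ (((x : FF) - y) / a) then ∏ w, f w (em w x) else 0) =
      ∑' x : 𝓞 FF, ∏ w, f w (em w (y + a * x)) := by
  have ha' : (a : FF) ≠ 0 := by exact_mod_cast ha
  let θ : 𝓞 FF → E := fun x => y + a * toE x
  have hθ : ∀ x, (θ x : FF) = y + a * x := fun x => rfl
  have hinj : Function.Injective θ := fun x x' h => by
    have := congrArg (fun x : E => (x : FF)) h
    simp only [hθ, add_right_inj] at this
    exact RingOfIntegers.ext (mul_left_cancel₀ ha' this)
  have hr : ∀ x : E, IsIntegral ℤ (((x : FF) - y) / a) → x ∈ Set.range θ := fun x hx =>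
    ⟨⟨_, hx⟩, Subtype.ext (by
      change (y : FF) + a * ((x - y) / a) = x
      field_simp
      ring)⟩
  have he : ∀ x, (if IsIntegral ℤ (((θ x : FF) - y) / a) then ∏ w, f w (em w (θ x)) else 0) =
      ∏ w, f w (em w (y + a * x)) := fun x => by
    rw [if_pos, hθ]
    rw [hθ, add_sub_cancel_left, mul_div_cancel_left₀ _ ha']
    exact x.isIntegral_coe
  constructor
  · rw [← hinj.summable_iff fun x hx => if_neg fun h => hx (hr x h)]
    refine Summable.of_norm_bounded ((summable_int_decay (θ := 3) (by norm_num)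
      (fun w => em w a) (fun w => em w y) fun w => em_ne_zero w ha').mul_left (∏ _w : Pl, M))
      fun x => ?_
    rw [Function.comp_apply, he, norm_prod, ← Finset.prod_mul_distrib]
    refine Finset.prod_le_prod (fun w _ => norm_nonneg _) fun w _ => (h1 w _).trans_eq ?_
    rw [map_add, map_mul, add_comm (em w y)]
  · rw [← hinj.tsum_eq (fun x hx => hr x (by by_contra h; exact hx (if_neg h)))]
    exact tsum_congr he

theorem pois_psiV (x : FF) : psiV x = Psi x * psiS (-x) := by
  rw [Psi_eq_mul, psiS_neg, mul_assoc, psiS_mul_conj, mul_one]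

theorem pois_dvd {q x : E} {j : ℕ} (hq : q ≠ 0)
    (h : IsIntegral ℤ ((x : FF) / (((σ.s : E) ^ j * q : E) : FF))) : q ∣ x := by
  refine ⟨(σ.s : E) ^ j * ⟨_, mem_E_of_integral h⟩, Subtype.ext ?_⟩
  have h1 : (q : FF) ≠ 0 := by exact_mod_cast hq
  have h2 := ss_ne_zero
  simp only [Subring.coe_mul, SubmonoidClass.coe_pow, coe_s]
  field_simp

theorem pois_int {q x : E} {j : ℕ} (hq : q ≠ 0) (h1 : q ∣ x)
    (h2 : (x : FF) / (((σ.s : E) ^ j * q : E) : FF) ∈ OS) :
    IsIntegral ℤ ((x : FF) / (((σ.s : E) ^ j * q : E) : FF)) := by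
  obtain ⟨z, hz⟩ : (σ.s : E) ^ j * q ∣ x := ((isUnit_s.pow j).mul_left_dvd).2 h1
  have h3 : (((σ.s : E) ^ j * q : E) : FF) ≠ 0 := by
    exact_mod_cast mul_ne_zero (isUnit_s.pow j).ne_zero hq
  have h4 : (x : FF) / (((σ.s : E) ^ j * q : E) : FF) = z := by
    rw [div_eq_iff h3, hz, Subring.coe_mul, mul_comm]
  rw [h4] at h2 ⊢
  exact integral_of_mem h2

theorem pS1 (h : PO1) : PS1 := by
  intro q ρ k g f M hq hρ hg hf h1 h2
  obtain ⟨j, hj⟩ := exists_pow_mem_OS ((q : FF) / ss ^ k)
  obtain ⟨a, ha⟩ : ∃ a : E, a = (σ.s : E) ^ j * q := ⟨_, rfl⟩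
  have ha0 : a ≠ 0 := ha ▸ mul_ne_zero (isUnit_s.pow j).ne_zero hq
  have ha' : (a : FF) ≠ 0 := by exact_mod_cast ha0
  have hq' : (q : FF) ≠ 0 := by exact_mod_cast hq
  have hs := ss_ne_zero
  have hae : (a : FF) = ss ^ j * q := by rw [ha, Subring.coe_mul, SubmonoidClass.coe_pow, coe_s]
  have hak : (a : FF) / ss ^ k ∈ OS := by rwa [hae, mul_div_assoc]
  have hga : ∀ x y : FF, (x - y) / a ∈ OS → g x = g y :=
    fun x y hxy => hg.2 x y (div_mem_OS_trans ha' hxy hak)
  obtain ⟨T, hT1, hT2⟩ := pois_reps k (a : FF)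
  choose y hy1 hy2 using fun i : E × FF => exists_approx_E hq i.1 i.2 ha'
  have hdvd : ∀ x z : E, IsIntegral ℤ (((x : FF) - z) / a) → q ∣ x - z := fun x z hx =>
    pois_dvd (j := j) hq (by rw [← ha]; exact hx)
  -- splitting into cosets
  have hsplit : ∀ x : E, ρ x * g x * ∏ w, f w (em w x) = ∑ i ∈ reps q ×ˢ T, ρ i.1 * g i.2 *
      (if IsIntegral ℤ (((x : FF) - y i) / a) then ∏ w, f w (em w x) else 0) := by
    intro x
    have hc : ∀ i, IsIntegral ℤ (((x : FF) - y i) / a) → q ∣ x - i.1 ∧ (x - i.2) / a ∈ OS := by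
      intro i hi
      refine ⟨?_, ?_⟩
      · have := dvd_add (hdvd x _ hi) (hy1 i)
        rwa [sub_add_sub_cancel] at this
      · have := OS.add_mem (mem_OS_of_integral hi) (hy2 i)
        rwa [← add_div, sub_add_sub_cancel] at this
    by_cases hx : g x = 0
    · rw [hx, mul_zero, zero_mul]
      refine (Finset.sum_eq_zero fun i _ => ?_).symm
      split_ifs with hi
      · rw [← hga _ _ (hc i hi).2, hx, mul_zero, zero_mul]
      · rw [mul_zero]
    · obtain ⟨r, hr, hr'⟩ := exists_rep hq x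
      obtain ⟨t, ht, ht'⟩ := hT2 x (hg.1 x hx)
      rw [Finset.sum_eq_single_of_mem (r, t) (Finset.mk_mem_product hr ht), if_pos,
        hρ x r hr', hga _ _ ht']
      · have e1 := dvd_sub hr' (hy1 (r, t))
        have e2 := OS.sub_mem ht' (hy2 (r, t))
        rw [sub_sub_sub_cancel_right] at e1
        rw [← sub_div, sub_sub_sub_cancel_right] at e2
        rw [ha] at e2 ⊢
        exact pois_int hq e1 e2
      · intro i hi hne
        rw [if_neg, mul_zero]
        intro hi'
        obtain ⟨hi1, hi2⟩ := Finset.mem_product.1 hi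
        refine hne (Prod.ext (rep_unique hq hi1 hr ?_) (hT1 _ hi2 _ ht ?_))
        · have := dvd_sub hr' (hc i hi').1
          rwa [sub_sub_sub_cancel_left] at this
        · have := OS.sub_mem ht' (hc i hi').2
          rwa [← sub_div, sub_sub_sub_cancel_left] at this
  have hsum : ∀ i : E × FF, Summable fun ξ : FF =>
      if Dl ξ then psiV (y i * ξ / a) * ∏ w, ft (f w) (em w (ξ / a)) else 0 := by
    intro i
    refine Summable.of_norm_bounded ((pois_sumD ha').mul_left (∏ _w : Pl, M)) fun ξ => ?_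
    split_ifs
    · rw [norm_mul, norm_psiV, one_mul, norm_prod, ← Finset.prod_mul_distrib]
      exact Finset.prod_le_prod (fun w _ => norm_nonneg _) fun w _ => h2 w _
    · simp
  have hinj : Function.Injective fun m : E => ss ^ j * (m : FF) := fun m m' e =>
    Subtype.ext (mul_left_cancel₀ (pow_ne_zero j hs) e)
  rw [tsum_congr hsplit,
    Summable.tsum_finsetSum fun i _ => ((pois_coset ha0 (y i) h1).1.mul_left _)]
  simp only [tsum_mul_left, (pois_coset ha0 _ h1).2, h _ _ f M ha' hf h1 h2]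
  simp only [← tsum_mul_left]
  rw [← Summable.tsum_finsetSum fun i _ => ((hsum i).mul_left _).mul_left _, ← hinj.tsum_eq]
  · refine tsum_congr fun m => ?_
    have e1 : ss ^ j * (m : FF) / a = m / q := by rw [hae]; field_simp
    by_cases hD : Dl (ss ^ j * (m : FF))
    · have hd : ∀ x z : FF, (x - z) / a ∈ OS → psiS (-(x * (m / q))) = psiS (-(z * (m / q))) := by
        intro x z hxz
        refine psiS_congr_del ?_
        have := OS.neg_mem (OS.mul_mem hxz (Dl_iff.1 hD).2)
        rw [← e1]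
        refine (congrArg (· ∈ OS) ?_).mp this
        ring
      have e2 : ∀ i : E × FF, psiV (y i * (ss ^ j * (m : FF)) / a) =
          psf (i.1 * m) q * psiS (-(i.2 * (m / q))) := by
        intro i
        have e0 : psf (y i * m) q = psf (i.1 * m) q := per_psf m q _ _ (hy1 i)
        rw [mul_div_assoc, e1, pois_psiV, hd _ _ (hy2 i), ← e0, psf, Subring.coe_mul,
          mul_div_assoc]
      have e3 := sint_eq_sum (f := fun x => g x * psiS (-(x * (m / q)))) (a := 1 / ss ^ k)
        (b := a) (one_div_ne_zero (pow_ne_zero k hs)) ha'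
        (fun x hx => by
          rw [div_div_eq_mul_div, div_one, mul_comm]
          exact hg.1 x (left_ne_zero_of_mul hx))
        (fun x z hxz => by rw [hga x z hxz, hd x z hxz]) T id hT1
        (fun x hx => hT2 x (by rwa [div_div_eq_mul_div, div_one, mul_comm] at hx))
      have e4 : (nm q : ℝ) = Ninf a * sS a := by
        rw [← nm_eq ha0, ha, nm_assoc (associated_unit_mul_left q _ (isUnit_s.pow j))]
      have e5 : ((nm q : ℝ) : ℂ) = (Ninf a : ℂ) * sS a := by rw [e4, Complex.ofReal_mul]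
      have n1 : (Ninf a : ℂ) ≠ 0 := Complex.ofReal_ne_zero.2 (Ninf_pos ha').ne'
      have n2 : (sS a : ℂ) ≠ 0 := Complex.ofReal_ne_zero.2 (sS_pos _).ne'
      simp only [if_pos hD, e1, e2]
      rw [fts, e3, rsum, ← Complex.ofReal_natCast, e5, Finset.sum_product, Finset.sum_mul,
        Finset.sum_mul, Finset.mul_sum]
      refine Finset.sum_congr rfl fun r _ => ?_
      simp only [Finset.mul_sum, Finset.sum_mul, id]
      refine Finset.sum_congr rfl fun t _ => ?_
      push_cast
      field_simp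
    · have : fts g (m / q) = 0 := by
        by_contra h0
        refine hD (Dl_iff.2 ⟨?_, ?_⟩)
        · have := ((σ.s : E) ^ j * m).2
          rwa [Subring.coe_mul, SubmonoidClass.coe_pow, coe_s] at this
        · have := OS.mul_mem (hg.fts_supp h0) hak
          refine (congrArg (· ∈ OS) ?_).mp this
          rw [hae]
          field_simp
      simp [if_neg hD, this]
  · intro ξ hξ
    have hD : Dl ξ := by
      by_contra hD
      exact hξ (by simp [if_neg hD])
    obtain ⟨m, hm⟩ := (isUnit_s.pow j).dvd (a := ⟨ξ, (Dl_iff.1 hD).1⟩)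
    refine ⟨m, ?_⟩
    have := congrArg (fun x : E => (x : FF)) hm
    simp only [Subring.coe_mul, SubmonoidClass.coe_pow, coe_s] at this
    exact this.symm

end NQ
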