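import Vale.Agent.NQ.SFt
import Vale.Agent.NQ.Rsum
import Vale.Agent.NQ.Lat

noncomputable section
namespace NQ
open Complex MeasureTheory NumberField Filter
open scoped ComplexConjugate Classical ContDiff Topology

variable [σ : St]

/-- Representatives of a lattice modulo `a OS`. -/
theorem pois2_reps (k : ℕ) (a : FF) : ∃ T : Finset FF,
    (∀ i ∈ T, ∀ j ∈ T, (i - j) / a ∈ OS → i = j) ∧
    ∀ x, ss ^ k * x ∈ OS → ∃ i ∈ T, (x - i) / a ∈ OS := by
  obtain ⟨l, hl⟩ := exists_pow_mem_OS a⁻¹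
  let r : Setoid FF := ⟨fun x y => (x - y) / a ∈ OS, fun x => by simp [OS.zero_mem],
    fun {x y} h => by
      have := OS.neg_mem h
      rwa [← neg_div, neg_sub] at this,
    fun {x y z} h1 h2 => by
      have := OS.add_mem h1 h2
      rwa [← add_div, sub_add_sub_cancel] at this⟩
  refine ⟨(sreps (k + l)).image fun x => (Quotient.mk r x).out, ?_, fun x hx => ?_⟩
  · intro i hi j hj h
    obtain ⟨x, -, rfl⟩ := Finset.mem_image.1 hi
    obtain ⟨y, -, rfl⟩ := Finset.mem_image.1 hj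
    have h1 : Quotient.mk r (Quotient.mk r x).out = Quotient.mk r (Quotient.mk r y).out :=
      Quotient.sound h
    rw [Quotient.out_eq, Quotient.out_eq] at h1
    rw [h1]
  · obtain ⟨y, hy, hxy⟩ := exists_srep (pow_mul_mem_OS hx (Nat.le_add_right k l))
    have h1 : ss ^ (k + l) / a ∈ OS := by
      rw [div_eq_mul_inv]
      exact pow_mul_mem_OS hl (Nat.le_add_left l k)
    have h2 : r x y := div_mem_OS_trans (pow_ne_zero _ ss_ne_zero) hxy h1
    have h3 : r (Quotient.mk r y).out y := Quotient.exact (Quotient.out_eq _)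
    exact ⟨_, Finset.mem_image_of_mem _ hy, r.trans h2 (r.symm h3)⟩

/-- The data of the splitting in cosets. -/
structure Pois2Dat (q : E) (k j : ℕ) (a : E) (T : Finset FF) (y : E × FF → E) : Prop where
  eq : a = (σ.s : E) ^ j * q
  lev : (a : FF) / ss ^ k ∈ OS
  inj : ∀ i ∈ T, ∀ i' ∈ T, (i - i') / (a : FF) ∈ OS → i = i'
  surj : ∀ x, ss ^ k * x ∈ OS → ∃ i ∈ T, (x - i) / (a : FF) ∈ OS
  y1 : ∀ i, q ∣ y i - i.1
  y2 : ∀ i, ((y i : FF) - i.2) / (a : FF) ∈ OS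

theorem pois2_coe (j : ℕ) (q : E) : (((σ.s : E) ^ j * q : E) : FF) = ss ^ j * q := by
  rw [Subring.coe_mul, Subring.coe_pow, coe_s]

theorem pois2_dat {q : E} (hq : q ≠ 0) (k : ℕ) : ∃ j a T y, Pois2Dat q k j a T y := by
  obtain ⟨l, hl⟩ := exists_pow_mem_OS (q : FF)
  have hq' : (q : FF) ≠ 0 := by exact_mod_cast hq
  have ha : (((σ.s : E) ^ (k + l) * q : E) : FF) ≠ 0 := by
    rw [pois2_coe]
    exact mul_ne_zero (pow_ne_zero _ ss_ne_zero) hq'
  obtain ⟨T, h1, h2⟩ := pois2_reps k (((σ.s : E) ^ (k + l) * q : E) : FF)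
  choose y hy1 hy2 using fun i : E × FF => exists_approx_E hq i.1 i.2 ha
  refine ⟨k + l, _, T, y, rfl, ?_, h1, h2, hy1, hy2⟩
  rw [pois2_coe, pow_add, mul_assoc, mul_div_cancel_left₀ _ (pow_ne_zero _ ss_ne_zero)]
  exact hl

section
variable {q : E} {k j : ℕ} {a : E} {T : Finset FF} {y : E × FF → E}

theorem Pois2Dat.assoc (h : Pois2Dat q k j a T y) : Associated q a := by
  rw [h.eq]
  exact (associated_isUnit_mul_left_iff (isUnit_s.pow j)).2 (Associated.refl q) |>.symm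

theorem Pois2Dat.ne (h : Pois2Dat q k j a T y) (hq : q ≠ 0) : a ≠ 0 :=
  h.assoc.ne_zero_iff.1 hq

theorem Pois2Dat.ne' (h : Pois2Dat q k j a T y) (hq : q ≠ 0) : (a : FF) ≠ 0 := by
  exact_mod_cast h.ne hq

theorem Pois2Dat.lev' (h : Pois2Dat q k j a T y) (hq : q ≠ 0) {x : FF} (hx : x / (a : FF) ∈ OS) :
    x / ss ^ k ∈ OS := div_mem_OS_trans (h.ne' hq) hx h.lev

theorem Pois2Dat.c1 (h : Pois2Dat q k j a T y) (i : E × FF) (x : 𝓞 FF) :
    q ∣ y i + a * toE x - i.1 := by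
  have : y i + a * toE x - i.1 = (y i - i.1) + a * toE x := by ring
  rw [this]
  exact dvd_add (h.y1 i) (h.assoc.dvd.mul_right _)

theorem Pois2Dat.c2 (h : Pois2Dat q k j a T y) (hq : q ≠ 0) (i : E × FF) (x : 𝓞 FF) :
    (((y i + a * toE x : E) : FF) - i.2) / (a : FF) ∈ OS := by
  have : (((y i + a * toE x : E) : FF) - i.2) / (a : FF) = ((y i : FF) - i.2) / (a : FF) + x := by
    have := h.ne' hq
    rw [Subring.coe_add, Subring.coe_mul, coe_toE]
    field_simp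
    ring
  rw [this]
  exact OS.add_mem (h.y2 i) (mem_OS_of_integral x.isIntegral_coe)

theorem Pois2Dat.uniq (h : Pois2Dat q k j a T y) (hq : q ≠ 0) {i i' : E × FF} {x x' : 𝓞 FF}
    (hi : i ∈ reps q ×ˢ T) (hi' : i' ∈ reps q ×ˢ T) (e : y i + a * toE x = y i' + a * toE x') :
    i = i' ∧ x = x' := by
  have a1 := h.c1 i x
  have a2 := h.c1 i' x'
  have b1 := h.c2 hq i x
  have b2 := h.c2 hq i' x'
  rw [e] at a1 b1
  have h1 : i.1 = i'.1 := rep_unique hq (Finset.mem_product.1 hi).1 (Finset.mem_product.1 hi').1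
    (by simpa using dvd_sub a2 a1)
  have h2 : i.2 = i'.2 := h.inj _ (Finset.mem_product.1 hi).2 _ (Finset.mem_product.1 hi').2 (by
    have := OS.sub_mem b2 b1
    rwa [← sub_div, sub_sub_sub_cancel_left] at this)
  have h3 : i = i' := Prod.ext h1 h2
  refine ⟨h3, ?_⟩
  rw [h3, add_right_inj] at e
  have h4 := congrArg (fun z : E => (z : FF)) (mul_left_cancel₀ (h.ne hq) e)
  exact RingOfIntegers.ext h4

theorem Pois2Dat.cover (h : Pois2Dat q k j a T y) (hq : q ≠ 0) {x : E} (hx : ss ^ k * x ∈ OS) :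
    ∃ i ∈ reps q ×ˢ T, ∃ z : 𝓞 FF, y i + a * toE z = x := by
  obtain ⟨r, hr, h1⟩ := exists_rep hq x
  obtain ⟨t, ht, h2⟩ := h.surj x hx
  have h3 : q ∣ x - y (r, t) := by simpa using dvd_sub h1 (h.y1 (r, t))
  obtain ⟨u, hu⟩ := h.assoc.symm.dvd.trans h3
  have h4 : (u : FF) ∈ OS := by
    have h5 := OS.sub_mem h2 (h.y2 (r, t))
    rw [← sub_div, sub_sub_sub_cancel_right, ← AddSubgroupClass.coe_sub, hu, Subring.coe_mul,
      mul_div_cancel_left₀ _ (h.ne' hq)] at h5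
    exact h5
  refine ⟨(r, t), Finset.mem_product.2 ⟨hr, ht⟩, ⟨u, integral_of_mem h4⟩, ?_⟩
  have h6 : toE ⟨u, integral_of_mem h4⟩ = u := Subtype.ext rfl
  rw [h6, ← hu]
  ring

theorem Pois2Dat.split (h : Pois2Dat q k j a T y) (hq : q ≠ 0) {G : E × E → ℂ} (hG : Summable G)
    (hs : ∀ x, G x ≠ 0 → ss ^ k * x.1 ∈ OS ∧ ss ^ k * x.2 ∈ OS) :
    ∑' x, G x = ∑ i ∈ reps q ×ˢ T, ∑ i' ∈ reps q ×ˢ T,
      ∑' x : 𝓞 FF × 𝓞 FF, G (y i + a * toE x.1, y i' + a * toE x.2) := by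
  let φ : ↥((reps q ×ˢ T) ×ˢ (reps q ×ˢ T)) × (𝓞 FF × 𝓞 FF) → E × E :=
    fun z => (y z.1.1.1 + a * toE z.2.1, y z.1.1.2 + a * toE z.2.2)
  have hφ : Function.Injective φ := fun z w e => by
    have hz := Finset.mem_product.1 z.1.2
    have hw := Finset.mem_product.1 w.1.2
    obtain ⟨a1, a2⟩ := h.uniq hq hz.1 hw.1 (congrArg Prod.fst e)
    obtain ⟨b1, b2⟩ := h.uniq hq hz.2 hw.2 (congrArg Prod.snd e)
    exact Prod.ext (Subtype.ext (Prod.ext a1 b1)) (Prod.ext a2 b2)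
  have hr : Function.support G ⊆ Set.range φ := fun x hx => by
    obtain ⟨i, hi, z, e⟩ := h.cover hq (hs x hx).1
    obtain ⟨i', hi', z', e'⟩ := h.cover hq (hs x hx).2
    exact ⟨(⟨(i, i'), Finset.mem_product.2 ⟨hi, hi'⟩⟩, (z, z')), Prod.ext e e'⟩
  have h1 : Summable fun z => G (φ z) := hG.comp_injective hφ
  rw [← hφ.tsum_eq hr, Summable.tsum_prod h1, tsum_fintype, ← Finset.sum_product',
    ← Finset.sum_coe_sort ((reps q ×ˢ T) ×ˢ (reps q ×ˢ T))]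

theorem Pois2Dat.sint2 (h : Pois2Dat q k j a T y) (hq : q ≠ 0) {f : FF → FF → ℂ}
    (h1 : ∀ u v, f u v ≠ 0 → ss ^ k * u ∈ OS ∧ ss ^ k * v ∈ OS)
    (h2 : ∀ u u' v v', (u - u') / (a : FF) ∈ OS → (v - v') / (a : FF) ∈ OS → f u v = f u' v') :
    sint2 f = ((sS a : ℝ) : ℂ) ^ 2 * ∑ t ∈ T, ∑ t' ∈ T, f t t' := by
  have hs : (ss ^ k)⁻¹ ≠ 0 := inv_ne_zero (pow_ne_zero _ ss_ne_zero)
  have hd : ∀ x : FF, x / (ss ^ k)⁻¹ = ss ^ k * x := fun x => by rw [div_inv_eq_mul, mul_comm]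
  have h0 : ∀ u : FF, (u - u) / (a : FF) ∈ OS := fun u => by simp [OS.zero_mem]
  have key : ∀ φ : FF → ℂ, (∀ u, φ u ≠ 0 → ss ^ k * u ∈ OS) →
      (∀ u u', (u - u') / (a : FF) ∈ OS → φ u = φ u') →
      sint φ = ((sS a : ℝ) : ℂ) * ∑ t ∈ T, φ t := fun φ a1 a2 =>
    sint_eq_sum hs (h.ne' hq) (fun x hx => hd x ▸ a1 x hx) a2 T id h.inj
      fun x hx => h.surj x (hd x ▸ hx)
  have h3 : ∀ u, sint (fun v => f u v) = ((sS a : ℝ) : ℂ) * ∑ t ∈ T, f u t := fun u =>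
    key _ (fun v hv => (h1 u v hv).2) fun v v' hv => h2 u u v v' (h0 u) hv
  rw [NQ.sint2, key _ (fun u hu => ?_) fun u u' hu => ?_]
  · simp only [h3, ← Finset.mul_sum]
    ring
  · obtain ⟨v, hv⟩ := exists_ne_of_sint hu
    exact (h1 u v hv).1
  · rw [h3, h3, Finset.sum_congr rfl fun t _ => h2 u u' t t hu (h0 t)]

end

theorem pois2_summable {G : E × E → ℂ} {b : FF} (hb : b ≠ 0) (c : Pl → ℂ) (hc : ∀ w, c w ≠ 0)
    {C : ℝ} (hs : ∀ x, G x ≠ 0 → (x.1 : FF) / b ∈ OS ∧ (x.2 : FF) / b ∈ OS)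
    (hG : ∀ x, ‖G x‖ ≤ C * ∏ w, ((1 + ‖c w * em w x.1‖) ^ (-3 : ℝ) *
      (1 + ‖c w * em w x.2‖) ^ (-3 : ℝ))) : Summable G := by
  have h1 := summable_shift_decay (β := 3) (by norm_num) hb c 0 hc
  have h0 : ∀ x : E, 0 ≤ if (x : FF) / b ∈ OS then
      ∏ w, (1 + ‖c w * em w x + (0 : Pl → ℂ) w‖) ^ (-(3 : ℝ)) else 0 := fun x => by
    split_ifs
    · exact Finset.prod_nonneg fun w _ => by positivity
    · exact le_rfl
  refine Summable.of_norm_bounded ((h1.mul_of_nonneg h1 h0 h0).mul_left |C|) fun x => ?_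
  by_cases hx : G x = 0
  · rw [hx, norm_zero]
    exact mul_nonneg (abs_nonneg _) (mul_nonneg (h0 _) (h0 _))
  · rw [if_pos (hs x hx).1, if_pos (hs x hx).2, ← Finset.prod_mul_distrib]
    simp only [Pi.zero_apply, add_zero]
    exact (hG x).trans (mul_le_mul_of_nonneg_right (le_abs_self C)
      (Finset.prod_nonneg fun w _ => by positivity))

theorem pois2_prod_le {F : Pl → ℂ × ℂ → ℂ} {M : ℝ} (h : ∀ w, Dec2 M (F w)) (u v : Pl → ℂ) :
    ‖∏ w, F w (u w, v w)‖ ≤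
      M ^ rk * ∏ w, ((1 + ‖u w‖) ^ (-3 : ℝ) * (1 + ‖v w‖) ^ (-3 : ℝ)) := by
  rw [norm_prod, ← prod_const_Pl, ← Finset.prod_mul_distrib]
  exact Finset.prod_le_prod (fun w _ => norm_nonneg _) fun w _ => by
    rw [← mul_assoc]
    exact h w (u w, v w)

theorem pois2_bdd {q : E} (hq : q ≠ 0) {ρ : E → E → ℂ} (h : Per2 q ρ) :
    ∃ C : ℝ, ∀ x y, ‖ρ x y‖ ≤ C := by
  refine ⟨∑ r ∈ reps q ×ˢ reps q, ‖ρ r.1 r.2‖, fun x y => ?_⟩
  obtain ⟨r, hr, h1⟩ := exists_rep hq x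
  obtain ⟨r', hr', h2⟩ := exists_rep hq y
  rw [h x r y r' h1 h2]
  exact Finset.single_le_sum (f := fun r : E × E => ‖ρ r.1 r.2‖) (a := (r, r'))
    (fun _ _ => norm_nonneg _) (Finset.mem_product.2 ⟨hr, hr'⟩)

theorem pois2_Dl (j : ℕ) (m : E) : Dl (ss ^ j * m) ↔ ss ^ j * m * del ∈ OS := by
  rw [Dl_iff, ← pois2_coe]
  exact and_iff_right (Subtype.prop _)

theorem pois2_psiV (x : FF) : psiV x = Psi x * psiS (-x) := by
  rw [Psi_eq_mul, mul_assoc, ← psiS_add, add_neg_cancel, psiS_zero, mul_one]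

/-- The dual sum as a sum over `E × E`. -/
theorem pois2_dual (j : ℕ) (W : FF × FF → ℂ) :
    (∑' ξ : FF × FF, if Dl ξ.1 ∧ Dl ξ.2 then W ξ else 0) =
      ∑' m : E × E, if Dl (ss ^ j * m.1) ∧ Dl (ss ^ j * m.2) then
        W (ss ^ j * m.1, ss ^ j * m.2) else 0 := by
  have hs : ss ^ j ≠ 0 := pow_ne_zero _ ss_ne_zero
  let φ : E × E → FF × FF := fun m => (ss ^ j * m.1, ss ^ j * m.2)
  have hφ : Function.Injective φ := fun m m' e =>
    Prod.ext (Subtype.ext (mul_left_cancel₀ hs (congrArg Prod.fst e)))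
      (Subtype.ext (mul_left_cancel₀ hs (congrArg Prod.snd e)))
  have h1 : ∀ ξ, Dl ξ → ∃ m : E, ss ^ j * m = ξ := fun ξ hξ => by
    obtain ⟨u, hu⟩ := (isUnit_s.pow j).exists_right_inv
    refine ⟨u * ⟨ξ, (Dl_iff.1 hξ).1⟩, ?_⟩
    rw [← pois2_coe, ← mul_assoc, hu, one_mul]
  refine (hφ.tsum_eq fun ξ hξ => ?_).symm
  have h2 : Dl ξ.1 ∧ Dl ξ.2 := by
    by_contra h
    exact hξ (if_neg h)
  obtain ⟨m, e⟩ := h1 _ h2.1
  obtain ⟨m', e'⟩ := h1 _ h2.2
  exact ⟨(m, m'), Prod.ext e e'⟩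

omit σ in
theorem pois2_sum {α β : Type*} (A : Finset α) (B : Finset β) (f : α → α → ℂ) (g : β → β → ℂ)
    (c : ℂ) : ∑ i ∈ A ×ˢ B, ∑ i' ∈ A ×ˢ B, f i.1 i'.1 * g i.2 i'.2 * c =
      (∑ r ∈ A, ∑ r' ∈ A, f r r') * (∑ t ∈ B, ∑ t' ∈ B, g t t') * c := by
  rw [Finset.sum_mul_sum, Finset.sum_mul, Finset.sum_product]
  refine Finset.sum_congr rfl fun r _ => ?_
  rw [Finset.sum_mul]
  refine Finset.sum_congr rfl fun t _ => ?_
  rw [Finset.sum_mul_sum, Finset.sum_mul, Finset.sum_product]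
  refine Finset.sum_congr rfl fun r' _ => ?_
  rw [Finset.sum_mul]

theorem Pois2Dat.term {q : E} {k j : ℕ} {a : E} {T : Finset FF} {y : E × FF → E}
    (h : Pois2Dat q k j a T y) (hq : q ≠ 0) (ρ : E → E → ℂ) {g : FF → FF → ℂ} (hg : SB2 k g)
    (m : E × E) (Z : ℂ) :
    ∑ i ∈ reps q ×ˢ T, ∑ i' ∈ reps q ×ˢ T, ρ i.1 i'.1 * g i.2 i'.2 *
      ((((kap / Ninf a) ^ 2 : ℝ) : ℂ) * if Dl (ss ^ j * m.1) ∧ Dl (ss ^ j * m.2) then
        psiV ((y i * m.1 + y i' * m.2) / q) * Z else 0) =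
    ((nm q : ℂ) ^ 2)⁻¹ * (rsum2 q (fun u v => ρ u v * psf (u * m.1 + v * m.2) q) *
      fts2 g (m.1 / q) (m.2 / q) * Z) := by
  have hq' : (q : FF) ≠ 0 := by exact_mod_cast hq
  have ha' := h.ne' hq
  have hae : (a : FF) = ss ^ j * q := by rw [h.eq, pois2_coe]
  have hs : ∀ n, ss ^ n ≠ 0 := fun n => pow_ne_zero _ ss_ne_zero
  by_cases hD : Dl (ss ^ j * m.1) ∧ Dl (ss ^ j * m.2)
  · have d1 := (pois2_Dl j m.1).1 hD.1
    have d2 := (pois2_Dl j m.2).1 hD.2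
    have hψ : ∀ u u' v v' : FF, (u - u') / (a : FF) ∈ OS → (v - v') / (a : FF) ∈ OS →
        psiS (-(u * (m.1 / q) + v * (m.2 / q))) = psiS (-(u' * (m.1 / q) + v' * (m.2 / q))) := by
      intro u u' v v' hu hv
      refine psiS_congr_del ?_
      have : (-(u * (m.1 / q) + v * (m.2 / q)) - -(u' * (m.1 / q) + v' * (m.2 / q))) * del =
          -((u - u') / (a : FF) * (ss ^ j * m.1 * del) +
            (v - v') / (a : FF) * (ss ^ j * m.2 * del)) := by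
        have := hs j
        rw [hae]
        field_simp
        ring
      rw [this]
      exact OS.neg_mem (OS.add_mem (OS.mul_mem hu d1) (OS.mul_mem hv d2))
    have hV : ∀ i i' : E × FF, psiV ((y i * m.1 + y i' * m.2) / q) =
        psf (i.1 * m.1 + i'.1 * m.2) q * psiS (-(i.2 * (m.1 / q) + i'.2 * (m.2 / q))) := by
      intro i i'
      rw [pois2_psiV, ← hψ _ _ _ _ (h.y2 i) (h.y2 i'),
        ← psf_congr (A := y i * m.1 + y i' * m.2) ?_]
      · congr 2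
        ring
      · have : y i * m.1 + y i' * m.2 - (i.1 * m.1 + i'.1 * m.2) =
            (y i - i.1) * m.1 + (y i' - i'.1) * m.2 := by ring
        rw [this]
        exact dvd_add ((h.y1 i).mul_right _) ((h.y1 i').mul_right _)
    have hc : ((((kap / Ninf a) ^ 2 : ℝ)) : ℂ) =
        ((nm q : ℂ) ^ 2)⁻¹ * (((kap ^ 2 : ℝ) : ℂ) * ((sS a : ℝ) : ℂ) ^ 2) := by
      have e1 : (nm q : ℝ) = Ninf a * sS a := by rw [nm_assoc h.assoc, nm_eq (h.ne hq)]
      have e2 : (nm q : ℂ) = ((Ninf a * sS a : ℝ) : ℂ) := by rw [← e1, ofReal_natCast]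
      have e3 : ((Ninf a : ℝ) : ℂ) ≠ 0 := ofReal_ne_zero.2 (Ninf_pos ha').ne'
      have e4 : ((sS a : ℝ) : ℂ) ≠ 0 := ofReal_ne_zero.2 (sS_pos _).ne'
      rw [e2]
      push_cast
      field_simp
    rw [fts2, h.sint2 hq (fun u v huv => hg.1 u v (left_ne_zero_of_mul huv))
      fun u u' v v' hu hv => by rw [hψ u u' v v' hu hv, hg.2 u u' v v' (h.lev' hq hu) (h.lev' hq hv)]]
    have hsum := pois2_sum (reps q) T (fun u v => ρ u v * psf (u * m.1 + v * m.2) q)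
      (fun u v => g u v * psiS (-(u * (m.1 / q) + v * (m.2 / q))))
      ((((kap / Ninf a) ^ 2 : ℝ) : ℂ) * Z)
    refine Eq.trans ?_ (hsum.trans ?_)
    · refine Finset.sum_congr rfl fun i _ => Finset.sum_congr rfl fun i' _ => ?_
      rw [if_pos hD, hV]
      ring
    · rw [hc, rsum2]
      simp only [rsum]
      ring
  · have h0 : fts2 g (m.1 / q) (m.2 / q) = 0 := by
      by_contra h1
      have h2 := hg.fts2_supp h1
      have h3 : ∀ x : E, (x : FF) / q * ss ^ k * del ∈ OS → Dl (ss ^ j * x) := fun x hx => by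
        rw [pois2_Dl]
        have : ss ^ j * x * del = (a : FF) / ss ^ k * ((x : FF) / q * ss ^ k * del) := by
          have := hs k
          rw [hae]
          field_simp
        rw [this]
        exact OS.mul_mem h.lev hx
      exact hD ⟨h3 _ h2.1, h3 _ h2.2⟩
    simp only [if_neg hD, h0, mul_zero, zero_mul, Finset.sum_const_zero]

theorem pS2 (h : PO2) : PS2 := by
  intro q ρ k g F M hq hρ hg hF hM hM'
  obtain ⟨j, a, T, y, hd⟩ := pois2_dat hq k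
  have hq' : (q : FF) ≠ 0 := by exact_mod_cast hq
  have ha' := hd.ne' hq
  have hae : (a : FF) = ss ^ j * q := by rw [hd.eq, pois2_coe]
  have hs : ∀ n, ss ^ n ≠ 0 := fun n => pow_ne_zero _ ss_ne_zero
  obtain ⟨C1, hC1⟩ := pois2_bdd hq hρ
  obtain ⟨C2, hC2⟩ := HSB2.bdd ⟨k, hg⟩
  have hsupp : ∀ x : E × E, ρ x.1 x.2 * g x.1 x.2 * ∏ w, F w (em w x.1, em w x.2) ≠ 0 →
      ss ^ k * x.1 ∈ OS ∧ ss ^ k * x.2 ∈ OS := fun x hx =>
    hg.1 _ _ (right_ne_zero_of_mul (left_ne_zero_of_mul hx))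
  have hsum : Summable fun x : E × E =>
      ρ x.1 x.2 * g x.1 x.2 * ∏ w, F w (em w x.1, em w x.2) := by
    refine pois2_summable (inv_ne_zero (hs k)) (fun _ => 1) (fun _ => one_ne_zero)
      (C := C1 * C2 * M ^ rk) (fun x hx => ?_) fun x => ?_
    · simpa only [div_inv_eq_mul, mul_comm] using hsupp x hx
    · have h0 : 0 ≤ C1 := (norm_nonneg _).trans (hC1 0 0)
      have h1 : 0 ≤ C2 := (norm_nonneg _).trans (hC2 0 0)
      simp only [one_mul]
      rw [norm_mul, norm_mul, mul_assoc (C1 * C2)]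
      exact mul_le_mul (mul_le_mul (hC1 _ _) (hC2 _ _) (norm_nonneg _) h0)
        (pois2_prod_le hM _ _) (norm_nonneg _) (mul_nonneg h0 h1)
  have hdiv : ∀ m : E, ss ^ j * (m : FF) / a = m / q := fun m => by
    rw [hae, mul_div_mul_left _ _ (hs j)]
  have hsum2 : ∀ i i' : E × FF, Summable fun m : E × E =>
      if Dl (ss ^ j * m.1) ∧ Dl (ss ^ j * m.2) then psiV ((y i * m.1 + y i' * m.2) / q) *
        ∏ w, ft2 (F w) (em w (m.1 / q)) (em w (m.2 / q)) else 0 := by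
    intro i i'
    refine pois2_summable (inv_ne_zero (mul_ne_zero (hs j) del_ne_zero))
      (fun w => em w (q : FF)⁻¹) (fun w => em_ne_zero w (inv_ne_zero hq')) (C := M ^ rk)
      (fun m hm => ?_) fun m => ?_
    · have h2 : Dl (ss ^ j * m.1) ∧ Dl (ss ^ j * m.2) := by
        by_contra h
        exact hm (if_neg h)
      have e : ∀ x : FF, x / (ss ^ j * del)⁻¹ = ss ^ j * x * del := fun x => by
        rw [div_inv_eq_mul]
        ring
      rw [e, e]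
      exact ⟨(pois2_Dl j _).1 h2.1, (pois2_Dl j _).1 h2.2⟩
    · have h3 := pois2_prod_le hM' (fun w => em w (m.1 / q)) fun w => em w (m.2 / q)
      simp only [← map_mul, ← div_eq_inv_mul]
      split_ifs
      · rw [norm_mul, norm_psiV, one_mul]
        exact h3
      · rw [norm_zero]
        exact (norm_nonneg _).trans h3
  have hcos : ∀ i i' : E × FF, ∑' x : 𝓞 FF × 𝓞 FF,
      ρ (y i + a * toE x.1) (y i' + a * toE x.2) *
        g (y i + a * toE x.1 : E) (y i' + a * toE x.2 : E) *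
        ∏ w, F w (em w (y i + a * toE x.1 : E), em w (y i' + a * toE x.2 : E)) =
      ∑' m : E × E, ρ i.1 i'.1 * g i.2 i'.2 * ((((kap / Ninf a) ^ 2 : ℝ) : ℂ) *
        if Dl (ss ^ j * m.1) ∧ Dl (ss ^ j * m.2) then psiV ((y i * m.1 + y i' * m.2) / q) *
          ∏ w, ft2 (F w) (em w (m.1 / q)) (em w (m.2 / q)) else 0) := by
    intro i i'
    have h1 := h a (y i) (y i') F M ha' hF hM hM'
    rw [pois2_dual j fun ξ => psiV ((y i * ξ.1 + y i' * ξ.2) / a) *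
      ∏ w, ft2 (F w) (em w (ξ.1 / a)) (em w (ξ.2 / a))] at h1
    have h2 : ∀ m : E × E, ((y i : FF) * (ss ^ j * m.1) + y i' * (ss ^ j * m.2)) / a =
        (y i * m.1 + y i' * m.2) / q := fun m => by
      rw [add_div, mul_div_assoc (y i : FF), mul_div_assoc (y i' : FF), hdiv, hdiv]
      ring
    simp only [hdiv, h2] at h1
    rw [tsum_mul_left, tsum_mul_left, ← h1, ← tsum_mul_left]
    refine tsum_congr fun x => ?_
    rw [hρ _ _ _ _ (hd.c1 i x.1) (hd.c1 i' x.2),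
      hg.2 _ _ _ _ (hd.lev' hq (hd.c2 hq i x.1)) (hd.lev' hq (hd.c2 hq i' x.2))]
    rfl
  rw [hd.split hq hsum hsupp, ← tsum_mul_left]
  simp only [hcos]
  rw [← tsum_congr fun m => hd.term hq ρ hg m _, Summable.tsum_finsetSum fun i _ =>
    summable_sum fun i' _ => ((hsum2 i i').mul_left _).mul_left _]
  exact Finset.sum_congr rfl fun i _ =>
    (Summable.tsum_finsetSum fun i' _ => ((hsum2 i i').mul_left _).mul_left _).symm

end NQ
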