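import Vale.Agent.NQ.SFt
import Vale.Agent.NQ.Rsum
import Vale.Agent.NQ.Lat
import Vale.Agent.P026.PoisG

noncomputable section
namespace NQ
open Complex MeasureTheory NumberField Filter
open scoped ComplexConjugate Classical ContDiff Topology

variable [σ : St]

theorem pSL (h : PS1) : PSL := by
  intro q ρ b f M hq hρ hb hc h1 h2
  obtain ⟨k, hk⟩ := hSB_il hb
  have hq' : (q : FF) ≠ 0 := fun e => hq (Subtype.ext e)
  rw [h q ρ k (il b) f M hq hρ hk hc h1 h2, ← tsum_mul_left, ← tsum_mul_left]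
  refine tsum_congr fun m => ?_
  have e : il (1 / (b * del)) ((m : FF) / q) = il (q / (b * del)) m := by
    have : (m : FF) / q / (1 / (b * del)) = m / (q / (b * del)) := by
      have := del_ne_zero
      field_simp
    rw [il, il, this]
  rw [fts_il hb, e]
  push_cast
  ring

omit σ in
theorem poisG_dec {t : ℝ} (ht : 0 < t) : ∃ M : ℝ, 0 ≤ M ∧
    Dec M (fun z => (Vg (‖z‖ ^ 2 / t) : ℝ)) ∧ Dec M (ft fun z => (Vg (‖z‖ ^ 2 / t) : ℝ)) := by
  obtain ⟨M1, hM1, h1⟩ := QRH.pg_decay (inv_pos.2 ht)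
  obtain ⟨M2, hM2, h2⟩ := QRH.pg_decay ht
  have hV : ∀ y, 0 ≤ Vg y := fun y => (Real.exp_pos _).le
  refine ⟨M1 + t * M2, by positivity, fun z => ?_, fun z => ?_⟩
  · rw [Complex.norm_real, Real.norm_of_nonneg (hV _), div_eq_mul_inv]
    exact (h1 _ (norm_nonneg z)).trans (mul_le_mul_of_nonneg_right
      (le_add_of_nonneg_right (by positivity)) (by positivity))
  · rw [QRH.ft_gauss ht, Complex.norm_real, Real.norm_of_nonneg (mul_nonneg ht.le (hV _))]
    refine (mul_le_mul_of_nonneg_left (h2 _ (norm_nonneg z)) ht.le).trans ?_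
    rw [← mul_assoc]
    exact mul_le_mul_of_nonneg_right (le_add_of_nonneg_left hM1) (by positivity)

theorem pSG (h : PSL) : PSG := by
  intro q ρ b t hq hρ hb ht
  choose M hM h1 h2 using fun w => poisG_dec (ht w)
  have hle : ∀ w, M w ≤ ∑ w, M w := fun w =>
    Finset.single_le_sum (fun w _ => hM w) (Finset.mem_univ w)
  have hc : ∀ w, Continuous fun z : ℂ => ((Vg (‖z‖ ^ 2 / t w) : ℝ) : ℂ) := fun w => by
    unfold QRH.Vg
    fun_prop
  have key := h q ρ b (fun w z => (Vg (‖z‖ ^ 2 / t w) : ℝ)) (∑ w, M w) hq hρ hb hc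
    (fun w z => (h1 w z).trans (mul_le_mul_of_nonneg_right (hle w) (by positivity)))
    (fun w z => (h2 w z).trans (mul_le_mul_of_nonneg_right (hle w) (by positivity)))
  have h3 : ∀ (m : E) (w : Pl),
      ‖em w ((m : FF) / q)‖ ^ 2 * t w = ‖em w m‖ ^ 2 * t w / ‖em w q‖ ^ 2 := by
    intro m w
    rw [map_div₀, norm_div, div_pow]
    ring
  simp only [QRH.ft_gauss (ht _), h3] at key
  rw [key, ← tsum_mul_left, ← tsum_mul_left]
  refine tsum_congr fun m => ?_
  simp only [Complex.ofReal_mul, Finset.prod_mul_distrib]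
  push_cast
  ring

theorem kapSq (h : PSG) : KapSq := by
  obtain ⟨θ, hθ⟩ : ∃ θ : FF → ℂ,
      ∀ b, θ b = ∑' x : E, il b x * ∏ w, ((Vg (‖em w x‖ ^ 2) : ℝ) : ℂ) := ⟨_, fun _ => rfl⟩
  have key : ∀ b : FF, b ≠ 0 → θ b = ((kap * sS b : ℝ) : ℂ) * θ (1 / (b * del)) := by
    intro b hb
    have h1 := h 1 (fun _ => 1) b (fun _ => 1) one_ne_zero (fun _ _ _ => rfl) hb fun _ => one_pos
    simp only [psf_of_dvd (one_dvd _), rsum_const one_ne_zero, nm_one, OneMemClass.coe_one, map_one,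
      norm_one, one_pow, div_one, mul_one, one_mul, Nat.cast_one, Finset.prod_const_one] at h1
    rw [hθ, hθ, h1]
  have h0 : θ 1 ≠ 0 := by
    obtain ⟨C, -, hC⟩ := gauss_tail (B := 0) le_rfl
    have hs := (hC 1 (fun _ => 1) 1 one_ne_zero (fun _ => one_pos) one_pos).1
    have hp := hs.tsum_pos (fun x => by
      split_ifs
      · exact Finset.prod_nonneg fun _ _ => (Real.exp_pos _).le
      · exact le_rfl) 0 (by
      rw [if_pos (by simp)]
      exact Finset.prod_pos fun _ _ => Real.exp_pos _)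
    have e : θ 1 = ((∑' x : E, if (x : FF) / 1 ∈ OS then ∏ w, Vg (‖em w x‖ ^ 2 / 1) else 0 : ℝ) :
        ℂ) := by
      rw [hθ, Complex.ofReal_tsum]
      refine tsum_congr fun x => ?_
      rw [il]
      split_ifs <;> simp
    rw [e]
    exact_mod_cast hp.ne'
  have hd := del_ne_zero
  have k1 := key 1 one_ne_zero
  have k2 := key (1 / (1 * del)) (by simpa using hd)
  have e : 1 / (1 / (1 * del) * del) = (1 : FF) := by field_simp
  rw [e] at k2
  rw [k2, ← mul_assoc, eq_comm, mul_eq_right₀ h0, sS_one, one_mul, one_div, sS_inv] at k1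
  have k3 : kap * 1 * (kap * (sS del)⁻¹) = 1 := by exact_mod_cast k1
  have := (sS_pos del).ne'
  unfold KapSq
  field_simp at k3
  exact k3

theorem kap_le_one (h : KapSq) : kap ≤ 1 := by
  have h1 : kap ^ 2 ≤ 1 := h.trans_le (sS_le_one del_mem)
  nlinarith

end NQ
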