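import Vale.Agent.NQ.Lat0
import Vale.Agent.NQ.Chr
import Vale.Agent.P026.Pois
import Vale.Agent.P026.FtD

noncomputable section
namespace NQ
open Complex MeasureTheory NumberField Filter
open scoped ComplexConjugate Classical ContDiff Topology

variable [σ : St]

section aux
variable {n : ℕ}

theorem poisO_mp (B : Module.Basis (Fin n) ℝ (Pl → ℂ)) {c : ℝ}
    (hc : c = (volume (ZSpan.fundamentalDomain B)).toReal) :
    MeasurePreserving B.equivFunL.symm volume (ENNReal.ofReal c⁻¹ • volume) := by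
  refine ⟨B.equivFunL.symm.continuous.measurable, ?_⟩
  have h1 := Measure.isAddLeftInvariant_eq_smul
    (Measure.map B.equivFunL.symm (volume : Measure (Fin n → ℝ))) (volume : Measure (Pl → ℂ))
  generalize Measure.addHaarScalarFactor
    (Measure.map B.equivFunL.symm (volume : Measure (Fin n → ℝ))) (volume : Measure (Pl → ℂ))
    = r at h1
  have h2 : Measure.map B.equivFunL.symm (volume : Measure (Fin n → ℝ))
      (ZSpan.fundamentalDomain B) = 1 := by
    rw [Measure.map_apply B.equivFunL.symm.continuous.measurable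
      (ZSpan.fundamentalDomain_measurableSet B)]
    have : B.equivFunL.symm ⁻¹' ZSpan.fundamentalDomain B =
        Set.pi Set.univ fun _ => Set.Ico (0 : ℝ) 1 := by
      ext x
      have e : ∀ i, B.repr (B.equivFunL.symm x) i = x i := fun i =>
        congrFun (B.equivFunL.apply_symm_apply x) i
      simp only [Set.mem_preimage, ZSpan.mem_fundamentalDomain, e, Set.mem_pi, Set.mem_univ,
        true_imp_iff]
    rw [this, volume_pi, Measure.pi_pi]
    simp
  rw [h1, Measure.smul_apply] at h2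
  have h3 := congrArg ENNReal.toReal h2
  rw [ENNReal.smul_def, smul_eq_mul, ENNReal.toReal_mul, ← hc, ENNReal.coe_toReal,
    ENNReal.toReal_one] at h3
  rw [h1, ENNReal.smul_def, ← eq_inv_of_mul_eq_one_left h3, ENNReal.ofReal_coe_nnreal]

theorem poisO_int1 (B : Module.Basis (Fin n) ℝ (Pl → ℂ)) {c : ℝ} (hc0 : 0 < c)
    (hc : c = (volume (ZSpan.fundamentalDomain B)).toReal) (g : Pl → ℂ → ℂ) :
    ∫ x, ∏ w, g w (B.equivFunL.symm x w) = ((c⁻¹ : ℝ) : ℂ) * ∏ w, ∫ t, g w t := by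
  have h := (poisO_mp B hc).integral_comp B.equivFunL.symm.toHomeomorph.measurableEmbedding
    fun z => ∏ w, g w (z w)
  rw [h, integral_smul_measure, ENNReal.toReal_ofReal (by positivity),
    integral_fintype_prod_volume_eq_prod, Complex.real_smul]

theorem poisO_int2 (B : Module.Basis (Fin n) ℝ (Pl → ℂ)) {c : ℝ} (hc0 : 0 < c)
    (hc : c = (volume (ZSpan.fundamentalDomain B)).toReal) (g : Pl → ℂ × ℂ → ℂ) :
    ∫ x : Fin n ⊕ Fin n → ℝ, ∏ w, g w (B.equivFunL.symm (fun i => x (.inl i)) w,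
      B.equivFunL.symm (fun i => x (.inr i)) w) = ((c⁻¹ ^ 2 : ℝ) : ℂ) * ∏ w, ∫ t, g w t := by
  have h1 := (poisO_mp B hc).prod (poisO_mp B hc)
  rw [Measure.prod_smul_left, Measure.prod_smul_right, smul_smul,
    ← ENNReal.ofReal_mul (by positivity), ← sq] at h1
  have e1 := (volume_measurePreserving_sumPiEquivProdPi
    fun _ : Fin n ⊕ Fin n => ℝ).integral_comp'
    fun p : (Fin n → ℝ) × (Fin n → ℝ) =>
      ∏ w, g w (B.equivFunL.symm p.1 w, B.equivFunL.symm p.2 w)
  have e2 := h1.integral_comp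
    (B.equivFunL.symm.toHomeomorph.measurableEmbedding.prodMap
      B.equivFunL.symm.toHomeomorph.measurableEmbedding)
    fun p : (Pl → ℂ) × (Pl → ℂ) => ∏ w, g w (p.1 w, p.2 w)
  have e3 := (volume_measurePreserving_arrowProdEquivProdArrow ℂ ℂ Pl).integral_comp'
    fun p : (Pl → ℂ) × (Pl → ℂ) => ∏ w, g w (p.1 w, p.2 w)
  rw [integral_smul_measure, ENNReal.toReal_ofReal (by positivity), Complex.real_smul] at e2
  refine e1.trans (e2.trans ?_)
  rw [← integral_fintype_prod_volume_eq_prod]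
  exact congrArg _ e3.symm

/-- The real number in the exponent of `psiV`. -/
def poisO_t (u : FF) : ℚ := Algebra.trace ℚ FF (u / (1 + 2 * σ.w))

theorem poisO_t_eq (u : FF) : (poisO_t u : ℝ) = ∑ w : Pl, 2 * (em w u).im / √3 := by
  have h3 : (√3 : ℝ) ≠ 0 := by positivity
  have h := trace_eq (u / (1 + 2 * σ.w))
  have e : ∀ w : Pl, em w (u / (1 + 2 * σ.w)) + conj (em w (u / (1 + 2 * σ.w))) =
      ((2 * (em w u).im / √3 : ℝ) : ℂ) := by
    intro w
    have e1 : em w (1 + 2 * σ.w) = ((√3 : ℝ) : ℂ) * I := by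
      rw [map_add, map_mul, em_w, map_one, map_ofNat]
      apply Complex.ext <;> simp [QRH.omC] <;> ring
    rw [Complex.add_conj, map_div₀, e1, mul_comm ((√3 : ℝ) : ℂ) I, ← div_div,
      Complex.div_ofReal_re, Complex.div_I]
    simp [mul_div_assoc]
  rw [Finset.sum_congr rfl fun w _ => e w, ← Complex.ofReal_sum] at h
  apply Complex.ofReal_injective
  rw [← h, poisO_t, Complex.ofReal_ratCast]

theorem poisO_Psi (B : Module.Basis (Fin n) ℝ (Pl → ℂ)) (x : Fin n → ℝ) (w : Pl) :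
    B.equivFunL.symm x w = ∑ i, (x i : ℂ) * B i w := by
  have : B.equivFunL.symm x = ∑ i, x i • B i := B.equivFun_symm_apply x
  rw [this, Finset.sum_apply]
  rfl

theorem poisO_pair {b : Fin n → 𝓞 FF} {B : Module.Basis (Fin n) ℝ (Pl → ℂ)}
    (hB : ∀ i w, B i w = em w (b i : FF)) (x : Fin n → ℝ) (ξ : FF) :
    ∑ w : Pl, 2 * (B.equivFunL.symm x w * em w ξ).im / √3 =
      ∑ i, x i * (poisO_t (b i * ξ) : ℝ) := by
  simp only [poisO_t_eq, poisO_Psi, hB, Finset.mul_sum, Finset.sum_mul, Complex.im_sum,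
    Finset.sum_div]
  rw [Finset.sum_comm]
  refine Finset.sum_congr rfl fun i _ => Finset.sum_congr rfl fun w _ => ?_
  rw [mul_assoc, Complex.im_ofReal_mul, map_mul]
  ring

theorem poisO_char {b : Fin n → 𝓞 FF} {B : Module.Basis (Fin n) ℝ (Pl → ℂ)}
    (hB : ∀ i w, B i w = em w (b i : FF)) {k : Fin n → ℤ} {ξ : FF}
    (h : ∀ i, poisO_t (b i * ξ) = k i) (x : Fin n → ℝ) :
    QRH.poisE k x = ∏ w, psi (-(B.equivFunL.symm x w * em w ξ)) := by
  have h1 := poisO_pair hB x ξ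
  simp only [h, Rat.cast_intCast] at h1
  simp only [QRH.psi, QRH.poisE]
  rw [← Complex.exp_sum, ← Finset.mul_sum, ← Complex.ofReal_sum]
  simp only [Complex.neg_im, mul_neg, neg_div, Finset.sum_neg_distrib]
  rw [h1]
  congr 1
  push_cast
  rw [mul_neg]
  congr 2
  exact Finset.sum_congr rfl fun i _ => mul_comm _ _

theorem poisO_dual {b : Fin n → 𝓞 FF} {B : Module.Basis (Fin n) ℝ (Pl → ℂ)} (hn : n = 2 * rk)
    (hB : ∀ i w, B i w = em w (b i : FF))
    (hL : Function.Surjective (fun k : Fin n → ℤ => ∑ i, (k i : 𝓞 FF) * b i)) :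
    ∃ D : (Fin n → ℤ) → FF, Function.Injective D ∧ (∀ k i, poisO_t (b i * D k) = k i) ∧
      ∀ ξ, Dl ξ ↔ ξ ∈ Set.range D := by
  let Φ : FF →ₗ[ℚ] (Fin n → ℚ) := LinearMap.pi fun i =>
    (Algebra.trace ℚ FF).comp (LinearMap.mul ℚ FF (b i / (1 + 2 * σ.w)))
  have hΦ : ∀ ξ i, Φ ξ i = poisO_t (b i * ξ) := fun ξ i => by
    simp only [Φ, poisO_t, LinearMap.pi_apply, LinearMap.comp_apply, LinearMap.mul_apply']
    congr 1; ring
  have hinj : Function.Injective Φ := by
    rw [injective_iff_map_eq_zero]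
    intro ξ hξ
    by_contra h0
    obtain ⟨w0⟩ : Nonempty Pl := inferInstance
    have h1 := poisO_pair hB (B.equivFunL (Pi.single w0 (I * conj (em w0 ξ)))) ξ
    simp only [← hΦ, hξ, ContinuousLinearEquiv.symm_apply_apply] at h1
    rw [Finset.sum_eq_single w0 (fun w _ hw => by simp [Pi.single_eq_of_ne hw]) (by simp),
      Pi.single_eq_same, mul_assoc, ← Complex.normSq_eq_conj_mul_self] at h1
    simp at h1
    exact h0 h1
  have hsurj : Function.Surjective Φ :=
    (LinearMap.injective_iff_surjective_of_finrank_eq_finrank (by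
      rw [← two_mul_rk, Module.finrank_fintype_fun_eq_card, Fintype.card_fin, hn])).1 hinj
  choose D hD using fun k : Fin n → ℤ => hsurj fun i => (k i : ℚ)
  refine ⟨D, fun k l h => ?_, fun k i => by rw [← hΦ, hD], fun ξ => ⟨fun h => ?_, ?_⟩⟩
  · have := (hD k).symm.trans (h ▸ hD l)
    ext i
    exact_mod_cast congrFun this i
  · have h1 : ∀ i, ∃ m : ℤ, poisO_t (b i * ξ) = m := fun i => by
      rw [mul_comm]
      exact (psiV_eq_one_iff _).1 (h _ (b i).isIntegral_coe)
    choose k hk using h1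
    refine ⟨k, hinj (funext fun i => ?_)⟩
    rw [hD, hΦ, hk]
  · rintro ⟨k, rfl⟩ y hy
    obtain ⟨l, hl⟩ := hL ⟨y, hy⟩
    have hy' : y = ∑ i, (l i : ℚ) • (b i : FF) := by
      have : ((∑ i, (l i : 𝓞 FF) * b i : 𝓞 FF) : FF) = y :=
        congrArg (fun x : 𝓞 FF => (x : FF)) hl
      rw [← this]
      simp [Rat.smul_def]
    refine (psiV_eq_one_iff _).2 ⟨∑ i, l i * k i, ?_⟩
    have e : D k * y / (1 + 2 * σ.w) = ∑ i, (l i : ℚ) • ((b i : FF) * D k / (1 + 2 * σ.w)) := by
      rw [hy', Finset.mul_sum, Finset.sum_div]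
      refine Finset.sum_congr rfl fun i _ => ?_
      simp only [Rat.smul_def]
      ring
    rw [e, map_sum]
    push_cast
    refine Finset.sum_congr rfl fun i _ => ?_
    rw [map_smul, smul_eq_mul]
    congr 1
    exact (hΦ _ i).symm.trans (congrFun (hD k) i)

theorem poisO_lat {b : Fin n → 𝓞 FF} {B : Module.Basis (Fin n) ℝ (Pl → ℂ)}
    (hB : ∀ i w, B i w = em w (b i : FF)) (k : Fin n → ℤ) (w : Pl) :
    B.equivFunL.symm (fun i => (k i : ℝ)) w = em w ((∑ i, (k i : 𝓞 FF) * b i : 𝓞 FF) : FF) := by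
  rw [poisO_Psi]
  simp [hB]

theorem poisO_loc {b : Fin n → 𝓞 FF} {B : Module.Basis (Fin n) ℝ (Pl → ℂ)}
    (hB : ∀ i w, B i w = em w (b i : FF)) (a y : FF) (R : ℝ) : ∃ S : Pl → ℝ, (∀ w, 0 ≤ S w) ∧
    ∀ x : Fin n → ℝ, ‖x‖ ≤ R → ∀ (k : Fin n → ℤ) (w : Pl),
    (1 + ‖em w y + em w a * B.equivFunL.symm (x + fun i => (k i : ℝ)) w‖) ^ (-3 : ℝ) ≤
      S w * (1 + ‖em w a * em w ((∑ i, (k i : 𝓞 FF) * b i : 𝓞 FF) : FF) + em w y‖) ^ (-3 : ℝ) := by
  refine ⟨fun w => (1 + ‖em w a‖ *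
    (‖(B.equivFunL.symm : (Fin n → ℝ) →L[ℝ] (Pl → ℂ))‖ * |R|)) ^ (3 : ℝ),
    fun w => by positivity, fun x hx k w => ?_⟩
  have e : em w y + em w a * B.equivFunL.symm (x + fun i => (k i : ℝ)) w =
      em w a * em w ((∑ i, (k i : 𝓞 FF) * b i : 𝓞 FF) : FF) + em w y +
        em w a * B.equivFunL.symm x w := by
    rw [map_add, Pi.add_apply, poisO_lat hB]; ring
  rw [e]
  refine QRH.pois_peetre ?_
  rw [norm_mul]
  refine mul_le_mul_of_nonneg_left ((norm_le_pi_norm _ w).trans ?_) (norm_nonneg _)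
  refine ((B.equivFunL.symm : (Fin n → ℝ) →L[ℝ] (Pl → ℂ)).le_opNorm x).trans ?_
  exact mul_le_mul_of_nonneg_left (hx.trans (le_abs_self R)) (norm_nonneg _)

theorem poisO_sumD {ι : Type} {D : ι → FF} (hD : Function.Injective D) (h : ∀ k, Dl (D k))
    {a : FF} (ha : a ≠ 0) : Summable fun k => ∏ w, (1 + ‖em w (D k / a)‖) ^ (-3 : ℝ) := by
  have hs : (ss : FF) ≠ 0 := Nat.cast_ne_zero.2 σ.s_pos.ne'
  have h1 := summable_int_decay (θ := 3) (by norm_num) (fun w => (em w (ss * a))⁻¹) 0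
    fun w => inv_ne_zero (em_ne_zero w (mul_ne_zero hs ha))
  have h2 : Function.Injective fun k => (⟨ss * D k, (h k).integral⟩ : 𝓞 FF) := fun k l e =>
    hD (mul_left_cancel₀ hs (congrArg (fun x : 𝓞 FF => (x : FF)) e))
  refine (h1.comp_injective h2).congr fun k => Finset.prod_congr rfl fun w _ => ?_
  have : (em w (ss * a))⁻¹ * em w (ss * D k) = em w (D k / a) := by
    rw [← map_inv₀, ← map_mul]
    congr 1
    field_simp
  rw [← this, Pi.zero_apply, add_zero]
  rfl

omit σ in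
theorem poisO_one (f : ℂ → ℂ) {a : ℂ} (ha : a ≠ 0) (y ξ : ℂ) :
    ∫ t, f (y + a * t) * psi (-(t * ξ)) =
      (((2 / √3 * ‖a‖ ^ 2)⁻¹ : ℝ) : ℂ) * (psi (y * ξ / a) * ft f (ξ / a)) := by
  have h := (QRH.fd_emb ha y).integral_map (μ := volume) fun u => f u * psi (-(u * (ξ / a)))
  rw [QRH.fd_map ha, integral_smul_measure, ENNReal.toReal_ofReal (by positivity),
    Complex.real_smul] at h
  have e : ∀ t, f (y + a * t) * psi (-(t * ξ)) =
      psi (y * ξ / a) * (f (a * t + y) * psi (-((a * t + y) * (ξ / a)))) := by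
    intro t
    rw [mul_left_comm, ← QRH.psi_add, add_comm y]
    congr 2
    field_simp
    ring
  have h3 : ((√3 : ℝ) : ℂ) ≠ 0 := Complex.ofReal_ne_zero.2 (by positivity)
  have h4 : ((‖a‖ : ℝ) : ℂ) ≠ 0 := Complex.ofReal_ne_zero.2 (norm_ne_zero_iff.2 ha)
  simp only [e]
  rw [integral_const_mul, ← h, QRH.ft]
  push_cast
  field_simp

omit σ in
theorem poisO_two (F : ℂ × ℂ → ℂ) {a : ℂ} (ha : a ≠ 0) (y z ξ η : ℂ) :
    ∫ t : ℂ × ℂ, F (y + a * t.1, z + a * t.2) * (psi (-(t.1 * ξ)) * psi (-(t.2 * η))) =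
      ((((2 / √3 * ‖a‖ ^ 2)⁻¹) ^ 2 : ℝ) : ℂ) *
        (psi ((y * ξ + z * η) / a) * ft2 F (ξ / a) (η / a)) := by
  have h := ((QRH.fd_emb ha y).prodMap (QRH.fd_emb ha z)).integral_map
    (μ := (volume : Measure ℂ).prod volume)
    fun u : ℂ × ℂ => F u * psi (-(u.1 * (ξ / a) + u.2 * (η / a)))
  rw [← Measure.map_prod_map _ _ (QRH.fd_emb ha y).measurable (QRH.fd_emb ha z).measurable,
    QRH.fd_map ha, QRH.fd_map ha, Measure.prod_smul_left, Measure.prod_smul_right,
    integral_smul_measure, integral_smul_measure, ENNReal.toReal_ofReal (by positivity),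
    smul_smul, Complex.real_smul, ← Measure.volume_eq_prod] at h
  have e : ∀ t : ℂ × ℂ, F (y + a * t.1, z + a * t.2) * (psi (-(t.1 * ξ)) * psi (-(t.2 * η))) =
      psi ((y * ξ + z * η) / a) * (F (a * t.1 + y, a * t.2 + z) *
        psi (-((a * t.1 + y) * (ξ / a) + (a * t.2 + z) * (η / a)))) := by
    intro t
    rw [mul_left_comm (psi _) (F _), ← QRH.psi_add, ← QRH.psi_add, add_comm y, add_comm z]
    congr 2
    field_simp
    ring
  have h3 : ((√3 : ℝ) : ℂ) ≠ 0 := Complex.ofReal_ne_zero.2 (by positivity)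
  have h4 : ((‖a‖ : ℝ) : ℂ) ≠ 0 := Complex.ofReal_ne_zero.2 (norm_ne_zero_iff.2 ha)
  have h5 : ((2 / √3 * ‖a‖ ^ 2)⁻¹) ^ 2 = (‖a‖ ^ 2)⁻¹ * (‖a‖ ^ 2)⁻¹ * (3 / 4) := by
    rw [inv_pow, mul_pow, div_pow, Real.sq_sqrt (by norm_num)]
    field_simp
    norm_num
  simp only [e]
  rw [integral_const_mul, h5, QRH.ft2]
  have h' : ∫ t : ℂ × ℂ, F (a * t.1 + y, a * t.2 + z) *
      psi (-((a * t.1 + y) * (ξ / a) + (a * t.2 + z) * (η / a))) = _ := h.symm
  rw [h']
  push_cast
  ring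

theorem poisO_const (a : FF) : (ZLattice.covolume latO)⁻¹ *
    ∏ w : Pl, (2 / √3 * ‖em w a‖ ^ 2)⁻¹ = kap / Ninf a := by
  rw [Finset.prod_inv_distrib, Finset.prod_mul_distrib, prod_const_Pl, kap, Ninf]
  ring

end aux

theorem pO1 : PO1 := by
  intro a y f M ha hf h1 h2
  obtain ⟨n, b, B, hn, hB, hL, hc, hc0⟩ := exists_latBasis
  obtain ⟨D, hD, hDk, hDl⟩ := poisO_dual hn hB hL.2
  obtain ⟨w0⟩ : Nonempty Pl := inferInstance
  have hM : 0 ≤ M := QRH.pois_M (norm_nonneg _) (by positivity) (h1 w0 0)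
  have coef : ∀ k, ∫ x, (∏ w, f w (em w y + em w a * B.equivFunL.symm x w)) * QRH.poisE k x =
      ((kap / Ninf a : ℝ) : ℂ) * (psiV (y * D k / a) * ∏ w, ft (f w) (em w (D k / a))) := by
    intro k
    simp only [poisO_char hB (hDk k), ← Finset.prod_mul_distrib]
    rw [poisO_int1 B hc0 hc fun w t => f w (em w y + em w a * t) * psi (-(t * em w (D k)))]
    simp only [poisO_one _ (em_ne_zero _ ha)]
    rw [Finset.prod_mul_distrib, Finset.prod_mul_distrib, ← mul_assoc, ← Complex.ofReal_prod,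
      ← Complex.ofReal_mul, poisO_const, psiV]
    simp only [map_div₀, map_mul]
  have hs : Summable fun k => psiV (y * D k / a) * ∏ w, ft (f w) (em w (D k / a)) := by
    refine Summable.of_norm_bounded ((poisO_sumD hD (fun k => (hDl _).2 ⟨k, rfl⟩) ha).mul_left
      (∏ _w : Pl, M)) fun k => ?_
    rw [norm_mul, norm_psiV, one_mul, norm_prod, ← Finset.prod_mul_distrib]
    exact Finset.prod_le_prod (fun w _ => norm_nonneg _) fun w _ => h2 w _
  have key := QRH.pois_gen (fun x => ∏ w, f w (em w y + em w a * B.equivFunL.symm x w))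
    (continuous_finsetProd _ fun w _ => (hf w).comp (by fun_prop)) (fun R => ?_)
    (by rw [funext coef]; exact hs.mul_left _)
  · rw [funext coef, tsum_mul_left] at key
    rw [← (Equiv.ofBijective _ hL).tsum_eq, ← hD.tsum_eq (f := fun ξ => if Dl ξ then
      psiV (y * ξ / a) * ∏ w, ft (f w) (em w (ξ / a)) else 0)
      (fun ξ hξ => (hDl ξ).1 (by by_contra h; exact hξ (if_neg h)))]
    simp only [if_pos ((hDl _).2 ⟨_, rfl⟩)]
    rw [← key]
    refine tsum_congr fun k => Finset.prod_congr rfl fun w _ => ?_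
    rw [poisO_lat hB, map_add, map_mul]
    rfl
  · obtain ⟨S, hS, hb⟩ := poisO_loc hB a y R
    have h3 := (summable_int_decay (θ := 3) (by norm_num) (fun w => em w a) (fun w => em w y)
      fun w => em_ne_zero w ha).comp_injective hL.1
    refine ⟨_, h3.mul_left (∏ w, M * S w), fun x hx k => ?_⟩
    rw [norm_prod, Function.comp_apply, ← Finset.prod_mul_distrib]
    refine Finset.prod_le_prod (fun w _ => norm_nonneg _) fun w _ => (h1 w _).trans ?_
    rw [mul_assoc]
    exact mul_le_mul_of_nonneg_left (hb x hx k w) hM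

theorem pO2 : PO2 := by
  intro a y z F M ha hF h1 h2
  obtain ⟨n, b, B, hn, hB, hL, hc, hc0⟩ := exists_latBasis
  obtain ⟨D, hD, hDk, hDl⟩ := poisO_dual hn hB hL.2
  obtain ⟨w0⟩ : Nonempty Pl := inferInstance
  have hM : 0 ≤ M :=
    QRH.pois_M (norm_nonneg _) (by positivity) ((h1 w0 0).trans_eq (mul_assoc _ _ _))
  let e := Equiv.sumArrowEquivProdArrow (Fin n) (Fin n) ℤ
  have coef : ∀ k : Fin n ⊕ Fin n → ℤ, ∫ x : Fin n ⊕ Fin n → ℝ,
      (∏ w, F w (em w y + em w a * B.equivFunL.symm (fun i => x (.inl i)) w,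
        em w z + em w a * B.equivFunL.symm (fun i => x (.inr i)) w)) * QRH.poisE k x =
      (((kap / Ninf a) ^ 2 : ℝ) : ℂ) * (psiV ((y * D (e k).1 + z * D (e k).2) / a) *
        ∏ w, ft2 (F w) (em w (D (e k).1 / a)) (em w (D (e k).2 / a))) := by
    intro k
    have hsplit : ∀ x : Fin n ⊕ Fin n → ℝ, QRH.poisE k x =
        QRH.poisE (e k).1 (fun i => x (.inl i)) * QRH.poisE (e k).2 (fun i => x (.inr i)) := by
      intro x
      unfold QRH.poisE
      rw [← Complex.exp_add, Fintype.sum_sum_type, mul_add, neg_add]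
      rfl
    simp only [hsplit, poisO_char hB (hDk _), ← Finset.prod_mul_distrib]
    rw [poisO_int2 B hc0 hc fun w t => F w (em w y + em w a * t.1, em w z + em w a * t.2) *
      (psi (-(t.1 * em w (D (e k).1))) * psi (-(t.2 * em w (D (e k).2))))]
    simp only [poisO_two _ (em_ne_zero _ ha)]
    rw [Finset.prod_mul_distrib, Finset.prod_mul_distrib, ← mul_assoc, ← Complex.ofReal_prod,
      ← Complex.ofReal_mul, Finset.prod_pow, ← mul_pow, poisO_const, psiV]
    simp only [map_div₀, map_mul, map_add]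
  have hsD := poisO_sumD hD (fun k => (hDl _).2 ⟨k, rfl⟩) ha
  have hs : Summable fun k : (Fin n → ℤ) × (Fin n → ℤ) => psiV ((y * D k.1 + z * D k.2) / a) *
      ∏ w, ft2 (F w) (em w (D k.1 / a)) (em w (D k.2 / a)) := by
    refine Summable.of_norm_bounded ((hsD.mul_of_nonneg hsD
      (fun k => Finset.prod_nonneg fun w _ => by positivity)
      (fun k => Finset.prod_nonneg fun w _ => by positivity)).mul_left (∏ _w : Pl, M)) fun k => ?_
    rw [norm_mul, norm_psiV, one_mul, norm_prod, ← Finset.prod_mul_distrib,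
      ← Finset.prod_mul_distrib]
    exact Finset.prod_le_prod (fun w _ => norm_nonneg _) fun w _ =>
      (h2 w (em w (D k.1 / a), em w (D k.2 / a))).trans_eq (mul_assoc _ _ _)
  have key := QRH.pois_gen (fun x : Fin n ⊕ Fin n → ℝ =>
      ∏ w, F w (em w y + em w a * B.equivFunL.symm (fun i => x (.inl i)) w,
        em w z + em w a * B.equivFunL.symm (fun i => x (.inr i)) w))
    (continuous_finsetProd _ fun w _ => (hF w).comp (by fun_prop)) (fun R => ?_)
    (by rw [funext coef]; exact (e.summable_iff.2 hs).mul_left _)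
  · rw [funext coef, tsum_mul_left, e.tsum_eq (fun k : (Fin n → ℤ) × (Fin n → ℤ) =>
      psiV ((y * D k.1 + z * D k.2) / a) *
        ∏ w, ft2 (F w) (em w (D k.1 / a)) (em w (D k.2 / a)))] at key
    rw [← (e.trans ((Equiv.ofBijective _ hL).prodCongr (Equiv.ofBijective _ hL))).tsum_eq,
      ← (hD.prodMap hD).tsum_eq (f := fun ξ : FF × FF => if Dl ξ.1 ∧ Dl ξ.2 then
      psiV ((y * ξ.1 + z * ξ.2) / a) * ∏ w, ft2 (F w) (em w (ξ.1 / a)) (em w (ξ.2 / a)) else 0)
      (fun ξ hξ => ?_)]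
    · have h3 : ∀ k : (Fin n → ℤ) × (Fin n → ℤ), Dl (Prod.map D D k).1 ∧ Dl (Prod.map D D k).2 :=
        fun k => ⟨(hDl _).2 ⟨_, rfl⟩, (hDl _).2 ⟨_, rfl⟩⟩
      simp only [if_pos (h3 _)]
      refine Eq.trans ?_ key
      refine tsum_congr fun k => Finset.prod_congr rfl fun w _ => ?_
      rw [poisO_lat hB (fun i => k (.inl i)), poisO_lat hB (fun i => k (.inr i)), map_add, map_mul,
        map_add, map_mul]
      rfl
    · have h3 : Dl ξ.1 ∧ Dl ξ.2 := by by_contra h; exact hξ (if_neg h)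
      obtain ⟨k, hk⟩ := (hDl _).1 h3.1
      obtain ⟨l, hl⟩ := (hDl _).1 h3.2
      exact ⟨(k, l), Prod.ext hk hl⟩
  · obtain ⟨S, hS, hb⟩ := poisO_loc hB a y R
    obtain ⟨S', hS', hb'⟩ := poisO_loc hB a z R
    have h3 := (summable_int_decay (θ := 3) (by norm_num) (fun w => em w a) (fun w => em w y)
      fun w => em_ne_zero w ha).comp_injective hL.1
    have h4 := (summable_int_decay (θ := 3) (by norm_num) (fun w => em w a) (fun w => em w z)
      fun w => em_ne_zero w ha).comp_injective hL.1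
    have h5 := e.summable_iff.2 (h3.mul_of_nonneg h4
      (fun k => Finset.prod_nonneg fun w _ => by positivity)
      (fun k => Finset.prod_nonneg fun w _ => by positivity))
    refine ⟨_, h5.mul_left (∏ w, M * S w * S' w), fun x hx k => ?_⟩
    have hR : 0 ≤ R := (norm_nonneg _).trans hx
    simp only [Function.comp_apply]
    rw [norm_prod, ← Finset.prod_mul_distrib, ← Finset.prod_mul_distrib]
    refine Finset.prod_le_prod (fun w _ => norm_nonneg _) fun w _ => (h1 w _).trans ?_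
    have b1 := hb (fun i => x (.inl i))
      ((pi_norm_le_iff_of_nonneg hR).2 fun i => (norm_le_pi_norm x _).trans hx) (e k).1 w
    have b2 := hb' (fun i => x (.inr i))
      ((pi_norm_le_iff_of_nonneg hR).2 fun i => (norm_le_pi_norm x _).trans hx) (e k).2 w
    have h6 := hS w
    refine (mul_le_mul (mul_le_mul_of_nonneg_left b1 hM) b2 (by positivity)
      (by positivity)).trans (le_of_eq ?_)
    ring

end NQ
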