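import Vale.Agent.NQ.Sym
import Vale.Agent.NQ.Rearr
import Vale.Agent.NQ.WtS
import Vale.Agent.P026.QE1a

noncomputable section
namespace NQ
open Complex MeasureTheory NumberField Filter
open scoped ComplexConjugate Classical ContDiff Topology

variable [σ : St]

/-- The smoothed weight. -/
def qe1I (G : (Pl → ℝ) → ℂ) (a b : Pl → ℝ) : ℂ :=
  ∫ v : Pl → ℝ, (∏ w, ((beta (v w) * Real.exp (v w) : ℝ) : ℂ)) *
    G (fun w => v w - Real.log (a w) - Real.log (b w))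

/-- The statement of `QD` with fixed constants. -/
def qe1Q (ξ δ C : ℝ) : Prop :=
  ∀ (A L : ℝ) (T : Finset (Finset P)) (g : Finset P) (x : Finset P → ℂ), 0 ≤ A → 0 ≤ L →
  (∀ c ∈ T, x c ≠ 0 → g ⊆ c ∧ Ns c ≤ L * Ns g) →
  ∑ a ∈ calA A, ‖∑ c ∈ T, x c * xs c2 c a‖ ^ 2
    ≤ C * (A * L) ^ δ * (L + A ^ ξ) * ∑ c ∈ T, ‖x c‖ ^ 2

/-- Support condition for the coefficients. -/
def qe1S (J : Finset (Finset P)) (z : Finset P → ℂ) (e : Finset P) (N1 W : ℝ)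
    (s : Finset P → Pl → ℝ) : Prop :=
  ∀ c ∈ J, z c ≠ 0 → e ⊆ c ∧ N1 / 2 < Ns c ∧ Ns c ≤ N1 ∧ ∀ w, 1 ≤ s c w ∧ s c w ≤ W

/-- Normalised coefficients. -/
def qe1x (z : Finset P → ℂ) (N1 : ℝ) (a : E) (c : Finset P) : ℂ :=
  z c * xs c2 c a / (√(Ns c / N1) : ℝ)

theorem qe1_QD {ξ δ C W : ℝ} (hC : 0 < C) (hδ : 0 < δ) (h : qe1Q ξ δ C) {I : Finset E}
    {J : Finset (Finset P)} {z : Finset P → ℂ} {e : Finset P} {N1 A Y : ℝ}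
    {s : Finset P → Pl → ℝ} (hN : 0 < N1) (hA : 0 ≤ A) (hI : I ⊆ calA A) (hY : A * N1 ≤ Y)
    (hz : qe1S J z e N1 W s) (τ : Pl → ℝ) :
    ∑ a ∈ I, ‖∑ c ∈ J, qe1x z N1 a c * ∏ w, (s c w : ℂ) ^ iT τ w‖ ^ 2
      ≤ 2 * C * Y ^ δ * ((N1 / Ns e + A ^ ξ) * ∑ c ∈ J, ‖z c‖ ^ 2) := by
  have he := Ns_pos e
  have h1 := h A (N1 / Ns e) J e
    (fun c => z c / (√(Ns c / N1) : ℝ) * ∏ w, (s c w : ℂ) ^ iT τ w) hA
    (by positivity) (fun c hc h0 => by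
      obtain ⟨k1, -, k4, -⟩ := hz c hc fun h2 => h0 (by simp [h2])
      exact ⟨k1, by rwa [div_mul_cancel₀ _ he.ne']⟩)
  have h2 : ∑ c ∈ J, ‖z c / (√(Ns c / N1) : ℝ) * ∏ w, (s c w : ℂ) ^ iT τ w‖ ^ 2
      ≤ 2 * ∑ c ∈ J, ‖z c‖ ^ 2 := by
    rw [Finset.mul_sum]
    refine Finset.sum_le_sum fun c hc => ?_
    by_cases h0 : z c = 0
    · simp [h0]
    obtain ⟨-, k3, k4, k5⟩ := hz c hc h0
    have hc0 : 0 < Ns c / N1 := div_pos (Ns_pos c) hN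
    have k6 : 1 / 2 ≤ Ns c / N1 := by rw [le_div_iff₀ hN]; linarith
    have k7 : ‖∏ w, (s c w : ℂ) ^ iT τ w‖ = 1 := by
      rw [norm_prod]
      refine Finset.prod_eq_one fun w _ => ?_
      rw [Complex.norm_cpow_eq_rpow_re_of_pos (one_pos.trans_le (k5 w).1), iT_re, Real.rpow_zero]
    rw [norm_mul, k7, mul_one, norm_div, Complex.norm_real, Real.norm_eq_abs, div_pow, sq_abs,
      Real.sq_sqrt hc0.le, div_le_iff₀ hc0]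
    nlinarith [sq_nonneg ‖z c‖]
  have h3 : (A * (N1 / Ns e)) ^ δ ≤ Y ^ δ := Real.rpow_le_rpow (by positivity)
    ((mul_le_mul_of_nonneg_left (div_le_self hN.le (one_le_Ns e)) hA).trans hY) hδ.le
  have h4 : ∀ a c, qe1x z N1 a c * ∏ w, (s c w : ℂ) ^ iT τ w =
      z c / (√(Ns c / N1) : ℝ) * (∏ w, (s c w : ℂ) ^ iT τ w) * xs c2 c a :=
    fun a c => by rw [qe1x]; ring
  simp only [h4]
  refine (Finset.sum_le_sum_of_subset_of_nonneg hI fun _ _ _ => sq_nonneg _).trans (h1.trans ?_)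
  have h5 : 0 ≤ ∑ c ∈ J, ‖z c‖ ^ 2 := Finset.sum_nonneg fun _ _ => sq_nonneg _
  have hY0 : 0 ≤ Y := (mul_nonneg hA hN.le).trans hY
  calc _ ≤ C * Y ^ δ * (N1 / Ns e + A ^ ξ) * (2 * ∑ c ∈ J, ‖z c‖ ^ 2) := by gcongr
    _ = _ := by ring

theorem qe1_block (h2 : SepW) {ξ δ W : ℝ} (h : QD ξ) (hδ : 0 < δ) (hW : 1 ≤ W) :
    ∃ C : ℝ, 0 < C ∧ ∀ (I : Finset E) (J : Finset (Finset P)) (z z' : Finset P → ℂ)
      (e1 e2 : Finset P) (G : E → (Pl → ℝ) → ℂ) (s s' : Finset P → Pl → ℝ) (N1 A Y C0 m : ℝ),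
      0 < N1 → 0 ≤ A → I ⊆ calA A → A * N1 ≤ Y → qe1S J z e1 N1 W s → qe1S J z' e2 N1 W s' →
      0 ≤ C0 → 0 ≤ m → (∀ a ∈ I, Continuous (G a)) →
      (∀ a ∈ I, ∀ u : Pl → ℝ, (∀ w, |u w| ≤ 2 * Real.log W + 2) → ‖G a u‖ ≤ C0 * m) →
      ∑ a ∈ I, ‖∑ c ∈ J, ∑ c' ∈ J, qe1x z N1 a c * qe1x z' N1 a c' * qe1I (G a) (s c) (s' c')‖
        ≤ C * C0 * Y ^ δ * (√(m * (N1 / Ns e1 + A ^ ξ) * ∑ c ∈ J, ‖z c‖ ^ 2) *
          √(m * (N1 / Ns e2 + A ^ ξ) * ∑ c ∈ J, ‖z' c‖ ^ 2)) := by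
  obtain ⟨C1, hC1, hS⟩ := h2 W 0 hW
  obtain ⟨C2, hC2, hQ⟩ := h δ hδ
  refine ⟨C1 * (2 * C2), by positivity,
    fun I J z z' e1 e2 G s s' N1 A Y C0 m hN hA hI k3 hz hz' hC0 m0 hG hb => ?_⟩
  have hY0 : 0 ≤ Y := (mul_nonneg hA hN.le).trans k3
  obtain ⟨Q1, hQ1⟩ : ∃ Q, Q = (N1 / Ns e1 + A ^ ξ) * ∑ c ∈ J, ‖z c‖ ^ 2 := ⟨_, rfl⟩
  obtain ⟨Q2, hQ2⟩ : ∃ Q, Q = (N1 / Ns e2 + A ^ ξ) * ∑ c ∈ J, ‖z' c‖ ^ 2 := ⟨_, rfl⟩
  have key := hS E (Finset P) I (fun _ => J) (fun _ => J) G (fun _ => C0 * m)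
    (C0 * m * (√(2 * C2 * Y ^ δ * Q1) * √(2 * C2 * Y ^ δ * Q2))) (qe1x z N1) (qe1x z' N1)
    (fun _ => s) (fun _ => s') hG hb
    (fun a _ c hc h0 => (hz c hc fun h3 => h0 (by simp [qe1x, h3])).2.2.2)
    (fun a _ c hc h0 => (hz' c hc fun h3 => h0 (by simp [qe1x, h3])).2.2.2) (fun τ => by
      rw [pow_zero, mul_one]
      have b1 := Real.sqrt_le_sqrt (qe1_QD hC2 hδ hQ hN hA hI k3 hz τ)
      have b2 := Real.sqrt_le_sqrt (qe1_QD hC2 hδ hQ hN hA hI k3 hz' τ)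
      rw [← hQ1] at b1
      rw [← hQ2] at b2
      refine le_trans (le_of_eq ?_) (mul_le_mul_of_nonneg_left
        ((Real.sum_mul_le_sqrt_mul_sqrt I _ _).trans
        (mul_le_mul b1 b2 (Real.sqrt_nonneg _) (Real.sqrt_nonneg _))) (by positivity))
      rw [Finset.mul_sum]
      exact Finset.sum_congr rfl fun a _ => mul_assoc _ _ _)
  refine key.trans (le_of_eq ?_)
  have p0 : 0 ≤ 2 * C2 * Y ^ δ := by positivity
  rw [mul_assoc m, mul_assoc m, ← hQ1, ← hQ2, Real.sqrt_mul p0, Real.sqrt_mul p0,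
    Real.sqrt_mul m0, Real.sqrt_mul m0]
  have e1 := Real.mul_self_sqrt p0
  have e2 := Real.mul_self_sqrt m0
  linear_combination (C1 * C0 * m * √Q1 * √Q2) * e1 -
    (C1 * (2 * C2) * C0 * Y ^ δ * √Q1 * √Q2) * e2

omit σ in
theorem qe1_m {y : ℝ} (hy : 0 < y) : ∃ m : ℝ, 0 ≤ m ∧ m ≤ 1 ∧ m ^ 2 * y ≤ 1 ∧
    ∀ x C y1 : ℝ, 0 ≤ C → y ≤ y1 → x ≤ C → x ≤ C * y1 ^ (-(1 / 2) : ℝ) → x ≤ C * m := by
  rcases le_total y 1 with h | h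
  · exact ⟨1, zero_le_one, le_rfl, by linarith, fun x C y1 _ _ h1 _ => by rwa [mul_one]⟩
  · refine ⟨y ^ (-(1 / 2) : ℝ), by positivity,
      Real.rpow_le_one_of_one_le_of_nonpos h (by norm_num), le_of_eq ?_,
      fun x C y1 hC h1 _ h2 => h2.trans (mul_le_mul_of_nonneg_left
        (Real.rpow_le_rpow_of_nonpos hy h1 (by norm_num)) hC)⟩
    rw [← Real.rpow_natCast, ← Real.rpow_mul hy.le]
    norm_num [Real.rpow_neg_one]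
    exact inv_mul_cancel₀ hy.ne'

theorem qe1_term (h2 : SepW) {ξ δ W : ℝ} (hξ : 1 ≤ ξ) (hξ2 : ξ ≤ 2) (h : QD ξ) (hδ : 0 < δ)
    (hW : 1 ≤ W) : ∃ C : ℝ, 0 < C ∧
    ∀ (M N Z A0 : ℝ) (J : Finset (Finset P)) (z z' : Finset P → ℂ) (f e1 e2 : Finset P)
      (S1 S2 N1 C0 : ℝ) (G : E → (Pl → ℝ) → ℂ) (s s' : Finset P → Pl → ℝ), 1 ≤ N →
      N ^ (2 - 1 / ξ) ≤ M → 1 ≤ Z → A0 ≤ N ^ (1 / ξ) * Z → 0 < N1 → N1 ≤ N →
      qe1S J z e1 N1 W s → qe1S J z' e2 N1 W s' →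
      ∑ c ∈ J, ‖z c‖ ^ 2 ≤ S1 → ∑ c ∈ J, ‖z' c‖ ^ 2 ≤ S2 → 0 ≤ C0 →
      (∀ a : E, a ≠ 0 → Continuous (G a) ∧ ∀ u : Pl → ℝ, (∀ w, |u w| ≤ 2 * Real.log W + 2) →
        ‖G a u‖ ≤ C0 ∧ ‖G a u‖ ≤ C0 *
          (nm a * (Ns e1 * Ns e2) ^ 2 * (M / (Ns f * N1)) ^ 2 / M) ^ (-(1 / 2) : ℝ)) →
      M / (Ns f * N1) * ∑ a ∈ calA A0, ‖∑ c ∈ J, ∑ c' ∈ J,
          qe1x z N1 a c * qe1x z' N1 a c' * qe1I (G a) (s c) (s' c')‖
        ≤ C * C0 * ((2 * (M * N) * Z) ^ δ) ^ 2 * (M * Z ^ 2) * (√(S1 / Ns e1) * √(S2 / Ns e2)) := by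
  obtain ⟨C1, hC1, hB⟩ := qe1_block h2 h hδ hW
  obtain ⟨C2, hC2, hL⟩ := QRH.log_le_rpow hδ
  refine ⟨C2 * C1 * 5, by positivity, fun M N Z A0 J z z' f e1 e2 S1 S2 N1 C0 G s s' hN hM hZ hA0
    u1 u2 hz hz' hS1 hS2 hC0 hG => ?_⟩
  have hξ0 : 0 < ξ := by linarith
  have hξ1 : 1 / ξ ≤ 1 := (div_le_one hξ0).2 hξ
  have hNM : N ≤ M := le_trans (Real.self_le_rpow_of_one_le hN (by linarith)) hM
  have n1 : 1 ≤ N ^ (1 / ξ) * Z :=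
    one_le_mul_of_one_le_of_one_le (Real.one_le_rpow hN (by positivity)) hZ
  have n2 : N ^ (1 / ξ) * Z ≤ N * Z :=
    mul_le_mul_of_nonneg_right (Real.rpow_le_self_of_one_le hN hξ1) (by linarith)
  obtain ⟨K, hK1, hK2⟩ := QRH.exists_dyadic (le_max_right A0 1)
  have hK3 : (2 : ℝ) ^ K ≤ N ^ (1 / ξ) * Z := hK1.trans (max_le hA0 n1)
  have hf1 := one_le_Ns f
  have hM0 : 0 < M := by linarith
  have w0 : 0 < M / (Ns f * N1) := by positivity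
  have w2 : M / (Ns f * N1) * N1 ≤ M := by
    rw [div_mul_eq_mul_div, div_le_iff₀ (by positivity)]
    exact mul_le_mul_of_nonneg_left (le_mul_of_one_le_left u1.le hf1) hM0.le
  generalize M / (Ns f * N1) = w at *
  have t1 : N * Z * N ≤ M * N * Z := by
    rw [mul_right_comm]
    gcongr
  have t2 : N * Z ≤ N * Z * N := le_mul_of_one_le_right (by positivity) hN
  obtain ⟨Y, hY⟩ : ∃ Y, Y = 2 * (M * N) * Z := ⟨_, rfl⟩
  rw [← hY]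
  have hY1 : 1 ≤ Y := by linarith
  have a1 := one_le_Ns e1
  have a2 := one_le_Ns e2
  rw [QRH.sum_dyadic (calA A0) (fun a => (nm a : ℝ)) _ (J := K) (fun a ha => by
    have := mem_calA.1 ha
    exact ⟨one_le_nmR this.1.ne_zero, this.2.trans_lt ((le_max_left _ _).trans_lt hK2)⟩),
    Finset.mul_sum]
  refine (Finset.sum_le_card_nsmul _ _
    (C1 * C0 * Y ^ δ * (5 * (M * Z ^ 2)) * (√(S1 / Ns e1) * √(S2 / Ns e2))) fun j hj => ?_).trans ?_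
  · have j1 : (1 : ℝ) ≤ 2 ^ j := one_le_pow₀ one_le_two
    have j2 : (2 : ℝ) ^ j ≤ N ^ (1 / ξ) * Z :=
      (pow_le_pow_right₀ one_le_two (Nat.lt_succ_iff.1 (Finset.mem_range.1 hj))).trans hK3
    rw [pow_succ]
    generalize (2 : ℝ) ^ j = A at j1 j2 ⊢
    obtain ⟨m, m0, m1, m2, m3⟩ := qe1_m (y := A * (Ns e1 * Ns e2) ^ 2 * w ^ 2 / M) (by positivity)
    have hne : ∀ a ∈ (calA A0).filter fun a => A ≤ nm a ∧ nm a < A * 2, a ≠ 0 := fun a ha =>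
      (mem_calA.1 (Finset.mem_filter.1 ha).1).1.ne_zero
    have hm := hB ((calA A0).filter fun a => A ≤ nm a ∧ nm a < A * 2) J z z'
      e1 e2 G s s' N1 (2 * A) Y C0 m u1 (by linarith) (fun a ha => by
        simp only [Finset.mem_filter, mem_calA] at ha ⊢
        exact ⟨ha.1.1, by linarith [ha.2.2]⟩) (by
        linarith [mul_le_mul (j2.trans n2) u2 u1.le (by positivity)]) hz hz' hC0 m0
      (fun a ha => (hG a (hne a ha)).1) fun a ha u hu => by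
        have := (Finset.mem_filter.1 ha).2.1
        obtain ⟨g1, g2⟩ := (hG a (hne a ha)).2 u hu
        exact m3 _ _ _ hC0 (by gcongr) g1 g2
    refine (mul_le_mul_of_nonneg_left hm w0.le).trans ?_
    have b1 := QRH.q1_num hξ hξ2 hN hM hZ j1 j2 m0 m1 w0 u1 w2 a1 a2 m2
    have b2 := QRH.q1_num hξ hξ2 hN hM hZ j1 j2 m0 m1 w0 u1 w2 a2 a1
      (by rwa [mul_comm (Ns e2)])
    have key : ∀ {X s S a : ℝ}, 0 < a → 0 ≤ s → s ≤ S → w * X ≤ 5 * M * Z ^ 2 / a →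
        √w * √(X * s) ≤ √(5 * (M * Z ^ 2)) * √(S / a) := fun {X s S a} ha s0 hs hX => by
      rw [← Real.sqrt_mul w0.le, ← Real.sqrt_mul (by positivity)]
      refine Real.sqrt_le_sqrt ?_
      rw [← mul_assoc]
      exact (mul_le_mul hX hs s0 (by positivity)).trans (le_of_eq (by ring))
    have b3 := mul_le_mul (key (Ns_pos e1) (Finset.sum_nonneg fun _ _ => sq_nonneg _) hS1 b1)
      (key (Ns_pos e2) (Finset.sum_nonneg fun _ _ => sq_nonneg _) hS2 b2) (by positivity)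
      (by positivity)
    rw [mul_mul_mul_comm, mul_mul_mul_comm (√(5 * (M * Z ^ 2))), Real.mul_self_sqrt w0.le,
      Real.mul_self_sqrt (by positivity)] at b3
    rw [mul_left_comm, mul_assoc (C1 * C0 * Y ^ δ)]
    exact mul_le_mul_of_nonneg_left b3 (by positivity)
  · rw [Finset.card_range, nsmul_eq_mul, Nat.cast_succ]
    refine (mul_le_mul_of_nonneg_right (hL Y K hY1 (by linarith)) (by positivity)).trans
      (le_of_eq (by ring))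

end NQ
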