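import Vale.Agent.NQ.Lat
import Vale.Agent.NQ.Lat0
import Vale.Agent.P026.Del

noncomputable section
namespace NQ
open Complex MeasureTheory NumberField Filter
open scoped ComplexConjugate Classical ContDiff Topology

variable [σ : St]

theorem vl_pos (x : FF) : 0 < vl x := Finset.prod_pos fun v _ => zpow_pos (b1b_pos v) _

theorem vl_mul_sq {x y : FF} (hx : x ≠ 0) (hy : y ≠ 0) : vl (x * y ^ 2) = vl x * sS y := by
  unfold vl sS
  rw [← Finset.prod_mul_distrib]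
  refine Finset.prod_congr rfl fun v _ => ?_
  rw [← zpow_add₀ (b1b_pos v).ne', ord_mul _ hx (pow_ne_zero 2 hy), ord_pow]
  congr 1
  push_cast
  omega

theorem vl_congr {x x' : FF} (hx : x ≠ 0) (hx' : x' ≠ 0) (h : x / x' ∈ OS) (h' : x' / x ∈ OS) :
    vl x = vl x' := by
  unfold vl
  refine Finset.prod_congr rfl fun v _ => ?_
  rw [le_antisymm (((div_mem_OS_iff hx).1 h' v).le hx') (((div_mem_OS_iff hx').1 h v).le hx)]

theorem vl_le {x : FF} (hx : x ≠ 0) : vl x ≤ √(sS x) := by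
  have _ := hx
  refine Real.le_sqrt_of_sq_le ?_
  unfold vl sS
  rw [← Finset.prod_pow]
  refine Finset.prod_le_prod (fun v _ => by positivity) fun v _ => ?_
  rw [← zpow_natCast, ← zpow_mul]
  refine zpow_le_zpow_right₀ (b1b_one_le v) ?_
  push_cast
  omega

theorem exists_sqrt_lat {x : FF} (hx : x ≠ 0) : ∃ y0 : FF, y0 ≠ 0 ∧ sS y0 = vl x ∧
    ∀ y : FF, y ^ 2 / x ∈ OS ↔ y / y0 ∈ OS := by
  obtain ⟨y0, h0, h⟩ := exists_ord_S fun v => (ord v.1 x + 1) / 2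
  have h1 : (y0 : FF) ≠ 0 := fun h => h0 (Subtype.ext h)
  refine ⟨y0, h1, Finset.prod_congr rfl fun v _ => by rw [h], fun y => ?_⟩
  rw [div_mem_OS_iff hx, div_mem_OS_iff h1]
  refine forall_congr' fun v => ?_
  unfold OG
  rw [h, ord_pow, pow_eq_zero_iff two_ne_zero]
  refine or_congr_right ?_
  push_cast
  omega

theorem Del_congr {x x' : FF} (hx : x ≠ 0) (hx' : x' ≠ 0) (h : x / x' ∈ OS) (h' : x' / x ∈ OS) :
    Del x = Del x' := by
  funext u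
  have e : ∀ y : FF, y / x ∈ OS ↔ y / x' ∈ OS := fun y =>
    ⟨fun hy => div_mem_OS_trans hx hy h, fun hy => div_mem_OS_trans hx' hy h'⟩
  unfold Del
  simp only [e, vl_congr hx hx' h h']

omit σ in
theorem Vl_Vg (t : ℝ) : 0 ≤ Vg t := (Real.exp_pos _).le

omit σ in
theorem Vl_root {u : ℝ} (hu : 0 < u) : ∃ s : ℝ, 0 < s ∧ s ^ 2 = u ^ (-(1 / 2) : ℝ) ∧
    ∀ r : ℝ, u * r ^ 4 = (r / s) ^ 4 := by
  refine ⟨u ^ (-(1 / 4) : ℝ), by positivity, ?_, fun r => ?_⟩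
  · rw [← Real.rpow_natCast, ← Real.rpow_mul hu.le]
    norm_num
  · rw [div_pow, div_eq_inv_mul, ← Real.rpow_natCast (u ^ (-(1 / 4) : ℝ)), ← Real.rpow_mul hu.le,
      ← Real.rpow_neg hu.le]
    norm_num

theorem Vl_sum : ∃ C : ℝ, 0 < C ∧ ∀ (x : FF) (u : Pl → ℝ), x ≠ 0 → (∀ w, 0 < u w) →
    Summable (fun y : E =>
      if y ≠ 0 ∧ (y : FF) ^ 2 / x ∈ OS then ∏ w, Vg (u w * ‖em w y‖ ^ 4) else 0) ∧
    ‖∑' y : E, (if y ≠ 0 ∧ (y : FF) ^ 2 / x ∈ OS then ∏ w, Vg (u w * ‖em w y‖ ^ 4) else 0)‖ ≤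
      C * (vl x * ∏ w, u w ^ (-(1 / 2) : ℝ)) := by
  obtain ⟨C, hC, H⟩ := Lat_nz (β := 3) (by norm_num)
  refine ⟨Real.exp 10 ^ rk * C, by positivity, fun x u hx hu => ?_⟩
  obtain ⟨y0, h0, h1, h2⟩ := exists_sqrt_lat hx
  choose s s0 s2 s4 using fun w => Vl_root (hu w)
  obtain ⟨H1, H2⟩ := H y0 s h0 s0
  have key : ∀ y : E, ‖if y ≠ 0 ∧ (y : FF) ^ 2 / x ∈ OS then ∏ w, Vg (u w * ‖em w y‖ ^ 4) else 0‖ ≤
      Real.exp 10 ^ rk * if y ≠ 0 ∧ (y : FF) / y0 ∈ OS then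
        ∏ w, (1 + ‖em w y‖ / s w) ^ (-3 : ℝ) else 0 := by
    intro y
    rw [h2]
    split_ifs
    · rw [Real.norm_of_nonneg (Finset.prod_nonneg fun w _ => Vl_Vg _),
        ← prod_const_Pl, ← Finset.prod_mul_distrib]
      refine Finset.prod_le_prod (fun w _ => Vl_Vg _) fun w _ => ?_
      have := QRH.dl_aux 0 (r := ‖em w y‖ / s w) (div_nonneg (norm_nonneg _) (s0 w).le)
      rw [s4]
      norm_num at this ⊢
      exact this
    · simp
  refine ⟨.of_norm_bounded (H1.mul_left _) key,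
    (tsum_of_norm_bounded (H1.mul_left _).hasSum key).trans ?_⟩
  rw [tsum_mul_left, mul_assoc]
  refine mul_le_mul_of_nonneg_left (H2.trans_eq ?_) (by positivity)
  simp only [h1, s2, mul_assoc]

theorem summable_Del {x : FF} (hx : x ≠ 0) {u : Pl → ℝ} (hu : ∀ w, 0 < u w) :
    Summable fun y : E => if y ≠ 0 ∧ (y : FF) ^ 2 / x ∈ OS then ∏ w, Vg (u w * ‖em w y‖ ^ 4) else 0 :=
  (Vl_sum.choose_spec.2 x u hx hu).1

end NQ
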