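import Vale.Agent.NQ.Sym
import Vale.Agent.NQ.Rearr
import Vale.Agent.NQ.WtS
import Vale.Agent.NQ.Vl
import Vale.Agent.NQ.QE1a

noncomputable section
namespace NQ
open Complex MeasureTheory NumberField Filter
open scoped ComplexConjugate Classical ContDiff Topology

variable [σ : St]

/-- The product of the Moebius variables. -/
def qe1h (f e1 e2 : Finset P) (a : E) : E := pr (f \ fac a) * pr e1 * pr e2

/-- The error function in logarithmic coordinates. -/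
def qe1G (b k0 : FF) (κ : Pl → ℝ) (t0 : ℝ) (f e1 e2 : Finset P) (a : E) (u : Pl → ℝ) : ℂ :=
  (Del (k0 * (pr f : FF) ^ 2 / (b * del * a * (qe1h f e1 e2 a : FF) ^ 2))
    (fun w => ‖em w a‖ ^ 2 * ‖em w (qe1h f e1 e2 a)‖ ^ 4 * t0 / (‖em w (pr f)‖ ^ 4 * κ w)
      * Real.exp (u w)) : ℝ)

theorem qe1_ne {x : E} (hx : x ≠ 0) : (x : FF) ≠ 0 := by simpa using hx

theorem qe1_h_ne (f e1 e2 : Finset P) (a : E) : qe1h f e1 e2 a ≠ 0 :=
  mul_ne_zero (mul_ne_zero (pr_ne_zero _) (pr_ne_zero _)) (pr_ne_zero _)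

theorem qe1_den {b : FF} (hb : b ≠ 0) (f e1 e2 : Finset P) {a : E} (ha : a ≠ 0) :
    b * del * a * (qe1h f e1 e2 a : FF) ^ 2 ≠ 0 :=
  mul_ne_zero (mul_ne_zero (mul_ne_zero hb del_ne_zero) (qe1_ne ha))
    (pow_ne_zero _ (qe1_ne (qe1_h_ne f e1 e2 a)))

theorem qe1_x_ne {b k : FF} (hb : b ≠ 0) (hk : k ≠ 0) (f e1 e2 : Finset P) {a : E} (ha : a ≠ 0) :
    k * (pr f : FF) ^ 2 / (b * del * a * (qe1h f e1 e2 a : FF) ^ 2) ≠ 0 :=
  div_ne_zero (mul_ne_zero hk (pow_ne_zero _ (qe1_ne (pr_ne_zero f)))) (qe1_den hb f e1 e2 ha)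

theorem qe1_U_pos {κ : Pl → ℝ} {t0 : ℝ} (hκ : ∀ w, 0 < κ w) (ht : 0 < t0) (f e1 e2 : Finset P)
    {a : E} (ha : a ≠ 0) (u : Pl → ℝ) (w : Pl) :
    0 < ‖em w a‖ ^ 2 * ‖em w (qe1h f e1 e2 a)‖ ^ 4 * t0 / (‖em w (pr f)‖ ^ 4 * κ w)
      * Real.exp (u w) := by
  have h1 := norm_pos_iff.2 (em_ne_zero w (qe1_ne ha))
  have h2 := norm_pos_iff.2 (em_ne_zero w (qe1_ne (qe1_h_ne f e1 e2 a)))
  have h3 := norm_pos_iff.2 (em_ne_zero w (qe1_ne (pr_ne_zero f)))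
  have h4 := hκ w
  positivity

theorem qe1_cont (h1 : DelB) {b k0 : FF} {κ : Pl → ℝ} {t0 : ℝ} (hb : b ≠ 0) (hk : k0 ≠ 0)
    (hκ : ∀ w, 0 < κ w) (ht : 0 < t0) (f e1 e2 : Finset P) {a : E} (ha : a ≠ 0) :
    Continuous (qe1G b k0 κ t0 f e1 e2 a) :=
  continuous_ofReal.comp ((h1.1 _ (qe1_x_ne hb hk f e1 e2 ha)).comp_continuous (by fun_prop)
    fun u w => qe1_U_pos hκ ht f e1 e2 ha u w)

theorem qe1_pow4 (x : FF) : ∏ w : Pl, ‖em w x‖ ^ 4 = Ninf x ^ 2 := by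
  rw [Ninf, ← Finset.prod_pow]
  exact Finset.prod_congr rfl fun w _ => by ring

theorem qe1_size {b : FF} (hb : b ≠ 0) {X : Sc} (hX : X.OK) (t0 : ℝ) (d f e1 e2 : Finset P)
    {a : E} (ha : a ≠ 0) (u : Pl → ℝ) :
    (∏ w, ‖em w a‖ ^ 2 * ‖em w (qe1h f e1 e2 a)‖ ^ 4 * t0
        / (‖em w (pr f)‖ ^ 4 * (X.T w ^ 2 / ‖em w (pr d)‖ ^ 4)) * Real.exp (u w))
      / sS (X.a ^ 2 / (pr d : FF) ^ 2 * (pr f : FF) ^ 2 / (b * del * a * (qe1h f e1 e2 a : FF) ^ 2))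
      = sS b * sS del * t0 ^ rk * (∏ w, Real.exp (u w)) * (nm a * (nm (qe1h f e1 e2 a) : ℝ) ^ 2
        * Ns d ^ 2 / (Ns f ^ 2 * X.sz ^ 2)) := by
  have k1 := qe1_ne ha
  have k2 := qe1_ne (qe1_h_ne f e1 e2 a)
  have k3 := qe1_ne (pr_ne_zero f)
  have k4 := qe1_ne (pr_ne_zero d)
  have k5 := div_ne_zero (pow_ne_zero 2 hX.1) (pow_ne_zero 2 k4)
  rw [sS_div (mul_ne_zero k5 (pow_ne_zero _ k3)) (qe1_den hb f e1 e2 ha),
    sS_mul k5 (pow_ne_zero _ k3), sS_div (pow_ne_zero 2 hX.1) (pow_ne_zero 2 k4),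
    sS_mul (mul_ne_zero (mul_ne_zero hb del_ne_zero) k1) (pow_ne_zero _ k2),
    sS_mul (mul_ne_zero hb del_ne_zero) k1, sS_mul hb del_ne_zero, nm_eq ha,
    nm_eq (qe1_h_ne f e1 e2 a), Ns_eq, Ns_eq, Sc.sz]
  simp only [sS_pow, Finset.prod_mul_distrib, Finset.prod_div_distrib, qe1_pow4, prod_const_Pl]
  rw [Finset.prod_pow, Finset.prod_pow, ← Finset.prod_pow (f := fun w => ‖em w a‖), ← Ninf]
  have p1 := Ninf_pos k3
  have p2 := Ninf_pos k4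
  have p3 : 0 < ∏ w, X.T w := Finset.prod_pos fun w _ => hX.2 w
  have p4 := sS_pos (a : FF)
  have p5 := sS_pos (qe1h f e1 e2 a : FF)
  have p6 := sS_pos (pr f : FF)
  have p7 := sS_pos (pr d : FF)
  have p8 := sS_pos X.a
  have p9 := sS_pos b
  have p10 := sS_pos del
  field_simp

theorem qe1_G (h1 : DelB) {b : FF} {K : ℝ} (hb : b ≠ 0) (hK : 1 ≤ K) (W : ℝ) :
    ∃ C0 : ℝ, 0 < C0 ∧ ∀ (X : Sc) (M N : ℝ) (d f e1 e2 : Finset P) (a : E) (u : Pl → ℝ), X.OK →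
      X.sz ≤ N → 0 < M → a ≠ 0 → (∀ w, |u w| ≤ 2 * Real.log W + 2) →
      ‖qe1G b (X.a ^ 2 / (pr d : FF) ^ 2) (fun w => X.T w ^ 2 / ‖em w (pr d)‖ ^ 4)
        (K * M ^ (1 / rk : ℝ)) f e1 e2 a u‖ ≤ C0 ∧
      ‖qe1G b (X.a ^ 2 / (pr d : FF) ^ 2) (fun w => X.T w ^ 2 / ‖em w (pr d)‖ ^ 4)
        (K * M ^ (1 / rk : ℝ)) f e1 e2 a u‖ ≤ C0 *
        (nm a * (Ns e1 * Ns e2) ^ 2 * (M / (Ns f * (N / Ns d))) ^ 2 / M) ^ (-(1 / 2) : ℝ) := by
  obtain ⟨C, hC, hB⟩ := h1.2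
  obtain ⟨c, hc⟩ : ∃ c, c = sS b * sS del * K ^ rk * Real.exp (-(2 * Real.log W + 2)) ^ rk :=
    ⟨_, rfl⟩
  have p1 := sS_pos b
  have p2 := sS_pos del
  have hc0 : 0 < c := by rw [hc]; positivity
  have hc1 : 0 < c ^ (-(1 / 2) : ℝ) := by positivity
  refine ⟨C * (1 + c ^ (-(1 / 2) : ℝ)), by positivity,
    fun X M N d f e1 e2 a u hX hN hM ha hu => ?_⟩
  have k4 := qe1_ne (pr_ne_zero d)
  have hκ : ∀ w, 0 < X.T w ^ 2 / ‖em w (pr d)‖ ^ 4 := fun w =>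
    div_pos (pow_pos (hX.2 w) _) (pow_pos (norm_pos_iff.2 (em_ne_zero w k4)) _)
  obtain ⟨b1, b2⟩ := hB _ _
    (qe1_x_ne hb (div_ne_zero (pow_ne_zero 2 hX.1) (pow_ne_zero 2 k4)) f e1 e2 ha)
    (qe1_U_pos hκ (t0 := K * M ^ (1 / rk : ℝ)) (by positivity) f e1 e2 ha u)
  rw [qe1G, Complex.norm_real, Real.norm_eq_abs]
  refine ⟨b1.trans (le_mul_of_one_le_right hC.le (by linarith)), b2.trans ?_⟩
  have q1 := Ns_pos d
  have q2 := Ns_pos f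
  have q3 := Ns_pos e1
  have q4 := Ns_pos e2
  have q5 := hX.sz_pos
  have q6 : (0 : ℝ) < nm a := one_pos.trans_le (one_le_nmR ha)
  have q7 : 0 < N := q5.trans_le hN
  have q8 : Ns e1 * Ns e2 ≤ nm (qe1h f e1 e2 a) := by
    rw [qe1h, nm_mul, nm_mul, Nat.cast_mul, Nat.cast_mul, mul_assoc]
    exact le_mul_of_one_le_left (mul_pos q3 q4).le (one_le_Ns _)
  have q9 : Real.exp (-(2 * Real.log W + 2)) ^ rk ≤ ∏ w, Real.exp (u w) := by
    rw [← prod_const_Pl]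
    exact Finset.prod_le_prod (fun _ _ => (Real.exp_pos _).le) fun w _ =>
      Real.exp_le_exp.2 (abs_le.1 (hu w)).1
  obtain ⟨y, hy⟩ : ∃ y, y = nm a * (Ns e1 * Ns e2) ^ 2 * (M / (Ns f * (N / Ns d))) ^ 2 / M :=
    ⟨_, rfl⟩
  have hy0 : 0 < y := by rw [hy]; positivity
  have key : c * y ≤ sS b * sS del * (K * M ^ (1 / rk : ℝ)) ^ rk * (∏ w, Real.exp (u w)) *
      (nm a * (nm (qe1h f e1 e2 a) : ℝ) ^ 2 * Ns d ^ 2 / (Ns f ^ 2 * X.sz ^ 2)) := by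
    rw [mul_pow, rpow_rk hM.le]
    calc c * y = sS b * sS del * (K ^ rk * M) * Real.exp (-(2 * Real.log W + 2)) ^ rk *
          (nm a * (Ns e1 * Ns e2) ^ 2 * Ns d ^ 2 / (Ns f ^ 2 * N ^ 2)) := by
          rw [hc, hy]; field_simp
      _ ≤ _ := by gcongr
  rw [qe1_size hb hX _ d f e1 e2 ha, ← hy, mul_assoc C]
  refine mul_le_mul_of_nonneg_left ((Real.rpow_le_rpow_of_nonpos (by positivity) key
    (by norm_num)).trans ?_) hC.le
  rw [Real.mul_rpow hc0.le hy0.le]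
  exact mul_le_mul_of_nonneg_right (by linarith) (by positivity)

theorem qe1_int_sum {ι : Type} (s : Finset ι) (k : ι → ℂ) (G : ι → (Pl → ℝ) → ℂ)
    (hG : ∀ i ∈ s, Continuous (G i)) (a b : Pl → ℝ) :
    ∑ i ∈ s, k i * qe1I (G i) a b = ∫ v : Pl → ℝ, (∏ w, ((beta (v w) : ℝ) : ℂ)) *
      ∑ i ∈ s, k i * (((∏ w, Real.exp (v w) : ℝ) : ℂ)
        * G i fun w => v w - Real.log (a w) - Real.log (b w)) := by
  simp only [Finset.mul_sum]
  rw [integral_finset_sum _ fun i hi => integrable_beta_pi (by have := hG i hi; fun_prop)]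
  refine Finset.sum_congr rfl fun i _ => ?_
  rw [qe1I, ← integral_const_mul]
  congr 1
  funext v
  simp only [Complex.ofReal_mul, Finset.prod_mul_distrib, Complex.ofReal_prod]
  ring

/-- Coefficients restricted to multiples of `e`. -/
def qe1z (α : Finset P → ℂ) (d e c : Finset P) : ℂ := if e ⊆ c then α (d ∪ c) else 0

theorem qe1_powerset {N : ℝ} {c : Finset P} (hc : Ns c ≤ N) (F : Finset P → ℂ) :
    ∑ e ∈ c.powerset, F e = ∑ e ∈ sqf N, if e ⊆ c then F e else 0 := by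
  rw [← Finset.sum_filter]
  refine Finset.sum_congr ?_ fun _ _ => rfl
  ext e
  simp only [Finset.mem_powerset, Finset.mem_filter, mem_sqf]
  exact ⟨fun h => ⟨(Ns_mono h).trans hc, h⟩, fun h => h.2⟩

theorem qe1_pair (h1 : DelB) (α α' : Finset P → ℂ) {K M N N1 : ℝ} (A : ℝ) {b k k0 : FF}
    {κ s s' : Pl → ℝ} (hb : b ≠ 0) (hK : 0 < K) (hM : 0 < M) (hN1 : 0 < N1) (hk0 : k0 ≠ 0)
    (hκ : ∀ w, 0 < κ w) (d : Finset P) {c c' : Finset P} (hc : Ns c ≤ N) (hc' : Ns c' ≤ N)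
    (hk : α (d ∪ c) ≠ 0 → α' (d ∪ c') ≠ 0 → Cl k0 k ∧
      ∀ w, 0 < s w ∧ 0 < s' w ∧ ‖em w k‖ ^ 2 = κ w * s w * s' w) :
    α (d ∪ c) * α' (d ∪ c') * ∫ v : Pl → ℝ, (∏ w, ((beta (v w) : ℝ) : ℂ)) *
        E1 A b (fun w => K * M ^ (1 / rk : ℝ) * Real.exp (v w)) d c c' k =
      ∑ p ∈ (d.powerset ×ˢ sqf N ×ˢ sqf N) ×ˢ calA A,
        mu p.1.1 * mu p.1.2.1 * mu p.1.2.2
          * ((kap * sS b * K ^ rk * (M / (Ns p.1.1 * N1)) : ℝ) : ℂ) *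
          (qe1x (qe1z α d p.1.2.1) N1 p.2 c * qe1x (qe1z α' d p.1.2.2) N1 p.2 c' *
            qe1I (qe1G b k0 κ (K * M ^ (1 / rk : ℝ)) p.1.1 p.1.2.1 p.1.2.2 p.2) s s') := by
  by_cases z1 : α (d ∪ c) = 0
  · simp [qe1x, qe1z, z1]
  by_cases z2 : α' (d ∪ c') = 0
  · simp [qe1x, qe1z, z2]
  obtain ⟨hcl, hs⟩ := hk z1 z2
  have k1 := Ns_pos c
  have k2 := Ns_pos c'
  simp only [← mul_assoc]
  rw [qe1_int_sum _ _ _ fun p hp => qe1_cont h1 hb hk0 hκ (by positivity) _ _ _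
    (mem_calA.1 (Finset.mem_product.1 hp).2).1.ne_zero, ← integral_const_mul]
  congr 1
  funext v
  rw [mul_left_comm]
  congr 1
  rw [E1, Finset.mul_sum, Finset.sum_product, Finset.sum_product]
  refine Finset.sum_congr rfl fun f _ => ?_
  have k3 := Ns_pos f
  rw [Finset.sum_comm, Finset.mul_sum, Finset.mul_sum]
  refine Finset.sum_congr rfl fun a ha => ?_
  have ha0 := (mem_calA.1 ha).1.ne_zero
  rw [Finset.sum_product, qe1_powerset hc]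
  simp only [qe1_powerset hc', Finset.mul_sum]
  refine Finset.sum_congr rfl fun e1 _ => ?_
  by_cases b1 : e1 ⊆ c
  swap
  · simp [qe1x, qe1z, b1]
  rw [if_pos b1]
  simp only [Finset.mul_sum]
  refine Finset.sum_congr rfl fun e2 _ => ?_
  by_cases b2 : e2 ⊆ c'
  swap
  · simp [qe1x, qe1z, b2]
  have e0 := (hcl.mul (Cl.refl (pow_ne_zero 2 (qe1_ne (pr_ne_zero f))))).div
    (Cl.refl (qe1_den hb f e1 e2 ha0))
  have e3 : (fun w => ‖em w a‖ ^ 2 * ‖em w (qe1h f e1 e2 a)‖ ^ 4 * (K * M ^ (1 / rk : ℝ))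
      / (‖em w (pr f)‖ ^ 4 * κ w) * Real.exp (v w - Real.log (s w) - Real.log (s' w)))
      = fun w => ‖em w a‖ ^ 2 * ‖em w (qe1h f e1 e2 a)‖ ^ 4
        * (K * M ^ (1 / rk : ℝ) * Real.exp (v w)) / (‖em w (pr f)‖ ^ 4 * ‖em w k‖ ^ 2) := by
    funext w
    rw [Real.exp_sub, Real.exp_sub, Real.exp_log (hs w).1, Real.exp_log (hs w).2.1, (hs w).2.2]
    ring
  have e4 : kap * sS b * (∏ w, K * M ^ (1 / rk : ℝ) * Real.exp (v w)) / (Ns f * √(Ns c * Ns c')) =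
      kap * sS b * K ^ rk * (M / (Ns f * N1)) / √(Ns c / N1) / √(Ns c' / N1)
        * ∏ w, Real.exp (v w) := by
    have s1 := Real.sqrt_pos.2 k1
    have s2 := Real.sqrt_pos.2 k2
    have s3 := Real.sqrt_pos.2 hN1
    rw [Finset.prod_mul_distrib, prod_const_Pl, mul_pow, rpow_rk hM.le,
      Real.sqrt_mul k1.le, Real.sqrt_div k1.le, Real.sqrt_div k2.le]
    have s4 := Real.mul_self_sqrt hN1.le
    generalize √N1 = r at *
    rw [← s4]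
    field_simp
  rw [if_pos b2, qe1G, e3, e4, Del_congr e0.ne_left e0.ne_zero e0.symm.div_mem e0.div_mem]
  simp only [qe1x, qe1z, qe1h, if_pos b1, if_pos b2, Complex.ofReal_mul, Complex.ofReal_div]
  ring

theorem qe1_sum_le (α : Finset P → ℂ) {N : ℝ} (d r e : Finset P) :
    ∑ c ∈ sqf (N / Ns d) with Disjoint c d ∧ r ⊆ c, ‖qe1z α d e c‖ ^ 2
      ≤ ∑ n ∈ sqf N with d ∪ r ∪ e ⊆ n, ‖α n‖ ^ 2 := by
  have h1 : ∀ c, ‖qe1z α d e c‖ ^ 2 = if e ⊆ c then ‖α (d ∪ c)‖ ^ 2 else 0 := fun c => by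
    rw [qe1z]; split_ifs <;> simp
  simp only [h1]
  rw [← Finset.sum_filter, ← Finset.sum_image (g := fun c => d ∪ c) (f := fun n => ‖α n‖ ^ 2)]
  · refine Finset.sum_le_sum_of_subset_of_nonneg (fun n hn => ?_) fun _ _ _ => sq_nonneg _
    obtain ⟨c, hc, rfl⟩ := Finset.mem_image.1 hn
    simp only [Finset.mem_filter, mem_sqf] at hc ⊢
    refine ⟨?_, Finset.union_subset (Finset.union_subset_union_right hc.1.2.2)
      (hc.2.trans Finset.subset_union_right)⟩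
    rw [Ns_union hc.1.2.1.symm, mul_comm]
    exact (le_div_iff₀ (Ns_pos d)).1 hc.1.1
  · intro c hc c' hc' h
    simp only [Finset.coe_filter, Finset.mem_filter, Set.mem_setOf_eq] at hc hc'
    have h2 := congrArg (· \ d) h
    simp only [Finset.union_sdiff_left] at h2
    rwa [Finset.sdiff_eq_self_of_disjoint hc.1.2.1,
      Finset.sdiff_eq_self_of_disjoint hc'.1.2.1] at h2

theorem qe1_supp {α : Finset P → ℂ} {N W : ℝ} {s : Finset P → Pl → ℝ}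
    (hα : ∀ n, α n ≠ 0 → N / 2 < Ns n ∧ ∀ w, 1 ≤ s n w ∧ s n w ≤ W) (d r e : Finset P) :
    qe1S ((sqf (N / Ns d)).filter fun c => Disjoint c d ∧ r ⊆ c) (qe1z α d e) e (N / Ns d) W
      fun c => s (d ∪ c) := by
  intro c hc h0
  simp only [Finset.mem_filter, mem_sqf] at hc
  have he : e ⊆ c := by
    by_contra h
    exact h0 (if_neg h)
  rw [qe1z, if_pos he] at h0
  obtain ⟨k2, k1⟩ := hα _ h0
  refine ⟨he, ?_, hc.1, k1⟩
  rw [Ns_union hc.2.1.symm] at k2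
  rw [div_right_comm, div_lt_iff₀ (Ns_pos d)]
  linarith

theorem qe1_sz {X : Sc} (hX : X.OK) {g : E} {n : Finset P} (h1 : Associated g (pr n))
    (h2 : Cl X.a g) (h3 : ∀ w, X.T w ≤ ‖em w g‖ ^ 2) : X.sz ≤ Ns n := by
  rw [Ns, ← nm_assoc h1, nm_eq (h1.ne_zero_iff.2 (pr_ne_zero n)), h2.sS_eq, Sc.sz, mul_comm, Ninf]
  exact mul_le_mul_of_nonneg_right
    (Finset.prod_le_prod (fun w _ => (hX.2 w).le) fun w _ => h3 w) (sS_pos _).le

theorem qe1_k {X : Sc} (hX : X.OK) {g g' : FF} (h : Cl X.a g) (h' : Cl X.a g') (d : Finset P) :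
    Cl (X.a ^ 2 / (pr d : FF) ^ 2) (g * g' / (pr d : FF) ^ 2) ∧ ∀ w,
      0 < ‖em w g‖ ^ 2 / X.T w ∧ 0 < ‖em w g'‖ ^ 2 / X.T w ∧ ‖em w (g * g' / (pr d : FF) ^ 2)‖ ^ 2
        = X.T w ^ 2 / ‖em w (pr d)‖ ^ 4 * (‖em w g‖ ^ 2 / X.T w) * (‖em w g'‖ ^ 2 / X.T w) := by
  refine ⟨?_, fun w => ⟨div_pos (em_sq_pos w h.ne_zero) (hX.2 w),
    div_pos (em_sq_pos w h'.ne_zero) (hX.2 w), ?_⟩⟩
  · rw [sq X.a]
    exact (h.mul h').div (Cl.refl (pow_ne_zero 2 (qe1_ne (pr_ne_zero d))))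
  · have := (hX.2 w).ne'
    rw [map_div₀, map_mul, map_pow, norm_div, norm_mul, norm_pow]
    field_simp

omit σ in
theorem qe1_num {ξ ε δ M N : ℝ} (hξ : 1 ≤ ξ) (hε : 0 < ε) (hδ : δ = ε / (3 * (1 + ε))) (hN : 1 ≤ N)
    (hM : N ^ (2 - 1 / ξ) ≤ M) : 0 < M ∧ 1 ≤ (M * N) ^ ε ∧
    N ^ 2 * (M * N) ^ ε / M ≤ N ^ (1 / ξ) * (M * N) ^ ε ∧
    ((2 * (M * N) * (M * N) ^ ε) ^ δ) ^ 3 ≤ 2 * (M * N) ^ ε ∧
    N ^ δ ≤ (2 * (M * N) * (M * N) ^ ε) ^ δ ∧ (M * N) ^ (3 * ε) = ((M * N) ^ ε) ^ 3 := by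
  have hδ0 : 0 < δ := by rw [hδ]; positivity
  have hδ2 : (1 + ε) * (δ * 3) = ε := by rw [hδ]; field_simp
  have hδ1 : δ * 3 ≤ 1 := by nlinarith
  have hξ0 : 0 < ξ := by linarith
  have hNM : N ≤ M := le_trans (Real.self_le_rpow_of_one_le hN
    (by linarith [(div_le_one hξ0).2 hξ])) hM
  have hM0 : 0 < M := by linarith
  have hT1 : 1 ≤ M * N := one_le_mul_of_one_le_of_one_le (by linarith) hN
  have hZ : 1 ≤ (M * N) ^ ε := Real.one_le_rpow hT1 hε.le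
  refine ⟨hM0, hZ, ?_, ?_, ?_, ?_⟩
  · rw [div_le_iff₀ hM0, mul_right_comm]
    refine mul_le_mul_of_nonneg_right ?_ (by linarith)
    calc N ^ 2 = N ^ (1 / ξ) * N ^ (2 - 1 / ξ) := by
          rw [← Real.rpow_add (by linarith), add_sub_cancel, Real.rpow_two]
      _ ≤ _ := mul_le_mul_of_nonneg_left hM (by positivity)
  · rw [mul_assoc, ← Real.rpow_one_add' (by linarith) (by linarith),
      ← Real.rpow_natCast, ← Real.rpow_mul (by positivity),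
      Real.mul_rpow (by norm_num) (by positivity), ← Real.rpow_mul (by linarith)]
    push_cast
    rw [hδ2]
    exact mul_le_mul_of_nonneg_right (Real.rpow_le_self_of_one_le one_le_two hδ1) (by linarith)
  · refine Real.rpow_le_rpow (by linarith) ?_ hδ0.le
    have t1 : N ≤ M * N := le_mul_of_one_le_left (by linarith) (by linarith)
    have t4 := le_mul_of_one_le_right (by positivity : 0 ≤ M * N) hZ
    linarith
  · rw [← Real.rpow_natCast, ← Real.rpow_mul (by linarith), mul_comm ε]; norm_num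

theorem qE1 (h1 : DelB) (h2 : SepW) {ξ : ℝ} (hξ : 1 ≤ ξ) (hξ2 : ξ ≤ 2) (h : QD ξ) :
    QE E1 ξ := by
  intro b K W ε hb hK hW hε
  obtain ⟨δ, hδ⟩ : ∃ δ : ℝ, δ = ε / (3 * (1 + ε)) := ⟨_, rfl⟩
  have hδ0 : 0 < δ := by rw [hδ]; positivity
  obtain ⟨C1, hC1, hT⟩ := qe1_term h2 hξ hξ2 h hδ0 hW
  obtain ⟨C2, hC2, hcomb⟩ := comb hδ0
  obtain ⟨C0, hC0, hG⟩ := qe1_G h1 hb hK W
  have hK0 : 0 < K := by linarith
  have hc : 0 < kap * sS b * K ^ rk := mul_pos (mul_pos kap_pos (sS_pos b)) (pow_pos hK0 _)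
  refine ⟨kap * sS b * K ^ rk * C1 * C0 * C2 * 2, by positivity,
    fun M N α g hN hM ⟨X, hX, hα⟩ => ?_⟩
  obtain ⟨hM0, hZ, hA0, hY, hN2, hZ3⟩ := qe1_num hξ hε hδ hN hM
  have h5 : 0 ≤ ∑ n ∈ sqf N, ‖α n‖ ^ 2 := Finset.sum_nonneg fun _ _ => sq_nonneg _
  by_cases hz : ∀ n ∈ sqf N, α n = 0
  · rw [Finset.sum_eq_zero fun n hn => by simp [hz n hn], norm_zero]
    positivity
  have hsz : X.sz ≤ N := by
    push Not at hz
    obtain ⟨n, hn, h0⟩ := hz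
    obtain ⟨-, k1, k2, k3⟩ := hα n h0
    exact (qe1_sz hX k1 k2 fun w => (k3 w).1).trans (mem_sqf.1 hn)
  rw [hZ3]
  generalize (M * N) ^ ε = Z at *
  generalize N ^ 2 * Z / M = A0 at *
  have e0 := rearr2 N (fun d c c' => α (d ∪ c) * conj (α (d ∪ c')) *
    ∫ v : Pl → ℝ, (∏ w, ((beta (v w) : ℝ) : ℂ)) *
      E1 A0 b (fun w => K * M ^ (1 / rk : ℝ) * Real.exp (v w)) d c c'
        (g (d ∪ c) * g (d ∪ c') / (pr d : FF) ^ 2))
  have e1 : ∀ n n' : Finset P, n ∩ n' ∪ n \ n' = n := fun n n' => by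
    rw [Finset.union_comm, Finset.sdiff_union_inter]
  have e2 : ∀ n n' : Finset P, n ∩ n' ∪ n' \ n = n' := fun n n' => by
    rw [Finset.inter_comm, e1]
  simp only [e1, e2] at e0
  rw [e0]
  obtain ⟨K1, hK1⟩ : ∃ K1, K1 = kap * sS b * K ^ rk *
    (C1 * C0 * ((2 * (M * N) * Z) ^ δ) ^ 2 * (M * Z ^ 2)) := ⟨_, rfl⟩
  have hK2 : 0 ≤ K1 := by rw [hK1]; positivity
  have hs : ∀ n, α n ≠ 0 → N / 2 < Ns n ∧ ∀ w, 1 ≤ ‖em w (g n)‖ ^ 2 / X.T w ∧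
      ‖em w (g n)‖ ^ 2 / X.T w ≤ W := fun n hn => ⟨(hα n hn).1, fun w =>
    ⟨(one_le_div (hX.2 w)).2 ((hα n hn).2.2.2 w).1,
      (div_le_iff₀ (hX.2 w)).2 ((hα n hn).2.2.2 w).2⟩⟩
  have key : ∀ d ∈ sqf N, ∀ r ∈ sqf N, ‖mu r * ∑ c ∈ sqf (N / Ns d) with Disjoint c d ∧ r ⊆ c,
      ∑ c' ∈ sqf (N / Ns d) with Disjoint c' d ∧ r ⊆ c', α (d ∪ c) * conj (α (d ∪ c')) *
        ∫ v : Pl → ℝ, (∏ w, ((beta (v w) : ℝ) : ℂ)) *
          E1 A0 b (fun w => K * M ^ (1 / rk : ℝ) * Real.exp (v w)) d c c'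
            (g (d ∪ c) * g (d ∪ c') / (pr d : FF) ^ 2)‖ ≤ K1 * (2 ^ d.card *
      (∑ e ∈ sqf N, √((∑ n ∈ sqf N with d ∪ r ∪ e ⊆ n, ‖α n‖ ^ 2) / Ns e)) ^ 2) := by
    intro d hd r _
    have hd0 := Ns_pos d
    have k4 := qe1_ne (pr_ne_zero d)
    have hk0 := div_ne_zero (pow_ne_zero 2 hX.1) (pow_ne_zero 2 k4)
    have hκ : ∀ w, 0 < X.T w ^ 2 / ‖em w (pr d)‖ ^ 4 := fun w =>
      div_pos (pow_pos (hX.2 w) _) (pow_pos (norm_pos_iff.2 (em_ne_zero w k4)) _)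
    have hN1 : N / Ns d ≤ N := div_le_self (by linarith) (one_le_Ns d)
    have hJ : ∀ c ∈ (sqf (N / Ns d)).filter fun c => Disjoint c d ∧ r ⊆ c, Ns c ≤ N := fun c hc =>
      (mem_sqf.1 (Finset.mem_filter.1 hc).1).trans hN1
    rw [norm_mul, norm_mu, one_mul, Finset.sum_congr rfl fun c hc => Finset.sum_congr rfl
      fun c' hc' => qe1_pair h1 α (fun n => conj (α n)) A0 hb hK0 hM0 (N1 := N / Ns d)
        (by positivity) hk0 hκ d (hJ c hc) (hJ c' hc') fun z1 z2 =>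
          qe1_k hX (hα _ z1).2.2.1 (hα _ (by simpa using z2)).2.2.1 d,
      Finset.sum_congr rfl fun c _ => Finset.sum_comm, Finset.sum_comm, Finset.sum_product]
    refine (norm_sum_le _ _).trans ((Finset.sum_le_sum (g := fun q => K1 *
      (√((∑ n ∈ sqf N with d ∪ r ∪ q.2.1 ⊆ n, ‖α n‖ ^ 2) / Ns q.2.1) *
        √((∑ n ∈ sqf N with d ∪ r ∪ q.2.2 ⊆ n, ‖α n‖ ^ 2) / Ns q.2.2))) fun q hq => ?_).trans
      (le_of_eq ?_))
    · have hf := Ns_pos q.1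
      have b1 := hT M N Z A0 _ _ _ q.1 q.2.1 q.2.2 _ _ _ C0 _ _ _ hN hM hZ hA0 (by positivity) hN1
        (qe1_supp hs d r q.2.1) (qe1_supp (α := fun n => conj (α n))
          (fun n hn => hs n (by simpa using hn)) d r q.2.2)
        (qe1_sum_le α d r q.2.1) (qe1_sum_le (fun n => conj (α n)) d r q.2.2) hC0.le
        fun a ha => ⟨qe1_cont h1 hb hk0 hκ (by positivity) _ _ _ ha,
          fun u hu => hG X M N d q.1 q.2.1 q.2.2 a u hX hsz hM0 ha hu⟩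
      simp only [Complex.norm_conj] at b1
      rw [hK1, mul_assoc (kap * sS b * K ^ rk)]
      refine (norm_sum_le _ _).trans (le_trans (le_of_eq ?_) (mul_le_mul_of_nonneg_left b1 hc.le))
      rw [← mul_assoc, Finset.mul_sum]
      refine Finset.sum_congr rfl fun a _ => ?_
      simp only [← Finset.mul_sum]
      rw [norm_mul, norm_mul, norm_mul, norm_mul, norm_mu, norm_mu, norm_mu, Complex.norm_real,
        Real.norm_eq_abs, abs_of_pos (by positivity)]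
      simp only [one_mul, Finset.mul_sum]
    · rw [← Finset.mul_sum, Finset.sum_product]
      simp only [Finset.sum_product, Finset.sum_const, Finset.card_powerset, nsmul_eq_mul]
      rw [sq, Finset.sum_mul_sum]
      push_cast
      rfl
  refine (norm_sum_le _ _).trans ((Finset.sum_le_sum fun d hd =>
    (norm_sum_le _ _).trans (Finset.sum_le_sum (key d hd))).trans ?_)
  simp only [← Finset.mul_sum]
  have b2 := hcomb N α hN
  simp only [← Finset.mul_sum] at b2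
  refine (mul_le_mul_of_nonneg_left (b2.trans (mul_le_mul_of_nonneg_right
    (mul_le_mul_of_nonneg_left hN2 hC2.le) h5)) hK2).trans ?_
  rw [hK1]
  have b3 := mul_le_mul_of_nonneg_left hY (by positivity :
    0 ≤ kap * sS b * K ^ rk * C1 * C0 * C2 * (M * Z ^ 2) * ∑ n ∈ sqf N, ‖α n‖ ^ 2)
  linarith

end NQ
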