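import Vale.Agent.NQ.Sym
import Vale.Agent.NQ.Rearr
import Vale.Agent.NQ.WtS
import Vale.Agent.NQ.Vl
import Vale.Agent.P026.QE2

noncomputable section
namespace NQ
open Complex MeasureTheory NumberField Filter
open scoped ComplexConjugate Classical ContDiff Topology

variable [σ : St]

/-- The smoothed error term. -/
def qe2I (b : FF) (L : ℝ) (a y : E) : ℂ := ∫ v : Pl → ℝ, (∏ w, ((beta (v w) : ℝ) : ℂ)) *
  (Del (b / (a * (y : FF) ^ 2))
    (fun w => ‖em w a‖ ^ 2 * ‖em w y‖ ^ 4 / (L * Real.exp (v w))) : ℝ)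

theorem qe2_ne {b : FF} (hb : b ≠ 0) {a y : E} (ha : a ≠ 0) (hy : y ≠ 0) :
    b / (a * (y : FF) ^ 2) ≠ 0 :=
  div_ne_zero hb (mul_ne_zero (cnt_coe_ne ha) (pow_ne_zero _ (cnt_coe_ne hy)))

theorem qe2_pos {L : ℝ} (hL : 0 < L) {a y : E} (ha : a ≠ 0) (hy : y ≠ 0) (w : Pl) (t : ℝ) :
    0 < ‖em w a‖ ^ 2 * ‖em w y‖ ^ 4 / (L * Real.exp t) := by
  have h1 := norm_pos_iff.2 (em_ne_zero w (cnt_coe_ne ha))
  have h2 := norm_pos_iff.2 (em_ne_zero w (cnt_coe_ne hy))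
  positivity

theorem qe2_cont (h1 : DelB) {b : FF} (hb : b ≠ 0) {L : ℝ} (hL : 0 < L) {a y : E} (ha : a ≠ 0)
    (hy : y ≠ 0) : Continuous fun v : Pl → ℝ => ((Del (b / (a * (y : FF) ^ 2))
      (fun w => ‖em w a‖ ^ 2 * ‖em w y‖ ^ 4 / (L * Real.exp (v w))) : ℝ) : ℂ) := by
  refine continuous_ofReal.comp ((h1.1 _ (qe2_ne hb ha hy)).comp_continuous ?_
    fun v w => qe2_pos hL ha hy w _)
  exact continuous_pi fun w => continuous_const.div (by fun_prop) fun v => by positivity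

theorem qe2_quot {b : FF} (hb : b ≠ 0) {a y : E} (ha : a ≠ 0) (hy : y ≠ 0) (t : Pl → ℝ) :
    (∏ w, ‖em w a‖ ^ 2 * ‖em w y‖ ^ 4 / t w) / sS (b / (a * (y : FF) ^ 2))
      = nm a * (nm y : ℝ) ^ 2 / (sS b * ∏ w, t w) := by
  have ha' := cnt_coe_ne ha
  have hy' := cnt_coe_ne hy
  have e : ∏ w : Pl, ‖em w y‖ ^ 4 = Ninf y ^ 2 := by
    rw [Ninf, ← Finset.prod_pow]
    exact Finset.prod_congr rfl fun w _ => by ring
  rw [Finset.prod_div_distrib, Finset.prod_mul_distrib, e,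
    sS_div hb (mul_ne_zero ha' (pow_ne_zero _ hy')), sS_mul ha' (pow_ne_zero _ hy'), sS_pow,
    nm_eq ha, nm_eq hy]
  have h1 := sS_pos b
  have h2 := sS_pos (a : FF)
  have h3 := sS_pos (y : FF)
  change Ninf a * Ninf y ^ 2 / _ / _ = _
  by_cases h0 : ∏ w, t w = 0
  · simp [h0]
  · field_simp

theorem qe2_norm_I (h1 : DelB) {b : FF} (hb : b ≠ 0) {K : ℝ} (hK : 1 ≤ K) : ∃ C : ℝ, 0 < C ∧
    ∀ (M z : ℝ) (a y : E), 0 < M → 0 < z → a ≠ 0 → y ≠ 0 → z ≤ nm a * (nm y : ℝ) ^ 2 →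
      ‖qe2I b (K * M ^ (1 / rk : ℝ)) a y‖ ≤ C * min 1 ((z / (4 * M)) ^ (-(1 / 2) : ℝ)) := by
  obtain ⟨C, hC, h⟩ := h1.2
  have hs := sS_pos b
  obtain ⟨Λ, hΛ⟩ : ∃ Λ : ℝ, Λ = 1 + sS b * (4 * K) ^ rk := ⟨_, rfl⟩
  have hΛ1 : 1 ≤ Λ := by rw [hΛ]; exact le_add_of_nonneg_right (by positivity)
  refine ⟨2 ^ rk * (C * Λ), by positivity, fun M z a y hM hz ha hy hU => ?_⟩
  rw [mul_assoc]
  refine norm_integral_beta_pi (by positivity) fun v hv => ?_
  have hL : 0 < K * M ^ (1 / rk : ℝ) := by positivity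
  have h0 := h _ _ (qe2_ne hb ha hy) fun w => qe2_pos hL ha hy w (v w)
  rw [Complex.norm_real, Real.norm_eq_abs, mul_min_of_nonneg _ _ (by positivity), mul_one]
  refine le_min (h0.1.trans (le_mul_of_one_le_right hC.le hΛ1)) (h0.2.trans ?_)
  rw [mul_assoc, qe2_quot hb ha hy]
  refine mul_le_mul_of_nonneg_left ?_ hC.le
  have hp : ∏ w : Pl, K * M ^ (1 / rk : ℝ) * Real.exp (v w) ≤ (4 * K) ^ rk * M := by
    calc ∏ w : Pl, K * M ^ (1 / rk : ℝ) * Real.exp (v w)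
        ≤ ∏ _w : Pl, K * M ^ (1 / rk : ℝ) * 4 :=
          Finset.prod_le_prod (fun w _ => by positivity) fun w _ =>
            mul_le_mul_of_nonneg_left (hv w).2.le hL.le
      _ = (4 * K) ^ rk * (M ^ (1 / rk : ℝ)) ^ rk := by
          rw [Finset.prod_const, Finset.card_univ, ← mul_pow]
          congr 1
          ring
      _ = (4 * K) ^ rk * M := by
          rw [one_div, Real.rpow_inv_natCast_pow hM.le rk_pos.ne']
  have hp0 : 0 < ∏ w : Pl, K * M ^ (1 / rk : ℝ) * Real.exp (v w) :=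
    Finset.prod_pos fun w _ => by positivity
  have h2 : z / (4 * M) / Λ ≤
      nm a * (nm y : ℝ) ^ 2 / (sS b * ∏ w : Pl, K * M ^ (1 / rk : ℝ) * Real.exp (v w)) := by
    rw [div_div]
    refine div_le_div₀ (hz.le.trans hU) hU (by positivity) ?_
    have h3 : sS b * (4 * K) ^ rk ≤ Λ := by rw [hΛ]; linarith
    calc sS b * ∏ w : Pl, K * M ^ (1 / rk : ℝ) * Real.exp (v w) ≤ sS b * ((4 * K) ^ rk * M) :=
          mul_le_mul_of_nonneg_left hp hs.le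
      _ = M * (sS b * (4 * K) ^ rk) := by ring
      _ ≤ 4 * M * Λ := mul_le_mul (by linarith) h3 (by positivity) (by positivity)
  refine (Real.rpow_le_rpow_of_nonpos (by positivity) h2 (by norm_num)).trans ?_
  rw [Real.div_rpow (by positivity) (by positivity), Real.rpow_neg (x := Λ) (by positivity),
    div_inv_eq_mul, mul_comm]
  refine mul_le_mul_of_nonneg_right ?_ (by positivity)
  conv_rhs => rw [← Real.rpow_one Λ]
  exact Real.rpow_le_rpow_of_exponent_le hΛ1 (by norm_num)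

theorem qe2_ne3 (e0 e1 e2 : Finset P) : (pr e0 * pr e1 * pr e2 : E) ≠ 0 :=
  mul_ne_zero (mul_ne_zero (pr_ne_zero _) (pr_ne_zero _)) (pr_ne_zero _)

theorem qe2_nm3 (e0 e1 e2 : Finset P) :
    (nm (pr e0 * pr e1 * pr e2 : E) : ℝ) = Ns e0 * Ns e1 * Ns e2 := by
  simp [nm_mul, Ns]

theorem qe2_int (h1 : DelB) {A L : ℝ} {b : FF} (hb : b ≠ 0) (hL : 0 < L) (d c c' : Finset P)
    (k : FF) :
    ∫ v : Pl → ℝ, (∏ w, ((beta (v w) : ℝ) : ℂ)) * E2 A b (fun w => L * Real.exp (v w)) d c c' k =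
      ∑ a ∈ calA A, cop d a * xs c2 c a * xs c2 c' a *
        ∑ e0 ∈ d.powerset, ∑ e1 ∈ c.powerset, ∑ e2 ∈ c'.powerset, mu e0 * mu e1 * mu e2 *
          qe2I b L a (pr e0 * pr e1 * pr e2) := by
  have hi : ∀ a ∈ calA A, ∀ (e0 e1 e2 : Finset P) (k : ℂ), Integrable fun v : Pl → ℝ =>
      k * ((∏ w, ((beta (v w) : ℝ) : ℂ)) *
        (Del (b / (a * ((pr e0 * pr e1 * pr e2 : E) : FF) ^ 2))
        (fun w => ‖em w a‖ ^ 2 * ‖em w (pr e0 * pr e1 * pr e2 : E)‖ ^ 4 /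
          (L * Real.exp (v w))) : ℝ)) := fun a ha e0 e1 e2 k =>
    (integrable_beta_pi (qe2_cont h1 hb hL (mem_calA.1 ha).1.ne_zero (qe2_ne3 e0 e1 e2))).const_mul k
  have e : ∀ v : Pl → ℝ, (∏ w, ((beta (v w) : ℝ) : ℂ)) *
      E2 A b (fun w => L * Real.exp (v w)) d c c' k =
      ∑ a ∈ calA A, ∑ e0 ∈ d.powerset, ∑ e1 ∈ c.powerset, ∑ e2 ∈ c'.powerset,
        (cop d a * xs c2 c a * xs c2 c' a * (mu e0 * mu e1 * mu e2)) *
          ((∏ w, ((beta (v w) : ℝ) : ℂ)) *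
          (Del (b / (a * ((pr e0 * pr e1 * pr e2 : E) : FF) ^ 2))
          (fun w => ‖em w a‖ ^ 2 * ‖em w (pr e0 * pr e1 * pr e2 : E)‖ ^ 4 /
            (L * Real.exp (v w))) : ℝ)) := fun v => by
    simp only [E2, Finset.mul_sum]
    refine Finset.sum_congr rfl fun _ _ => Finset.sum_congr rfl fun _ _ =>
      Finset.sum_congr rfl fun _ _ => Finset.sum_congr rfl fun _ _ => by ring
  simp only [e]
  rw [integral_finsetSum _ fun a ha => integrable_finsetSum _ fun e0 _ =>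
    integrable_finsetSum _ fun e1 _ => integrable_finsetSum _ fun e2 _ => hi a ha e0 e1 e2 _]
  refine Finset.sum_congr rfl fun a ha => ?_
  rw [integral_finsetSum _ fun e0 _ =>
    integrable_finsetSum _ fun e1 _ => integrable_finsetSum _ fun e2 _ => hi a ha e0 e1 e2 _,
    Finset.mul_sum]
  refine Finset.sum_congr rfl fun e0 _ => ?_
  rw [integral_finsetSum _ fun e1 _ => integrable_finsetSum _ fun e2 _ => hi a ha e0 e1 e2 _,
    Finset.mul_sum]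
  refine Finset.sum_congr rfl fun e1 _ => ?_
  rw [integral_finsetSum _ fun e2 _ => hi a ha e0 e1 e2 _, Finset.mul_sum]
  refine Finset.sum_congr rfl fun e2 _ => ?_
  rw [integral_const_mul, qe2I]
  ring

theorem qe2_swap {α : Type*} (T T' S S' D : Finset (Finset P)) (A : Finset α)
    (x y : Finset P → α → ℂ) (k : α → ℂ) (G : α → Finset P → Finset P → Finset P → ℂ) :
    ∑ c ∈ T, ∑ c' ∈ T', ∑ a ∈ A, k a * x c a * y c' a *
        ∑ e0 ∈ D, ∑ e1 ∈ S with e1 ⊆ c, ∑ e2 ∈ S' with e2 ⊆ c', G a e0 e1 e2 =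
      ∑ e0 ∈ D, ∑ e1 ∈ S, ∑ e2 ∈ S', ∑ a ∈ A, k a * G a e0 e1 e2 *
        (∑ c ∈ T with e1 ⊆ c, x c a) * ∑ c' ∈ T' with e2 ⊆ c', y c' a := by
  simp only [QRH.qe2_filter, Finset.mul_sum, Finset.sum_mul]
  simp only [Finset.sum_comm (s := T')]
  simp only [Finset.sum_comm (s := T)]
  simp only [Finset.sum_comm (s := A)]
  refine Finset.sum_congr rfl fun _ _ => Finset.sum_congr rfl fun _ _ =>
    Finset.sum_congr rfl fun _ _ => Finset.sum_congr rfl fun _ _ =>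
    Finset.sum_congr rfl fun _ _ => Finset.sum_congr rfl fun _ _ => by ring

/-- The sum over `a` for fixed parameters. -/
theorem qe2_main (h1 : DelB) {ξ : ℝ} (hξ : 1 ≤ ξ) (hξ2 : ξ ≤ 2) (h : QD ξ) {b : FF} (hb : b ≠ 0)
    {K : ℝ} (hK : 1 ≤ K) {ε : ℝ} (hε : 0 < ε) :
    ∃ C : ℝ, 0 < C ∧ ∀ (M N : ℝ) (T1 T2 : Finset (Finset P)) (e0 e1 e2 : Finset P)
      (x1 x2 : Finset P → ℂ), 1 ≤ N → N ^ (2 - 1 / ξ) ≤ M →
      (∀ c ∈ T1, x1 c ≠ 0 → e1 ⊆ c ∧ Ns c ≤ N) →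
      (∀ c ∈ T2, x2 c ≠ 0 → e2 ⊆ c ∧ Ns c ≤ N) →
      ∑ a ∈ calA (N ^ 2 * (M * N) ^ ε / M), 
        ‖qe2I b (K * M ^ (1 / rk : ℝ)) a (pr e0 * pr e1 * pr e2)‖ *
        (‖∑ c ∈ T1, x1 c * xs c2 c a‖ * ‖∑ c ∈ T2, x2 c * xs c2 c a‖) ≤
      C * ((M * N) ^ (ε / 3)) ^ 8 * M *
        (√((∑ c ∈ T1, ‖x1 c‖ ^ 2) / Ns e1) * √((∑ c ∈ T2, ‖x2 c‖ ^ 2) / Ns e2)) := by
  obtain ⟨C0, hC0, hD⟩ := qe2_norm_I h1 hb hK
  have hδ : 0 < ε / 3 / (1 + ε) := by positivity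
  obtain ⟨C1, hC1, hQ⟩ := h _ hδ
  obtain ⟨C2, hC2, hL⟩ := log_le_rpow hδ
  refine ⟨C2 * (C0 * (9 * (C1 * 2 ^ (ε / 3 / (1 + ε))))), by positivity,
    fun M N T1 T2 e0 e1 e2 x1 x2 hN hM hx1 hx2 => ?_⟩
  have hNM := (QRH.qe2_A0 hξ hN hM le_rfl).1
  have hMN : 1 ≤ M * N := one_le_mul_of_one_le_of_one_le (hN.trans hNM) hN
  have hM0 : 0 < M := by linarith
  have hZ : 1 ≤ (M * N) ^ ε := Real.one_le_rpow hMN hε.le
  obtain ⟨-, hA0, hN1⟩ := QRH.qe2_A0 hξ hN hM hZ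
  have hZW : (M * N) ^ ε = ((M * N) ^ (ε / 3)) ^ 3 := by
    rw [← Real.rpow_natCast, ← Real.rpow_mul (by linarith)]
    congr 1
    push_cast
    ring
  have hW : (M * N * (M * N) ^ ε) ^ (ε / 3 / (1 + ε)) = (M * N) ^ (ε / 3) := by
    rw [← Real.rpow_one_add' (by linarith) (by linarith), ← Real.rpow_mul (by linarith)]
    congr 1
    field_simp
  have hW0 : 0 ≤ (M * N) ^ (ε / 3) := by positivity
  generalize (M * N) ^ (ε / 3) = W at *
  generalize (M * N) ^ ε = Z at *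
  generalize ε / 3 / (1 + ε) = δ at *
  generalize N ^ 2 * Z / M = A0 at *
  have hA1 : A0 * N ≤ M * N * Z := by
    calc A0 * N ≤ N ^ (1 / ξ) * Z * N := by gcongr
      _ ≤ M * Z * N := by gcongr; linarith
      _ = _ := by ring
  by_cases hA : A0 < 1
  · rw [Finset.sum_eq_zero fun a ha => absurd
      ((one_le_nmR (mem_calA.1 ha).1.ne_zero).trans (mem_calA.1 ha).2) (not_le.2 hA)]
    positivity
  obtain ⟨J, hJ1, hJ2⟩ := exists_dyadic (not_lt.1 hA)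
  rw [sum_dyadic (calA A0) (fun a => (nm a : ℝ)) _ (J := J) fun a ha => by
    obtain ⟨h0, h2⟩ := mem_calA.1 ha
    exact ⟨one_le_nmR h0.ne_zero, h2.trans_lt hJ2⟩]
  have hJ : (J + 1 : ℝ) ≤ C2 * W := by
    refine (hL A0 J (not_lt.1 hA) hJ1).trans (mul_le_mul_of_nonneg_left ?_ hC2.le)
    rw [← hW]
    refine Real.rpow_le_rpow (by linarith) (le_trans ?_ hA1) hδ.le
    exact le_mul_of_one_le_right (by linarith) hN
  have n0 := one_le_Ns e0
  have n1 := one_le_Ns e1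
  have n2 := one_le_Ns e2
  refine (Finset.sum_le_card_nsmul _ _ (C0 * (9 * (C1 * 2 ^ δ * W) * M * Z ^ 2 *
    (√((∑ c ∈ T1, ‖x1 c‖ ^ 2) / Ns e1) * √((∑ c ∈ T2, ‖x2 c‖ ^ 2) / Ns e2)))) fun j hj => ?_).trans ?_
  · have hj' : (2 : ℝ) ^ j ≤ A0 :=
      (pow_le_pow_right₀ one_le_two (Nat.lt_succ_iff.1 (Finset.mem_range.1 hj))).trans hJ1
    have hA2 : (0 : ℝ) < 2 ^ j := by positivity
    rw [pow_succ' (2 : ℝ) j]
    generalize (2 : ℝ) ^ j = A at *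
    have hQ' : ∀ (T : Finset (Finset P)) (e : Finset P) (x : Finset P → ℂ),
        (∀ c ∈ T, x c ≠ 0 → e ⊆ c ∧ Ns c ≤ N) →
        ∑ a ∈ calA A0 with A ≤ (nm a : ℝ) ∧ (nm a : ℝ) < 2 * A, ‖∑ c ∈ T, x c * xs c2 c a‖ ^ 2 ≤
          C1 * 2 ^ δ * W * (N / Ns e + (2 * A) ^ ξ) * ∑ c ∈ T, ‖x c‖ ^ 2 := by
      intro T e x hx
      have ne := one_le_Ns e
      have hLe : N / Ns e ≤ N := div_le_self (by linarith) ne
      have k1 := hQ (2 * A) (N / Ns e) T e x (by positivity) (by positivity) fun c hc h0 =>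
        ⟨(hx c hc h0).1, by
          rw [div_mul_cancel₀ _ (Ns_pos e).ne']; exact (hx c hc h0).2⟩
      have k2 : (2 * A * (N / Ns e)) ^ δ ≤ 2 ^ δ * W := by
        rw [← hW, ← Real.mul_rpow zero_le_two (by positivity)]
        refine Real.rpow_le_rpow (by positivity) ?_ hδ.le
        calc 2 * A * (N / Ns e) ≤ 2 * A0 * N :=
              mul_le_mul (by linarith) hLe (by positivity) (by linarith)
          _ ≤ _ := by linarith
      refine le_trans (Finset.sum_le_sum_of_subset_of_nonneg (fun a ha => ?_)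
        fun _ _ _ => by positivity) (k1.trans ?_)
      · obtain ⟨ha1, ha2⟩ := Finset.mem_filter.1 ha
        exact mem_calA.2 ⟨(mem_calA.1 ha1).1, ha2.2.le⟩
      · rw [mul_assoc C1 (2 ^ δ) W]
        gcongr
    have hy : 0 < A * (Ns e1 * Ns e2) ^ 2 := by positivity
    have hu : ((A * (Ns e1 * Ns e2) ^ 2 / (4 * M)) ^ (-(1 / 2) : ℝ)) ^ 2 *
        (A * (Ns e1 * Ns e2) ^ 2) = 4 * M := by
      rw [← Real.rpow_natCast, ← Real.rpow_mul (by positivity),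
        show (-(1 / 2) : ℝ) * ((2 : ℕ) : ℝ) = -1 by norm_num, Real.rpow_neg_one]
      field_simp
    have hu0 : 0 ≤ (A * (Ns e1 * Ns e2) ^ 2 / (4 * M)) ^ (-(1 / 2) : ℝ) := by positivity
    have k3 := QRH.qe2_alg (le_min zero_le_one hu0) (min_le_left _ _) (min_le_right _ _) hA2 hu
      (by positivity) (QRH.qe2_B hξ hξ2 hN hM hZ hA2 (hj'.trans hA0)) (by linarith) hNM hZ n1 n2
      (F := C1 * 2 ^ δ * W) (a1 := ∑ c ∈ T1, ‖x1 c‖ ^ 2) (a2 := ∑ c ∈ T2, ‖x2 c‖ ^ 2)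
      (by positivity) (by positivity) (by positivity)
    refine le_trans ?_ (mul_le_mul_of_nonneg_left k3 (by positivity))
    refine (Finset.sum_le_sum fun a ha => mul_le_mul_of_nonneg_right
      (hD M _ a _ hM0 hy (mem_calA.1 (Finset.mem_filter.1 ha).1).1.ne_zero (qe2_ne3 e0 e1 e2) ?_)
      (by positivity)).trans ?_
    · have k4 : Ns e1 * Ns e2 ≤ Ns e0 * Ns e1 * Ns e2 := by
        rw [mul_assoc]
        exact le_mul_of_one_le_left (by positivity) n0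
      have k5 := (Finset.mem_filter.1 ha).2.1
      rw [qe2_nm3]
      gcongr
    · rw [← Finset.mul_sum, mul_assoc C0]
      refine mul_le_mul_of_nonneg_left (mul_le_mul_of_nonneg_left ?_ (le_min zero_le_one hu0))
        (by positivity)
      refine (Real.sum_mul_le_sqrt_mul_sqrt _ _ _).trans ?_
      exact mul_le_mul (Real.sqrt_le_sqrt (hQ' T1 e1 x1 hx1)) (Real.sqrt_le_sqrt (hQ' T2 e2 x2 hx2))
        (Real.sqrt_nonneg _) (Real.sqrt_nonneg _)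
  · rw [Finset.card_range, nsmul_eq_mul]
    push_cast
    refine (mul_le_mul_of_nonneg_right hJ (by positivity)).trans (le_of_eq ?_)
    rw [hZW]
    ring

theorem qe2_sub {N : ℝ} (α : Finset P → ℂ) (d r e : Finset P) :
    ∑ c ∈ ((sqf (N / Ns d)).filter fun c => Disjoint c d ∧ r ⊆ c) with e ⊆ c, ‖α (d ∪ c)‖ ^ 2 ≤
      ∑ n ∈ sqf N with d ∪ r ∪ e ⊆ n, ‖α n‖ ^ 2 := by
  rw [← Finset.sum_image (g := fun c => d ∪ c) (f := fun n => ‖α n‖ ^ 2) ?_]
  refine Finset.sum_le_sum_of_subset_of_nonneg ?_ fun _ _ _ => by positivity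
  swap
  · intro c hc c' hc' e
    have h1 := (Finset.mem_filter.1 (Finset.mem_filter.1 hc).1).2.1
    have h2 := (Finset.mem_filter.1 (Finset.mem_filter.1 hc').1).2.1
    beta_reduce at e
    rw [← Finset.union_sdiff_cancel_left h1.symm, e, Finset.union_sdiff_cancel_left h2.symm]
  · intro n hn
    obtain ⟨c, hc, rfl⟩ := Finset.mem_image.1 hn
    obtain ⟨h1, h2⟩ := Finset.mem_filter.1 hc
    obtain ⟨h3, h4, h5⟩ := Finset.mem_filter.1 h1
    refine Finset.mem_filter.2 ⟨mem_sqf.2 ?_, ?_⟩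
    · rw [Ns_union h4.symm, mul_comm, ← le_div_iff₀ (Ns_pos d)]
      exact mem_sqf.1 h3
    · rw [Finset.union_assoc]
      exact Finset.union_subset_union_right (Finset.union_subset h5 h2)

theorem qE2 (h1 : DelB) {ξ : ℝ} (hξ : 1 ≤ ξ) (hξ2 : ξ ≤ 2) (h : QD ξ) : QE E2 ξ := by
  intro b K W ε hb hK _ hε
  obtain ⟨C, hC, hm⟩ := qe2_main h1 hξ hξ2 h hb hK hε
  obtain ⟨C', hC', hc⟩ := comb (ε := ε / 3) (by positivity)
  refine ⟨C * C', by positivity, fun M N α g hN hM _ => ?_⟩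
  have hNM := (QRH.qe2_A0 hξ hN hM le_rfl).1
  have hM0 : 0 < M := by linarith
  have e1 : ∑ n ∈ sqf N, ∑ n' ∈ sqf N, α n * conj (α n') * ∫ v : Pl → ℝ,
      (∏ w, ((beta (v w) : ℝ) : ℂ)) * E2 (N ^ 2 * (M * N) ^ ε / M) b
        (fun w => K * M ^ (1 / rk : ℝ) * Real.exp (v w)) (n ∩ n') (n \ n') (n' \ n)
        (g n * g n' / (pr (n ∩ n') : FF) ^ 2) = _ :=
    Eq.trans (Finset.sum_congr rfl fun n _ => Finset.sum_congr rfl fun n' _ => by
      rw [Finset.union_comm, Finset.sdiff_union_inter, Finset.union_comm, Finset.inter_comm n n',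
        Finset.sdiff_union_inter]
      rfl)
      (rearr2 N fun d c c' => α (d ∪ c) * conj (α (d ∪ c')) * ∫ v : Pl → ℝ,
        (∏ w, ((beta (v w) : ℝ) : ℂ)) * E2 (N ^ 2 * (M * N) ^ ε / M) b
          (fun w => K * M ^ (1 / rk : ℝ) * Real.exp (v w)) d c c' 0)
  rw [e1]
  have hW : N ^ (ε / 3) ≤ (M * N) ^ (ε / 3) :=
    Real.rpow_le_rpow (by linarith) (le_mul_of_one_le_left (by linarith) (by linarith))
      (by positivity)
  have hW9 : (M * N) ^ (3 * ε) = ((M * N) ^ (ε / 3)) ^ 9 := by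
    rw [← Real.rpow_natCast, ← Real.rpow_mul (by positivity)]
    congr 1
    push_cast
    ring
  have hK0 : 0 ≤ C * ((M * N) ^ (ε / 3)) ^ 8 * M := by positivity
  refine le_trans ?_ ((mul_le_mul_of_nonneg_left ((hc N α hN).trans (mul_le_mul_of_nonneg_right
    (mul_le_mul_of_nonneg_left hW hC'.le) (by positivity))) hK0).trans (le_of_eq ?_))
  swap
  · rw [hW9]
    ring
  rw [Finset.mul_sum]
  refine norm_sum_le_of_le _ fun d _ => ?_
  rw [Finset.mul_sum]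
  refine norm_sum_le_of_le _ fun r _ => ?_
  rw [norm_mul, norm_mu, one_mul]
  set T := (sqf (N / Ns d)).filter fun c => Disjoint c d ∧ r ⊆ c with hT
  have hTN : ∀ c ∈ T, Ns c ≤ N := fun c hc =>
    (mem_sqf.1 (Finset.mem_filter.1 hc).1).trans (div_le_self (by linarith) (one_le_Ns d))
  have hp : ∀ c ∈ T, c.powerset = (sqf N).filter fun e => e ⊆ c := fun c hc => by
    ext e
    rw [Finset.mem_powerset, Finset.mem_filter, mem_sqf]
    exact ⟨fun he => ⟨(Ns_mono he).trans (hTN c hc), he⟩, fun he => he.2⟩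
  have e2 := qe2_swap T T (sqf N) (sqf N) d.powerset (calA (N ^ 2 * (M * N) ^ ε / M))
    (fun c a => α (d ∪ c) * xs c2 c a) (fun c a => conj (α (d ∪ c)) * xs c2 c a) (cop d)
    fun a e0 e1 e2 => mu e0 * mu e1 * mu e2 * qe2I b (K * M ^ (1 / rk : ℝ)) a (pr e0 * pr e1 * pr e2)
  rw [Finset.sum_congr rfl fun c hc => Finset.sum_congr rfl fun c' hc' => ?_, e2]
  swap
  · rw [qe2_int h1 hb (by positivity), hp c hc, hp c' hc', Finset.mul_sum]
    exact Finset.sum_congr rfl fun a _ => by ring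
  have e3 : (2 : ℝ) ^ d.card = ∑ _e0 ∈ d.powerset, (1 : ℝ) := by simp
  rw [e3, Finset.sum_mul, Finset.mul_sum]
  refine norm_sum_le_of_le _ fun e0 _ => ?_
  rw [one_mul, sq (∑ e ∈ sqf N, _), Finset.sum_mul_sum, Finset.mul_sum]
  refine norm_sum_le_of_le _ fun e1 _ => ?_
  rw [Finset.mul_sum]
  refine norm_sum_le_of_le _ fun e2 _ => ?_
  have k1 := hm M N (T.filter fun c => e1 ⊆ c) (T.filter fun c => e2 ⊆ c) e0 e1 e2
    (fun c => α (d ∪ c)) (fun c => conj (α (d ∪ c))) hN hM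
    (fun c hc _ => ⟨(Finset.mem_filter.1 hc).2, hTN c (Finset.mem_filter.1 hc).1⟩)
    fun c hc _ => ⟨(Finset.mem_filter.1 hc).2,
      hTN c (Finset.mem_filter.1 hc).1⟩
  simp only [RCLike.norm_conj] at k1
  refine (norm_sum_le_of_le _ fun a _ => ?_).trans (k1.trans (mul_le_mul_of_nonneg_left ?_ hK0))
  · have hcop : ‖cop d a‖ ≤ 1 := by
      unfold cop
      split_ifs <;> simp
    simp only [norm_mul, norm_mu, one_mul, mul_assoc]
    exact mul_le_of_le_one_left (by positivity) hcop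
  · have p1 := Ns_pos e1
    have p2 := Ns_pos e2
    have q1 := qe2_sub (N := N) α d r e1
    have q2 := qe2_sub (N := N) α d r e2
    gcongr

end NQ
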