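import Vale.Agent.NQ.SFt
import Vale.Agent.NQ.Rsum
import Vale.Agent.NQ.Lat
import Vale.Agent.P026.QG

noncomputable section
namespace NQ
open Complex MeasureTheory NumberField Filter
open scoped ComplexConjugate Classical ContDiff Topology

theorem QG_Vg_sum {ι : Type*} (s : Finset ι) (y : ι → ℝ) : Vg (∑ i ∈ s, y i) = ∏ i ∈ s, Vg (y i) := by
  unfold QRH.Vg
  rw [Finset.mul_sum, Real.exp_sum]

theorem QG_psi_sum {ι : Type*} (s : Finset ι) (y : ι → ℂ) :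
    psi (∑ i ∈ s, y i) = ∏ i ∈ s, psi (y i) := by
  induction s using Finset.induction_on with
  | empty => simpa using QRH.psi_zero
  | insert i s hi ih => rw [Finset.sum_insert hi, Finset.prod_insert hi, QRH.psi_add, ih]

theorem QG_mul_prod {ι : Type*} [Fintype ι] {y : ι → ℝ} (hy : ∀ i, 0 ≤ y i) (i : ι) :
    y i * ∏ j, Vg (y j) ≤ ∏ j, Vg (y j / 2) := by
  rw [← QG_Vg_sum, ← QG_Vg_sum, ← Finset.sum_div]
  refine le_trans ?_ (QRH.qg_mul_Vg (Finset.sum_nonneg fun j _ => hy j))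
  exact mul_le_mul_of_nonneg_right (Finset.single_le_sum (fun j _ => hy j) (Finset.mem_univ i))
    (QRH.qg_Vg_pos _).le

variable [σ : St]

theorem QG_norm_prod (y : Pl → ℝ) : ‖∏ w, ((Vg (y w) : ℝ) : ℂ)‖ = ∏ w, Vg (y w) := by
  rw [norm_prod]
  exact Finset.prod_congr rfl fun w _ => by
    rw [norm_real, Real.norm_of_nonneg (QRH.qg_Vg_pos _).le]

theorem QG_prod_nonneg (y : Pl → ℝ) : 0 ≤ ∏ w, Vg (y w) :=
  Finset.prod_nonneg fun _ _ => (QRH.qg_Vg_pos _).le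

theorem QG_norm_il (b x : FF) (t : ℝ) : ‖il b x‖ * t = if x / b ∈ OS then t else 0 := by
  unfold il
  split_ifs <;> simp

/-- Gaussian means of periodic functions. -/
theorem QG_mean (h2 : PSG) {q : E} (hq : q ≠ 0) {ρ : E → ℂ} (hρ : Per q ρ) (hb1 : ∀ x, ‖ρ x‖ ≤ 1)
    {b : FF} (hb : b ≠ 0) {δ : ℝ → Pl → ℝ}
    (hδ : ∀ w, Tendsto (fun ε => δ ε w) (𝓝[>] 0) (𝓝[>] 0)) :
    Tendsto (fun ε => ((∏ w, δ ε w : ℝ) : ℂ) *
      ∑' x : E, ρ x * il b x * ∏ w, ((Vg (δ ε w * ‖em w x‖ ^ 2) : ℝ) : ℂ)) (𝓝[>] 0)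
      (𝓝 (((kap * sS b / nm q : ℝ) : ℂ) * rsum q ρ)) := by
  have hq' : (q : FF) ≠ 0 := by exact_mod_cast hq
  have hb' : (q : FF) / (b * del) ≠ 0 := div_ne_zero hq' (mul_ne_zero hb del_ne_zero)
  have hN : (0 : ℝ) < nm q := zero_lt_one.trans_le (one_le_nmR hq)
  obtain ⟨C, -, hC⟩ := gauss_tail (B := 0) le_rfl
  have hs := (hC _ (fun w => ‖em w q‖ ^ 2) 1 hb' (fun w => em_sq_pos w hq') one_pos).1.mul_left
    (nm q : ℝ)
  have hev : ∀ᶠ ε in 𝓝[>] (0 : ℝ), ∀ w, δ ε w ∈ Set.Ioo (0 : ℝ) 1 :=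
    eventually_all.2 fun w => (hδ w).eventually (Ioo_mem_nhdsGT zero_lt_one)
  have h3 : Tendsto (fun ε : ℝ => ∑' m : E, rsum q (fun y => ρ y * psf (y * m) q)
      * il (q / (b * del)) m * ∏ w, ((Vg (‖em w m‖ ^ 2 * (δ ε w)⁻¹ / ‖em w q‖ ^ 2) : ℝ) : ℂ))
      (𝓝[>] 0) (𝓝 (∑' m : E, if m = 0 then rsum q ρ else 0)) := by
    refine tendsto_tsum_of_dominated_convergence hs (fun m => ?_) ?_
    · split_ifs with h0
      · subst h0
        simp [psf_zero, QRH.Vg, il, OS.zero_mem]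
      · have hm : (m : FF) ≠ 0 := by exact_mod_cast h0
        have a3 : ∀ w, Tendsto (fun ε : ℝ =>
            ((Vg (‖em w m‖ ^ 2 * (δ ε w)⁻¹ / ‖em w q‖ ^ 2) : ℝ) : ℂ)) (𝓝[>] 0) (𝓝 0) := fun w => by
          have a1 : Tendsto (fun ε : ℝ => ‖em w m‖ ^ 2 * (δ ε w)⁻¹ / ‖em w q‖ ^ 2) (𝓝[>] 0) atTop :=
            ((tendsto_inv_nhdsGT_zero.comp (hδ w)).const_mul_atTop
              (em_sq_pos w hm)).atTop_div_const (em_sq_pos w hq')
          have a2 : -(2 * Real.pi / √3) < 0 := by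
            have := Real.pi_pos
            exact neg_lt_zero.2 (by positivity)
          exact (continuous_ofReal.tendsto 0).comp
            (Real.tendsto_exp_atBot.comp (a1.const_mul_atTop_of_neg a2))
        have a4 := tendsto_finsetProd Finset.univ fun w _ => a3 w
        rw [Finset.prod_const, zero_pow (Finset.card_pos.2 Finset.univ_nonempty).ne'] at a4
        simpa only [mul_zero] using a4.const_mul
          (rsum q (fun y => ρ y * psf (y * m) q) * il (q / (b * del)) m)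
    · filter_upwards [hev] with ε hε m
      rw [norm_mul, norm_mul, mul_assoc, ← QG_norm_il, QG_norm_prod]
      refine mul_le_mul ((norm_rsum_le hq (M := 1) fun y => ?_).trans (mul_one _).le)
        (mul_le_mul_of_nonneg_left (Finset.prod_le_prod (fun w _ => (QRH.qg_Vg_pos _).le)
          fun w _ => QRH.qg_Vg_anti ?_) (norm_nonneg _))
        (mul_nonneg (norm_nonneg _) (QG_prod_nonneg _)) hN.le
      · rw [norm_mul, norm_psf, mul_one]; exact hb1 y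
      · exact div_le_div_of_nonneg_right
          (le_mul_of_one_le_right (sq_nonneg _) ((one_le_inv₀ (hε w).1).2 (hε w).2.le))
          (sq_nonneg _)
  rw [tsum_ite_eq] at h3
  refine (h3.const_mul ((kap * sS b / nm q : ℝ) : ℂ)).congr' ?_
  filter_upwards [hev] with ε hε
  have h4 := h2 q ρ b (fun w => (δ ε w)⁻¹) hq hρ hb fun w => inv_pos.2 (hε w).1
  simp only [div_inv_eq_mul, mul_comm _ (δ ε _)] at h4
  have h5 : ∏ w, δ ε w ≠ 0 := Finset.prod_ne_zero_iff.2 fun w _ => (hε w).1.ne'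
  rw [h4, ← mul_assoc, ← ofReal_mul, Finset.prod_inv_distrib]
  congr 2
  field_simp

theorem QG_err : ∃ C : ℝ, ∀ (b : FF) (δ K r : Pl → ℝ) (v : E → Pl → ℂ) (φ : E → ℂ), b ≠ 0 →
    (∀ w, 0 < δ w) → (∀ w, 0 ≤ K w) → (∀ m w, ‖v m w‖ ≤ K w * ‖em w m‖ ^ 2) → (∀ m, ‖φ m‖ ≤ 1) →
    ‖((∏ w, δ w : ℝ) : ℂ) * ∑' m : E, φ m * il b m *
        ∏ w, (psi (v m w * r w) * ((Vg (δ w * ‖em w m‖ ^ 2) : ℝ) : ℂ))
      - ((∏ w, δ w : ℝ) : ℂ) * ∑' m : E, φ m * il b m *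
        ∏ w, (psi (v m w) * ((Vg (δ w * ‖em w m‖ ^ 2) : ℝ) : ℂ))‖
      ≤ C * sS b * ∑ w, K w * |r w - 1| / δ w := by
  obtain ⟨C, hC0, hC⟩ := gauss_tail (B := 0) le_rfl
  refine ⟨4 * Real.pi / √3 * C * 2 ^ rk, fun b δ K r v φ hb hδ hK hv hφ => ?_⟩
  have hκ : 0 ≤ 4 * Real.pi / √3 := by have := Real.pi_pos; positivity
  have hs0 := (hC b (fun w => (δ w)⁻¹) 1 hb (fun w => inv_pos.2 (hδ w)) one_pos).1
  simp only [div_inv_eq_mul, mul_comm _ (δ _)] at hs0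
  have hs : ∀ u : E → Pl → ℂ, Summable fun m : E => φ m * il b m *
      ∏ w, (psi (u m w) * ((Vg (δ w * ‖em w m‖ ^ 2) : ℝ) : ℂ)) := fun u => by
    refine Summable.of_norm_bounded hs0 fun m => ?_
    rw [norm_mul, norm_mul, norm_prod, mul_assoc, ← QG_norm_il]
    simp only [QRH.qg_norm]
    exact mul_le_of_le_one_left (mul_nonneg (norm_nonneg _) (QG_prod_nonneg _)) (hφ m)
  obtain ⟨a1, a2, -⟩ := hC b (fun w => 2 / δ w) 1 hb (fun w => div_pos two_pos (hδ w)) one_pos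
  have e2 : ∀ (w : Pl) (t : ℝ), t / (2 / δ w) = δ w * t / 2 := fun w t => by
    have := (hδ w).ne'
    field_simp
  simp only [e2] at a1 a2
  have a3 : Summable fun m : E => if m ≠ 0 ∧ (m : FF) / b ∈ OS then
      ∏ w, Vg (δ w * ‖em w m‖ ^ 2 / 2) else 0 := by
    refine a1.of_nonneg_of_le (fun m => ?_) fun m => ?_
    · split_ifs
      · exact QG_prod_nonneg _
      · exact le_rfl
    · by_cases h : (m : FF) / b ∈ OS
      · rw [if_pos h]
        split_ifs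
        · exact le_rfl
        · exact QG_prod_nonneg _
      · rw [if_neg h, if_neg fun h' => h h'.2]
  have hD : 0 ≤ ∑ w, K w * |r w - 1| / δ w := Finset.sum_nonneg fun w _ =>
    div_nonneg (mul_nonneg (hK w) (abs_nonneg _)) (hδ w).le
  have hP : 0 < ∏ w, δ w := Finset.prod_pos fun w _ => hδ w
  rw [← mul_sub, ← (hs fun m w => v m w * r w).tsum_sub (hs v), norm_mul, norm_real,
    Real.norm_of_nonneg hP.le]
  refine (mul_le_mul_of_nonneg_left (tsum_of_norm_bounded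
    (a3.mul_left (4 * Real.pi / √3 * ∑ w, K w * |r w - 1| / δ w)).hasSum fun m => ?_) hP.le).trans ?_
  · have b1 : ‖∏ w, psi (v m w * r w) - ∏ w, psi (v m w)‖
        ≤ 4 * Real.pi / √3 * ∑ w, K w * |r w - 1| / δ w * (δ w * ‖em w m‖ ^ 2) := by
      rw [← QG_psi_sum, ← QG_psi_sum]
      refine (QRH.qg_lip _ _).trans (mul_le_mul_of_nonneg_left ?_ hκ)
      rw [← Finset.sum_sub_distrib]
      refine (norm_sum_le _ _).trans (Finset.sum_le_sum fun w _ => ?_)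
      rw [← mul_sub_one, norm_mul, ← ofReal_one, ← ofReal_sub, norm_real]
      refine (mul_le_mul_of_nonneg_right (hv m w) (abs_nonneg _)).trans (le_of_eq ?_)
      have := (hδ w).ne'
      field_simp
    rw [← mul_sub, Finset.prod_mul_distrib, Finset.prod_mul_distrib, ← sub_mul, norm_mul, norm_mul,
      norm_mul, QG_norm_prod, mul_assoc, QG_norm_il]
    refine (mul_le_of_le_one_left ?_ (hφ m)).trans ?_
    · split_ifs
      · exact mul_nonneg (norm_nonneg _) (QG_prod_nonneg _)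
      · exact le_rfl
    by_cases h : (m : FF) / b ∈ OS
    · rw [if_pos h]
      refine (mul_le_mul_of_nonneg_right b1 (QG_prod_nonneg _)).trans ?_
      rw [mul_assoc, mul_assoc]
      refine mul_le_mul_of_nonneg_left ?_ hκ
      by_cases hm : m = 0
      · subst hm
        simp
      · rw [if_pos ⟨hm, h⟩, Finset.sum_mul, Finset.sum_mul]
        refine Finset.sum_le_sum fun w _ => ?_
        rw [mul_assoc]
        exact mul_le_mul_of_nonneg_left
          (QG_mul_prod (y := fun w => δ w * ‖em w m‖ ^ 2)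
            (fun w => mul_nonneg (hδ w).le (sq_nonneg _)) w)
          (div_nonneg (mul_nonneg (hK w) (abs_nonneg _)) (hδ w).le)
    · rw [if_neg h, if_neg fun h' => h h'.2, mul_zero]
  · rw [tsum_mul_left]
    refine (mul_le_mul_of_nonneg_left (mul_le_mul_of_nonneg_left a2 (mul_nonneg hκ hD)) hP.le).trans
      (le_of_eq ?_)
    rw [Finset.prod_div_distrib, prod_const_Pl]
    field_simp

/-- The local quadratic integral. -/
def QGJ (b c : FF) : ℂ := (kap : ℝ) * sint fun y => il b y * psiS (c⁻¹ * y ^ 2)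

theorem QG_fts {b c : FF} (hb : b ≠ 0) (hc : c ≠ 0) (h : c / (4 * b ^ 2 * del) ∈ OS) (m : FF) :
    fts (fun y => il b y * psiS (c⁻¹ * y ^ 2)) m
      = psiS (-(c * m ^ 2 / 4)) * il (2 * b / c) m * QGJ b c := by
  have hd := del_ne_zero
  have h2 : (2 : FF) ∈ OS := by exact_mod_cast natCast_mem OS 2
  unfold fts QGJ
  by_cases hm : m / (2 * b / c) ∈ OS
  · have e0 : il (2 * b / c) m = 1 := if_pos hm
    rw [← SInt_shift _ (c * m / 2), e0, mul_one, mul_left_comm,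
      ← sint_mul_left (psiS (-(c * m ^ 2 / 4)))]
    congr 2
    funext y
    beta_reduce
    have e1 : il b (y + c * m / 2) = il b y := SInt_il_congr (by
      have : (y + c * m / 2 - y) / b = m / (2 * b / c) := by
        field_simp
        ring
      rwa [this])
    rw [e1, mul_assoc, ← psiS_add, mul_left_comm, ← psiS_add]
    congr 2
    field_simp
    ring
  · have e0 : il (2 * b / c) m = 0 := if_neg hm
    rw [e0, mul_zero, zero_mul]
    have hm' : m * (c / (2 * b * del)) * del ∉ OS := by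
      have : m * (c / (2 * b * del)) * del = m / (2 * b / c) := by field_simp
      rwa [this]
    obtain ⟨z, hz, hz1⟩ := exists_psiS_ne hm'
    set t := c / (2 * b * del) * z with ht
    have htb : t / b ∈ OS := by
      have : t / b = 2 * (c / (4 * b ^ 2 * del)) * z := by
        rw [ht]
        field_simp
        ring
      rw [this]
      exact OS.mul_mem (OS.mul_mem h2 h) hz
    have h3 := SInt_shift (fun y => il b y * psiS (c⁻¹ * y ^ 2) * psiS (-(y * m))) t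
    have h4 : (fun y => il b (y + t) * psiS (c⁻¹ * (y + t) ^ 2) * psiS (-((y + t) * m)))
        = fun y => psiS (-(t * m)) * (il b y * psiS (c⁻¹ * y ^ 2) * psiS (-(y * m))) := by
      funext y
      have e1 : il b (y + t) = il b y := SInt_il_congr (by rwa [add_sub_cancel_left])
      rw [e1]
      by_cases hy : y / b ∈ OS
      · have e2 : psiS (c⁻¹ * (y + t) ^ 2) = psiS (c⁻¹ * y ^ 2) := psiS_congr_del (by
          have : (c⁻¹ * (y + t) ^ 2 - c⁻¹ * y ^ 2) * del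
              = y / b * z + c / (4 * b ^ 2 * del) * (z * z) := by
            rw [ht]
            field_simp
            ring
          rw [this]
          exact OS.add_mem (OS.mul_mem hy hz) (OS.mul_mem h (OS.mul_mem hz hz)))
        rw [e2, show -((y + t) * m) = -(t * m) + -(y * m) by ring, psiS_add]
        ring
      · have e2 : il b y = 0 := if_neg hy
        simp [e2]
    rw [h4, sint_mul_left] at h3
    rw [mul_eq_zero]
    right
    by_contra h0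
    have h5 := mul_right_cancel₀ h0 (h3.trans (one_mul _).symm)
    rw [psiS_neg] at h5
    apply hz1
    have h6 : m * (c / (2 * b * del)) * z = t * m := by
      rw [ht]
      ring
    rw [h6, ← conj_conj (psiS (t * m)), h5, map_one]

theorem QG_J {b c u : FF} (hb : b ≠ 0) (hc : c ≠ 0) (hu : Cl 1 u) : QGJ b (c * u) = QGJ b c := by
  obtain ⟨k, hk⟩ := exists_pow_mem_OS (b ^ 2 / c)
  obtain ⟨γ, h0, h1, h2, h3⟩ := exists_root hu k
  have hu0 := hu.ne_zero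
  have hu1 := hu.symm.div_mem
  have hs := SInt_pow_ne k
  have h4 : sS (γ ^ 3) = 1 := by
    rw [sS_pow, sS_eq_of h0 one_ne_zero (by rwa [div_one]) (by rwa [one_div]), sS_one, one_pow]
  unfold QGJ
  have h5 := sint_affine (fun y => il b y * psiS ((c * u)⁻¹ * y ^ 2)) (pow_ne_zero 3 h0) 0
  rw [h4, inv_one, ofReal_one, one_mul] at h5
  rw [← h5]
  congr 2
  funext y
  rw [add_zero]
  by_cases hy : y / b ∈ OS
  · have e1 : il b (γ ^ 3 * y) = 1 := if_pos (by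
      rw [mul_div_assoc]
      exact OS.mul_mem (OS.pow_mem h1 3) hy)
    have e2 : il b y = 1 := if_pos hy
    rw [e1, e2]
    congr 1
    refine psiS_congr ?_
    have : (c * u)⁻¹ * (γ ^ 3 * y) ^ 2 - c⁻¹ * y ^ 2 = -((y / b) ^ 2 * (ss ^ k * (b ^ 2 / c))
        * (γ ^ 6 * (1 / u)) * ((u / γ ^ 6 - 1) / ss ^ k)) := by
      field_simp
      ring
    rw [this]
    exact OS.neg_mem (OS.mul_mem (OS.mul_mem (OS.mul_mem (OS.pow_mem hy 2) hk)
      (OS.mul_mem (OS.pow_mem h1 6) hu1)) h3)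
  · have e1 : il b (γ ^ 3 * y) = 0 := if_neg fun h => hy (by
      have : y / b = γ⁻¹ ^ 3 * (γ ^ 3 * y / b) := by field_simp
      rw [this]
      exact OS.mul_mem (OS.pow_mem h2 3) h)
    have e2 : il b y = 0 := if_neg hy
    rw [e1, e2, zero_mul, zero_mul]

theorem QG_pois (h1 : PS1) {c : E} (hc : c ≠ 0) {b : FF} (hb : b ≠ 0)
    (h : (c : FF) / (4 * b ^ 2 * del) ∈ OS) {ε : ℝ} (hε : 0 < ε) :
    ∑' x : E, psf (x ^ 2) c * il b x * ∏ w, ((Vg (ε * ‖em w x‖ ^ 2) : ℝ) : ℂ)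
      = ((∏ w, (√(4 * ‖(em w c)⁻¹‖ ^ 2 + ε ^ 2))⁻¹ : ℝ) : ℂ) * QGJ b c * ∑' m : E,
        psiS (-((c : FF) * m ^ 2 / 4)) * il (2 * b / c) m *
          ∏ w, (psi (em w (-((c : FF) * m ^ 2 / 4)) *
            ((4 * ‖(em w c)⁻¹‖ ^ 2 / (4 * ‖(em w c)⁻¹‖ ^ 2 + ε ^ 2) : ℝ) : ℂ)) *
            ((Vg (ε / (4 * ‖(em w c)⁻¹‖ ^ 2 + ε ^ 2) * ‖em w m‖ ^ 2) : ℝ) : ℂ)) := by
  have hc' : (c : FF) ≠ 0 := by exact_mod_cast hc
  have hα : ∀ w, (em w c)⁻¹ ≠ 0 := fun w => inv_ne_zero (em_ne_zero w hc')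
  have hW : ∀ w, 0 < 4 * ‖(em w c)⁻¹‖ ^ 2 + ε ^ 2 := fun w => by positivity
  have hp : ∀ z : ℂ, 0 ≤ (1 + ‖z‖) ^ (-3 : ℝ) := fun z => by positivity
  obtain ⟨k, hk⟩ := (hSB_il hb).mul_lcb (lcb_psiS (c : FF)⁻¹ 2)
  have hcont : ∀ w, Continuous fun z : ℂ => psi ((em w c)⁻¹ * z ^ 2) * (Vg (ε * ‖z‖ ^ 2) : ℝ) :=
    fun w => by
      have := QRH.continuous_psi
      unfold QRH.Vg
      fun_prop
  have hM : ∀ w, ∃ M : ℝ, ∀ M', M ≤ M' →
      Dec M' (fun z : ℂ => psi ((em w c)⁻¹ * z ^ 2) * (Vg (ε * ‖z‖ ^ 2) : ℝ)) ∧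
      Dec M' (ft fun z : ℂ => psi ((em w c)⁻¹ * z ^ 2) * (Vg (ε * ‖z‖ ^ 2) : ℝ)) := fun w => by
    obtain ⟨M, hM, hM'⟩ := QRH.qg_decay hε
    obtain ⟨M₂, hM₂, hM₂'⟩ := QRH.qg_decay (div_pos hε (hW w))
    have hS : 0 ≤ (√(4 * ‖(em w c)⁻¹‖ ^ 2 + ε ^ 2))⁻¹ := by positivity
    refine ⟨M + (√(4 * ‖(em w c)⁻¹‖ ^ 2 + ε ^ 2))⁻¹ * M₂, fun M' hle => ⟨fun z => ?_, fun z => ?_⟩⟩
    · rw [QRH.qg_norm]
      exact (hM' z).trans (mul_le_mul_of_nonneg_right
        ((le_add_of_nonneg_right (by positivity)).trans hle) (hp z))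
    · rw [QRH.qg_ft (hα w) hε, norm_mul, QRH.qg_norm, norm_real, Real.norm_of_nonneg hS]
      refine (mul_le_mul_of_nonneg_left (hM₂' z) hS).trans ?_
      rw [← mul_assoc]
      exact mul_le_mul_of_nonneg_right ((le_add_of_nonneg_left hM).trans hle) (hp z)
  choose M hM using hM
  obtain ⟨M0, hM0⟩ := Finite.exists_le M
  have h3 := h1 1 (fun _ => 1) k _ _ M0 one_ne_zero (fun _ _ _ => rfl) hk hcont
    (fun w => (hM w M0 (hM0 w)).1) fun w => (hM w M0 (hM0 w)).2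
  simp only [QRH.qg_ft (hα _) hε, psf_of_dvd (one_dvd _), rsum_const one_ne_zero, nm_one,
    OneMemClass.coe_one, div_one, one_mul, Nat.cast_one, inv_one, QG_fts hb hc' h] at h3
  rw [← tsum_mul_left]
  refine (tsum_congr fun x => ?_).trans (h3.trans (tsum_congr fun m => ?_))
  · rw [Finset.prod_mul_distrib, psf_eq]
    have e1 : psiV ((x ^ 2 : E) / (c : FF)) = ∏ w, psi ((em w c)⁻¹ * em w x ^ 2) := by
      unfold psiV
      refine Finset.prod_congr rfl fun w _ => ?_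
      rw [map_div₀, div_eq_inv_mul]
      push_cast
      rw [map_pow]
    rw [e1, div_eq_inv_mul]
    push_cast
    ring
  · have e1 : ∀ w, em w (-((c : FF) * m ^ 2 / 4)) = -(em w m ^ 2 / (4 * (em w c)⁻¹)) := fun w => by
      have := em_ne_zero w hc'
      rw [map_neg, map_div₀, map_mul, map_pow, map_ofNat]
      field_simp
    simp only [e1]
    rw [Finset.prod_mul_distrib (f := fun w => (((√(4 * ‖(em w c)⁻¹‖ ^ 2 + ε ^ 2))⁻¹ : ℝ) : ℂ)),
      ofReal_prod]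
    ring

theorem QG_formula (h1 : PS1) (h2 : PSG) {c : E} (hc : c ≠ 0) {b : FF} (hb : b ≠ 0)
    (h : (c : FF) / (4 * b ^ 2 * del) ∈ OS) :
    ((kap * sS b / nm c : ℝ) : ℂ) * rsum c (fun x => psf (x ^ 2) c)
      = ((∏ w, 2 * ‖(em w c)⁻¹‖ : ℝ) : ℂ) * QGJ b c * ((kap * sS (2 * b / c) : ℝ) : ℂ) := by
  have hc' : (c : FF) ≠ 0 := by exact_mod_cast hc
  have hb' : 2 * b / c ≠ 0 := div_ne_zero (mul_ne_zero two_ne_zero hb) hc'
  have ha : ∀ w, 0 < ‖(em w c)⁻¹‖ := fun w => norm_pos_iff.2 (inv_ne_zero (em_ne_zero w hc'))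
  have hW : ∀ w (ε : ℝ), 0 < 4 * ‖(em w c)⁻¹‖ ^ 2 + ε ^ 2 := fun w ε => by
    have := ha w
    positivity
  have hWc : ∀ w, Continuous fun ε : ℝ => 4 * ‖(em w c)⁻¹‖ ^ 2 + ε ^ 2 := fun w => by fun_prop
  have p1 : Per c fun x => psf (x ^ 2) c := by
    rintro x y ⟨k, hk⟩
    exact psf_congr ⟨k * (x + y), by linear_combination (x + y) * hk⟩
  have m1 := QG_mean h2 hc p1 (fun x => (norm_psf _ _).le) hb (δ := fun ε _ => ε)
    fun _ => tendsto_id
  have t1 : ∀ w, Tendsto (fun ε : ℝ => ε / (4 * ‖(em w c)⁻¹‖ ^ 2 + ε ^ 2)) (𝓝[>] 0) (𝓝[>] 0) :=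
    fun w => by
      refine tendsto_nhdsWithin_iff.2 ⟨tendsto_nhdsWithin_of_tendsto_nhds
        ((continuous_id.div (hWc w) fun ε => (hW w ε).ne').tendsto' 0 0 (zero_div _)), ?_⟩
      filter_upwards [self_mem_nhdsWithin] with ε hε
      exact div_pos hε (hW w ε)
  have m2 := QG_mean h2 (q := 1) (ρ := fun _ => 1) one_ne_zero (fun _ _ _ => rfl)
    (fun _ => norm_one.le) hb' t1
  rw [rsum_const one_ne_zero, nm_one, Nat.cast_one, Nat.cast_one, div_one, mul_one, mul_one] at m2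
  have t2 : Tendsto (fun ε : ℝ => ((∏ w, √(4 * ‖(em w c)⁻¹‖ ^ 2 + ε ^ 2) : ℝ) : ℂ)) (𝓝[>] 0)
      (𝓝 ((∏ w, 2 * ‖(em w c)⁻¹‖ : ℝ) : ℂ)) := by
    refine (continuous_ofReal.tendsto _).comp (tendsto_finsetProd _ fun w _ => ?_)
    refine tendsto_nhdsWithin_of_tendsto_nhds ((hWc w).sqrt.tendsto' 0 _ ?_)
    rw [show 4 * ‖(em w c)⁻¹‖ ^ 2 + 0 ^ 2 = (2 * ‖(em w c)⁻¹‖) ^ 2 by ring,
      Real.sqrt_sq (by positivity)]
  obtain ⟨C, hC⟩ := QG_err
  have t3 : Tendsto (fun ε : ℝ => C * sS (2 * b / c) * ∑ w, ‖em w c‖ / 4 * ε) (𝓝[>] 0) (𝓝 0) := by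
    refine tendsto_nhdsWithin_of_tendsto_nhds (Continuous.tendsto' ?_ 0 0 (by simp))
    fun_prop
  have hv : ∀ (m : E) w, ‖em w (-((c : FF) * m ^ 2 / 4))‖ ≤ ‖em w c‖ / 4 * ‖em w m‖ ^ 2 :=
    fun m w => by
      rw [map_neg, map_div₀, map_mul, map_pow, map_ofNat, norm_neg, norm_div, norm_mul, norm_pow,
        Complex.norm_ofNat]
      exact le_of_eq (by ring)
  have t4 := squeeze_zero_norm' (by
    filter_upwards [self_mem_nhdsWithin] with ε hε
    have hε' : 0 < ε := hε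
    refine (hC (2 * b / c) (fun w => ε / (4 * ‖(em w c)⁻¹‖ ^ 2 + ε ^ 2)) _
      (fun w => 4 * ‖(em w c)⁻¹‖ ^ 2 / (4 * ‖(em w c)⁻¹‖ ^ 2 + ε ^ 2)) _
      (fun m => psiS (-((c : FF) * m ^ 2 / 4))) hb'
      (fun w => div_pos hε' (hW w ε)) (fun w => by positivity) hv
      fun m => (norm_psiS _).le).trans (le_of_eq ?_)
    congr 1
    refine Finset.sum_congr rfl fun w _ => ?_
    have := (hW w ε).ne'
    have e : 4 * ‖(em w c)⁻¹‖ ^ 2 / (4 * ‖(em w c)⁻¹‖ ^ 2 + ε ^ 2) - 1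
        = -(ε ^ 2 / (4 * ‖(em w c)⁻¹‖ ^ 2 + ε ^ 2)) := by
      field_simp
      ring
    rw [e, abs_neg, abs_of_nonneg (by positivity)]
    field_simp) t3
  have e3 : ∀ (m : E) (y : Pl → ℂ), psiS (-((c : FF) * m ^ 2 / 4)) * il (2 * b / c) m *
      ∏ w, (psi (em w (-((c : FF) * m ^ 2 / 4))) * y w) = 1 * il (2 * b / c) m * ∏ w, y w := by
    intro m y
    obtain ⟨i, hi⟩ := isUnit_two.exists_right_inv
    have hi' : (2 : FF) * (i : FF) = 1 := congrArg Subtype.val hi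
    have e4 : -((c : FF) * m ^ 2 / 4) = ((-(c * m ^ 2 * i ^ 2) : E) : FF) := by
      push_cast
      have : (i : FF) = 1 / 2 := by
        field_simp
        linear_combination hi'
      rw [this]
      ring
    have e5 := Psi_coe (-(c * m ^ 2 * i ^ 2))
    rw [← e4, Psi_eq_mul] at e5
    rw [Finset.prod_mul_distrib, ← e5]
    unfold psiV
    ring
  simp only [e3] at t4
  have t5 := (t2.mul_const (QGJ b c)).mul (t4.add m2)
  rw [zero_add] at t5
  refine tendsto_nhds_unique m1 (t5.congr' ?_)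
  filter_upwards [self_mem_nhdsWithin] with ε hε
  have hε' : 0 < ε := hε
  have e : (∏ w, √(4 * ‖(em w c)⁻¹‖ ^ 2 + ε ^ 2)) * ∏ w, ε / (4 * ‖(em w c)⁻¹‖ ^ 2 + ε ^ 2) =
      (∏ _w : Pl, ε) * ∏ w, (√(4 * ‖(em w c)⁻¹‖ ^ 2 + ε ^ 2))⁻¹ := by
    rw [← Finset.prod_mul_distrib, ← Finset.prod_mul_distrib]
    refine Finset.prod_congr rfl fun w _ => ?_
    have a1 := Real.sqrt_pos.2 (hW w ε)
    have a2 := Real.sq_sqrt (hW w ε).le
    generalize √(4 * ‖(em w c)⁻¹‖ ^ 2 + ε ^ 2) = s at a1 a2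
    rw [← a2]
    field_simp
  rw [sub_add_cancel, QG_pois h1 hc hb h hε', mul_mul_mul_comm, ← ofReal_mul, e, ofReal_mul]
  ring

theorem QG_closed (h1 : PS1) (h2 : PSG) {c : E} (hc : c ≠ 0) {b : FF} (hb : b ≠ 0)
    (h : (c : FF) / (4 * b ^ 2 * del) ∈ OS) :
    gq c = ((2 ^ rk * sS 2 / √(sS c) : ℝ) : ℂ) * QGJ b c := by
  have hc' : (c : FF) ≠ 0 := by exact_mod_cast hc
  have h3 := QG_formula h1 h2 hc hb h
  have hN : (0 : ℝ) < nm c := zero_lt_one.trans_le (one_le_nmR hc)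
  have hP : 0 < ∏ w, ‖em w c‖ := Finset.prod_pos fun w _ => norm_pos_iff.2 (em_ne_zero w hc')
  have e1 : ∏ w, 2 * ‖(em w c)⁻¹‖ = 2 ^ rk * (∏ w, ‖em w c‖)⁻¹ := by
    simp only [norm_inv]
    rw [Finset.prod_mul_distrib, prod_const_Pl, Finset.prod_inv_distrib]
  have e2 : √(nm c : ℝ) = (∏ w, ‖em w c‖) * √(sS c) := by
    rw [nm_eq hc, Real.sqrt_mul (Ninf_nonneg _)]
    unfold Ninf
    rw [Finset.prod_pow, Real.sqrt_sq hP.le]
  have e3 : (nm c : ℝ) = ((∏ w, ‖em w c‖) * √(sS c)) ^ 2 := by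
    rw [← e2, Real.sq_sqrt hN.le]
  have e4 : sS c = √(sS c) ^ 2 := (Real.sq_sqrt (sS_pos _).le).symm
  have hr : 0 < √(sS c) := Real.sqrt_pos.2 (sS_pos _)
  rw [e1, sS_div (mul_ne_zero two_ne_zero hb) hc', sS_mul two_ne_zero hb, e3, e4] at h3
  unfold gq
  rw [e2]
  have n1 := ofReal_ne_zero.2 hP.ne'
  have n2 := ofReal_ne_zero.2 hr.ne'
  have n3 := ofReal_ne_zero.2 kap_pos.ne'
  have n4 := ofReal_ne_zero.2 (sS_pos b).ne'
  rw [Real.sqrt_sq hr.le] at h3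
  generalize √(sS c) = r at *
  generalize ∏ w, ‖em w c‖ = p at *
  push_cast at h3 ⊢
  field_simp at h3 ⊢
  linear_combination h3

theorem qG (h1 : PS1) (h2 : PSG) : QG := by
  intro c c' h
  have hc := h.ne_left
  have hc' := h.ne_zero
  obtain ⟨k, hk⟩ := exists_pow_mem_OS ((c : FF) / (4 * del))
  have hs := SInt_pow_ne k
  have hd := del_ne_zero
  have hb : (ss ^ k)⁻¹ ≠ 0 := inv_ne_zero hs
  have h3 : (c : FF) / (4 * (ss ^ k)⁻¹ ^ 2 * del) ∈ OS := by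
    have : (c : FF) / (4 * (ss ^ k)⁻¹ ^ 2 * del) = ss ^ k * (ss ^ k * (c / (4 * del))) := by
      field_simp
    rw [this]
    exact OS.mul_mem (OS.pow_mem ss_mem_OS k) hk
  have h4 := div_mem_OS_trans hc h.div_mem h3
  rw [QG_closed h1 h2 (by exact_mod_cast hc) hb h3, QG_closed h1 h2 (by exact_mod_cast hc') hb h4,
    h.sS_eq, ← QG_J hb hc ((Cl_iff_one hc).1 h), mul_div_cancel₀ _ hc]

end NQ
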