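import Vale.Agent.NQ.Gauss
import Vale.Agent.NQ.Rearr
import Vale.Agent.NQ.Lat
import Vale.Agent.NQ.SInt

noncomputable section
namespace NQ
open Complex MeasureTheory NumberField Filter
open scoped ComplexConjugate Classical ContDiff Topology

theorem ql0_pos (y : ℝ) : 0 < Vg y := Real.exp_pos _

theorem ql0_anti {x y : ℝ} (h : x ≤ y) : Vg y ≤ Vg x := by
  refine Real.exp_le_exp.2 ?_
  have : 0 ≤ 2 * Real.pi / √3 := by positivity
  nlinarith

variable [σ : St]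

/-- The Gaussian weight on a lattice, real valued. -/
def ql0_g (b : FF) (t : Pl → ℝ) (x : E) : ℝ :=
  if (x : FF) / b ∈ OS then ∏ w, Vg (‖em w x‖ ^ 2 / t w) else 0

theorem ql0_prod (f : Pl → ℝ) : 0 ≤ ∏ w, Vg (f w) := Finset.prod_nonneg fun _ _ => (ql0_pos _).le

theorem ql0_nonneg (b : FF) (t : Pl → ℝ) (x : E) : 0 ≤ ql0_g b t x := by
  unfold ql0_g
  split_ifs
  exacts [ql0_prod _, le_rfl]

theorem ql0_norm (b : FF) (t : Pl → ℝ) (x : E) : ‖((ql0_g b t x : ℝ) : ℂ)‖ = ql0_g b t x := by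
  rw [Complex.norm_real, Real.norm_of_nonneg (ql0_nonneg b t x)]

theorem ql0_coe (b : FF) (t : Pl → ℝ) (x : E) :
    il b x * ∏ w, ((Vg (‖em w x‖ ^ 2 / t w) : ℝ) : ℂ) = (ql0_g b t x : ℝ) := by
  unfold il ql0_g
  split_ifs
  · rw [one_mul, Complex.ofReal_prod]
  · simp

theorem ql0_mul (b : FF) (t : Pl → ℝ) (c x : E) :
    ql0_g b t (c * x) = ql0_g (b / c) (fun w => t w / ‖em w c‖ ^ 2) x := by
  have e : ((c * x : E) : FF) / b = x / (b / c) := by
    rw [div_div_eq_mul_div, mul_comm]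
    rfl
  unfold ql0_g
  rw [e]
  refine if_congr Iff.rfl (Finset.prod_congr rfl fun w _ => ?_) rfl
  rw [div_div_eq_mul_div, ← mul_pow, ← norm_mul, ← map_mul, mul_comm]
  rfl

theorem ql0_gauss : ∃ C : ℝ, 0 < C ∧ ∀ (b : FF) (t : Pl → ℝ), b ≠ 0 → (∀ w, 0 < t w) →
    Summable (ql0_g b t) ∧ Summable (fun x : E => if x = 0 then 0 else ql0_g b t x) ∧
    ∑' x : E, (if x = 0 then 0 else ql0_g b t x) ≤ C * (sS b * ∏ w, t w) ∧
    ∑' x : E, ql0_g b t x ≤ 1 + C * (sS b * ∏ w, t w) := by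
  obtain ⟨C, hC, h⟩ := gauss_tail (B := 0) le_rfl
  refine ⟨C, hC, fun b t hb ht => ?_⟩
  obtain ⟨h1, h2, -⟩ := h b t 1 hb ht one_pos
  have hs : Summable (ql0_g b t) := h1
  have h3 : ∑' x : E, (if x = 0 then 0 else ql0_g b t x) ≤ C * (sS b * ∏ w, t w) := by
    refine le_of_eq_of_le (tsum_congr fun x => ?_) h2
    unfold ql0_g
    by_cases hx : x = 0
    · rw [if_pos hx, if_neg fun h => h.1 hx]
    · rw [if_neg hx]
      exact if_congr (and_iff_right hx).symm rfl rfl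
  refine ⟨hs, Summable.of_nonneg_of_le (fun x => ?_) (fun x => ?_) hs, h3, ?_⟩
  · split_ifs
    exacts [le_rfl, ql0_nonneg _ _ _]
  · split_ifs
    exacts [ql0_nonneg _ _ _, le_rfl]
  · have e0 : ql0_g b t 0 = 1 := by simp [ql0_g, QRH.Vg]
    rw [hs.tsum_eq_add_tsum_ite 0, e0]
    exact add_le_add_right h3 1

theorem ql0_sumC {b : FF} {t : Pl → ℝ} {B : ℝ} (hb : b ≠ 0) (ht : ∀ w, 0 < t w) {ρ : E → ℂ}
    (hρ : ∀ x, ‖ρ x‖ ≤ B) : Summable fun x : E => ρ x * (ql0_g b t x : ℝ) := by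
  obtain ⟨C, -, h⟩ := ql0_gauss
  refine Summable.of_norm_bounded ((h b t hb ht).1.mul_left B) fun x => ?_
  rw [norm_mul, ql0_norm]
  exact mul_le_mul_of_nonneg_right (hρ x) (ql0_nonneg _ _ _)

/-- A primitive quadratic character against the Gaussian. -/
theorem ql0_char (h : PSG) : ∃ C : ℝ, 0 < C ∧ ∀ (k : Finset P) (b : FF) (t : Pl → ℝ),
    k.Nonempty → b ≠ 0 → (∀ w, 0 < t w) →
    ‖∑' y : E, xs c2 k y * (ql0_g b t y : ℝ)‖ ≤ C * √(Ns k) := by
  obtain ⟨C, hC, hG⟩ := ql0_gauss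
  have hd := sS_pos del
  have hk := kap_pos
  refine ⟨kap * C / sS del, by positivity, fun k b t hne hb ht => ?_⟩
  have hN : 0 < Ns k := Ns_pos k
  have q0 : ((pr k : E) : FF) ≠ 0 := cnt_coe_ne (pr_ne_zero k)
  have d0 : b * del ≠ 0 := mul_ne_zero hb del_ne_zero
  have hT : ∀ w, 0 < ‖em w (pr k)‖ ^ 2 / t w := fun w => div_pos (em_sq_pos w q0) (ht w)
  obtain ⟨-, hs', ht', -⟩ := hG _ _ (div_ne_zero q0 d0) hT
  have h0 : xs c2 k 0 = 0 := by
    obtain ⟨p, hp⟩ := hne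
    exact (xs_eq_zero_iff ch_c2).2 ⟨p, hp, dvd_zero _⟩
  have hp : 0 < ∏ w, t w := Finset.prod_pos fun w _ => ht w
  have hb0 := sS_pos b
  have hu : 0 < kap * sS b * (∏ w, t w) / nm (pr k) := div_pos (by positivity) hN
  have e1 := h (pr k) (xs c2 k) b t (pr_ne_zero k) (xs_per ch_c2 k) hb ht
  simp only [gsE_twist ch_c2 (Associated.refl (pr k)), ← div_div_eq_mul_div, mul_assoc,
    ql0_coe] at e1
  have hb2 : ‖∑' ξ : E, conj (xs c2 k ξ) * (gsE c2 k (pr k) *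
      (ql0_g (pr k / (b * del)) (fun w => ‖em w (pr k)‖ ^ 2 / t w) ξ : ℝ))‖
      ≤ √(Ns k) * (C * (sS (pr k / (b * del)) * ∏ w, ‖em w (pr k)‖ ^ 2 / t w)) := by
    refine (tsum_of_norm_bounded (hs'.mul_left √(Ns k)).hasSum fun x => ?_).trans ?_
    · split_ifs with hx
      · simp [hx, h0]
      · rw [norm_mul, norm_mul, ql0_norm, norm_gsE ch_c2 (Associated.refl (pr k)),
          Complex.norm_conj]
        exact mul_le_of_le_one_left (mul_nonneg (Real.sqrt_nonneg _) (ql0_nonneg _ _ _))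
          (norm_xs_le ch_c2 k x)
    · rw [tsum_mul_left]
      exact mul_le_mul_of_nonneg_left ht' (Real.sqrt_nonneg _)
  rw [mul_assoc, ← div_div_eq_mul_div] at hu
  rw [e1, norm_mul, Complex.norm_real, Real.norm_of_nonneg hu.le]
  refine (mul_le_mul_of_nonneg_left hb2 hu.le).trans_eq ?_
  have e2 : (nm (pr k) : ℝ) = (∏ w, ‖em w (pr k)‖ ^ 2) * sS (pr k) := Ns_eq k
  have e3 := Ninf_pos q0
  have e4 := sS_pos (pr k : E)
  rw [sS_div q0 d0, sS_mul hb del_ne_zero, Finset.prod_div_distrib, e2]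
  unfold Ninf at e3
  field_simp

theorem ql0_split (n n' : Finset P) (m : E) : xs c2 n m * xs c2 n' m =
    ∑ f ∈ (n ∩ n').powerset, (if pr f ∣ m then mu f else 0) * xs c2 (n \ n' ∪ n' \ n) m := by
  have h1 : xs c2 n m = xs c2 (n ∩ n') m * xs c2 (n \ n') m := by
    rw [← xs_union (Finset.disjoint_sdiff_inter n n').symm, Finset.union_comm,
      Finset.sdiff_union_inter]
  have h2 : xs c2 n' m = xs c2 (n ∩ n') m * xs c2 (n' \ n) m := by
    rw [Finset.inter_comm, ← xs_union (Finset.disjoint_sdiff_inter n' n).symm, Finset.union_comm,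
      Finset.sdiff_union_inter]
  rw [← Finset.sum_mul, sum_mu_dvd, ← xs_mul_conj ch_c2, conj_xs_c2,
    xs_union disjoint_sdiff_sdiff, h1, h2]
  ring

/-- The off-diagonal sums. -/
theorem ql0_pair (h : PSG) : ∃ C : ℝ, 0 < C ∧ ∀ (n n' : Finset P) (t : Pl → ℝ),
    n ≠ n' → (∀ w, 0 < t w) → ‖∑' y : E, xs c2 n y * xs c2 n' y * (ql0_g 1 t y : ℝ)‖
      ≤ C * 2 ^ n.card * √(Ns n * Ns n') := by
  obtain ⟨C, hC, hc⟩ := ql0_char h
  refine ⟨C, hC, fun n n' t hne ht => ?_⟩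
  set k := n \ n' ∪ n' \ n with hk
  have hkn : k.Nonempty := by
    rw [Finset.nonempty_iff_ne_empty]
    intro e
    rw [hk, Finset.union_eq_empty, Finset.sdiff_eq_empty_iff_subset,
      Finset.sdiff_eq_empty_iff_subset] at e
    exact hne (e.1.antisymm e.2)
  have hkN : √(Ns k) ≤ √(Ns n * Ns n') := by
    refine Real.sqrt_le_sqrt ((Ns_union_le _ _).trans ?_)
    exact mul_le_mul (Ns_mono Finset.sdiff_subset) (Ns_mono Finset.sdiff_subset) (Ns_pos _).le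
      (Ns_pos _).le
  have hterm : ∀ f ∈ (n ∩ n').powerset, ‖∑' y : E, (if pr f ∣ y then mu f else 0) * xs c2 k y
      * (ql0_g 1 t y : ℝ)‖ ≤ C * √(Ns n * Ns n') := by
    intro f _
    have q0 : ((pr f : E) : FF) ≠ 0 := cnt_coe_ne (pr_ne_zero f)
    rw [tsum_supp (pr_ne_zero f) (fun x hx => by simp [hx])]
    have e : ∀ y : E, (if pr f ∣ pr f * y then mu f else 0) * xs c2 k (pr f * y)
        * (ql0_g 1 t (pr f * y) : ℝ) = mu f * xs c2 k (pr f) * (xs c2 k y *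
          (ql0_g (1 / pr f) (fun w => t w / ‖em w (pr f)‖ ^ 2) y : ℝ)) := by
      intro y
      rw [if_pos (dvd_mul_right _ _), xs_mul ch_c2, ql0_mul]
      ring
    rw [tsum_congr e, tsum_mul_left, norm_mul, norm_mul, norm_mu, one_mul]
    refine (mul_le_of_le_one_left (norm_nonneg _) (norm_xs_le ch_c2 _ _)).trans ?_
    exact (hc k _ _ hkn (one_div_ne_zero q0) fun w => div_pos (ht w) (em_sq_pos w q0)).trans
      (mul_le_mul_of_nonneg_left hkN hC.le)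
  have hsum : ∀ f ∈ (n ∩ n').powerset, Summable fun y : E =>
      (if pr f ∣ y then mu f else 0) * xs c2 k y * (ql0_g 1 t y : ℝ) := by
    intro f _
    refine ql0_sumC (B := 1) one_ne_zero ht fun x => ?_
    rw [norm_mul]
    refine mul_le_one₀ ?_ (norm_nonneg _) (norm_xs_le ch_c2 _ _)
    split_ifs
    · exact (norm_mu f).le
    · simp
  simp only [ql0_split n n', Finset.sum_mul]
  rw [Summable.tsum_finsetSum hsum]
  refine (norm_sum_le_of_le _ hterm).trans ?_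
  rw [Finset.sum_const, Finset.card_powerset, nsmul_eq_mul]
  have h2 : ((2 ^ (n ∩ n').card : ℕ) : ℝ) ≤ 2 ^ n.card := by
    push_cast
    exact pow_le_pow_right₀ one_le_two (Finset.card_le_card Finset.inter_subset_left)
  calc _ ≤ 2 ^ n.card * (C * √(Ns n * Ns n')) :=
        mul_le_mul_of_nonneg_right h2 (by positivity)
    _ = _ := by ring

theorem ql0_expand (T : Finset (Finset P)) (α : Finset P → ℂ) {t : Pl → ℝ}
    (ht : ∀ w, 0 < t w) :
    Summable (fun y : E => ‖∑ n ∈ T, α n * xs c2 n y‖ ^ 2 * ql0_g 1 t y) ∧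
    ∑' y : E, ‖∑ n ∈ T, α n * xs c2 n y‖ ^ 2 * ql0_g 1 t y ≤ ∑ n ∈ T, ∑ n' ∈ T,
      ‖α n‖ * ‖α n'‖ * ‖∑' y : E, xs c2 n y * xs c2 n' y * (ql0_g 1 t y : ℝ)‖ := by
  have e : ∀ y : E, ((‖∑ n ∈ T, α n * xs c2 n y‖ ^ 2 * ql0_g 1 t y : ℝ) : ℂ) =
      ∑ n ∈ T, ∑ n' ∈ T, α n * conj (α n') * (xs c2 n y * xs c2 n' y * (ql0_g 1 t y : ℝ)) := by
    intro y
    rw [Complex.ofReal_mul, Complex.ofReal_pow, ← Complex.mul_conj', map_sum, Finset.sum_mul_sum,
      Finset.sum_mul]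
    refine Finset.sum_congr rfl fun n _ => ?_
    rw [Finset.sum_mul]
    refine Finset.sum_congr rfl fun n' _ => ?_
    rw [map_mul, conj_xs_c2]
    ring
  have hs : ∀ n n', Summable fun y : E =>
      α n * conj (α n') * (xs c2 n y * xs c2 n' y * (ql0_g 1 t y : ℝ)) := by
    intro n n'
    refine (ql0_sumC (B := 1) one_ne_zero ht fun x => ?_).mul_left _
    rw [norm_mul]
    exact mul_le_one₀ (norm_xs_le ch_c2 _ _) (norm_nonneg _) (norm_xs_le ch_c2 _ _)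
  have hS : Summable fun y : E =>
      ((‖∑ n ∈ T, α n * xs c2 n y‖ ^ 2 * ql0_g 1 t y : ℝ) : ℂ) := by
    simp only [e]
    exact summable_sum fun n _ => summable_sum fun n' _ => hs n n'
  refine ⟨Complex.summable_ofReal.1 hS, (Real.le_norm_self _).trans ?_⟩
  rw [← Complex.norm_real, Complex.ofReal_tsum, tsum_congr e,
    Summable.tsum_finsetSum fun n _ => summable_sum fun n' _ => hs n n']
  refine norm_sum_le_of_le _ fun n _ => ?_
  rw [Summable.tsum_finsetSum fun n' _ => hs n n']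
  refine norm_sum_le_of_le _ fun n' _ => ?_
  rw [tsum_mul_left, norm_mul, norm_mul, Complex.norm_conj]

theorem ql0_box : ∃ K : ℝ, 1 ≤ K ∧ ∀ (M : ℝ) (F : E → ℝ), 0 < M → (∀ x, 0 ≤ F x) →
    (∀ (e : Eˣ) (x : E), F (e ^ 6 * x) = F x) →
    Summable (fun y => F y * ql0_g 1 (fun _ => K * M ^ (1 / rk : ℝ)) y) →
    Vg 1 ^ rk * ∑ m ∈ sqf M, F (pr m)
      ≤ ∑' y : E, F y * ql0_g 1 (fun _ => K * M ^ (1 / rk : ℝ)) y := by
  obtain ⟨K, hK, h⟩ := sum_ball_le_box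
  refine ⟨K, hK, fun M F hM h0 h6 hs => ?_⟩
  have hV := ql0_pos 1
  refine (mul_le_mul_of_nonneg_left ((cnt_sqf F h0).trans (h M F hM h0 h6))
    (by positivity)).trans (le_trans ?_ (hs.sum_le_tsum (box 1 fun _ => K * M ^ (1 / rk : ℝ))
      fun y _ => mul_nonneg (h0 y) (ql0_nonneg _ _ _)))
  rw [Finset.mul_sum]
  refine Finset.sum_le_sum fun x hx => ?_
  obtain ⟨-, h1, h2⟩ := (mem_box one_ne_zero).1 hx
  rw [mul_comm, ql0_g, if_pos h1, ← prod_const_Pl]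
  refine mul_le_mul_of_nonneg_left (Finset.prod_le_prod (fun _ _ => hV.le) fun w _ =>
    ql0_anti ((div_le_one (by positivity)).2 (h2 w))) (h0 x)

theorem qS_two (h : PSG) : QS 2 := by
  intro ε hε
  obtain ⟨C0, hC0, hG⟩ := ql0_gauss
  obtain ⟨C2, hC2, hp⟩ := ql0_pair h
  obtain ⟨C3, hC3, hc⟩ := pow_card_le (A := 2) zero_le_two hε
  obtain ⟨K, hK, hbox⟩ := ql0_box
  have hV : 0 < Vg 1 ^ rk := pow_pos (ql0_pos 1) _
  have hB := one_le_Kb
  obtain ⟨C1, hC⟩ : ∃ C1, C1 = C0 * K ^ rk := ⟨_, rfl⟩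
  have hC1 : 0 < C1 := by rw [hC]; positivity
  refine ⟨(1 + C1 + Kb * C2 * C3) / Vg 1 ^ rk, by positivity, fun M N α hM hN => ?_⟩
  have hM0 : 0 < M := one_pos.trans_le hM
  have hN0 : 0 < N := one_pos.trans_le hN
  have ht : ∀ _w : Pl, 0 < K * M ^ (1 / rk : ℝ) := fun _ => by positivity
  obtain ⟨hs, hb⟩ := ql0_expand (sqf N) α ht
  set Z := (M * N) ^ ε with hZ
  have hZ1 : 1 ≤ Z := Real.one_le_rpow (by nlinarith) hε.le
  have hZN : N ^ ε ≤ Z := Real.rpow_le_rpow hN0.le (by nlinarith) hε.le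
  set A := ∑ n ∈ sqf N, ‖α n‖ ^ 2 with hA
  have hA0 : 0 ≤ A := Finset.sum_nonneg fun _ _ => by positivity
  have h1 := hbox M (fun y => ‖∑ n ∈ sqf N, α n * xs c2 n y‖ ^ 2) hM0 (fun _ => by positivity)
    (fun e x => by simp only [xs_unit_six ch_c2 six_c2]) hs
  have h2 : ∀ n ∈ sqf N, ∀ n' ∈ sqf N,
      ‖∑' y : E, xs c2 n y * xs c2 n' y * (ql0_g 1 (fun _ => K * M ^ (1 / rk : ℝ)) y : ℝ)‖
        ≤ (if n = n' then 1 + C1 * M else 0) + C2 * C3 * Z * N := by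
    intro n hn1 n' hn1'
    split_ifs with e
    · refine le_add_of_le_of_nonneg ?_ (by positivity)
      obtain ⟨g1, -, -, g2⟩ := hG 1 _ one_ne_zero ht
      refine (tsum_of_norm_bounded g1.hasSum fun x => ?_).trans (g2.trans_eq ?_)
      · rw [norm_mul, norm_mul, ql0_norm]
        exact mul_le_of_le_one_left (ql0_nonneg _ _ _)
          (mul_le_one₀ (norm_xs_le ch_c2 _ _) (norm_nonneg _) (norm_xs_le ch_c2 _ _))
      · rw [sS_one, one_mul, prod_const_Pl, mul_pow, rpow_rk hM0.le, hC, mul_assoc]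
    · rw [zero_add]
      refine (hp n n' _ e ht).trans ?_
      have a1 : (2 : ℝ) ^ n.card ≤ C3 * Z := (hc n).trans (mul_le_mul_of_nonneg_left
        ((Real.rpow_le_rpow (Ns_pos n).le (mem_sqf.1 hn1) hε.le).trans hZN) hC3.le)
      have a2 : √(Ns n * Ns n') ≤ N := Real.sqrt_le_iff.2 ⟨hN0.le, by
        rw [sq]
        exact mul_le_mul (mem_sqf.1 hn1) (mem_sqf.1 hn1') (Ns_pos _).le hN0.le⟩
      calc _ ≤ C2 * (C3 * Z) * N := by gcongr
        _ = _ := by ring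
  have h3 : (∑ n ∈ sqf N, ‖α n‖) ^ 2 ≤ Kb * N * A := by
    exact sq_sum_le_card_mul_sum_sq.trans (mul_le_mul_of_nonneg_right (card_sqf_le hN0.le) hA0)
  have h4 : ∑ n ∈ sqf N, ∑ n' ∈ sqf N, ‖α n‖ * ‖α n'‖
      * ((if n = n' then 1 + C1 * M else 0) + C2 * C3 * Z * N)
      = (1 + C1 * M) * A + C2 * C3 * Z * N * (∑ n ∈ sqf N, ‖α n‖) ^ 2 := by
    rw [sq, Finset.sum_mul_sum, hA, Finset.mul_sum, Finset.mul_sum, ← Finset.sum_add_distrib]
    refine Finset.sum_congr rfl fun n hn => ?_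
    simp only [mul_add, mul_ite, mul_zero, Finset.sum_add_distrib, Finset.sum_ite_eq, if_pos hn,
      Finset.mul_sum]
    refine congrArg₂ _ (by ring) (Finset.sum_congr rfl fun n' _ => by ring)
  have h5 := h1.trans (hb.trans ((Finset.sum_le_sum fun n hn => Finset.sum_le_sum fun n' hn' =>
    mul_le_mul_of_nonneg_left (h2 n hn n' hn') (by positivity)).trans_eq h4))
  have h6 : (1 + C1 * M) * A + C2 * C3 * Z * N * (∑ n ∈ sqf N, ‖α n‖) ^ 2
      ≤ (1 + C1 + Kb * C2 * C3) * Z * (M + N ^ 2) * A := by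
    have b1 : C2 * C3 * Z * N * (∑ n ∈ sqf N, ‖α n‖) ^ 2 ≤ C2 * C3 * Z * N * (Kb * N * A) :=
      mul_le_mul_of_nonneg_left h3 (by positivity)
    have b2 : 1 + C1 * M ≤ (1 + C1) * Z * (M + N ^ 2) := by
      have : M ≤ Z * (M + N ^ 2) := by nlinarith [sq_nonneg N]
      nlinarith
    have b3 := mul_le_mul_of_nonneg_right b2 hA0
    have b4 : 0 ≤ Kb * C2 * C3 * Z * M * A := by positivity
    nlinarith
  rw [Real.rpow_two, div_mul_eq_mul_div, div_mul_eq_mul_div, div_mul_eq_mul_div, le_div_iff₀ hV,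
    mul_comm]
  exact h5.trans h6

end NQ
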