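import Vale.Agent.NQ.Sym
import Vale.Agent.NQ.Rearr
import Vale.Agent.P026.QL1

noncomputable section
namespace NQ
open Complex MeasureTheory NumberField Filter
open scoped ComplexConjugate Classical ContDiff Topology
open QRH (ql_LS ql_fiber exists_dyadic log_le_rpow)

variable [σ : St]

theorem ql1_swap (hR : QRec) : ∃ k : ℕ, ∀ M N K : ℝ,
    ql_LS (sqf M) (sqf N) (fun m n => xs c2 n (pr m)) K →
    ql_LS (sqf M) (sqf N) (fun m n => xs c2 m (pr n)) (k * K) := by
  obtain ⟨k, tp, sg, h1, h2⟩ := hR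
  refine ⟨k, fun M N K h => ?_⟩
  have := ql_fiber (I := sqf M) (J := sqf N) (a := fun m n => xs c2 m (pr n))
    (Finset.univ : Finset (Fin k)) (fun m => tp (pr m))
    (fun _ _ => Finset.mem_univ _) h.1 fun r _ => h.pull id (Set.injOn_id _)
    (fun m hm => (Finset.mem_filter.1 hm).1) (fun n => sg r (tp (pr n))) (fun n => (h1 _ _).le)
    fun m hm n _ => by
      obtain ⟨-, rfl⟩ := Finset.mem_filter.1 hm
      have := h2 (pr m) (pr n) (pr_ne_zero m) (pr_ne_zero n)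
      rwa [xv_pr, xv_pr] at this
  rwa [Finset.card_univ, Fintype.card_fin] at this

theorem ql1_ext {ι : Type*} {I : Finset ι} {J : Finset (Finset P)} {A K : ℝ} (f : ι → E)
    (hf : Set.InjOn f I) (R : Finset E) (hR : ∀ i ∈ I, ∃ u ∈ R, ∃ s ∈ sqf A, f i = u * pr s)
    (h : ql_LS (sqf A) J (fun s c => xs c2 c (pr s)) K) :
    ql_LS I J (fun i c => xs c2 c (f i)) (R.card * K) := by
  choose! u hu s hs e using hR
  refine ql_fiber R u hu h.1 fun r _ => h.pull s (fun i hi j hj hij => ?_)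
    (fun i hi => hs i (Finset.mem_filter.1 hi).1) (fun c => xs c2 c r)
    (fun c => norm_xs_le ch_c2 c r) fun i hi c _ => ?_
  · obtain ⟨h1, h2⟩ := Finset.mem_filter.1 (Finset.mem_coe.1 hi)
    obtain ⟨h3, h4⟩ := Finset.mem_filter.1 (Finset.mem_coe.1 hj)
    exact hf h1 h3 (by rw [e i h1, e j h3, h2, h4, hij])
  · obtain ⟨h1, h2⟩ := Finset.mem_filter.1 hi
    rw [e i h1, h2, xs_mul ch_c2]

theorem ql1_fam : ∃ R : Finset E, ∀ A : ℝ, ∀ a ∈ calA A, ∃ u ∈ R, ∃ s ∈ sqf A, a = u * pr s := by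
  refine ⟨(finite_isU two_ne_zero).toFinset, fun A a ha => ?_⟩
  obtain ⟨h1, h2⟩ := mem_calA.1 ha
  obtain ⟨s, u, hu, rfl⟩ := rr_isA.1 h1
  exact ⟨u, (Set.Finite.mem_toFinset _).2 hu, s, mem_sqf.2 (rr_nm hu.1 s ▸ h2), rfl⟩

theorem ql1_QS {ξ : ℝ} (h : QS ξ) {ε : ℝ} (hε : 0 < ε) : ∃ C : ℝ, 0 < C ∧ ∀ M N : ℝ, 1 ≤ M →
    1 ≤ N → ql_LS (sqf M) (sqf N) (fun m n => xs c2 n (pr m)) (C * (M * N) ^ ε * (M + N ^ ξ)) := by
  obtain ⟨C, hC, h⟩ := h ε hε
  exact ⟨C, hC, fun M N hM hN => ⟨by positivity, fun x => h M N x hM hN⟩⟩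

theorem qD (hR : QRec) {ξ : ℝ} (hξ : 0 ≤ ξ) (h : QS ξ) : QD ξ := by
  intro ε hε
  have _ := hξ
  obtain ⟨C, hC, h⟩ := ql1_QS h hε
  obtain ⟨R, hR1⟩ := ql1_fam
  obtain ⟨k, hk⟩ := ql1_swap hR
  refine ⟨(R.card + 1) * ((k + 1) * C), by positivity, fun A L T g x hA hL hx => ?_⟩
  rcases lt_or_ge A 1 with hA1 | hA1
  · rw [Finset.eq_empty_of_forall_notMem (s := calA A) fun a ha => by
      linarith [one_le_nmR (mem_calA.1 ha).1.ne_zero, (mem_calA.1 ha).2], Finset.sum_empty]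
    positivity
  have h1 : ∀ a, ∑ c ∈ T, x c * xs c2 c a =
      ∑ c ∈ T with g ⊆ c ∧ Ns c ≤ L * Ns g, x c * xs c2 c a := fun a =>
    (Finset.sum_filter_of_ne fun c hc h0 => hx c hc (left_ne_zero_of_mul h0)).symm
  simp only [h1]
  rcases lt_or_ge L 1 with hL1 | hL1
  · rw [Finset.filter_eq_empty_iff.2 fun c _ hc => by
      have := mul_lt_of_lt_one_left (Ns_pos g) hL1
      linarith [Ns_mono hc.1, hc.2]]
    simp only [Finset.sum_empty, norm_zero, ne_eq, OfNat.ofNat_ne_zero, not_false_eq_true,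
      zero_pow, Finset.sum_const_zero]
    positivity
  have h2 := (ql1_ext id (Set.injOn_id _) R (hR1 A) (hk _ _ _ (h L A hL1 hA1)).dual).dual
  have h3 : ql_LS (T.filter fun c => g ⊆ c ∧ Ns c ≤ L * Ns g) (calA A)
      (fun c a => xs c2 c a) _ := h2.pull (fun c => c \ g) (fun c hc c' hc' hcc => by
      have a1 := (Finset.mem_filter.1 (Finset.mem_coe.1 hc)).2.1
      have a2 := (Finset.mem_filter.1 (Finset.mem_coe.1 hc')).2.1
      rw [← Finset.sdiff_union_of_subset a1, ← Finset.sdiff_union_of_subset a2]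
      exact congrArg (· ∪ g) hcc)
    (fun c hc => by
      obtain ⟨-, a2, a3⟩ := Finset.mem_filter.1 hc
      refine mem_sqf.2 ?_
      rw [← Finset.sdiff_union_of_subset a2, Ns_union Finset.sdiff_disjoint] at a3
      exact le_of_mul_le_mul_right a3 (Ns_pos g))
    (fun a => xs c2 g a) (fun a => norm_xs_le ch_c2 g a) fun c hc a _ => by
      have a2 := (Finset.mem_filter.1 hc).2.1
      rw [mul_comm, id, ← xs_union Finset.sdiff_disjoint, Finset.sdiff_union_of_subset a2]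
  refine (h3.dual.2 x).trans (mul_le_mul ?_ (Finset.sum_le_sum_of_subset_of_nonneg
    (Finset.filter_subset _ _) fun _ _ _ => by positivity) (by positivity) (by positivity))
  rw [mul_comm A L]
  calc _ = R.card * (k * C) * (L * A) ^ ε * (L + A ^ ξ) := by ring
    _ ≤ _ := by gcongr <;> linarith

theorem ql1_win {K N y z : ℝ} (hK : 1 ≤ K) (hN : 0 < N) (h1 : N / 2 < y) (h2 : y ≤ N)
    (h3 : y ^ (1 / rk : ℝ) / K ≤ z) (h4 : z ≤ K * y ^ (1 / rk : ℝ)) :
    (N / 2) ^ (1 / rk : ℝ) / K ≤ z ∧ z ≤ 2 * K ^ 2 * ((N / 2) ^ (1 / rk : ℝ) / K) := by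
  have a0 : (1 : ℝ) ≤ rk := by exact_mod_cast rk_pos
  have a1 : (N / 2) ^ (1 / rk : ℝ) ≤ y ^ (1 / rk : ℝ) :=
    Real.rpow_le_rpow (by positivity) h1.le (by positivity)
  have a2 : y ^ (1 / rk : ℝ) ≤ (2 * (N / 2)) ^ (1 / rk : ℝ) :=
    Real.rpow_le_rpow (by linarith) (by linarith) (by positivity)
  have a3 : (2 : ℝ) ^ (1 / rk : ℝ) ≤ 2 := by
    conv_rhs => rw [← Real.rpow_one 2]
    exact Real.rpow_le_rpow_of_exponent_le one_le_two ((div_le_one (by linarith)).2 a0)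
  rw [Real.mul_rpow (by norm_num) (by positivity)] at a2
  have a4 := a2.trans (mul_le_mul_of_nonneg_right a3 (by positivity))
  refine ⟨le_trans (div_le_div_of_nonneg_right a1 (by linarith)) h3, h4.trans ?_⟩
  refine (mul_le_mul_of_nonneg_left a4 (by linarith)).trans (le_of_eq ?_)
  field_simp

theorem qS_of_QSd {ξ : ℝ} (hξ : 1 ≤ ξ) (hξ2 : ξ ≤ 2) (h : QSd ξ) : QS ξ := by
  intro ε hε
  have hε' : 0 < ε / 4 := by positivity
  obtain ⟨U, K, hK, hU, hb⟩ := exists_bal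
  choose e g hg hc hw using fun n => hb (pr n) (pr_ne_zero n)
  obtain ⟨C, hC, h⟩ := h (2 * K ^ 2) _ (by nlinarith) hε'
  obtain ⟨C1, hC1, h1⟩ := log_le_rpow hε'
  refine ⟨(U.card + 1) * C1 * (C * 2 ^ (ε / 4)), by positivity, fun M N α hM hN => ?_⟩
  obtain ⟨J, hJ1, hJ2⟩ := exists_dyadic hN
  have h2 : ∀ n ∈ sqf N, ∃ j : ℕ, (2 : ℝ) ^ j ≤ N / Ns n ∧ N / Ns n < 2 ^ (j + 1) := fun n hn =>
    exists_dyadic ((one_le_div (Ns_pos n)).2 (mem_sqf.1 hn))
  choose! j hj1 hj2 using h2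
  have hMN : 1 ≤ M * N := one_le_mul_of_one_le_of_one_le hM hN
  have hNξ : 0 ≤ N ^ ξ := by positivity
  have h3 := ql_fiber (I := sqf N) (J := sqf M) (a := fun n m => xs c2 n (pr m))
    (K := C * (2 ^ (ε / 4) * ((M * N) ^ (ε / 4)) ^ 3) * (M + N ^ ξ))
    (U ×ˢ Finset.range (J + 1)) (fun n => (g n, j n)) (fun n hn => by
      refine Finset.mem_product.2 ⟨hg n, Finset.mem_range.2 ?_⟩
      exact (pow_lt_pow_iff_right₀ one_lt_two).1 (((hj1 n hn).trans
        (div_le_self (by linarith) (one_le_Ns n))).trans_lt hJ2)) (by positivity) fun r hr => by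
      refine QRH.ql_LS.dual (a := fun m n => xs c2 n (pr m)) ⟨by positivity, fun x => ?_⟩
      have a1 : (2 : ℝ) ^ r.2 ≤ N := (pow_le_pow_right₀ one_le_two
        (Nat.lt_succ_iff.1 (Finset.mem_range.1 (Finset.mem_product.1 hr).2))).trans hJ1
      have a2 : 1 ≤ N / 2 ^ r.2 := (one_le_div (by positivity)).2 a1
      have a3 : N / 2 ^ r.2 ≤ N := div_le_self (by linarith) (one_le_pow₀ one_le_two)
      set B := (sqf N).filter fun n => (g n, j n) = r with hB
      have a4 : ∀ n ∈ B, N / 2 ^ r.2 / 2 < Ns n ∧ Cl r.1 ((e n ^ 6 * pr n : E) : FF) ∧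
          n ∈ sqf (N / 2 ^ r.2) := by
        intro n hn
        obtain ⟨b1, rfl⟩ := Finset.mem_filter.1 hn
        have b2 := hj1 n b1
        have b3 := hj2 n b1
        rw [le_div_iff₀ (Ns_pos n)] at b2
        rw [div_lt_iff₀ (Ns_pos n), pow_succ] at b3
        refine ⟨?_, hc n, mem_sqf.2 ?_⟩
        · rw [div_div, div_lt_iff₀ (by positivity)]
          linarith
        · rw [le_div_iff₀ (by positivity)]
          linarith
      have a5 := h (M + N ^ ξ) (N / 2 ^ r.2) (fun n => if n ∈ B then x n else 0)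
        (fun n => e n ^ 6 * pr n) a2
        ((Real.rpow_le_rpow (by linarith) a3 (by linarith)).trans (by linarith))
        ⟨⟨r.1, fun _ => (N / 2 ^ r.2 / 2) ^ (1 / rk : ℝ) / K⟩,
          ⟨(hU _ (Finset.mem_product.1 hr).1).1, fun _ => by positivity⟩, fun n hn => by
          have b1 : n ∈ B := by
            by_contra b1
            exact hn (if_neg b1)
          exact ⟨(a4 n b1).1, (cnt_assoc (e n) 6 (pr n)).symm, (a4 n b1).2.1, fun w =>
            ql1_win hK (by linarith) (a4 n b1).1 (mem_sqf.1 (a4 n b1).2.2) (hw n w).1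
              (hw n w).2⟩⟩
      have a6 : sqf (N / 2 ^ r.2) ∩ B = B :=
        Finset.inter_eq_right.2 fun n hn => (a4 n hn).2.2
      simp only [ite_mul, zero_mul, apply_ite fun z : ℂ => ‖z‖ ^ 2, norm_zero, ne_eq,
        OfNat.ofNat_ne_zero, not_false_eq_true, zero_pow, Finset.sum_ite_mem, a6] at a5
      refine le_trans (Finset.sum_le_sum_of_subset_of_nonneg
        (sqf_mono (le_add_of_nonneg_right hNξ)) fun _ _ _ => by positivity) (a5.trans ?_)
      have a7 : (M + N ^ ξ) * (N / 2 ^ r.2) ≤ 2 * (M * N) ^ 3 := by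
        have b1 : N ^ ξ ≤ N ^ 2 := by
          rw [← Real.rpow_two]
          exact Real.rpow_le_rpow_of_exponent_le hN hξ2
        have b2 : N ≤ M * N := le_mul_of_one_le_left (by linarith) hM
        have b3 : M ≤ (M * N) ^ 2 :=
          (le_mul_of_one_le_right (by linarith) hN).trans (le_self_pow₀ hMN (by norm_num))
        have b4 := pow_le_pow_left₀ (by linarith) b2 2
        calc _ ≤ (2 * (M * N) ^ 2) * (M * N) :=
              mul_le_mul (by linarith) (a3.trans b2) (by linarith) (by positivity)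
          _ = _ := by ring
      have a8 := Real.rpow_le_rpow (by positivity) a7 hε'.le
      rw [Real.mul_rpow (x := 2) (by norm_num) (by positivity),
        ← Real.rpow_pow_comm (by positivity)] at a8
      gcongr
  refine (h3.dual.2 α).trans (mul_le_mul_of_nonneg_right ?_ (by positivity))
  have h4 : (J + 1 : ℝ) ≤ C1 * (M * N) ^ (ε / 4) :=
    h1 (M * N) J hMN (hJ1.trans (le_mul_of_one_le_left (by linarith) hM))
  have h5 : (M * N) ^ ε = ((M * N) ^ (ε / 4)) ^ 4 := by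
    rw [← Real.rpow_natCast, ← Real.rpow_mul (by linarith)]
    congr 1
    push_cast
    ring
  rw [Finset.card_product, Finset.card_range, h5]
  push_cast
  calc _ ≤ (U.card + 1) * (C1 * (M * N) ^ (ε / 4)) *
        (C * (2 ^ (ε / 4) * ((M * N) ^ (ε / 4)) ^ 3) * (M + N ^ ξ)) := by
        gcongr
        linarith
    _ = _ := by ring

theorem QS.mono {ξ ξ1 : ℝ} (h : QS ξ) (hξ : ξ ≤ ξ1) : QS ξ1 := by
  intro ε hε
  obtain ⟨C, hC, h⟩ := h ε hε
  refine ⟨C, hC, fun M N α hM hN => (h M N α hM hN).trans ?_⟩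
  gcongr

theorem qS_all (h2 : QS 2) (h : ∀ ξ : ℝ, 1 ≤ ξ → ξ ≤ 2 → QS ξ → QS (2 - 1 / ξ)) {ξ : ℝ}
    (hξ : 1 < ξ) : QS ξ := by
  have h1 : ∀ k : ℕ, QS (1 + 1 / (k + 1 : ℝ)) := by
    intro k
    induction k with
    | zero => exact h2.mono (by norm_num)
    | succ k ih =>
      have a1 : 1 / (k + 1 : ℝ) ≤ 1 := (div_le_one (by positivity)).2 (by linarith)
      refine (h _ (le_add_of_nonneg_right (by positivity)) (by linarith) ih).mono (le_of_eq ?_)
      push_cast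
      field_simp
      ring
  obtain ⟨k, hk⟩ := exists_nat_one_div_lt (sub_pos.2 hξ)
  exact (h1 k).mono (by linarith)

theorem qLS (hR : QRec) (h : ∀ ξ : ℝ, 1 < ξ → QS ξ) : QLS := by
  intro ε hε
  have hε' : 0 < ε / 2 := by positivity
  obtain ⟨C, hC, h⟩ := ql1_QS (h (1 + ε / 2) (by linarith)) hε'
  obtain ⟨k, hk⟩ := ql1_swap hR
  refine ⟨(k + 1) * C, by positivity, fun M N α hM hN => ?_⟩
  refine ((hk _ _ _ (h M N hM hN)).2 α).trans (mul_le_mul_of_nonneg_right ?_ (by positivity))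
  have hMN : 1 ≤ M * N := one_le_mul_of_one_le_of_one_le hM hN
  have h2 : M + N ^ (1 + ε / 2) ≤ (M * N) ^ (ε / 2) * (M + N) := by
    rw [Real.rpow_add (by linarith), Real.rpow_one, mul_add, mul_comm N]
    exact add_le_add (le_mul_of_one_le_left (by linarith) (Real.one_le_rpow hMN hε'.le))
      (mul_le_mul_of_nonneg_right (Real.rpow_le_rpow (by linarith)
        (le_mul_of_one_le_left (by linarith) hM) hε'.le) (by linarith))
  have h3 : (M * N) ^ ε = (M * N) ^ (ε / 2) * (M * N) ^ (ε / 2) := by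
    rw [← Real.rpow_add (by linarith), add_halves]
  rw [h3]
  calc _ ≤ (k + 1) * (C * (M * N) ^ (ε / 2) * ((M * N) ^ (ε / 2) * (M + N))) := by
        gcongr
        linarith
    _ = _ := by ring

end NQ
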