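import Vale.Agent.NQ.PairP
import Vale.Agent.NQ.Rearr
import Vale.Agent.NQ.Vl

noncomputable section
namespace NQ
open Complex MeasureTheory NumberField Filter
open scoped ComplexConjugate Classical ContDiff Topology

theorem QPair_Vg_pos (y : ℝ) : 0 < Vg y := Real.exp_pos _

theorem QPair_ite {p q r : Prop} {_ : Decidable p} {_ : Decidable q} {_ : Decidable r}
    (h : p ↔ q ∧ r) :
    (if p then (1 : ℂ) else 0) = (if q then 1 else 0) * if r then 1 else 0 := by
  by_cases h1 : q <;> by_cases h2 : r <;> simp [h, h1, h2]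

variable [σ : St]

theorem QPair_cop_union (s t : Finset P) (b : E) : cop (s ∪ t) b = cop s b * cop t b :=
  QPair_ite Finset.forall_mem_union

theorem QPair_cop_mul (s : Finset P) (a b : E) : cop s (a * b) = cop s a * cop s b := by
  have h : (∀ p ∈ s, ¬ p.1 ∣ a * b) ↔ (∀ p ∈ s, ¬ p.1 ∣ a) ∧ ∀ p ∈ s, ¬ p.1 ∣ b :=
    ⟨fun h => ⟨fun p hp hd => h p hp (hd.mul_right _), fun p hp hd => h p hp (hd.mul_left _)⟩,
      fun h p hp hd => (p.2.1.dvd_or_dvd hd).elim (h.1 p hp) (h.2 p hp)⟩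
  exact QPair_ite h

theorem QPair_cop_sq (s : Finset P) (b : E) : cop s (b ^ 2) = cop s b := by
  rw [sq, QPair_cop_mul, cop]
  split_ifs <;> simp

theorem QPair_cop_pr {s g : Finset P} (h : Disjoint s g) : cop s (pr g) = 1 :=
  if_pos fun _ hp hd => Finset.disjoint_left.1 h hp (dvd_pr_iff.1 hd)

theorem QPair_norm_cop (s : Finset P) (b : E) : ‖cop s b‖ ≤ 1 := by
  rw [cop]; split_ifs <;> simp

theorem QPair_xs_sq (c : Finset P) (b : E) : xs c2 c (b ^ 2) = cop c b := by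
  rw [xs_pow ch_c2, sq]
  nth_rewrite 2 [← conj_xs_c2]
  exact xs_mul_conj ch_c2 c b

theorem QPair_powerset {s t : Finset P} (h : Disjoint s t) (F : Finset P → ℂ) :
    ∑ e ∈ (s ∪ t).powerset, F e = ∑ e1 ∈ s.powerset, ∑ e2 ∈ t.powerset, F (e1 ∪ e2) := by
  rw [← Finset.sum_product']
  symm
  refine Finset.sum_nbij' (fun x => x.1 ∪ x.2) (fun e => (e ∩ s, e ∩ t)) ?_ ?_ ?_ ?_ ?_
  · intro x hx
    simp only [Finset.mem_product, Finset.mem_powerset] at hx ⊢
    exact Finset.union_subset_union hx.1 hx.2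
  · intro e _
    simp
  · intro x hx
    simp only [Finset.mem_product, Finset.mem_powerset] at hx
    refine Prod.ext ?_ ?_
    · ext p
      simp only [Finset.mem_inter, Finset.mem_union]
      exact ⟨fun hp => hp.1.resolve_right fun h2 => Finset.disjoint_left.1 h hp.2 (hx.2 h2),
        fun hp => ⟨Or.inl hp, hx.1 hp⟩⟩
    · ext p
      simp only [Finset.mem_inter, Finset.mem_union]
      exact ⟨fun hp => hp.1.resolve_left fun h2 => Finset.disjoint_left.1 h (hx.1 h2) hp.2,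
        fun hp => ⟨Or.inr hp, hx.2 hp⟩⟩
  · intro e he
    rw [← Finset.inter_union_distrib_left]
    exact Finset.inter_eq_left.2 (Finset.mem_powerset.1 he)
  · intro _ _
    rfl

theorem QPair_disj {s t e1 e2 : Finset P} (h : Disjoint s t) (h1 : e1 ∈ s.powerset)
    (h2 : e2 ∈ t.powerset) : Disjoint e1 e2 :=
  Finset.disjoint_of_subset_left (Finset.mem_powerset.1 h1)
    (Finset.disjoint_of_subset_right (Finset.mem_powerset.1 h2) h)

/-- The density of elements coprime to `r`. -/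
def QPairR (r : Finset P) : ℂ := ∑ e ∈ r.powerset, mu e / (Ns e : ℝ)

theorem QPairR_union {s t : Finset P} (h : Disjoint s t) : QPairR (s ∪ t) = QPairR s * QPairR t := by
  rw [QPairR, QPair_powerset h, QPairR, QPairR, Finset.sum_mul_sum]
  refine Finset.sum_congr rfl fun e1 h1 => Finset.sum_congr rfl fun e2 h2 => ?_
  rw [mu_union (QPair_disj h h1 h2), Ns_union (QPair_disj h h1 h2), Complex.ofReal_mul, mul_div_mul_comm]

theorem QPair_sum_mu {a : E} (ha : a ≠ 0) (d : Finset P) :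
    ∑ f ∈ d.powerset, mu f / (Ns (f \ fac a) : ℝ) = cop d a * QPairR d := by
  have hd : Disjoint (d ∩ fac a) (d \ fac a) :=
    Finset.disjoint_left.2 fun p h1 h2 => (Finset.mem_sdiff.1 h2).2 (Finset.mem_inter.1 h1).2
  have e : d = d ∩ fac a ∪ d \ fac a := by
    rw [Finset.union_comm, Finset.sdiff_union_inter]
  have h1 : ∑ f ∈ d.powerset, mu f / (Ns (f \ fac a) : ℝ) =
      (∑ f ∈ (d ∩ fac a).powerset, mu f) * QPairR (d \ fac a) := by
    conv_lhs => rw [e]
    rw [QPair_powerset hd, QPairR, Finset.sum_mul_sum]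
    refine Finset.sum_congr rfl fun e1 h1 => Finset.sum_congr rfl fun e2 h2 => ?_
    have h3 : (e1 ∪ e2) \ fac a = e2 := by
      ext p
      simp only [Finset.mem_sdiff, Finset.mem_union]
      exact ⟨fun hp => hp.1.resolve_left fun h4 =>
          hp.2 (Finset.mem_inter.1 (Finset.mem_powerset.1 h1 h4)).2,
        fun hp => ⟨Or.inr hp, (Finset.mem_sdiff.1 (Finset.mem_powerset.1 h2 hp)).2⟩⟩
    rw [h3, mu_union (QPair_disj hd h1 h2), mul_div_assoc]
  rw [h1, sum_mu, cop]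
  by_cases h : ∀ p ∈ d, ¬ p.1 ∣ a
  · have h2 : Disjoint d (fac a) :=
      Finset.disjoint_left.2 fun p hp h3 => h p hp ((mem_fac ha).1 h3)
    rw [if_pos h, if_pos (Finset.disjoint_iff_inter_eq_empty.1 h2),
      Finset.sdiff_eq_self_of_disjoint h2]
  · rw [if_neg h, if_neg, zero_mul, zero_mul]
    intro h2
    exact h fun p hp h3 => Finset.disjoint_left.1 (Finset.disjoint_iff_inter_eq_empty.2 h2) hp
      ((mem_fac ha).2 h3)

theorem QPair_isA_real {W : E → ℝ} (hW : Summable W) :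
    Summable (fun x : E × E => if IsA x.1 ∧ x.2 ≠ 0 then W (x.1 * x.2 ^ 2) else 0) ∧
    ∑' x : E × E, (if IsA x.1 ∧ x.2 ≠ 0 then W (x.1 * x.2 ^ 2) else 0)
      = 2 * ∑' m : E, if m = 0 then 0 else W m := by
  obtain ⟨h1, h2⟩ := tsum_isA (F := fun m => (W m : ℂ)) (Complex.summable_ofReal.2 hW)
  have e1 : ∀ x : E × E, (if IsA x.1 ∧ x.2 ≠ 0 then (W (x.1 * x.2 ^ 2) : ℂ) else 0) =
      (((if IsA x.1 ∧ x.2 ≠ 0 then W (x.1 * x.2 ^ 2) else 0) : ℝ) : ℂ) := fun x => by
    split_ifs <;> simp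
  have e2 : ∀ m : E, (if m = 0 then 0 else (W m : ℂ)) = (((if m = 0 then 0 else W m) : ℝ) : ℂ) :=
    fun m => by split_ifs <;> simp
  simp only [e1, e2] at h1 h2
  rw [← Complex.ofReal_tsum, ← Complex.ofReal_tsum] at h2
  exact ⟨Complex.summable_ofReal.1 h1, by exact_mod_cast h2⟩

/-- Truncation of the sum over the classes modulo squares. -/
theorem QPair_split {F : E → ℂ} {W : E → ℝ} (hW : Summable W) (hF : ∀ m, ‖F m‖ ≤ W m) {A : ℝ}
    (hA : 0 < A) :
    ‖2 * (∑' m : E, if m = 0 then 0 else F m) -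
      ∑ a ∈ calA A, ∑' b : E, (if b = 0 then 0 else F (a * b ^ 2))‖
      ≤ 2 * ∑' m : E, if A ≤ nm m then W m else 0 := by
  have hW0 : ∀ m, 0 ≤ W m := fun m => (norm_nonneg _).trans (hF m)
  obtain ⟨h1, h2⟩ := tsum_isA (Summable.of_norm_bounded hW hF)
  have hW' : Summable fun m : E => if A ≤ nm m then W m else 0 :=
    Summable.of_nonneg_of_le (fun m => by split_ifs <;> simp [hW0])
      (fun m => by split_ifs <;> simp [hW0]) hW
  obtain ⟨h3, h4⟩ := QPair_isA_real hW'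
  have h5 : (∑' m : E, if m = 0 then 0 else if A ≤ nm m then W m else 0) =
      ∑' m : E, if A ≤ nm m then W m else 0 := tsum_congr fun m => by
    by_cases hm : m = 0
    · simp [hm, nm_zero, hA]
    · rw [if_neg hm]
  set Φ : E × E → ℂ := fun x => if IsA x.1 ∧ x.2 ≠ 0 then F (x.1 * x.2 ^ 2) else 0 with hΦ
  have s1 : Summable fun x : E × E => if x.1 ∈ calA A then Φ x else 0 :=
    Summable.of_norm_bounded h1.norm fun x => by split_ifs <;> simp
  have e1 : ∑ a ∈ calA A, ∑' b : E, (if b = 0 then 0 else F (a * b ^ 2)) =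
      ∑' x : E × E, if x.1 ∈ calA A then Φ x else 0 := by
    rw [s1.tsum_prod, tsum_eq_sum (s := calA A) (fun a ha => by simp [ha])]
    refine Finset.sum_congr rfl fun a ha => tsum_congr fun b => ?_
    by_cases hb : b = 0 <;> simp [hΦ, ha, hb, (mem_calA.1 ha).1]
  rw [← h2, e1, ← h1.tsum_sub s1, ← h5, ← h4]
  refine tsum_of_norm_bounded h3.hasSum fun x => ?_
  by_cases hx : IsA x.1 ∧ x.2 ≠ 0
  · by_cases ha : x.1 ∈ calA A
    · rw [if_pos ha, sub_self, norm_zero, if_pos hx]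
      split_ifs <;> simp [hW0]
    · have h6 : A ≤ nm (x.1 * x.2 ^ 2) := by
        have h7 : A < nm x.1 := not_le.1 fun h => ha (mem_calA.2 ⟨hx.1, h⟩)
        refine h7.le.trans ?_
        exact_mod_cast nm_le_of_dvd (dvd_mul_right _ _)
          (mul_ne_zero hx.1.ne_zero (pow_ne_zero 2 hx.2))
      rw [if_neg ha, sub_zero, if_pos hx, if_pos h6, hΦ]
      simp only [if_pos hx]
      exact hF _
  · have : Φ x = 0 := if_neg hx
    simp [this, hx]

/-- The character attached to a pair. -/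
def QPairX (c c' : Finset P) (m : E) : ℂ := xs c2 c m * xs c2 c' m

theorem QPairX_mul (c c' : Finset P) (m n : E) :
    QPairX c c' (m * n) = QPairX c c' m * QPairX c c' n := by
  simp only [QPairX, xs_mul ch_c2]
  ring

theorem QPairX_norm (c c' : Finset P) (m : E) : ‖QPairX c c' m‖ ≤ 1 := by
  rw [QPairX, norm_mul]
  exact mul_le_one₀ (norm_xs_le ch_c2 c m) (norm_nonneg _) (norm_xs_le ch_c2 c' m)

theorem QPairX_sq (c c' : Finset P) (b : E) : QPairX c c' (b ^ 2) = cop (c ∪ c') b := by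
  rw [QPairX, QPair_xs_sq, QPair_xs_sq, QPair_cop_union]

theorem QPairX_zero (c c' : Finset P) : ‖QPairX c c' 0‖ ≤ if c ∪ c' = ∅ then 1 else 0 := by
  split_ifs with h
  · exact QPairX_norm c c' 0
  · obtain ⟨p, hp⟩ := Finset.nonempty_iff_ne_empty.2 h
    have : QPairX c c' 0 = 0 := by
      rw [← zero_pow two_ne_zero, QPairX_sq]
      exact if_neg fun h1 => h1 p hp (dvd_zero _)
    rw [this, norm_zero]

theorem QPair_prod_nonneg (y : Pl → ℝ) : 0 ≤ ∏ w, Vg (y w) :=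
  Finset.prod_nonneg fun _ _ => (QPair_Vg_pos _).le

/-- The summand of the theta series over the squares. -/
def QPairD (x : FF) (u : Pl → ℝ) (y : E) : ℝ :=
  if y ≠ 0 ∧ (y : FF) ^ 2 / x ∈ OS then ∏ w, Vg (u w * ‖em w y‖ ^ 4) else 0

/-- The main term. -/
def QPairM (x : FF) (u : Pl → ℝ) : ℝ := kap * vl x * ∏ w, cDel * u w ^ (-(1 / 2) : ℝ)

theorem QPairD_nonneg (x : FF) (u : Pl → ℝ) (y : E) : 0 ≤ QPairD x u y := by
  unfold QPairD
  split_ifs
  · exact QPair_prod_nonneg _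
  · exact le_rfl

theorem QPair_coe {x : E} (hx : x ≠ 0) : (x : FF) ≠ 0 := by exact_mod_cast hx

theorem QPairD_mul (x : FF) (u : Pl → ℝ) {e : E} (he : e ≠ 0) (y : E) :
    QPairD x u (e * y) = QPairD (x / (e : FF) ^ 2) (fun w => u w * ‖em w e‖ ^ 4) y := by
  have he' := QPair_coe he
  unfold QPairD
  refine if_congr (and_congr (by simp [he]) ?_) (Finset.prod_congr rfl fun w _ => ?_) rfl
  · have : ((e * y : E) : FF) ^ 2 / x = (y : FF) ^ 2 / (x / (e : FF) ^ 2) := by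
      push_cast
      rw [div_div_eq_mul_div]
      ring
    rw [this]
  · push_cast
    rw [map_mul, norm_mul, mul_pow, mul_assoc]

theorem QPairM_mul {x z : FF} (hx : x ≠ 0) (hz : z ≠ 0) {u q : Pl → ℝ} (hu : ∀ w, 0 < u w)
    (hq : ∀ w, 0 < q w) :
    QPairM (x * z ^ 2) (fun w => u w * q w ^ 2) = QPairM x u * sS z / ∏ w, q w := by
  unfold QPairM
  have h1 : ∀ w, cDel * (u w * q w ^ 2) ^ (-(1 / 2) : ℝ) = cDel * u w ^ (-(1 / 2) : ℝ) / q w :=
    fun w => by
      rw [Real.mul_rpow (hu w).le (sq_nonneg _), ← Real.rpow_natCast, ← Real.rpow_mul (hq w).le]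
      norm_num [Real.rpow_neg_one, div_eq_mul_inv, mul_assoc]
  simp only [h1]
  rw [vl_mul_sq hx hz, Finset.prod_div_distrib]
  ring

theorem QPair_L (r : Finset P) {x : FF} (hx : x ≠ 0) {u : Pl → ℝ} (hu : ∀ w, 0 < u w) :
    ∑' y : E, cop r y * (QPairD x u y : ℝ)
      = ∑ e ∈ r.powerset, mu e *
          (Del (x / (pr e : FF) ^ 2) (fun w => u w * ‖em w (pr e)‖ ^ 4) : ℝ)
        + (QPairM x u : ℝ) * QPairR r := by
  have h1 : ∀ y : E, cop r y * (QPairD x u y : ℝ) =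
      ∑ e ∈ r.powerset, (if pr e ∣ y then mu e else 0) * (QPairD x u y : ℝ) := fun y => by
    rw [← Finset.sum_mul, sum_mu_dvd, cop]
  simp only [h1]
  rw [Summable.tsum_finsetSum, QPairR, Finset.mul_sum, ← Finset.sum_add_distrib]
  · refine Finset.sum_congr rfl fun e _ => ?_
    have he := QPair_coe (pr_ne_zero e)
    rw [tsum_supp (pr_ne_zero e) (fun x hx => by simp [hx])]
    simp only [if_pos (dvd_mul_right _ _), QPairD_mul x u (pr_ne_zero e)]
    have h3 := QPairM_mul hx (inv_ne_zero he) hu fun w => em_sq_pos w he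
    simp only [← pow_mul, inv_pow, ← div_eq_mul_inv, sS_inv] at h3
    have h4 : Del (x / (pr e : FF) ^ 2) (fun w => u w * ‖em w (pr e)‖ ^ 4)
        = ∑' y, QPairD (x / (pr e : FF) ^ 2) (fun w => u w * ‖em w (pr e)‖ ^ 4) y
          - QPairM x u / Ns e := by
      rw [Ns_eq, mul_comm, ← div_div]
      exact congrArg (_ - ·) h3
    rw [tsum_mul_left, ← Complex.ofReal_tsum, h4]
    push_cast
    ring
  · intro e _
    refine Summable.of_norm_bounded (summable_Del hx hu) fun y => ?_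
    rw [norm_mul, norm_real, Real.norm_of_nonneg (QPairD_nonneg _ _ _)]
    refine mul_le_of_le_one_left (QPairD_nonneg _ _ _) ?_
    split_ifs
    · exact (norm_mu e).le
    · simp

theorem QPair_Gw_sq (b : FF) (t : Pl → ℝ) (a y : E) :
    (if y = 0 then 0 else Gw b t (a * y ^ 2)) = (QPairD (b / a) (fun w => ‖em w a‖ ^ 2 / t w) y : ℝ) := by
  unfold QPairD Gw il
  have e1 : ((a * y ^ 2 : E) : FF) / b = (y : FF) ^ 2 / (b / a) := by
    push_cast
    rw [div_div_eq_mul_div, mul_comm]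
  have e2 : ∀ w, ‖em w (a * y ^ 2 : E)‖ ^ 2 / t w = ‖em w a‖ ^ 2 / t w * ‖em w y‖ ^ 4 := fun w => by
    push_cast
    rw [map_mul, map_pow, norm_mul, norm_pow]
    ring
  simp only [e1, e2]
  by_cases hy : y = 0
  · simp [hy]
  · by_cases h : (y : FF) ^ 2 / (b / a) ∈ OS
    · rw [if_neg hy, if_pos h, if_pos ⟨hy, h⟩, one_mul, ofReal_prod]
    · rw [if_neg hy, if_neg h, if_neg fun h' => h h'.2, zero_mul, ofReal_zero]

theorem QPair_norm_Gw (b : FF) (t : Pl → ℝ) (m : E) :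
    ‖Gw b t m‖ = if (m : FF) / b ∈ OS then ∏ w, Vg (‖em w m‖ ^ 2 / t w) else 0 := by
  unfold Gw il
  split_ifs
  · rw [one_mul, ← ofReal_prod, norm_real, Real.norm_of_nonneg (QPair_prod_nonneg _)]
  · rw [zero_mul, norm_zero]

theorem QPair_Gw_zero (b : FF) (t : Pl → ℝ) : Gw b t 0 = 1 := by
  simp [Gw, il, OS.zero_mem, QRH.Vg]

/-- The summand of the theta series over multiples of `f`. -/
def QPairG (c c' f : Finset P) (b : FF) (t : Pl → ℝ) (m : E) : ℂ :=
  Gw b t m * if pr f ∣ m then QPairX c c' m else 0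

theorem QPair_ite_norm (c c' f : Finset P) (m : E) : ‖if pr f ∣ m then QPairX c c' m else 0‖ ≤ 1 := by
  split_ifs
  · exact QPairX_norm c c' m
  · simp

theorem QPairG_norm (c c' f : Finset P) (b : FF) (t : Pl → ℝ) (m : E) :
    ‖QPairG c c' f b t m‖ ≤ if (m : FF) / b ∈ OS then ∏ w, Vg (‖em w m‖ ^ 2 / t w) else 0 := by
  rw [QPairG, norm_mul, ← QPair_norm_Gw]
  exact mul_le_of_le_one_right (norm_nonneg _) (QPair_ite_norm c c' f m)

theorem QPairG_tsum (c c' f : Finset P) {b : FF} (hb : b ≠ 0) {t : Pl → ℝ} (ht : ∀ w, 0 < t w) :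
    ∑' m, QPairG c c' f b t m = QPairX c c' 0 + ∑' m, if m = 0 then 0 else QPairG c c' f b t m := by
  have h : Summable (QPairG c c' f b t) := summable_Gw hb ht (QPair_ite_norm c c' f)
  rw [h.tsum_eq_add_tsum_ite 0]
  simp [QPairG, QPair_Gw_zero]

/-- The dual lattice. -/
def QPairB (b k : FF) (f : Finset P) : FF := k * (pr f : FF) ^ 2 / (b * del)
/-- The dual sizes. -/
def QPairT (t : Pl → ℝ) (k : FF) (f : Finset P) (w : Pl) : ℝ :=
  ‖em w (pr f)‖ ^ 4 * ‖em w k‖ ^ 2 / t w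
/-- The factor in the Poisson formula. -/
def QPairW (b : FF) (t : Pl → ℝ) (c c' f : Finset P) : ℝ :=
  kap * sS b * (∏ w, t w) / (Ns f * √(Ns c * Ns c'))

theorem QPairB_ne {b k : FF} (hb : b ≠ 0) (hk : k ≠ 0) (f : Finset P) : QPairB b k f ≠ 0 :=
  div_ne_zero (mul_ne_zero hk (pow_ne_zero _ (QPair_coe (pr_ne_zero f)))) (mul_ne_zero hb del_ne_zero)

theorem QPairT_pos {t : Pl → ℝ} (ht : ∀ w, 0 < t w) {k : FF} (hk : k ≠ 0) (f : Finset P) (w : Pl) :
    0 < QPairT t k f w :=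
  div_pos (mul_pos (pow_pos (norm_pos_iff.2 (em_ne_zero w (QPair_coe (pr_ne_zero f)))) _)
    (em_sq_pos w hk)) (ht w)

theorem QPair_poisson (h1 : PSG) (h2 : QGam) (h3 : Rec c2) {b : FF} (hb : b ≠ 0) {t : Pl → ℝ}
    (ht : ∀ w, 0 < t w) {d c c' : Finset P} (k1 : Disjoint d c) (k2 : Disjoint d c')
    (k3 : Disjoint c c') {x x' : E} (hx : Associated x (pr c)) (hx' : Associated x' (pr c'))
    (hcl : Cl x x') : T1 b t d c c' = ∑ f ∈ d.powerset, mu f * ((QPairW b t c c' f : ℝ) *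
      ∑' m, QPairG c c' f (QPairB b (x * x') f) (QPairT t (x * x') f) m - QPairX c c' 0) := by
  have e := pair_poisson h1 ch_c2 h3 hb ht k1 k2 k3 hx hx' hcl
  have g2 : gamE c2 c x * conj (gamE c2 c' x') = 1 := by
    rw [h2 c c' x x' hx hx' hcl, Complex.mul_conj, Complex.normSq_eq_norm_sq, norm_gamE ch_c2 hx']
    simp
  simp only [conj_xs_c2, g2, mul_one] at e
  have hs : Summable fun n : E => Gw b t n * (cop d n * xs c2 c n * xs c2 c' n) :=
    summable_Gw hb ht (M := 1) fun n => by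
      rw [mul_assoc, norm_mul]
      exact mul_le_one₀ (QPair_norm_cop d n) (norm_nonneg _) (QPairX_norm c c' n)
  rw [hs.tsum_eq_add_tsum_ite 0, QPair_Gw_zero, one_mul, mul_assoc, cop, ← sum_mu_dvd,
    Finset.sum_mul, ← eq_sub_iff_add_eq', ← Finset.sum_sub_distrib] at e
  refine e.trans (Finset.sum_congr rfl fun f _ => ?_)
  have hf := QPair_coe (pr_ne_zero f)
  rw [if_pos (dvd_zero _), tsum_supp (F := QPairG c c' f _ _) (pr_ne_zero f)
    fun m hm => by rw [QPairG, if_neg hm, mul_zero]]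
  have e1 : ∀ y : E, QPairG c c' f (QPairB b (x * x') f) (QPairT t (x * x') f) (pr f * y)
      = QPairX c c' (pr f) * (Gw (x * x' * pr f / (b * del))
        (fun w => ‖em w (pr f)‖ ^ 2 * (‖em w x‖ ^ 2 * ‖em w x'‖ ^ 2) / t w) y
          * (xs c2 c y * xs c2 c' y)) := fun y => by
    rw [QPairG, if_pos (dvd_mul_right _ _), QPairX_mul, mul_left_comm]
    congr 2
    unfold Gw il QPairB QPairT
    have a1 : ((pr f * y : E) : FF) / (x * x' * (pr f : FF) ^ 2 / (b * del))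
        = y / (x * x' * pr f / (b * del)) := by
      push_cast
      have := hcl.ne_left
      have := hcl.ne_zero
      have := del_ne_zero
      field_simp
    rw [a1]
    congr 1
    refine Finset.prod_congr rfl fun w _ => ?_
    have := norm_pos_iff.2 (em_ne_zero w hf)
    congr 2
    push_cast
    rw [map_mul, map_mul, norm_mul, norm_mul, div_div_eq_mul_div, div_div_eq_mul_div,
      show ‖em w (pr f)‖ ^ 4 * (‖em w x‖ * ‖em w x'‖) ^ 2 = ‖em w (pr f)‖ ^ 2 *
        (‖em w (pr f)‖ ^ 2 * (‖em w x‖ ^ 2 * ‖em w x'‖ ^ 2)) by ring, mul_pow, mul_assoc,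
      mul_div_mul_left _ _ (by positivity)]
  simp only [e1]
  rw [tsum_mul_left]
  simp only [QPairX, QPairW]
  ring

theorem QPair_inner {c c' f : Finset P} (hd : Disjoint (c ∪ c') f) (b : FF) (t : Pl → ℝ) {a : E}
    (ha : a ≠ 0) :
    (∑' y : E, if y = 0 then 0 else QPairG c c' f b t (a * y ^ 2)) = QPairX c c' a *
      ∑' y : E, cop (c ∪ c') y * (QPairD (b / a / (pr (f \ fac a) : FF) ^ 2)
        (fun w => ‖em w a‖ ^ 2 / t w * ‖em w (pr (f \ fac a))‖ ^ 4) y : ℝ) := by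
  have h1 : ∀ b : E, pr f ∣ a * b ^ 2 ↔ pr (f \ fac a) ∣ b := fun b => by
    simp only [pr_dvd_iff, Finset.mem_sdiff, mem_fac ha]
    refine ⟨fun h p hp => p.2.1.dvd_of_dvd_pow (((p.2.1.dvd_or_dvd (h p hp.1))).resolve_left hp.2),
      fun h p hp => ?_⟩
    by_cases h2 : p.1 ∣ a
    · exact h2.mul_right _
    · exact (dvd_pow (h p ⟨hp, h2⟩) two_ne_zero).mul_left _
  have h2 : ∀ y : E, (if y = 0 then 0 else QPairG c c' f b t (a * y ^ 2))
      = (QPairD (b / a) (fun w => ‖em w a‖ ^ 2 / t w) y : ℝ) *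
        if pr (f \ fac a) ∣ y then QPairX c c' (a * y ^ 2) else 0 := fun y => by
    rw [← QPair_Gw_sq, QPairG, ite_mul, zero_mul, if_congr (h1 y) rfl rfl]
  simp only [h2]
  rw [tsum_supp (pr_ne_zero (f \ fac a)) (fun x hx => by rw [if_neg hx, mul_zero]),
    ← tsum_mul_left]
  refine tsum_congr fun y => ?_
  rw [if_pos (dvd_mul_right _ _), QPairD_mul _ _ (pr_ne_zero _), QPairX_mul, QPairX_sq, QPair_cop_mul,
    QPair_cop_pr (Finset.disjoint_of_subset_right Finset.sdiff_subset hd), one_mul]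
  ring

theorem QPair_T2 {d c c' : Finset P} (h1 : Disjoint d c) (h2 : Disjoint d c') (h3 : Disjoint c c')
    (A : ℝ) {b : FF} (hb : b ≠ 0) {t : Pl → ℝ} (ht : ∀ w, 0 < t w) (k : FF) :
    T2 A b t d c c' = E2 A b t d c c' k +
      ∑ a ∈ calA A, QPairX c c' a * (QPairM (b / a) (fun w => ‖em w a‖ ^ 2 / t w) : ℝ) *
        QPairR (c ∪ c') * (cop d a * QPairR d) := by
  have hd : Disjoint d (c ∪ c') := Finset.disjoint_union_right.2 ⟨h1, h2⟩
  rw [T2, E2, ← Finset.sum_add_distrib]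
  refine Finset.sum_congr rfl fun a ha => ?_
  have ha0 := QPair_coe (mem_calA.1 ha).1.ne_zero
  have e1 : ∀ y : E, (if y = 0 then 0 else Gw b t (a * y ^ 2) *
      (cop d (a * y ^ 2) * xs c2 c (a * y ^ 2) * xs c2 c' (a * y ^ 2))) =
      cop d a * QPairX c c' a * (cop (d ∪ (c ∪ c')) y *
        (QPairD (b / a) (fun w => ‖em w a‖ ^ 2 / t w) y : ℝ)) := fun y => by
    rw [← QPair_Gw_sq]
    split_ifs
    · rw [mul_zero, mul_zero]
    · rw [mul_assoc (cop d _), ← QPairX, QPairX_mul, QPairX_sq, QPair_cop_mul, QPair_cop_sq, QPair_cop_union d]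
      ring
  simp only [e1]
  rw [tsum_mul_left, QPair_L _ (div_ne_zero hb ha0) (fun w => div_pos (em_sq_pos w ha0) (ht w)),
    QPairR_union hd, QPair_powerset hd]
  have e3 : ∀ e0 ∈ d.powerset, ∑ e ∈ (c ∪ c').powerset,
      mu (e0 ∪ e) * (Del (b / a / (pr (e0 ∪ e) : FF) ^ 2)
        (fun w => ‖em w a‖ ^ 2 / t w * ‖em w (pr (e0 ∪ e))‖ ^ 4) : ℝ) =
      ∑ e1 ∈ c.powerset, ∑ e2 ∈ c'.powerset, mu e0 * mu e1 * mu e2 *
        (Del (b / (a * ((pr e0 * pr e1 * pr e2 : E) : FF) ^ 2))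
          (fun w => ‖em w a‖ ^ 2 * ‖em w (pr e0 * pr e1 * pr e2 : E)‖ ^ 4 / t w) : ℝ) :=
    fun e0 h0 => by
      rw [QPair_powerset h3]
      refine Finset.sum_congr rfl fun e1 k1 => Finset.sum_congr rfl fun e2 k2 => ?_
      have k3 := QPair_disj h3 k1 k2
      have k4 : Disjoint e0 (e1 ∪ e2) :=
        Finset.disjoint_union_right.2 ⟨QPair_disj h1 h0 k1, QPair_disj h2 h0 k2⟩
      rw [mu_union k4, mu_union k3, pr_union k4, pr_union k3, div_div]
      simp only [mul_assoc, div_mul_eq_mul_div]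
  rw [Finset.sum_congr rfl e3, QPairX]
  ring

theorem QPair_sqrt {c c' : Finset P} {x x' : E} (hx : Associated x (pr c))
    (hx' : Associated x' (pr c')) (hcl : Cl x x') :
    √(Ns c * Ns c') = sS x * ∏ w, ‖em w (x * x')‖ := by
  have h0 : x ≠ 0 := by exact_mod_cast hcl.ne_left
  have h0' : x' ≠ 0 := by exact_mod_cast hcl.ne_zero
  have := sS_pos (x : FF)
  rw [← nm_of_assoc_pr hx, ← nm_of_assoc_pr hx', nm_eq h0, nm_eq h0', hcl.sS_eq,
    Real.sqrt_eq_iff_mul_self_eq (by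
      have := Ninf_nonneg (x : FF)
      have := Ninf_nonneg (x' : FF)
      positivity) (by positivity), mul_mul_mul_comm, ← Ninf_mul, mul_mul_mul_comm (sS _), ← sq,
    ← sq, ← Finset.prod_pow, mul_comm]
  rfl

theorem QPair_main {b : FF} (hb : b ≠ 0) {t : Pl → ℝ} (ht : ∀ w, 0 < t w) {c c' : Finset P}
    {x x' : E} (hx : Associated x (pr c)) (hx' : Associated x' (pr c')) (hcl : Cl x x')
    (f g : Finset P) {a : FF} (ha : a ≠ 0) :
    QPairW b t c c' f * QPairM (QPairB b (x * x') f / a / (pr g : FF) ^ 2)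
      (fun w => ‖em w a‖ ^ 2 / QPairT t (x * x') f w * ‖em w (pr g)‖ ^ 4)
      = kap * sS b * QPairM (1 / (b * del) / a) (fun w => ‖em w a‖ ^ 2 / t w) / Ns g := by
  have h0 := hcl.ne_left
  have h0' := hcl.ne_zero
  have hf := QPair_coe (pr_ne_zero f)
  have hg := QPair_coe (pr_ne_zero g)
  have hd := del_ne_zero
  have n1 : ∀ w, 0 < ‖em w (x * x')‖ := fun w => norm_pos_iff.2 (em_ne_zero w (mul_ne_zero h0 h0'))
  have hz : (x : FF) * pr f / pr g ≠ 0 := div_ne_zero (mul_ne_zero h0 hf) hg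
  have hy : 1 / (b * del) / a ≠ 0 := div_ne_zero (one_div_ne_zero (mul_ne_zero hb hd)) ha
  have h1 := QPairM_mul hy hz (u := fun w => ‖em w a‖ ^ 2 / t w)
    (q := fun w => t w * ‖em w (pr g)‖ ^ 2 / (‖em w (pr f)‖ ^ 2 * ‖em w (x * x')‖))
    (fun w => div_pos (em_sq_pos w ha) (ht w))
    fun w => div_pos (mul_pos (ht w) (em_sq_pos w hg)) (mul_pos (em_sq_pos w hf) (n1 w))
  have h2 : QPairM (QPairB b (x * x') f / a / (pr g : FF) ^ 2)
      (fun w => ‖em w a‖ ^ 2 / QPairT t (x * x') f w * ‖em w (pr g)‖ ^ 4)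
      = QPairM (1 / (b * del) / a * (x * pr f / pr g) ^ 2) fun w => ‖em w a‖ ^ 2 / t w *
        (t w * ‖em w (pr g)‖ ^ 2 / (‖em w (pr f)‖ ^ 2 * ‖em w (x * x')‖)) ^ 2 := by
    unfold QPairM
    congr 2
    · refine vl_congr (div_ne_zero (div_ne_zero (QPairB_ne hb (mul_ne_zero h0 h0') f) ha)
        (pow_ne_zero _ hg)) (mul_ne_zero hy (pow_ne_zero _ hz)) ?_ ?_
      · convert hcl.div_mem using 1
        unfold QPairB
        field_simp
      · convert hcl.symm.div_mem using 1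
        unfold QPairB
        field_simp
    · funext w
      congr 2
      have := (ht w).ne'
      have := (n1 w).ne'
      have := norm_ne_zero_iff.2 (em_ne_zero w hf)
      unfold QPairT
      field_simp
  rw [h2, h1, QPairW, QPair_sqrt hx hx' hcl, sS_div (mul_ne_zero h0 hf) hg, sS_mul h0 hf,
    Finset.prod_div_distrib, Finset.prod_mul_distrib, Finset.prod_mul_distrib, Ns_eq f, Ns_eq g]
  have p1 := (Ninf_pos hf).ne'
  have p2 := (Ninf_pos hg).ne'
  have p3 := (sS_pos (pr f : FF)).ne'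
  have p4 := (sS_pos (pr g : FF)).ne'
  have p5 := (sS_pos (x : FF)).ne'
  have p6 : ∏ w, t w ≠ 0 := (Finset.prod_pos fun w _ => ht w).ne'
  have p7 : ∏ w, ‖em w (x * x')‖ ≠ 0 := (Finset.prod_pos fun w _ => n1 w).ne'
  unfold Ninf at p1 p2 ⊢
  field_simp

theorem QPair_E1 {d c c' : Finset P} (h1 : Disjoint d c) (h2 : Disjoint d c') (h3 : Disjoint c c')
    (A : ℝ) {b : FF} (hb : b ≠ 0) {t : Pl → ℝ} (ht : ∀ w, 0 < t w) {x x' : E}
    (hx : Associated x (pr c)) (hx' : Associated x' (pr c')) (hcl : Cl x x') :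
    ∑ f ∈ d.powerset, mu f * (QPairW b t c c' f : ℝ) * ∑ a ∈ calA A,
      (∑' y : E, if y = 0 then 0 else QPairG c c' f (QPairB b (x * x') f) (QPairT t (x * x') f) (a * y ^ 2))
    = E1 A b t d c c' (x * x') + (kap * sS b : ℝ) * ∑ a ∈ calA A, QPairX c c' a *
        (QPairM (1 / (b * del) / a) (fun w => ‖em w a‖ ^ 2 / t w) : ℝ) *
        QPairR (c ∪ c') * (cop d a * QPairR d) := by
  have hd : Disjoint d (c ∪ c') := Finset.disjoint_union_right.2 ⟨h1, h2⟩
  have hk : (x : FF) * x' ≠ 0 := mul_ne_zero hcl.ne_left hcl.ne_zero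
  have e0 : ∑ a ∈ calA A, QPairX c c' a *
      (QPairM (1 / (b * del) / a) (fun w => ‖em w a‖ ^ 2 / t w) : ℝ) *
      QPairR (c ∪ c') * (cop d a * QPairR d) = ∑ f ∈ d.powerset, ∑ a ∈ calA A,
        QPairX c c' a * (QPairM (1 / (b * del) / a) (fun w => ‖em w a‖ ^ 2 / t w) : ℝ) * QPairR (c ∪ c') *
          (mu f / (Ns (f \ fac a) : ℝ)) := by
    rw [Finset.sum_comm]
    refine Finset.sum_congr rfl fun a ha => ?_
    rw [← QPair_sum_mu (mem_calA.1 ha).1.ne_zero, Finset.mul_sum]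
  rw [e0, E1, Finset.mul_sum, ← Finset.sum_add_distrib]
  refine Finset.sum_congr rfl fun f hf => ?_
  rw [Finset.mul_sum, Finset.mul_sum, Finset.mul_sum, ← Finset.sum_add_distrib]
  refine Finset.sum_congr rfl fun a ha => ?_
  have ha0 := (mem_calA.1 ha).1.ne_zero
  have ha1 := QPair_coe ha0
  have hg := QPair_coe (pr_ne_zero (f \ fac a))
  rw [QPair_inner (Finset.disjoint_of_subset_right (Finset.mem_powerset.1 hf) hd.symm) _ _ ha0,
    QPair_L _ (div_ne_zero (div_ne_zero (QPairB_ne hb hk f) ha1) (pow_ne_zero _ hg))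
      (fun w => mul_pos (div_pos (em_sq_pos w ha1) (QPairT_pos ht hk f w))
        (pow_pos (norm_pos_iff.2 (em_ne_zero w hg)) _)), QPair_powerset h3]
  have e1 : ∑ e1 ∈ c.powerset, ∑ e2 ∈ c'.powerset, mu (e1 ∪ e2) *
      (Del (QPairB b (x * x') f / a / (pr (f \ fac a) : FF) ^ 2 / (pr (e1 ∪ e2) : FF) ^ 2)
        (fun w => ‖em w a‖ ^ 2 / QPairT t (x * x') f w * ‖em w (pr (f \ fac a))‖ ^ 4 *
          ‖em w (pr (e1 ∪ e2))‖ ^ 4) : ℝ) =
      ∑ e1 ∈ c.powerset, ∑ e2 ∈ c'.powerset, mu e1 * mu e2 *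
        (Del (x * x' * (pr f : FF) ^ 2 /
            (b * del * a * ((pr (f \ fac a) * pr e1 * pr e2 : E) : FF) ^ 2))
          (fun w => ‖em w a‖ ^ 2 * ‖em w (pr (f \ fac a) * pr e1 * pr e2 : E)‖ ^ 4 * t w
            / (‖em w (pr f)‖ ^ 4 * ‖em w (x * x')‖ ^ 2)) : ℝ) := by
    refine Finset.sum_congr rfl fun e1 k1 => Finset.sum_congr rfl fun e2 k2 => ?_
    rw [mu_union (QPair_disj h3 k1 k2), pr_union (QPair_disj h3 k1 k2)]
    congr 3
    · unfold QPairB
      push_cast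
      rw [div_div, div_div, div_div]
      congr 1
      ring
    · funext w
      unfold QPairT
      push_cast
      simp only [map_mul, norm_mul]
      rw [div_div_eq_mul_div]
      ring
  have e4 := congrArg (fun x : ℝ => (x : ℂ)) (QPair_main hb ht hx hx' hcl f (f \ fac a) ha1)
  simp only [Complex.ofReal_mul, Complex.ofReal_div] at e4
  rw [e1, QPairX, ← QPairW]
  simp only [Complex.ofReal_mul]
  linear_combination (mu f * (xs c2 c a * xs c2 c' a) * QPairR (c ∪ c')) * e4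

theorem QPair_V {b : FF} (hb : b ≠ 0) {t : Pl → ℝ} (ht : ∀ w, 0 < t w) {c c' : Finset P}
    {x x' : E} (hx : Associated x (pr c)) (hx' : Associated x' (pr c')) (hcl : Cl x x')
    (f : Finset P) : sS (QPairB b (x * x') f) * ∏ w, QPairT t (x * x') f w
      = Ns f ^ 2 * (Ns c * Ns c') / (sS del * (sS b * ∏ w, t w)) := by
  have h0 := hcl.ne_left
  have h0' := hcl.ne_zero
  have hf := QPair_coe (pr_ne_zero f)
  have e1 : ∏ w, ‖em w (pr f)‖ ^ 4 = Ninf (pr f) ^ 2 := by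
    unfold Ninf
    rw [← Finset.prod_pow]
    exact Finset.prod_congr rfl fun w _ => by ring
  unfold QPairB QPairT
  rw [sS_div (mul_ne_zero (mul_ne_zero h0 h0') (pow_ne_zero _ hf)) (mul_ne_zero hb del_ne_zero),
    sS_mul (mul_ne_zero h0 h0') (pow_ne_zero _ hf), sS_mul h0 h0', sS_mul hb del_ne_zero, sS_pow,
    Finset.prod_div_distrib, Finset.prod_mul_distrib, e1, ← Ninf, Ninf_mul, Ns_eq f,
    ← nm_of_assoc_pr hx, ← nm_of_assoc_pr hx', nm_eq (by exact_mod_cast h0),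
    nm_eq (by exact_mod_cast h0')]
  have p3 := (sS_pos b).ne'
  have p4 := (sS_pos del).ne'
  have p6 : ∏ w, t w ≠ 0 := (Finset.prod_pos fun w _ => ht w).ne'
  field_simp

theorem qPair (h1 : PSG) (h2 : QGam) (h3 : Rec c2) : QPair := by
  intro B hB
  obtain ⟨C0, hC0, hT⟩ := gauss_tail (B := B - 1) (by linarith)
  have hκ := kap_pos
  have hδ := sS_pos del
  set C := kap * C0 * sS del ^ (-B) with hC
  have hC' : 0 < C := by positivity
  refine ⟨2 * C + 2 * kap + 2, by positivity,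
    fun A b t d c c' x x' hA hb ht k1 k2 k3 hx hx' h4 => ?_⟩
  have hk0 : (x : FF) * x' ≠ 0 := mul_ne_zero h4.ne_left h4.ne_zero
  have hk : 1 ≤ Ns c * Ns c' := one_le_mul_of_one_le_of_one_le (one_le_Ns c) (one_le_Ns c')
  have e : 2 * T1 b t d c c' - (kap * sS b : ℝ) * T2 A (1 / (b * del)) t d c c'
      - (E1 A b t d c c' (x * x') - (kap * sS b : ℝ) * E2 A (1 / (b * del)) t d c c' (x * x')) =
      ∑ f ∈ d.powerset, mu f * (2 * ((QPairW b t c c' f : ℝ) - 1) * QPairX c c' 0 +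
        (QPairW b t c c' f : ℝ) *
          (2 * (∑' m, if m = 0 then 0 else QPairG c c' f (QPairB b (x * x') f) (QPairT t (x * x') f) m) -
            ∑ a ∈ calA A, ∑' y : E, if y = 0 then 0 else
              QPairG c c' f (QPairB b (x * x') f) (QPairT t (x * x') f) (a * y ^ 2))) := by
    have e1 := QPair_E1 k1 k2 k3 A hb ht hx hx' h4
    rw [QPair_T2 k1 k2 k3 A (one_div_ne_zero (mul_ne_zero hb del_ne_zero)) ht (x * x'),
      QPair_poisson h1 h2 h3 hb ht k1 k2 k3 hx hx' h4]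
    have e2 : ∀ x y z w k : ℂ, x - k * (y + z) - (w - k * y) = x - (w + k * z) :=
      fun _ _ _ _ _ => by ring
    rw [e2, ← e1, Finset.mul_sum, ← Finset.sum_sub_distrib]
    refine Finset.sum_congr rfl fun f _ => ?_
    rw [QPairG_tsum _ _ _ (QPairB_ne hb hk0 f) (QPairT_pos ht hk0 f)]
    ring
  have hτ : 0 < sS b * ∏ w, t w := mul_pos (sS_pos b) (Finset.prod_pos fun w _ => ht w)
  have hsb := sS_pos b
  have hV := QPair_V hb ht hx hx' h4
  have hW : ∀ f, QPairW b t c c' f = kap * (sS b * ∏ w, t w) / (Ns f * √(Ns c * Ns c')) := fun f => by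
    rw [QPairW, mul_assoc]
  generalize sS b * ∏ w, t w = τ at hτ hV hW ⊢
  set X : ℝ := if c ∪ c' = ∅ then τ + (1 + sS b) else 0 with hX
  set Y : ℝ := τ * A * (A * τ / (Ns d ^ 2 * (Ns c * Ns c'))) ^ (-B) with hY
  have hd := Ns_pos d
  have hX0 : 0 ≤ X := by rw [hX]; split_ifs <;> positivity
  have hY0 : 0 ≤ Y := by positivity
  rw [e]
  refine (norm_sum_le _ _).trans ((Finset.sum_le_card_nsmul _ _ ((2 * C + 2 * kap + 2) * (X + Y))
    fun f hf => ?_).trans (le_of_eq ?_))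
  · have hf0 := Ns_pos f
    have hf1 := Ns_mono (Finset.mem_powerset.1 hf)
    have hw0 : 0 < QPairW b t c c' f := by rw [hW]; positivity
    have hw1 : QPairW b t c c' f ≤ kap * τ := by
      rw [hW]
      exact div_le_self (by positivity)
        (one_le_mul_of_one_le_of_one_le (one_le_Ns f) (Real.one_le_sqrt.2 hk))
    obtain ⟨s1, -, s3⟩ := hT _ _ A (QPairB_ne hb hk0 f) (QPairT_pos ht hk0 f) hA
    simp only [ite_and] at s3
    have b1 := (QPair_split s1 (QPairG_norm c c' f _ _) hA).trans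
      (mul_le_mul_of_nonneg_left s3 (by norm_num))
    rw [hV f] at b1
    have b2 : C0 * (Ns f ^ 2 * (Ns c * Ns c') / (sS del * τ)) *
        (A / (Ns f ^ 2 * (Ns c * Ns c') / (sS del * τ))) ^ (-(B - 1)) ≤
        C0 * (A * (sS del ^ (-B) * (A * τ / (Ns d ^ 2 * (Ns c * Ns c'))) ^ (-B))) := by
      rw [neg_sub, sub_eq_add_neg, Real.rpow_add (by positivity), Real.rpow_one, mul_assoc,
        ← mul_assoc (_ / _), mul_div_cancel₀ _ (by positivity), ← Real.mul_rpow hδ.le (by positivity)]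
      refine mul_le_mul_of_nonneg_left (mul_le_mul_of_nonneg_left
        (Real.rpow_le_rpow_of_nonpos (by positivity) ?_ (by linarith)) hA.le) hC0.le
      rw [div_div_eq_mul_div, ← mul_div_assoc, mul_left_comm]
      gcongr
    generalize QPairW b t c c' f = w at hw0 hw1 ⊢
    have b3 : ‖2 * ((w : ℂ) - 1) * QPairX c c' 0‖ ≤ 2 * ((kap + 1) * X) := by
      have b4 : ‖(w : ℂ) - 1‖ ≤ (kap + 1) * (τ + (1 + sS b)) := (norm_sub_le _ _).trans (by
        rw [Complex.norm_real, Real.norm_eq_abs, abs_of_pos hw0, norm_one]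
        nlinarith [mul_pos hκ hsb])
      have b5 : X = (τ + (1 + sS b)) * if c ∪ c' = ∅ then 1 else 0 := by
        rw [hX]; split_ifs <;> simp
      rw [mul_assoc, norm_mul, norm_mul, Complex.norm_ofNat, b5, ← mul_assoc (kap + 1)]
      exact mul_le_mul_of_nonneg_left
        (mul_le_mul b4 (QPairX_zero c c') (norm_nonneg _) (by positivity)) (by norm_num)
    rw [norm_mul, norm_mu, one_mul]
    refine (norm_add_le _ _).trans ?_
    rw [norm_mul (w : ℂ), Complex.norm_real, Real.norm_eq_abs, abs_of_pos hw0]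
    have b6 := mul_le_mul hw1 (b1.trans (mul_le_mul_of_nonneg_left b2 (by norm_num)))
      (norm_nonneg _) (by positivity)
    have b7 : kap * τ * (2 * (C0 * (A * (sS del ^ (-B) *
        (A * τ / (Ns d ^ 2 * (Ns c * Ns c'))) ^ (-B))))) = 2 * C * Y := by
      rw [hY, hC]; ring
    rw [b7] at b6
    nlinarith [mul_nonneg hC'.le hX0, mul_nonneg hκ.le hY0]
  · rw [Finset.card_powerset, nsmul_eq_mul]
    push_cast
    ring

end NQ
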