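import Vale.Agent.NQ.PairP
import Vale.Agent.NQ.Rearr
import Vale.Agent.NQ.WtS
import Vale.Agent.NQ.Vl

noncomputable section
namespace NQ
open Complex MeasureTheory NumberField Filter
open scoped ComplexConjugate Classical ContDiff Topology

theorem qStep_Vg_pos (y : ℝ) : 0 < Vg y := Real.exp_pos _

theorem qStep_Vg_anti {x y : ℝ} (h : x ≤ y) : Vg y ≤ Vg x := by
  refine Real.exp_le_exp.2 ?_
  nlinarith [QRH.cnt_two_le]

variable [σ : St]

/-- The Gaussian weight as a real number. -/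
def qStepW (b : FF) (t : Pl → ℝ) (m : E) : ℝ :=
  if (m : FF) / b ∈ OS then ∏ w, Vg (‖em w m‖ ^ 2 / t w) else 0

theorem qStep_Gw (b : FF) (t : Pl → ℝ) (m : E) : Gw b t m = (qStepW b t m : ℝ) := by
  unfold Gw qStepW il
  split_ifs
  · rw [one_mul, ofReal_prod]
  · simp

theorem qStepW_nonneg (b : FF) (t : Pl → ℝ) (m : E) : 0 ≤ qStepW b t m := by
  unfold qStepW
  split_ifs
  · exact Finset.prod_nonneg fun _ _ => (qStep_Vg_pos _).le
  · exact le_rfl

theorem qStep_sumW {b : FF} (hb : b ≠ 0) {t : Pl → ℝ} (ht : ∀ w, 0 < t w) :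
    Summable (qStepW b t) := by
  obtain ⟨C, -, h⟩ := gauss_tail (B := 0) le_rfl
  exact (h b t 1 hb ht one_pos).1

theorem qStep_xs (n n' : Finset P) (m : E) :
    xs c2 n m = xs c2 (n ∩ n') m * xs c2 (n \ n') m :=
  (Finset.prod_inter_mul_prod_sdiff n n' _).symm

theorem qStep_K (n n' : Finset P) (m : E) : xs c2 n m * conj (xs c2 n' m)
    = cop (n ∩ n') m * xs c2 (n \ n') m * xs c2 (n' \ n) m := by
  rw [qStep_xs n n', qStep_xs n' n, Finset.inter_comm n' n, map_mul, conj_xs_c2 (n' \ n), cop,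
    ← xs_mul_conj ch_c2]
  ring

theorem qStep_K_le (d c c' : Finset P) (m : E) : ‖cop d m * xs c2 c m * xs c2 c' m‖ ≤ 1 := by
  have h1 : ‖cop d m‖ ≤ 1 := by
    unfold cop
    split_ifs <;> simp
  rw [norm_mul, norm_mul]
  exact mul_le_one₀ (mul_le_one₀ h1 (norm_nonneg _) (norm_xs_le ch_c2 _ _)) (norm_nonneg _)
    (norm_xs_le ch_c2 _ _)

theorem qStep_sq (T : Finset (Finset P)) (α : Finset P → ℂ) (m : E) :
    ((‖∑ n ∈ T, α n * xs c2 n m‖ ^ 2 : ℝ) : ℂ) = ∑ n ∈ T, ∑ n' ∈ T, α n * conj (α n') *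
      (cop (n ∩ n') m * xs c2 (n \ n') m * xs c2 (n' \ n) m) := by
  rw [ofReal_pow, ← Complex.mul_conj', map_sum, Finset.sum_mul_sum]
  refine Finset.sum_congr rfl fun n _ => Finset.sum_congr rfl fun n' _ => ?_
  rw [← qStep_K, map_mul]
  ring

theorem qStep_expand (T : Finset (Finset P)) (α : Finset P → ℂ) (g : E → E) (W : E → ℝ)
    (hW : Summable fun b => if b = 0 then 0 else W b) :
    ((∑' b : E, if b = 0 then 0 else W b * ‖∑ n ∈ T, α n * xs c2 n (g b)‖ ^ 2 : ℝ) : ℂ)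
      = ∑ n ∈ T, ∑ n' ∈ T, α n * conj (α n') * ∑' b : E, if b = 0 then 0 else (W b : ℂ) *
        (cop (n ∩ n') (g b) * xs c2 (n \ n') (g b) * xs c2 (n' \ n) (g b)) := by
  have hs : ∀ n n' : Finset P, Summable fun b : E => α n * conj (α n') *
      if b = 0 then 0 else (W b : ℂ) *
        (cop (n ∩ n') (g b) * xs c2 (n \ n') (g b) * xs c2 (n' \ n) (g b)) := fun n n' => by
    refine Summable.mul_left _ (Summable.of_norm_bounded hW.norm fun b => ?_)
    split_ifs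
    · simp
    · rw [norm_mul, norm_real]
      exact mul_le_of_le_one_right (norm_nonneg _) (qStep_K_le _ _ _ _)
  simp only [← tsum_mul_left]
  rw [ofReal_tsum]
  simp only [← Summable.tsum_finsetSum fun n' _ => hs _ n']
  rw [← Summable.tsum_finsetSum fun n _ => summable_sum fun n' _ => hs n n']
  refine tsum_congr fun b => ?_
  split_ifs
  · simp
  · rw [ofReal_mul, qStep_sq, Finset.mul_sum]
    refine Finset.sum_congr rfl fun n _ => ?_
    rw [Finset.mul_sum]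
    exact Finset.sum_congr rfl fun n' _ => by ring

theorem qStep_isA {f : E → ℝ} (hf : Summable f) :
    Summable (fun x : E × E => if IsA x.1 ∧ x.2 ≠ 0 then f (x.1 * x.2 ^ 2) else 0) ∧
    ∑' x : E × E, (if IsA x.1 ∧ x.2 ≠ 0 then f (x.1 * x.2 ^ 2) else 0)
      = 2 * ∑' m : E, if m = 0 then 0 else f m := by
  obtain ⟨h1, h2⟩ := tsum_isA (F := fun m => (f m : ℂ)) (summable_ofReal.2 hf)
  have e1 : ∀ (y : E × E) (x : ℝ), (if IsA y.1 ∧ y.2 ≠ 0 then (x : ℂ) else 0)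
      = ((if IsA y.1 ∧ y.2 ≠ 0 then x else 0 : ℝ) : ℂ) := fun y x => by split_ifs <;> simp
  have e2 : ∀ (m : E) (x : ℝ),
      (if m = 0 then 0 else (x : ℂ)) = ((if m = 0 then 0 else x : ℝ) : ℂ) :=
    fun m x => by split_ifs <;> simp
  simp only [e1] at h1 h2
  simp only [e2] at h2
  refine ⟨summable_ofReal.1 h1, ?_⟩
  rw [← ofReal_tsum, ← ofReal_tsum] at h2
  exact_mod_cast h2

theorem qStep_sum0 {f : E → ℝ} (hf : Summable f) : Summable fun b => if b = 0 then 0 else f b := by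
  refine Summable.of_norm_bounded hf.norm fun b => ?_
  split_ifs
  · simp
  · exact le_rfl

theorem qStep_sum2 {f : E → ℝ} (hf : Summable f) {a : E} (ha : IsA a) :
    Summable fun b => if b = 0 then 0 else f (a * b ^ 2) := by
  refine ((qStep_isA hf).1.prod_factor a).congr fun b => ?_
  by_cases hb : b = 0 <;> simp [hb, ha]

theorem qStep_pos {f : E → ℝ} (hf : Summable f) (h0 : ∀ m, 0 ≤ f m) (A : ℝ)
    (U : Finset (Finset P)) (G : Finset P → ℝ)
    (hU : ∀ m ∈ U, A < Ns m ∧ ∃ y : E, y ≠ 0 ∧ G m ≤ f (pr m * y ^ 2)) :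
    ∑ m ∈ U, G m ≤ 2 * (∑' m : E, if m = 0 then 0 else f m)
      - ∑ a ∈ calA A, ∑' b : E, if b = 0 then 0 else f (a * b ^ 2) := by
  obtain ⟨h1, h2⟩ := qStep_isA hf
  have hn : ∀ a b : E, 0 ≤ (if IsA a ∧ b ≠ 0 then f (a * b ^ 2) else 0) := fun a b => by
    split_ifs
    · exact h0 _
    · exact le_rfl
  rw [← h2, h1.tsum_prod, le_sub_iff_add_le]
  have hd : Disjoint (U.image pr) (calA A) := by
    rw [Finset.disjoint_left]
    intro x hx hx'
    obtain ⟨m, hm, rfl⟩ := Finset.mem_image.1 hx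
    exact absurd (mem_calA.1 hx').2 (hU m hm).1.not_ge
  refine le_trans ?_ (h1.prod.sum_le_tsum (U.image pr ∪ calA A)
    fun a _ => tsum_nonneg fun b => hn a b)
  rw [Finset.sum_union hd, Finset.sum_image pr_inj.injOn]
  refine add_le_add (Finset.sum_le_sum fun m hm => ?_) (Finset.sum_le_sum fun a ha => ?_)
  · obtain ⟨-, y, hy, hG⟩ := hU m hm
    refine le_trans ?_ ((h1.prod_factor (pr m)).le_tsum y fun b _ => hn _ b)
    rw [if_pos ⟨isA_pr m, hy⟩]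
    exact hG
  · refine le_of_eq (tsum_congr fun b => ?_)
    have := (mem_calA.1 ha).1
    by_cases hb : b = 0 <;> simp [hb, this]

theorem qStep_main (T U : Finset (Finset P)) (α : Finset P → ℂ) {A : ℝ} {b : FF} (hb0 : b ≠ 0)
    {t : Pl → ℝ} (ht : ∀ w, 0 < t w)
    (hU : ∀ m ∈ U, A < Ns m ∧ ∃ e : Eˣ, ((e ^ 6 * pr m : E) : FF) / b ∈ OS ∧
      ∀ w, ‖em w ((e ^ 6 * pr m : E) : FF)‖ ^ 2 ≤ t w) :
    Vg 1 ^ rk * ∑ m ∈ U, ‖∑ n ∈ T, α n * xs c2 n (pr m)‖ ^ 2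
      ≤ (∑ n ∈ T, ∑ n' ∈ T, α n * conj (α n') *
        (2 * T1 b t (n ∩ n') (n \ n') (n' \ n) - T2 A b t (n ∩ n') (n \ n') (n' \ n))).re := by
  have hb : ∀ m, ‖∑ n ∈ T, α n * xs c2 n m‖ ^ 2 ≤ (∑ n ∈ T, ‖α n‖) ^ 2 := fun m => by
    refine pow_le_pow_left₀ (norm_nonneg _) ((norm_sum_le _ _).trans
      (Finset.sum_le_sum fun n _ => ?_)) 2
    rw [norm_mul]
    exact mul_le_of_le_one_right (norm_nonneg _) (norm_xs_le ch_c2 _ _)
  have hW := qStep_sumW hb0 ht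
  have hf : Summable fun m : E => qStepW b t m * ‖∑ n ∈ T, α n * xs c2 n m‖ ^ 2 :=
    (hW.mul_right _).of_nonneg_of_le
      (fun m => mul_nonneg (qStepW_nonneg _ _ _) (sq_nonneg _))
      fun m => mul_le_mul_of_nonneg_left (hb m) (qStepW_nonneg _ _ _)
  have h1 := qStep_pos hf (fun m => mul_nonneg (qStepW_nonneg _ _ _) (sq_nonneg _)) A U
    (fun m => Vg 1 ^ rk * ‖∑ n ∈ T, α n * xs c2 n (pr m)‖ ^ 2) fun m hm => by
      obtain ⟨h1, e, h2, h3⟩ := hU m hm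
      refine ⟨h1, e ^ 3, pow_ne_zero _ e.ne_zero, ?_⟩
      have e1 : pr m * ((e : E) ^ 3) ^ 2 = e ^ 6 * pr m := by ring
      simp only [e1, xs_unit_six ch_c2 six_c2]
      refine mul_le_mul_of_nonneg_right ?_ (sq_nonneg _)
      rw [qStepW, if_pos h2, ← prod_const_Pl]
      exact Finset.prod_le_prod (fun _ _ => (qStep_Vg_pos _).le)
        fun w _ => qStep_Vg_anti ((div_le_one (ht w)).2 (h3 w))
  have h2 : ((2 * (∑' m : E, if m = 0 then 0 else
        qStepW b t m * ‖∑ n ∈ T, α n * xs c2 n m‖ ^ 2)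
      - ∑ a ∈ calA A, ∑' y : E, (if y = 0 then 0 else
        qStepW b t (a * y ^ 2) * ‖∑ n ∈ T, α n * xs c2 n (a * y ^ 2)‖ ^ 2) : ℝ) : ℂ)
      = ∑ n ∈ T, ∑ n' ∈ T, α n * conj (α n') *
        (2 * T1 b t (n ∩ n') (n \ n') (n' \ n) - T2 A b t (n ∩ n') (n \ n') (n' \ n)) := by
    rw [ofReal_sub, ofReal_mul, ofReal_sum, qStep_expand T α (fun m => m) _ (qStep_sum0 hW),
      Finset.sum_congr (s₁ := calA A) rfl fun a ha => qStep_expand T α (fun y => a * y ^ 2) _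
        (qStep_sum2 hW (mem_calA.1 ha).1), Finset.sum_comm (s := calA A),
      Finset.mul_sum, ← Finset.sum_sub_distrib]
    refine Finset.sum_congr rfl fun n _ => ?_
    rw [Finset.sum_comm (s := calA A), Finset.mul_sum, ← Finset.sum_sub_distrib]
    refine Finset.sum_congr rfl fun n' _ => ?_
    rw [← Finset.mul_sum, T1, T2]
    simp only [qStep_Gw]
    push_cast
    ring
  rw [← h2, ofReal_re, Finset.mul_sum]
  exact h1

theorem qStep_cont1 (h0 : DelB) (A : ℝ) {b k : FF} (hb : b ≠ 0) (hk : k ≠ 0) {R : ℝ} (hR : 0 < R)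
    (d c c' : Finset P) :
    Continuous fun v : Pl → ℝ => E1 A b (fun w => R * Real.exp (v w)) d c c' k := by
  unfold E1
  refine continuous_finsetSum _ fun f _ => Continuous.mul (by fun_prop) ?_
  refine continuous_finsetSum _ fun a ha => continuous_const.mul ?_
  refine continuous_finsetSum _ fun e1 _ => continuous_finsetSum _ fun e2 _ =>
    continuous_const.mul (continuous_ofReal.comp ?_)
  have a0 := cnt_coe_ne (mem_calA.1 ha).1.ne_zero
  have f0 := cnt_coe_ne (pr_ne_zero f)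
  have p0 := cnt_coe_ne (mul_ne_zero (mul_ne_zero (pr_ne_zero (f \ fac a)) (pr_ne_zero e1))
    (pr_ne_zero e2))
  refine (h0.1 _ (div_ne_zero (mul_ne_zero hk (pow_ne_zero _ f0)) (mul_ne_zero (mul_ne_zero
    (mul_ne_zero hb del_ne_zero) a0) (pow_ne_zero _ p0)))).comp_continuous (by fun_prop)
    fun v w => ?_
  have := norm_pos_iff.2 (em_ne_zero w a0)
  have := norm_pos_iff.2 (em_ne_zero w f0)
  have := norm_pos_iff.2 (em_ne_zero w p0)
  have := norm_pos_iff.2 (em_ne_zero w hk)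
  positivity

theorem qStep_cont2 (h0 : DelB) (A : ℝ) {b : FF} (hb : b ≠ 0) (k : FF) {R : ℝ} (hR : 0 < R)
    (d c c' : Finset P) :
    Continuous fun v : Pl → ℝ => E2 A b (fun w => R * Real.exp (v w)) d c c' k := by
  unfold E2
  refine continuous_finsetSum _ fun a ha => continuous_const.mul ?_
  refine continuous_finsetSum _ fun e0 _ => continuous_finsetSum _ fun e1 _ =>
    continuous_finsetSum _ fun e2 _ => continuous_const.mul (continuous_ofReal.comp ?_)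
  have a0 := cnt_coe_ne (mem_calA.1 ha).1.ne_zero
  have p0 := cnt_coe_ne (mul_ne_zero (mul_ne_zero (pr_ne_zero e0) (pr_ne_zero e1))
    (pr_ne_zero e2))
  refine (h0.1 _ (div_ne_zero hb (mul_ne_zero a0 (pow_ne_zero _ p0)))).comp_continuous
    (continuous_pi fun w => continuous_const.div (by fun_prop) fun v => by positivity)
    fun v w => ?_
  have := norm_pos_iff.2 (em_ne_zero w a0)
  have := norm_pos_iff.2 (em_ne_zero w p0)
  positivity

/-- The error in the pair formula. -/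
theorem qStep_err (h1 : QPair) {δ : ℝ} (hδ : 0 < δ) : ∃ C : ℝ, 0 < C ∧
    ∀ (M N L : ℝ) (b : FF) (t : Pl → ℝ) (n n' : Finset P) (y y' : E), 1 ≤ N → N ≤ M → 1 ≤ L →
      b ≠ 0 → (∀ w, 0 < t w) → sS b ≤ L → M ≤ sS b * ∏ w, t w → sS b * ∏ w, t w ≤ L * M →
      Ns n ≤ N → Ns n' ≤ N → Associated y (pr n) → Associated y' (pr n') → Cl y y' →
      ‖2 * T1 b t (n ∩ n') (n \ n') (n' \ n) - (kap * sS b : ℝ) *
          T2 (N ^ 2 * (M * N) ^ δ / M) (1 / (b * del)) t (n ∩ n') (n \ n') (n' \ n)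
        - (E1 (N ^ 2 * (M * N) ^ δ / M) b t (n ∩ n') (n \ n') (n' \ n)
            (y * y' / (pr (n ∩ n') : FF) ^ 2)
          - (kap * sS b : ℝ) * E2 (N ^ 2 * (M * N) ^ δ / M) (1 / (b * del)) t (n ∩ n') (n \ n')
            (n' \ n) (y * y' / (pr (n ∩ n') : FF) ^ 2))‖
      ≤ C * (M * N) ^ δ * (L * ((if n = n' then 3 * M else 0) + 1)) := by
  obtain ⟨C, hC, h⟩ := h1 (1 / δ + 1) (by have := one_div_pos.2 hδ; linarith)
  obtain ⟨C2, hC2, h2⟩ := pow_card_le (A := 2) (by norm_num) hδ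
  refine ⟨C * C2, by positivity,
    fun M N L b t n n' y y' hN hM hL hb ht0 hbL ht ht' hn hn' hy hy' hcl => ?_⟩
  have hM1 : 1 ≤ M := hN.trans hM
  have hN0 : 0 < N := by linarith
  have hM0 : 0 < M := by linarith
  have hZ : 0 < (M * N) ^ δ := by positivity
  have hp := Ns_pos n
  have hp' := Ns_pos n'
  have hs := sS_pos b
  have d1 : Disjoint (n ∩ n') (n \ n') :=
    Finset.disjoint_sdiff.mono_left Finset.inter_subset_right
  have d2 : Disjoint (n ∩ n') (n' \ n) :=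
    Finset.disjoint_sdiff.mono_left Finset.inter_subset_left
  have u1 : n ∩ n' ∪ n \ n' = n := by rw [Finset.union_comm, Finset.sdiff_union_inter]
  have u2 : n ∩ n' ∪ n' \ n = n' := by
    rw [Finset.union_comm, Finset.inter_comm, Finset.sdiff_union_inter]
  have p1 : pr n = pr (n ∩ n') * pr (n \ n') := by rw [← pr_union d1, u1]
  have p2 : pr n' = pr (n ∩ n') * pr (n' \ n) := by rw [← pr_union d2, u2]
  obtain ⟨x, rfl⟩ : pr (n ∩ n') ∣ y := (Dvd.intro _ p1.symm).trans hy.symm.dvd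
  obtain ⟨x', rfl⟩ : pr (n ∩ n') ∣ y' := (Dvd.intro _ p2.symm).trans hy'.symm.dvd
  have d0 := pr_ne_zero (n ∩ n')
  have d0' := cnt_coe_ne d0
  rw [p1] at hy
  rw [p2] at hy'
  have hk : ((pr (n ∩ n') * x : E) : FF) * ((pr (n ∩ n') * x' : E) : FF) / (pr (n ∩ n') : FF) ^ 2
      = (x : FF) * (x' : FF) := by
    push_cast
    field_simp
  rw [hk]
  rw [Subring.coe_mul, Subring.coe_mul, Cl_mul_left d0'] at hcl
  refine (h _ b t _ _ _ x x' (by positivity) hb ht0 d1 d2 disjoint_sdiff_sdiff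
    (hy.of_mul_left (Associated.refl _) d0) (hy'.of_mul_left (Associated.refl _) d0) hcl).trans ?_
  set τ := sS b * ∏ w, t w with hτ
  have hτ0 : 0 < τ := by linarith
  have h8 : (2 : ℝ) ^ (n ∩ n').card ≤ C2 * (M * N) ^ δ := by
    refine (h2 _).trans (mul_le_mul_of_nonneg_left
      (Real.rpow_le_rpow (Ns_pos _).le ?_ hδ.le) hC2.le)
    have := Ns_mono (Finset.inter_subset_left (s₁ := n) (s₂ := n'))
    nlinarith
  have h9 : Ns (n ∩ n') ^ 2 * (Ns (n \ n') * Ns (n' \ n)) = Ns n * Ns n' := by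
    conv_rhs => rw [← u1, Ns_union d1]
    conv_rhs => rw [← congrArg Ns u2, Ns_union d2]
    ring
  have h10 : (M * N) ^ δ ≤ N ^ 2 * (M * N) ^ δ / M * τ / (Ns n * Ns n') := by
    rw [le_div_iff₀ (mul_pos (Ns_pos _) (Ns_pos _)), div_mul_eq_mul_div, le_div_iff₀ hM0]
    have h11 : Ns n * Ns n' ≤ N ^ 2 := by
      rw [sq]
      exact mul_le_mul hn hn' (Ns_pos _).le hN0.le
    calc (M * N) ^ δ * (Ns n * Ns n') * M ≤ (M * N) ^ δ * N ^ 2 * τ := by gcongr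
      _ = _ := by ring
  have h12 : ((M * N) ^ δ) ^ (-(1 / δ + 1)) = (M * N * (M * N) ^ δ)⁻¹ := by
    rw [Real.rpow_neg hZ.le, Real.rpow_add hZ, Real.rpow_one, ← Real.rpow_mul (by positivity),
      mul_one_div_cancel hδ.ne', Real.rpow_one]
  have h13 : τ * (N ^ 2 * (M * N) ^ δ / M) * (N ^ 2 * (M * N) ^ δ / M * τ / (Ns n * Ns n'))
      ^ (-(1 / δ + 1)) ≤ L * 1 := by
    have h14 := Real.rpow_le_rpow_of_nonpos hZ h10
      (show -(1 / δ + 1) ≤ 0 by have := one_div_pos.2 hδ; linarith)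
    rw [h12] at h14
    calc _ ≤ L * M * (N ^ 2 * (M * N) ^ δ / M) * (M * N * (M * N) ^ δ)⁻¹ := by gcongr
      _ = L * (N / M) := by field_simp
      _ ≤ L * 1 := by gcongr; exact (div_le_one hM0).2 hM
  have h15 : (if n \ n' ∪ n' \ n = ∅ then τ + (1 + sS b) else 0)
      ≤ L * if n = n' then 3 * M else 0 := by
    have : n \ n' ∪ n' \ n = ∅ ↔ n = n' := by
      rw [Finset.union_eq_empty, Finset.sdiff_eq_empty_iff_subset,
        Finset.sdiff_eq_empty_iff_subset, Finset.Subset.antisymm_iff]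
    simp only [this]
    split_ifs
    · nlinarith
    · exact le_of_eq (mul_zero _).symm
  rw [h9, mul_assoc C C2, mul_add L]
  exact mul_le_mul (mul_le_mul_of_nonneg_left h8 hC.le) (add_le_add h15 h13) (by positivity)
    (by positivity)

theorem qStep_errsum {M N : ℝ} (α : Finset P → ℂ) (hN : 1 ≤ N) (hM : N ≤ M) :
    ∑ n ∈ sqf N, ∑ n' ∈ sqf N, ‖α n‖ * ‖α n'‖ * ((if n = n' then 3 * M else 0) + 1)
      ≤ (3 + Kb) * M * ∑ n ∈ sqf N, ‖α n‖ ^ 2 := by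
  have h1 : ∑ n ∈ sqf N, ∑ n' ∈ sqf N, ‖α n‖ * ‖α n'‖ * ((if n = n' then 3 * M else 0) + 1)
      = 3 * M * ∑ n ∈ sqf N, ‖α n‖ ^ 2 + (∑ n ∈ sqf N, ‖α n‖) ^ 2 := by
    rw [sq (∑ n ∈ sqf N, ‖α n‖), Finset.sum_mul_sum, Finset.mul_sum, ← Finset.sum_add_distrib]
    refine Finset.sum_congr rfl fun n hn => ?_
    simp only [mul_add, Finset.sum_add_distrib, mul_ite, mul_zero, Finset.sum_ite_eq, if_pos hn,
      mul_one]
    ring
  have h2 := sq_sum_le_card_mul_sum_sq (s := sqf N) (f := fun n => ‖α n‖)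
  have h3 := card_sqf_le (R := N) (by linarith)
  have h4 : 0 ≤ ∑ n ∈ sqf N, ‖α n‖ ^ 2 := Finset.sum_nonneg fun _ _ => sq_nonneg _
  have h6 := one_le_Kb
  have h5 : ((sqf N).card : ℝ) * ∑ n ∈ sqf N, ‖α n‖ ^ 2 ≤ Kb * M * ∑ n ∈ sqf N, ‖α n‖ ^ 2 :=
    mul_le_mul_of_nonneg_right (by nlinarith) h4
  rw [h1]
  linarith

/-- Exchange of the double sum and the integral. -/
theorem qStep_int (T : Finset (Finset P)) (α : Finset P → ℂ)
    (F : Finset P → Finset P → (Pl → ℝ) → ℂ)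
    (h : ∀ n n', α n ≠ 0 → α n' ≠ 0 → Continuous (F n n')) :
    Continuous (fun v => ∑ n ∈ T, ∑ n' ∈ T, α n * conj (α n') * F n n' v) ∧
    ∫ v : Pl → ℝ, (∏ w, ((beta (v w) : ℝ) : ℂ)) * ∑ n ∈ T, ∑ n' ∈ T, α n * conj (α n') * F n n' v
      = ∑ n ∈ T, ∑ n' ∈ T, α n * conj (α n') *
        ∫ v : Pl → ℝ, (∏ w, ((beta (v w) : ℝ) : ℂ)) * F n n' v := by
  have hc : ∀ n n', Continuous fun v => α n * conj (α n') * F n n' v := fun n n' => by
    by_cases z : α n = 0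
    · simp only [z, zero_mul]
      exact continuous_const
    by_cases z' : α n' = 0
    · simp only [z', map_zero, mul_zero, zero_mul]
      exact continuous_const
    exact continuous_const.mul (h n n' z z')
  refine ⟨continuous_finsetSum _ fun n _ => continuous_finsetSum _ fun n' _ => hc n n', ?_⟩
  simp only [Finset.mul_sum]
  rw [integral_finsetSum _ fun n _ => integrable_finsetSum _ fun n' _ =>
    integrable_beta_pi (hc n n')]
  refine Finset.sum_congr rfl fun n _ => ?_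
  rw [integral_finsetSum _ fun n' _ => integrable_beta_pi (hc n n')]
  refine Finset.sum_congr rfl fun n' _ => ?_
  rw [← integral_const_mul]
  exact integral_congr_ae (Eventually.of_forall fun v => by simp only; ring)

/-- Averaging a pointwise lower bound. -/
theorem qStep_avg {Φ : (Pl → ℝ) → ℂ} (hc : Continuous Φ) {x : ℝ}
    (h : ∀ v : Pl → ℝ, (∀ w, 1 < Real.exp (v w) ∧ Real.exp (v w) < 4) → x ≤ (Φ v).re) :
    (∫ v, beta v) ^ rk * x ≤ ‖∫ v : Pl → ℝ, (∏ w, ((beta (v w) : ℝ) : ℂ)) * Φ v‖ := by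
  have i1 := integrable_beta_pi hc
  have i2 := (integrable_beta_pi (F := fun _ => (x : ℂ)) continuous_const).re
  have e : ∀ (v : Pl → ℝ) (z : ℂ), ((∏ w, ((beta (v w) : ℝ) : ℂ)) * z).re
      = (∏ w, beta (v w)) * z.re := fun v z => by rw [← ofReal_prod, re_ofReal_mul]
  refine le_trans ?_ (re_le_norm _)
  rw [QRH.wt_re_integral i1]
  refine le_trans (le_of_eq ?_) (integral_mono i2 i1.re fun v => ?_)
  · simp only [RCLike.re_to_complex, e, ofReal_re]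
    rw [integral_mul_const, integral_fintype_prod_volume_eq_pow, rk]
  · simp only [RCLike.re_to_complex, e, ofReal_re]
    by_cases hv : ∏ w, beta (v w) = 0
    · rw [hv, zero_mul, zero_mul]
    exact mul_le_mul_of_nonneg_left (h v fun w => QRH.beta_exp
      (Finset.prod_ne_zero_iff.1 hv w (Finset.mem_univ w)))
      (Finset.prod_nonneg fun w _ => QRH.beta_nonneg _)

/-- The two lattices together. -/
theorem qStep_err2 (h1 : QPair) (hk : KapSq) {δ : ℝ} (hδ : 0 < δ) : ∃ C : ℝ, 0 < C ∧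
    ∀ (M N L : ℝ) (t : Pl → ℝ) (n n' : Finset P) (y y' : E), 1 ≤ N → N ≤ M → 1 ≤ L →
      (∀ w, 0 < t w) → M ≤ ∏ w, t w → ∏ w, t w ≤ L * M →
      Ns n ≤ N → Ns n' ≤ N → Associated y (pr n) → Associated y' (pr n') → Cl y y' →
      ‖2 * T1 1 t (n ∩ n') (n \ n') (n' \ n)
          - T2 (N ^ 2 * (M * N) ^ δ / M) 1 t (n ∩ n') (n \ n') (n' \ n)
        + (kap : ℝ) * (2 * T1 (1 / del) t (n ∩ n') (n \ n') (n' \ n)
          - T2 (N ^ 2 * (M * N) ^ δ / M) (1 / del) t (n ∩ n') (n \ n') (n' \ n))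
        - (E1 (N ^ 2 * (M * N) ^ δ / M) 1 t (n ∩ n') (n \ n') (n' \ n)
            (y * y' / (pr (n ∩ n') : FF) ^ 2)
          - E2 (N ^ 2 * (M * N) ^ δ / M) 1 t (n ∩ n') (n \ n') (n' \ n)
            (y * y' / (pr (n ∩ n') : FF) ^ 2)
          + (kap : ℝ) * (E1 (N ^ 2 * (M * N) ^ δ / M) (1 / del) t (n ∩ n') (n \ n') (n' \ n)
              (y * y' / (pr (n ∩ n') : FF) ^ 2)
            - E2 (N ^ 2 * (M * N) ^ δ / M) (1 / del) t (n ∩ n') (n \ n') (n' \ n)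
              (y * y' / (pr (n ∩ n') : FF) ^ 2)))‖
      ≤ C * (M * N) ^ δ * (L * ((if n = n' then 3 * M else 0) + 1)) := by
  obtain ⟨C, hC, h⟩ := qStep_err h1 hδ
  have hd := del_ne_zero
  have hκ := kap_pos
  have hs : sS (1 / del) = (sS del)⁻¹ := by rw [one_div, sS_inv]
  have hs1 : 1 ≤ sS (1 / del) := by
    rw [hs]
    exact (one_le_inv₀ (sS_pos _)).2 (sS_le_one del_mem)
  have hκ2 : kap * (kap * sS (1 / del)) = 1 := by
    rw [hs, ← mul_assoc, ← sq, show kap ^ 2 = sS del from hk, mul_inv_cancel₀ (sS_pos _).ne']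
  refine ⟨C * (1 + kap * sS (1 / del)), by positivity,
    fun M N L t n n' y y' hN hM hL ht0 ht ht' hn hn' hy hy' hcl => ?_⟩
  have hM0 : 0 < M := by linarith
  have k1 := h M N L 1 t n n' y y' hN hM hL one_ne_zero ht0 (by rwa [sS_one])
    (by rwa [sS_one, one_mul]) (by rwa [sS_one, one_mul]) hn hn' hy hy' hcl
  have k2 := h M N (sS (1 / del) * L) (1 / del) t n n' y y' hN hM (by nlinarith)
    (one_div_ne_zero hd) ht0 (by nlinarith) (by nlinarith)
    (by rw [mul_assoc]; exact mul_le_mul_of_nonneg_left ht' (by linarith)) hn hn' hy hy' hcl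
  rw [sS_one, mul_one, one_mul del] at k1
  rw [one_div_mul_cancel hd, div_one] at k2
  have k3 := mul_le_mul_of_nonneg_left k2 hκ.le
  rw [← Real.norm_of_nonneg hκ.le, ← norm_real, ← norm_mul, norm_real,
    Real.norm_of_nonneg hκ.le] at k3
  have hκ3 : ((kap : ℝ) : ℂ) * ((kap * sS (1 / del) : ℝ) : ℂ) = 1 := by
    rw [← ofReal_mul, hκ2, ofReal_one]
  refine le_trans (le_of_eq (congrArg _ ?_)) (((norm_add_le _ _).trans (add_le_add k1 k3)).trans
    (le_of_eq (by ring)))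
  linear_combination (T2 (N ^ 2 * (M * N) ^ δ / M) 1 t (n ∩ n') (n \ n') (n' \ n) -
    E2 (N ^ 2 * (M * N) ^ δ / M) 1 t (n ∩ n') (n \ n') (n' \ n)
      (y * y' / (pr (n ∩ n') : FF) ^ 2)) * hκ3

theorem qStep_comb (T : Finset (Finset P)) (α : Finset P → ℂ)
    (a1 a2 f1 f2 f3 f4 : Finset P → Finset P → ℂ) {κ c x : ℝ} (hκ : 0 ≤ κ)
    (ε : Finset P → Finset P → ℝ)
    (h : ∀ n ∈ T, ∀ n' ∈ T, α n ≠ 0 → α n' ≠ 0 →
      ‖a1 n n' + κ * a2 n n' - (f1 n n' - f2 n n' + κ * (f3 n n' - f4 n n'))‖ ≤ c * ε n n')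
    (k1 : x ≤ (∑ n ∈ T, ∑ n' ∈ T, α n * conj (α n') * a1 n n').re)
    (k2 : 0 ≤ (∑ n ∈ T, ∑ n' ∈ T, α n * conj (α n') * a2 n n').re) :
    x - c * ∑ n ∈ T, ∑ n' ∈ T, ‖α n‖ * ‖α n'‖ * ε n n'
      ≤ (∑ n ∈ T, ∑ n' ∈ T, α n * conj (α n') * f1 n n'
        - ∑ n ∈ T, ∑ n' ∈ T, α n * conj (α n') * f2 n n'
        + κ * (∑ n ∈ T, ∑ n' ∈ T, α n * conj (α n') * f3 n n'
          - ∑ n ∈ T, ∑ n' ∈ T, α n * conj (α n') * f4 n n')).re := by
  have k3 : ‖∑ n ∈ T, ∑ n' ∈ T, α n * conj (α n') * a1 n n'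
      + κ * ∑ n ∈ T, ∑ n' ∈ T, α n * conj (α n') * a2 n n'
      - (∑ n ∈ T, ∑ n' ∈ T, α n * conj (α n') * f1 n n'
        - ∑ n ∈ T, ∑ n' ∈ T, α n * conj (α n') * f2 n n'
        + κ * (∑ n ∈ T, ∑ n' ∈ T, α n * conj (α n') * f3 n n'
          - ∑ n ∈ T, ∑ n' ∈ T, α n * conj (α n') * f4 n n'))‖
      ≤ c * ∑ n ∈ T, ∑ n' ∈ T, ‖α n‖ * ‖α n'‖ * ε n n' := by
    simp only [mul_sub, Finset.mul_sum, ← Finset.sum_sub_distrib, ← Finset.sum_add_distrib]
    refine norm_sum_le_of_le _ fun n hn => norm_sum_le_of_le _ fun n' hn' => ?_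
    by_cases z : α n = 0
    · simp [z]
    by_cases z' : α n' = 0
    · simp [z']
    have k4 := mul_le_mul_of_nonneg_left (h n hn n' hn' z z')
      (mul_nonneg (norm_nonneg (α n)) (norm_nonneg (α n')))
    rw [mul_left_comm _ c, ← Complex.norm_conj (α n'), ← norm_mul, ← norm_mul,
      norm_mul (α n), Complex.norm_conj] at k4
    exact le_trans (le_of_eq (congrArg _ (by ring))) k4
  have k5 := (re_le_norm _).trans k3
  rw [sub_re, add_re, re_ofReal_mul] at k5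
  have k6 := mul_nonneg hκ k2
  linarith

theorem qStep_four {β f1 f2 f3 f4 : (Pl → ℝ) → ℂ} (i1 : Integrable fun v => β v * f1 v)
    (i2 : Integrable fun v => β v * f2 v) (i3 : Integrable fun v => β v * f3 v)
    (i4 : Integrable fun v => β v * f4 v) {κ b1 b2 b3 b4 : ℝ} (hκ : 0 ≤ κ)
    (h1 : ‖∫ v, β v * f1 v‖ ≤ b1) (h2 : ‖∫ v, β v * f2 v‖ ≤ b2) (h3 : ‖∫ v, β v * f3 v‖ ≤ b3)
    (h4 : ‖∫ v, β v * f4 v‖ ≤ b4) :
    ‖∫ v, β v * (f1 v - f2 v + κ * (f3 v - f4 v))‖ ≤ b1 + b2 + κ * (b3 + b4) := by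
  have e : ∀ v, β v * (f1 v - f2 v + κ * (f3 v - f4 v))
      = β v * f1 v - β v * f2 v + κ * (β v * f3 v - β v * f4 v) := fun v => by ring
  simp only [e]
  rw [integral_add (i1.sub' i2) ((i3.sub' i4).const_mul _), integral_const_mul,
    integral_sub i1 i2, integral_sub i3 i4]
  refine (norm_add_le _ _).trans (add_le_add ((norm_sub_le _ _).trans (add_le_add h1 h2)) ?_)
  rw [norm_mul, norm_real, Real.norm_of_nonneg hκ]
  exact mul_le_mul_of_nonneg_left ((norm_sub_le _ _).trans (add_le_add h3 h4)) hκ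

/-- The large values of `m`. -/
theorem qStep_big (h0 : DelB) (h1 : QPair) (hk : KapSq) {ξ : ℝ} (h2 : QE E1 ξ) (h3 : QE E2 ξ)
    {W δ : ℝ} (hW : 1 ≤ W) (hδ : 0 < δ) : ∃ C : ℝ, 0 < C ∧
    ∀ (M N : ℝ) (α : Finset P → ℂ) (g : Finset P → E) (U : Finset (Finset P)),
      1 ≤ N → N ≤ M → N ^ (2 - 1 / ξ) ≤ M → Dy W N α g →
      (∀ m ∈ U, N ^ 2 * (M * N) ^ δ / M < Ns m ∧ Ns m ≤ M) →
      ∑ m ∈ U, ‖∑ n ∈ sqf N, α n * xs c2 n (pr m)‖ ^ 2
        ≤ C * (M * N) ^ (3 * δ) * M * ∑ n ∈ sqf N, ‖α n‖ ^ 2 := by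
  obtain ⟨K, hK, φ, hφ⟩ := cnt_bal
  have hb : (1 / del : FF) ≠ 0 := one_div_ne_zero del_ne_zero
  have hκ := kap_pos
  obtain ⟨C1, hC1, e1⟩ := qStep_err2 h1 hk hδ
  obtain ⟨C2, hC2, e2⟩ := h2 1 K W δ one_ne_zero hK hW hδ
  obtain ⟨C3, hC3, e3⟩ := h3 1 K W δ one_ne_zero hK hW hδ
  obtain ⟨C4, hC4, e4⟩ := h2 (1 / del) K W δ hb hK hW hδ
  obtain ⟨C5, hC5, e5⟩ := h3 (1 / del) K W δ hb hK hW hδ
  have hβ : 0 < (∫ v, beta v) ^ rk := pow_pos QRH.integral_beta_pos _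
  have hV : 0 < Vg 1 ^ rk := pow_pos (qStep_Vg_pos 1) _
  have hKb := one_le_Kb
  have hL : 1 ≤ (4 * K) ^ rk := one_le_pow₀ (by linarith)
  refine ⟨((C2 + C3 + kap * (C4 + C5)) / (∫ v, beta v) ^ rk + (4 * K) ^ rk * (3 + Kb) * C1)
    / Vg 1 ^ rk, by positivity, fun M N α g U hN hM hM' hD hU => ?_⟩
  have hM0 : 0 < M := by linarith
  have e2' := e2 M N α g hN hM' hD
  have e3' := e3 M N α g hN hM' hD
  have e4' := e4 M N α g hN hM' hD
  have e5' := e5 M N α g hN hM' hD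
  obtain ⟨X, -, hD⟩ := hD
  set A := N ^ 2 * (M * N) ^ δ / M with hA
  set S := ∑ n ∈ sqf N, ‖α n‖ ^ 2 with hS
  set L := ∑ m ∈ U, ‖∑ n ∈ sqf N, α n * xs c2 n (pr m)‖ ^ 2 with hL'
  set R := K * M ^ (1 / rk : ℝ) with hR
  have hR0 : 0 < R := by positivity
  have hRr : R ^ rk = K ^ rk * M := by rw [hR, mul_pow, rpow_rk hM0.le]
  have hS0 : 0 ≤ S := Finset.sum_nonneg fun _ _ => sq_nonneg _
  have hne : ∀ n n', α n ≠ 0 → α n' ≠ 0 →
      (g n * g n' / (pr (n ∩ n') : FF) ^ 2 : FF) ≠ 0 := fun n n' z z' =>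
    div_ne_zero (mul_ne_zero (hD n z).2.2.1.ne_zero (hD n' z').2.2.1.ne_zero)
      (pow_ne_zero _ (cnt_coe_ne (pr_ne_zero _)))
  obtain ⟨c2', i2⟩ := qStep_int (sqf N) α _ fun n n' z z' =>
    qStep_cont1 h0 A one_ne_zero (hne n n' z z') hR0 (n ∩ n') (n \ n') (n' \ n)
  obtain ⟨c3', i3⟩ := qStep_int (sqf N) α _ fun n n' _ _ =>
    qStep_cont2 h0 A one_ne_zero (g n * g n' / (pr (n ∩ n') : FF) ^ 2) hR0 (n ∩ n') (n \ n')
      (n' \ n)
  obtain ⟨c4', i4⟩ := qStep_int (sqf N) α _ fun n n' z z' =>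
    qStep_cont1 h0 A hb (hne n n' z z') hR0 (n ∩ n') (n \ n') (n' \ n)
  obtain ⟨c5', i5⟩ := qStep_int (sqf N) α _ fun n n' _ _ =>
    qStep_cont2 h0 A hb (g n * g n' / (pr (n ∩ n') : FF) ^ 2) hR0 (n ∩ n') (n \ n') (n' \ n)
  rw [← i2] at e2'
  rw [← i3] at e3'
  rw [← i4] at e4'
  rw [← i5] at e5'
  have k6 := qStep_avg ((c2'.sub c3').add ((continuous_const (y := ((kap : ℝ) : ℂ))).mul
    (c4'.sub c5'))) (x := Vg 1 ^ rk * L - C1 * (M * N) ^ δ * ((4 * K) ^ rk * ((3 + Kb) * M * S)))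
    fun v hv => by
      have t0 : ∀ w, 0 < R * Real.exp (v w) := fun w => by positivity
      have t1 : M ≤ ∏ w, R * Real.exp (v w) := by
        refine le_trans ?_ (Finset.prod_le_prod (f := fun _ => R) (fun _ _ => hR0.le)
          fun w _ => le_mul_of_one_le_right hR0.le (hv w).1.le)
        rw [prod_const_Pl, hRr]
        exact le_mul_of_one_le_left hM0.le (one_le_pow₀ hK)
      have t2 : ∏ w, R * Real.exp (v w) ≤ (4 * K) ^ rk * M := by
        refine (Finset.prod_le_prod (g := fun _ => 4 * R) (fun w _ => (t0 w).le)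
          fun w _ => by nlinarith [(hv w).2]).trans (le_of_eq ?_)
        rw [prod_const_Pl, mul_pow, hRr, mul_pow, mul_assoc]
      have k2 := qStep_main (sqf N) U α (A := A) one_ne_zero t0 fun m hm => by
        obtain ⟨-, b1, b2⟩ := (mem_box one_ne_zero).1 (hφ (pr m) M (pr_ne_zero m) (hU m hm).2)
        exact ⟨(hU m hm).1, φ (pr m), b1, fun w =>
          (b2 w).trans (le_mul_of_one_le_right hR0.le (hv w).1.le)⟩
      have k2' := qStep_main (sqf N) ∅ α (A := A) hb t0 fun m hm => absurd hm (by simp)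
      rw [Finset.sum_empty, mul_zero] at k2'
      refine le_trans ?_ (qStep_comb (sqf N) α _ _ _ _ _ _ hκ.le
        (c := C1 * (M * N) ^ δ * (4 * K) ^ rk) (fun n n' => (if n = n' then 3 * M else 0) + 1)
        (fun n hn n' hn' z z' => (e1 M N _ _ n n' (g n) (g n') hN hM hL t0 t1 t2
          (mem_sqf.1 hn) (mem_sqf.1 hn') (hD n z).2.1 (hD n' z').2.1
          ((hD n z).2.2.1.symm.trans (hD n' z').2.2.1)).trans (le_of_eq (mul_assoc _ _ _).symm))
        k2 k2')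
      have k4 := mul_le_mul_of_nonneg_left (qStep_errsum α hN hM)
        (show 0 ≤ C1 * (M * N) ^ δ * (4 * K) ^ rk by positivity)
      linarith
  have j2 := integrable_beta_pi c2'
  have j3 := integrable_beta_pi c3'
  have j4 := integrable_beta_pi c4'
  have j5 := integrable_beta_pi c5'
  have k7 := qStep_four j2 j3 j4 j5 hκ.le e2' e3' e4' e5'
  have k8 : Vg 1 ^ rk * L - C1 * (M * N) ^ δ * ((4 * K) ^ rk * ((3 + Kb) * M * S))
      ≤ (C2 + C3 + kap * (C4 + C5)) / (∫ v, beta v) ^ rk * ((M * N) ^ (3 * δ) * M * S) := by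
    rw [div_mul_eq_mul_div, le_div_iff₀' hβ]
    exact (k6.trans k7).trans (le_of_eq (by ring))
  have k9 : (M * N) ^ δ ≤ (M * N) ^ (3 * δ) :=
    Real.rpow_le_rpow_of_exponent_le (by nlinarith) (by linarith)
  have k10 : C1 * (M * N) ^ δ * ((4 * K) ^ rk * ((3 + Kb) * M * S))
      ≤ C1 * (M * N) ^ (3 * δ) * ((4 * K) ^ rk * ((3 + Kb) * M * S)) := by gcongr
  rw [mul_assoc, mul_assoc, div_mul_eq_mul_div, le_div_iff₀' hV]
  linarith

theorem qStep (h0 : DelB) (h1 : QPair) (hk : KapSq) {ξ : ℝ} (hξ : 1 ≤ ξ) (hξ2 : ξ ≤ 2) (h : QD ξ)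
    (h2 : QE E1 ξ) (h3 : QE E2 ξ) : QSd (2 - 1 / ξ) := by
  intro W ε hW hε
  obtain ⟨δ, rfl⟩ : ∃ δ, ε = 3 * δ := ⟨ε / 3, by ring⟩
  have hδ : 0 < δ := by linarith
  obtain ⟨C1, hC1, e1⟩ := qStep_big h0 h1 hk h2 h3 hW hδ
  obtain ⟨C2, hC2, e2⟩ := h (δ / (1 + δ)) (by positivity)
  refine ⟨2 * C2 + C1, by positivity, fun M N α g hN hM' hD => ?_⟩
  have hξ0 : 0 < ξ := by linarith
  have hN0 : 0 < N := by linarith
  have hM : N ≤ M := by
    refine le_trans ?_ hM'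
    have : 1 / ξ ≤ 1 := (div_le_one hξ0).2 hξ
    simpa using Real.rpow_le_rpow_of_exponent_le hN (show 1 ≤ 2 - 1 / ξ by linarith)
  have hM0 : 0 < M := by linarith
  have hZ : 1 ≤ M * N := by nlinarith
  set A := N ^ 2 * (M * N) ^ δ / M with hA
  have hA0 : 0 < A := by positivity
  have hS0 : 0 ≤ ∑ n ∈ sqf N, ‖α n‖ ^ 2 := Finset.sum_nonneg fun _ _ => sq_nonneg _
  have k1 := e1 M N α g ((sqf M).filter fun m => ¬ Ns m ≤ A) hN hM hM' hD fun m hm =>
    ⟨not_le.1 (Finset.mem_filter.1 hm).2, mem_sqf.1 (Finset.mem_filter.1 hm).1⟩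
  have k2 := e2 A N (sqf N) ∅ α hA0.le hN0.le fun c hc _ =>
    ⟨Finset.empty_subset _, by rw [Ns_empty, mul_one]; exact mem_sqf.1 hc⟩
  have k3 : ∑ m ∈ (sqf M).filter fun m => Ns m ≤ A, ‖∑ n ∈ sqf N, α n * xs c2 n (pr m)‖ ^ 2
      ≤ ∑ a ∈ calA A, ‖∑ n ∈ sqf N, α n * xs c2 n a‖ ^ 2 := by
    rw [← Finset.sum_image (f := fun a => ‖∑ n ∈ sqf N, α n * xs c2 n a‖ ^ 2) pr_inj.injOn]
    refine Finset.sum_le_sum_of_subset_of_nonneg (fun x hx => ?_) fun _ _ _ => sq_nonneg _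
    obtain ⟨m, hm, rfl⟩ := Finset.mem_image.1 hx
    exact mem_calA.2 ⟨isA_pr m, (Finset.mem_filter.1 hm).2⟩
  have k4 : (A * N) ^ (δ / (1 + δ)) ≤ (M * N) ^ δ := by
    have k5 : A * N ≤ (M * N) ^ (1 + δ) := by
      rw [Real.rpow_add (by positivity), Real.rpow_one, hA, div_mul_eq_mul_div, div_le_iff₀ hM0]
      calc N ^ 2 * (M * N) ^ δ * N = N * N * (M * N) ^ δ * N := by ring
        _ ≤ M * N * (M * N) ^ δ * M := by gcongr
    refine (Real.rpow_le_rpow (by positivity) k5 (by positivity)).trans (le_of_eq ?_)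
    rw [← Real.rpow_mul (by positivity), mul_div_cancel₀ _ (by positivity)]
  have k6 : 1 ≤ (M * N) ^ (2 * δ) := Real.one_le_rpow hZ (by linarith)
  have k7 : A ^ ξ ≤ M * (M * N) ^ (2 * δ) := by
    have k8 : A ≤ N ^ (1 / ξ) * (M * N) ^ δ := by
      rw [hA, div_le_iff₀ hM0]
      have k9 : N ^ 2 = N ^ (1 / ξ) * N ^ (2 - 1 / ξ) := by
        rw [← Real.rpow_add hN0, add_sub_cancel, Real.rpow_two]
      calc N ^ 2 * (M * N) ^ δ = N ^ (1 / ξ) * (M * N) ^ δ * N ^ (2 - 1 / ξ) := by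
            rw [k9]; ring
        _ ≤ _ := by gcongr
    refine (Real.rpow_le_rpow hA0.le k8 hξ0.le).trans ?_
    rw [Real.mul_rpow (by positivity) (by positivity), ← Real.rpow_mul hN0.le,
      one_div_mul_cancel hξ0.ne', Real.rpow_one, ← Real.rpow_mul (by positivity)]
    exact mul_le_mul hM (Real.rpow_le_rpow_of_exponent_le hZ (by nlinarith)) (by positivity) hM0.le
  have k10 : C2 * (A * N) ^ (δ / (1 + δ)) * (N + A ^ ξ) ≤ 2 * C2 * (M * N) ^ (3 * δ) * M := by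
    have k11 : N + A ^ ξ ≤ 2 * (M * (M * N) ^ (2 * δ)) := by nlinarith
    calc _ ≤ C2 * (M * N) ^ δ * (2 * (M * (M * N) ^ (2 * δ))) := by gcongr
      _ = _ := by
        rw [show 3 * δ = δ + 2 * δ by ring, Real.rpow_add (by positivity)]
        ring
  rw [← Finset.sum_filter_add_sum_filter_not (sqf M) fun m => Ns m ≤ A]
  have k12 := mul_le_mul_of_nonneg_right k10 hS0
  linarith

end NQ
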