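import Vale.Agent.NQ.Plc
import Vale.Agent.NQ.Stm2

noncomputable section
namespace NQ
open Complex MeasureTheory NumberField Filter
open scoped ComplexConjugate Classical ContDiff Topology

theorem Unit_reps {α : Type*} (r : α → α → Prop) (p : α → Prop) (hr : ∀ x, p x → r x x)
    (hs : ∀ x y, r x y → r y x) (ht : ∀ x y z, r x y → r y z → r x z)
    (hp : ∀ x y, r x y → p y → p x) {B : Set α} (hB : B.Finite)
    (h : ∀ x, p x → ∃ b ∈ B, r b x) :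
    ∃ A : Finset α, (∀ a ∈ A, p a) ∧ ∀ x, p x → ∃! a, a ∈ A ∧ r a x := by
  let c : ∀ x, p x → α := fun x hx => (show ∃ a, r a x from ⟨x, hr x hx⟩).choose
  have hc : ∀ x hx, r (c x hx) x := fun x hx => (show ∃ a, r a x from ⟨x, hr x hx⟩).choose_spec
  have he : ∀ x y hx hy, r x y → c x hx = c y hy := fun x y hx hy hxy => by
    have : (fun a => r a x) = fun a => r a y :=
      funext fun a => propext ⟨fun h => ht _ _ _ h hxy, fun h => ht _ _ _ h (hs _ _ hxy)⟩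
    simp only [c]
    congr 1
  have : Finite B := hB
  have hf : (Set.range fun b : {b : B // p b} => c b.1 b.2).Finite := Set.finite_range _
  refine ⟨hf.toFinset, fun a ha => ?_, fun x hx => ?_⟩
  · obtain ⟨b, rfl⟩ := hf.mem_toFinset.1 ha
    exact hp _ _ (hc _ b.2) b.2
  · obtain ⟨b, hb, hbx⟩ := h x hx
    refine ⟨c x hx, ⟨hf.mem_toFinset.2 ⟨⟨⟨b, hb⟩, hp _ _ hbx hx⟩, he _ _ (hp _ _ hbx hx) hx hbx⟩,
      hc _ hx⟩, ?_⟩
    rintro a ⟨ha, hax⟩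
    obtain ⟨b', rfl⟩ := hf.mem_toFinset.1 ha
    exact he _ _ b'.2 hx (ht _ _ _ (hs _ _ (hc _ b'.2)) hax)

variable [σ : St]

theorem Unit_equiv (n : ℕ) : Equivalence fun x y : E => ∃ e : Eˣ, y = e ^ n * x where
  refl x := ⟨1, by simp⟩
  symm := by
    rintro x _ ⟨e, rfl⟩
    exact ⟨e⁻¹, by rw [← mul_assoc, ← mul_pow, Units.inv_mul, one_pow, one_mul]⟩
  trans := by
    rintro x _ _ ⟨e, rfl⟩ ⟨f, rfl⟩
    exact ⟨f * e, by rw [Units.val_mul, mul_pow, mul_assoc]⟩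

theorem isU_one (n : ℕ) : IsU n 1 := ⟨isUnit_one, by rw [if_pos ⟨1, by simp⟩]⟩
theorem exists_isU (n : ℕ) {u : E} (hu : IsUnit u) : ∃ (e : Eˣ) (u0 : E), IsU n u0 ∧ u = e ^ n * u0 := by
  by_cases h : ∃ e : Eˣ, u = e ^ n
  · obtain ⟨e, he⟩ := h
    exact ⟨e, 1, isU_one n, by rw [he, mul_one]⟩
  · obtain ⟨e, he⟩ := (Unit_equiv n).eqvGen_iff.1 (Quot.eqvGen_exact
      (Quot.out_eq (Quot.mk (fun x y : E => ∃ e : Eˣ, y = e ^ n * x) u)))
    refine ⟨e, _, ⟨isUnit_of_mul_isUnit_right (he ▸ hu), ?_⟩, he⟩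
    rw [if_neg, Quot.out_eq]
    rintro ⟨f, hf⟩
    exact h ⟨e * f, by rw [Units.val_mul, mul_pow, ← hf, ← he]⟩
theorem isU_unique {n : ℕ} {u u' : E} (hu : IsU n u) (hu' : IsU n u') (e : Eˣ)
    (h : u' = e ^ n * u) : u' = u := by
  have h1 := hu.2
  have h2 := hu'.2
  by_cases h3 : ∃ e : Eˣ, u = e ^ n
  · obtain ⟨f, hf⟩ := h3
    rw [if_pos ⟨f, hf⟩] at h1
    rw [if_pos ⟨e, by rw [h, h1, mul_one]⟩] at h2
    rw [h1, h2]
  · rw [if_neg h3] at h1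
    rw [if_neg] at h2
    · rw [h1, h2, Quot.sound (r := fun x y : E => ∃ e : Eˣ, y = e ^ n * x) ⟨e, h⟩]
    · rintro ⟨f, hf⟩
      refine h3 ⟨e⁻¹ * f, ?_⟩
      rw [Units.val_mul, mul_pow, ← hf, h, ← mul_assoc, ← mul_pow, Units.inv_mul, one_pow, one_mul]
theorem lg_mul {x y : FF} (hx : x ≠ 0) (hy : y ≠ 0) : lg (x * y) = lg x + lg y := by
  funext w
  simp only [lg, map_mul, norm_mul, mul_pow, Pi.add_apply]
  exact Real.log_mul (em_sq_pos w hx).ne' (em_sq_pos w hy).ne'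
theorem lg_inv (x : FF) : lg x⁻¹ = -lg x := by
  funext w
  simp only [lg, map_inv₀, norm_inv, inv_pow, Real.log_inv, Pi.neg_apply]
theorem sum_lg {x : FF} (hx : x ≠ 0) : ∑ w, lg x w = Real.log (Ninf x) :=
  (Real.log_prod fun w _ => (em_sq_pos w hx).ne').symm
theorem sum_lg_unit (e : (𝓞 FF)ˣ) : ∑ w, lg ((e : 𝓞 FF) : FF) w = 0 := by
  rw [sum_lg (Units.coe_ne_zero e), Ninf_eq_norm, Units.norm, Rat.cast_one, Real.log_one]
/-- Finitely many integers have bounded conjugates. -/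
theorem finite_int_box (R : ℝ) : {x : FF | IsIntegral ℤ x ∧ ∀ w, ‖em w x‖ ≤ R}.Finite := by
  refine (Embeddings.finite_of_norm_le FF ℂ R).subset fun x hx => ⟨hx.1, fun φ => ?_⟩
  obtain ⟨w | w, rfl⟩ := plEquiv.surjective φ
  · rw [plEquiv_inl]
    exact hx.2 w
  · rw [plEquiv_inr, Complex.norm_conj]
    exact hx.2 w

theorem Unit_conj (w w' : Pl) : ComplexEmbedding.conjugate (em w) ≠ em w' := fun h => by
  have h1 := RingHom.congr_fun h σ.w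
  rw [ComplexEmbedding.conjugate_coe_eq, em_w, em_w] at h1
  have h2 := congrArg Complex.im h1
  have h3 : (0 : ℝ) < √3 := by positivity
  simp [QRH.omC] at h2
  linarith

open NumberField.Units NumberField.Units.dirichletUnitTheorem in
/-- The unit theorem: the logarithms of units are relatively dense in the trace zero hyperplane. -/
theorem exists_unit_close : ∃ K : ℝ, ∀ u : Pl → ℝ, ∑ w, u w = 0 →
    ∃ e : (𝓞 FF)ˣ, ∀ w, |u w + lg ((e : 𝓞 FF) : FF) w| ≤ K := by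
  let b := (basisUnitLattice FF).ofZLatticeBasis ℝ (unitLattice FF)
  have hinj : ∀ w w' : Pl, InfinitePlace.mk (em w) = InfinitePlace.mk (em w') → w = w' :=
    fun w w' h => Subtype.ext ((InfinitePlace.mk_eq_iff.1 h).resolve_right (Unit_conj w w'))
  have hC : 0 ≤ ∑ i, ‖b i‖ := by positivity
  refine ⟨(rk + 1) * ∑ i, ‖b i‖, fun u hu => ?_⟩
  let m : logSpace FF := fun v => -∑ w with InfinitePlace.mk (em w) = v.1, u w
  have h1 : (ZSpan.floor b m : logSpace FF) ∈ unitLattice FF :=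
    (basisUnitLattice FF).ofZLatticeBasis_span ℝ ▸ (ZSpan.floor b m).2
  obtain ⟨x, -, hx⟩ := h1
  have h2 : ∀ w : Pl, InfinitePlace.mk (em w) ≠ w₀ →
      |u w + lg ((x.toMul : 𝓞 FF) : FF) w| ≤ ∑ i, ‖b i‖ := fun w hw => by
    have h3 := (norm_le_pi_norm _ ⟨_, hw⟩).trans (ZSpan.norm_fract_le b m)
    have h4 : (Finset.univ.filter fun w' : Pl =>
        InfinitePlace.mk (em w') = InfinitePlace.mk (em w)) = {w} := by
      ext w'
      rw [Finset.mem_filter, Finset.mem_singleton]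
      exact ⟨fun h => hinj w' w h.2, fun h => ⟨Finset.mem_univ _, h ▸ rfl⟩⟩
    have h5 : (InfinitePlace.mk (em w)).mult = 2 := InfinitePlace.IsComplex.mult_eq_two
      ⟨em w, fun h => Unit_conj w w (ComplexEmbedding.isReal_iff.1 h), rfl⟩
    have h6 : logEmbedding FF x ⟨_, hw⟩ = lg ((x.toMul : 𝓞 FF) : FF) w := by
      rw [lg, Real.log_pow, ← h5]
      rfl
    rw [ZSpan.fract_apply, ← hx, Pi.sub_apply, Real.norm_eq_abs, ← abs_neg] at h3
    simp only [m, h4, Finset.sum_singleton] at h3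
    rw [neg_sub, sub_neg_eq_add, add_comm] at h3
    exact h6 ▸ h3
  refine ⟨x.toMul, fun w => ?_⟩
  by_cases hw : InfinitePlace.mk (em w) = w₀
  · have h3 : ∑ w, (u w + lg ((x.toMul : 𝓞 FF) : FF) w) = 0 := by
      rw [Finset.sum_add_distrib, hu, sum_lg_unit, add_zero]
    rw [← Finset.add_sum_erase _ _ (Finset.mem_univ w), add_eq_zero_iff_eq_neg] at h3
    rw [h3, abs_neg]
    refine (Finset.abs_sum_le_sum_abs _ _).trans ((Finset.sum_le_card_nsmul _ _ _ fun w' hw' =>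
      h2 w' fun h => (Finset.mem_erase.1 hw').1 (hinj _ _ (h.trans hw.symm))).trans ?_)
    rw [nsmul_eq_mul]
    refine mul_le_mul_of_nonneg_right ?_ hC
    have : (Finset.univ.erase w).card ≤ rk + 1 := (Finset.card_le_univ _).trans (Nat.le_succ _)
    exact_mod_cast this
  · exact (h2 w hw).trans (le_mul_of_one_le_left hC (by simp))

/-- A power of a prime of `S` is principal. -/
theorem exists_Sunit (v : SP) : ∃ (e : Eˣ) (h : ℕ), 0 < h ∧ ord v.1 ((e : E) : FF) = h ∧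
    ∀ v' : SP, v' ≠ v → ord v'.1 ((e : E) : FF) = 0 := by
  have h0 : v.1.asIdeal ∈ nonZeroDivisors (Ideal (𝓞 FF)) :=
    mem_nonZeroDivisors_of_ne_zero v.1.ne_bot
  obtain ⟨n, hn, h1⟩ : ∃ n, 0 < n ∧ (v.1.asIdeal ^ n).IsPrincipal := by
    refine ⟨Fintype.card (ClassGroup (𝓞 FF)), Fintype.card_pos,
      (ClassGroup.mk0_eq_one_iff (pow_mem h0 _)).1 ?_⟩
    rw [← SubmonoidClass.mk_pow _ h0, map_pow, pow_card_eq_one]
  obtain ⟨x, hx⟩ := h1
  replace hx : v.1.asIdeal ^ n = Ideal.span {x} := hx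
  have := v.1.isPrime
  have h2 : ∀ v' : HS FF, v' ≠ v.1 → (x : FF) ≠ 0 ∧ ord v' (x : FF) = 0 := fun v' hv =>
    ord_eq_zero_of_not_mem fun h => hv (IsDedekindDomain.HeightOneSpectrum.ext
      (v.1.isMaximal.eq_of_le v'.isPrime.ne_top (v'.isPrime.le_of_pow_le
        (hx.le.trans ((Ideal.span_singleton_le_iff_mem _).2 h)))).symm)
  have h3 : x ∉ v.1.asIdeal ^ (n + 1) := fun h =>
    (Ideal.pow_succ_lt_pow v.1.ne_bot _).not_ge
      (hx.le.trans ((Ideal.span_singleton_le_iff_mem _).2 h))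
  have h4 : (x : FF) ≠ 0 := fun h => h3 ((mem_pow_iff_OG _ _ _).2 (Or.inl h))
  have h5 : IsUnit (toE x) := (isUnit_iff_ord fun h => h4 (congrArg Subtype.val h)).2
    fun v' hv => (h2 v' fun h => hv (h ▸ v.2)).2
  refine ⟨h5.unit, n, hn, le_antisymm ?_
    (((mem_pow_iff_OG _ _ _).1 (hx.ge (Ideal.mem_span_singleton_self x))).le h4),
    fun v' hv => (h2 v'.1 fun h => hv (Subtype.ext h)).2⟩
  by_contra h6
  exact h3 ((mem_pow_iff_OG _ _ _).2 (Or.inr (by push_cast; exact Int.add_one_le_of_lt (not_le.1 h6))))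

/-- The classes inside one type. -/
theorem exists_cls {b : FF} (hb : b ≠ 0) : ∃ C : Finset FF,
    (∀ a ∈ C, a ≠ 0 ∧ a / b ∈ OS ∧ b / a ∈ OS) ∧
    ∀ x : FF, x ≠ 0 → x / b ∈ OS → b / x ∈ OS → ∃! a, a ∈ C ∧ Cl a x := by
  have : Finite (𝓞 FF ⧸ Ideal.span {(σ.s : 𝓞 FF) ^ 2}) :=
    Ideal.finiteQuotientOfFreeOfNeBot _ (by simpa using σ.s_pos.ne')
  obtain ⟨C, h1, h2⟩ := Unit_reps Cl (fun x : FF => x ≠ 0 ∧ x / b ∈ OS ∧ b / x ∈ OS)
    (fun x hx => Cl.refl hx.1) (fun _ _ => Cl.symm) (fun _ _ _ => Cl.trans)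
    (fun x y h hy => ⟨h.ne_left, div_mem_OS_trans hy.1 h.symm.div_mem hy.2.1,
      div_mem_OS_trans hy.1 hy.2.2 h.div_mem⟩)
    (Set.finite_range fun q : 𝓞 FF ⧸ Ideal.span {(σ.s : 𝓞 FF) ^ 2} =>
      b * ((Quotient.out q : 𝓞 FF) : FF)) fun x hx => by
      have hs : ss ^ 2 ≠ 0 := pow_ne_zero _ ss_ne_zero
      obtain ⟨z, -, hz⟩ := exists_approx_E one_ne_zero 0 (x / b) hs
      have h3 : (z : FF) ∈ OS := by
        have := add_mem (mul_mem hz (pow_mem ss_mem_OS 2)) hx.2.1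
        rwa [div_mul_cancel₀ _ hs, sub_add_cancel] at this
      let y : 𝓞 FF := ⟨z, integral_of_mem h3⟩
      obtain ⟨t, ht⟩ := Ideal.mem_span_singleton'.1 (Ideal.Quotient.eq.1
        (Ideal.Quotient.mk_out (Ideal.Quotient.mk (Ideal.span {(σ.s : 𝓞 FF) ^ 2}) y)))
      refine ⟨_, ⟨Ideal.Quotient.mk _ y, rfl⟩, Cl.symm ((Cl_iff_sub hx.1).2 ?_)⟩
      have h4 : ((Quotient.out (Ideal.Quotient.mk (Ideal.span {(σ.s : 𝓞 FF) ^ 2}) y) : 𝓞 FF) : FF)
          = z + t * ss ^ 2 := by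
        rw [eq_add_of_sub_eq ht.symm, add_comm]
        simp only [map_add, map_mul, map_pow, map_natCast]
        rfl
      convert mul_mem hx.2.2 (add_mem hz (mem_OS_of_integral t.isIntegral_coe)) using 1
      have := hx.1
      have := ss_ne_zero
      simp only [h4]
      field_simp
      ring
  exact ⟨C, h1, fun x a1 a2 a3 => h2 x ⟨a1, a2, a3⟩⟩

theorem Unit_coe_ne (e : Eˣ) : ((e : E) : FF) ≠ 0 := fun h => e.ne_zero (Subtype.ext h)

theorem Unit_types {n : ℕ} (hn : n ≠ 0) : ∃ B : Finset FF, (∀ b ∈ B, b ≠ 0 ∧ b ∈ OS) ∧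
    ∀ a : FF, a ≠ 0 → ∃ b ∈ B, ∃ e : Eˣ, ((e : E) : FF) ^ n * a / b ∈ OS ∧
      b / (((e : E) : FF) ^ n * a) ∈ OS := by
  choose e h h0 h1 h2 using exists_Sunit
  choose c c0 c1 using exists_ord_S
  have c2 : ∀ m, (c m : FF) ≠ 0 := fun m h => c0 m (Subtype.ext h)
  refine ⟨(Fintype.piFinset fun v => Finset.Ico (0 : ℤ) (n * h v)).image fun m => (c m : FF),
    fun b hb => ?_, fun a ha => ?_⟩
  · obtain ⟨m, hm, rfl⟩ := Finset.mem_image.1 hb
    exact ⟨c2 m, mem_OS_iff.2 fun v => Or.inr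
      ((c1 m v).symm ▸ (Finset.mem_Ico.1 (Fintype.mem_piFinset.1 hm v)).1)⟩
  · have hp : ∀ v, (0 : ℤ) < n * h v := fun v => by
      have := h0 v
      positivity
    let f : Eˣ →* FF := (RR FF σ.s).subtype.toMonoidHom.comp (Units.coeHom E)
    have hf : ∀ e, f e ≠ 0 := Unit_coe_ne
    have h3 : ∀ v : SP, ord v.1 (f (∏ v, e v ^ (-(ord v.1 a / (n * h v)))) ^ n * a) =
        ord v.1 a % (n * h v) := fun v => by
      rw [ord_mul _ (pow_ne_zero _ (hf _)) ha, ord_pow, map_prod,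
        ord_prod _ _ _ fun v _ => hf _, Finset.sum_eq_single v, map_zpow, ord_zpow]
      · rw [show ord v.1 (f (e v)) = h v from h1 v, Int.emod_def]
        ring
      · intro v' _ hv
        rw [map_zpow, ord_zpow, show ord v.1 (f (e v')) = 0 from h2 v' v hv.symm, mul_zero]
      · simp
    refine ⟨c fun v => ord v.1 a % (n * h v), Finset.mem_image.2 ⟨_, Fintype.mem_piFinset.2
      fun v => Finset.mem_Ico.2 ⟨Int.emod_nonneg _ (hp v).ne', Int.emod_lt_of_pos _ (hp v)⟩, rfl⟩,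
      ∏ v, e v ^ (-(ord v.1 a / (n * h v))), (div_mem_OS_iff (c2 _)).2 fun v => Or.inr ?_,
      (div_mem_OS_iff (mul_ne_zero (pow_ne_zero _ (Unit_coe_ne _)) ha)).2 fun v => Or.inr ?_⟩
    · exact ((c1 _ v).trans (h3 v).symm).le
    · exact ((h3 v).trans (c1 (fun v => ord v.1 a % (n * h v)) v).symm).le

theorem exists_A0 : ∃ A : Finset FF, IsA0 A := by
  obtain ⟨B, hB0, hB⟩ := Unit_types one_ne_zero
  have hi : ∀ e : Eˣ, (((e⁻¹ : Eˣ) : E) : FF) = ((e : E) : FF)⁻¹ := fun e =>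
    eq_inv_of_mul_eq_one_left (congrArg Subtype.val e.inv_mul)
  obtain ⟨A, h1, h2⟩ := Unit_reps (fun b a : FF => a ≠ 0 ∧ b ≠ 0 ∧
      ∃ e : Eˣ, (e : E) * a / b ∈ OS ∧ b / ((e : E) * a) ∈ OS) (· ≠ 0)
    (fun x hx => ⟨hx, hx, 1, by simp [hx], by simp [hx]⟩)
    (fun x y ⟨hy, hx, e, h1, h2⟩ => ⟨hx, hy, e⁻¹, by
      convert h2 using 1
      rw [hi]
      field_simp, by
      convert h1 using 1
      rw [hi]
      field_simp⟩)
    (fun x y z ⟨_, hx, e, h1, h2⟩ ⟨hz, hy, f, h3, h4⟩ => ⟨hz, hx, e * f, by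
      convert mul_mem h1 h3 using 1
      push_cast
      field_simp, by
      convert mul_mem h2 h4 using 1
      have := Unit_coe_ne e
      have := Unit_coe_ne f
      push_cast
      field_simp⟩)
    (fun _ _ h _ => h.2.1) B.finite_toSet
    fun a ha => by
      obtain ⟨b, hb, e, h1, h2⟩ := hB a ha
      exact ⟨b, hb, ha, (hB0 b hb).1, e, by rwa [pow_one] at h1, by rwa [pow_one] at h2⟩
  refine ⟨A, h1, fun a ha => ?_, fun b hb b' hb' e h3 h4 => ?_⟩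
  · obtain ⟨b, ⟨hb, -, -, h⟩, -⟩ := h2 a ha
    exact ⟨b, hb, h⟩
  · exact (h2 b (h1 b hb)).unique ⟨hb, h1 b hb, h1 b hb, 1, by simp [h1 b hb], by simp [h1 b hb]⟩
      ⟨hb', h1 b hb, h1 b' hb', e, h3, h4⟩

theorem Unit_norm {n : ℕ} (hn : n ≠ 0) :
    ∃ (T : Finset FF) (K : ℝ), 1 ≤ K ∧ (∀ a0 ∈ T, a0 ≠ 0 ∧ a0 ∈ OS) ∧
    ∀ X : Sc, X.OK → ∃ (e : Eˣ) (a0 : FF), a0 ∈ T ∧ Cl a0 (((e : E) : FF) ^ n * X.a) ∧
      ∀ w, X.sz ^ (1 / rk : ℝ) / K ≤ ‖em w (((e : E) : FF) ^ n)‖ ^ 2 * X.T w ∧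
        ‖em w (((e : E) : FF) ^ n)‖ ^ 2 * X.T w ≤ K * X.sz ^ (1 / rk : ℝ) := by
  obtain ⟨B, hB, hB'⟩ := Unit_types hn
  obtain ⟨K, hK⟩ := exists_unit_close
  choose C hC hC' using fun b : B => exists_cls (hB b.1 b.2).1
  have hn' : (0 : ℝ) < n := by positivity
  have hr : (1 : ℝ) ≤ rk := by exact_mod_cast rk_pos
  refine ⟨Finset.univ.biUnion C, Real.exp (n * |K| + ∑ b ∈ B, |Real.log (sS b)|),
    Real.one_le_exp (by positivity), fun a0 h => ?_, fun X hX => ?_⟩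
  · obtain ⟨b, -, hb⟩ := Finset.mem_biUnion.1 h
    have := mul_mem (hC b a0 hb).2.1 (hB b.1 b.2).2
    rw [div_mul_cancel₀ _ (hB b.1 b.2).1] at this
    exact ⟨(hC b a0 hb).1, this⟩
  obtain ⟨b, hb, e, h1, h2⟩ := hB' X.a hX.1
  have he := pow_ne_zero n (Unit_coe_ne e)
  let u : Pl → ℝ := fun w => lg (((e : E) : FF) ^ n) w + Real.log (X.T w)
  have hsz : 0 < X.sz := mul_pos (sS_pos _) (Finset.prod_pos fun w _ => hX.2 w)
  have hu : ∑ w, u w = Real.log X.sz - Real.log (sS b) := by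
    have h3 : Ninf (((e : E) : FF) ^ n) * sS (((e : E) : FF) ^ n) = 1 :=
      sS_unit (u := e ^ n) (e.isUnit.pow n)
    have h4 := sS_eq_of (mul_ne_zero he hX.1) (hB b hb).1 h1 h2
    rw [sS_mul he hX.1] at h4
    rw [Finset.sum_add_distrib, sum_lg he, ← Real.log_prod fun w _ => (hX.2 w).ne', Sc.sz,
      Real.log_mul (sS_pos _).ne' (Finset.prod_pos fun w _ => hX.2 w).ne', ← h4,
      Real.log_mul (sS_pos _).ne' (sS_pos _).ne', eq_inv_of_mul_eq_one_left h3, Real.log_inv]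
    ring
  obtain ⟨ε, hε⟩ := hK (fun w => (u w - (∑ w, u w) / rk) / n) (by
    rw [← Finset.sum_div, Finset.sum_sub_distrib, Finset.sum_const, nsmul_eq_mul,
      Finset.card_univ, show (Fintype.card Pl : ℝ) = rk from rfl]
    field_simp
    ring)
  have h0 : ((ε : 𝓞 FF) : FF) ≠ 0 := Units.coe_ne_zero ε
  have h5 : (((e * Units.map toE.toMonoidHom ε : Eˣ) : E) : FF) ^ n =
      ((ε : 𝓞 FF) : FF) ^ n * ((e : E) : FF) ^ n := by
    rw [← mul_pow, mul_comm]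
    rfl
  have h6 : ((ε : 𝓞 FF) : FF)⁻¹ ∈ OS := by
    rw [← eq_inv_of_mul_eq_one_left (congrArg (algebraMap (𝓞 FF) FF) ε.inv_mul |>.trans
      (map_one _) |> (map_mul _ _ _).symm.trans)]
    exact mem_OS_of_integral (RingOfIntegers.isIntegral_coe _)
  obtain ⟨a0, ⟨h7, h8⟩, -⟩ := hC' ⟨b, hb⟩ (((ε : 𝓞 FF) : FF) ^ n * ((e : E) : FF) ^ n * X.a)
    (mul_ne_zero (mul_ne_zero (pow_ne_zero _ h0) he) hX.1) (by
      convert mul_mem (pow_mem (mem_OS_of_integral (ε : 𝓞 FF).isIntegral_coe) n) h1 using 1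
      ring) (by
      convert mul_mem (pow_mem h6 n) h2 using 1
      rw [inv_pow]
      field_simp)
  refine ⟨e * Units.map toE.toMonoidHom ε, a0, Finset.mem_biUnion.2 ⟨_, Finset.mem_univ _, h7⟩,
    h5 ▸ h8, fun w => ?_⟩
  have h9 : ‖em w (((ε : 𝓞 FF) : FF) ^ n * ((e : E) : FF) ^ n)‖ ^ 2 * X.T w =
      Real.exp (u w + n * lg ((ε : 𝓞 FF) : FF) w) := by
    simp only [u, lg]
    rw [Real.exp_add, Real.exp_add, Real.exp_log (em_sq_pos w he), Real.exp_log (hX.2 w),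
      ← Real.log_pow, Real.exp_log (pow_pos (em_sq_pos w h0) n), map_mul, map_pow (em w) _ n,
      norm_mul, norm_pow]
    ring
  have h10 : |Real.log (sS b) / rk| ≤ ∑ b ∈ B, |Real.log (sS b)| := by
    rw [abs_div, abs_of_nonneg (zero_le_one.trans hr)]
    exact (div_le_self (abs_nonneg _) hr).trans
      (Finset.single_le_sum (f := fun b => |Real.log (sS b)|) (fun _ _ => abs_nonneg _) hb)
  have h11 : |u w - (∑ w, u w) / rk + n * lg ((ε : 𝓞 FF) : FF) w| ≤ n * |K| := by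
    have := mul_le_mul_of_nonneg_left ((hε w).trans (le_abs_self K)) hn'.le
    rwa [← abs_of_pos hn', ← abs_mul, abs_of_pos hn', mul_add, mul_div_cancel₀ _ hn'.ne'] at this
  rw [hu, sub_div] at h11
  rw [h5, h9, Real.rpow_def_of_pos hsz, ← Real.exp_sub, ← Real.exp_add, mul_one_div,
    Real.exp_le_exp, Real.exp_le_exp]
  rw [abs_le] at h10 h11
  constructor <;> linarith [h10.1, h10.2, h11.1, h11.2]

theorem finite_isU {n : ℕ} (hn : n ≠ 0) : {u : E | IsU n u}.Finite := by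
  obtain ⟨T, K, hK, hT, h⟩ := Unit_norm hn
  have h1 : ∀ u : {u : E | IsU n u}, ∃ e : Eˣ, IsIntegral ℤ ((e ^ n * u : E) : FF) ∧
      ∀ w, ‖em w ((e ^ n * u : E) : FF)‖ ≤ K := fun u => by
    have hu : ((u : E) : FF) ≠ 0 := fun h => u.2.1.ne_zero (Subtype.ext h)
    obtain ⟨e, a0, h1, h2, h3⟩ := h ⟨u, fun w => ‖em w u‖ ^ 2⟩ ⟨hu, fun w => em_sq_pos w hu⟩
    refine ⟨e, integral_of_mem ?_, fun w => ?_⟩
    · have := mul_mem h2.div_mem (hT a0 h1).2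
      rwa [div_mul_cancel₀ _ (hT a0 h1).1] at this
    · have h4 := (h3 w).2
      rw [show Sc.sz ⟨u, fun w => ‖em w u‖ ^ 2⟩ = 1 from (mul_comm _ _).trans (sS_unit u.2.1),
        Real.one_rpow, mul_one, ← mul_pow, ← norm_mul, ← map_mul] at h4
      exact abs_le_of_sq_le_sq' (h4.trans (le_self_pow₀ hK two_ne_zero)) (zero_le_one.trans hK) |>.2
  choose e h2 h3 using h1
  have := (finite_int_box K).to_subtype
  refine Finite.of_injective (fun u : {u : E | IsU n u} => (⟨_, h2 u, h3 u⟩ :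
    {x : FF | IsIntegral ℤ x ∧ ∀ w, ‖em w x‖ ≤ K})) fun u u' h => Subtype.ext ?_
  have h4 : e u ^ n * u.1 = e u' ^ n * u'.1 := Subtype.ext (Subtype.mk.inj h)
  refine isU_unique u'.2 u.2 ((e u)⁻¹ * e u') ?_
  rw [Units.val_mul, mul_pow, mul_assoc, ← h4, ← mul_assoc, ← mul_pow, Units.inv_mul, one_pow,
    one_mul]
/-- Normalisation of a scale by the sixth power of a unit. -/
theorem exists_norm : ∃ (T : Finset FF) (K : ℝ), 1 ≤ K ∧ (∀ a0 ∈ T, a0 ≠ 0 ∧ a0 ∈ OS) ∧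
    ∀ X : Sc, X.OK → ∃ (e : Eˣ) (a0 : FF), a0 ∈ T ∧ Cl a0 (((e : E) : FF) ^ 6 * X.a) ∧
      ∀ w, X.sz ^ (1 / rk : ℝ) / K ≤ ‖em w (((e : E) : FF) ^ 6)‖ ^ 2 * X.T w ∧
        ‖em w (((e : E) : FF) ^ 6)‖ ^ 2 * X.T w ≤ K * X.sz ^ (1 / rk : ℝ) :=
  Unit_norm (by norm_num)
/-- Normalisation of an element. -/
theorem exists_bal : ∃ (T : Finset FF) (K : ℝ), 1 ≤ K ∧ (∀ a0 ∈ T, a0 ≠ 0 ∧ a0 ∈ OS) ∧
    ∀ x : E, x ≠ 0 → ∃ (e : Eˣ) (a0 : FF), a0 ∈ T ∧ Cl a0 ((e ^ 6 * x : E) : FF) ∧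
      ∀ w, (nm x : ℝ) ^ (1 / rk : ℝ) / K ≤ ‖em w ((e ^ 6 * x : E) : FF)‖ ^ 2 ∧
        ‖em w ((e ^ 6 * x : E) : FF)‖ ^ 2 ≤ K * (nm x : ℝ) ^ (1 / rk : ℝ) := by
  obtain ⟨T, K, hK, hT, h⟩ := exists_norm
  refine ⟨T, K, hK, hT, fun x hx => ?_⟩
  have hu : (x : FF) ≠ 0 := fun h => hx (Subtype.ext h)
  obtain ⟨e, a0, h1, h2, h3⟩ := h ⟨x, fun w => ‖em w x‖ ^ 2⟩ ⟨hu, fun w => em_sq_pos w hu⟩
  refine ⟨e, a0, h1, h2, fun w => ?_⟩
  have h4 := h3 w
  rwa [show Sc.sz ⟨x, fun w => ‖em w x‖ ^ 2⟩ = nm x from (mul_comm _ _).trans (nm_eq hx).symm,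
    ← mul_pow, ← norm_mul, ← map_mul] at h4

end NQ
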