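import Vale.Agent.NQ.Gauss
import Vale.Agent.NQ.Unit

noncomputable section
namespace NQ
open Complex MeasureTheory NumberField Filter
open scoped ComplexConjugate Classical ContDiff Topology

variable [σ : St]

/-- Quadratic Gauss sum. -/
def qdS (t c : E) : ℂ := rsum c fun x => psf (t * x ^ 2) c
/-- Normalised quadratic Gauss sum. -/
def qdG (t c : E) : ℂ := qdS t c / (√(nm c : ℝ) : ℝ)

theorem qdG_one (c : E) : qdG 1 c = gq c := by
  simp only [qdG, qdS, gq, one_mul]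

theorem qd_per (t c : E) : Per c fun x => psf (t * x ^ 2) c := fun x y h =>
  psf_congr (by
    rw [show t * x ^ 2 - t * y ^ 2 = (x - y) * (t * (x + y)) by ring]
    exact h.mul_right _)

theorem qdS_inv {a b b' : E} (ha : a ≠ 0) (hab : IsCoprime b a) (hb' : a ∣ b * b' - 1) (t : E) :
    rsum a (fun x => psf (t * x ^ 2 * b') a) = qdS (t * b) a := by
  have hp : Per a fun x => psf (t * x ^ 2 * b') a := fun x y h =>
    psf_congr (by
      rw [show t * x ^ 2 * b' - t * y ^ 2 * b' = (x - y) * (t * (x + y) * b') by ring]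
      exact h.mul_right _)
  rw [← rsum_mul_unit ha hp hab, qdS]
  refine congrArg _ (funext fun x => psf_congr ?_)
  rw [show t * (b * x) ^ 2 * b' - t * b * x ^ 2 = (b * b' - 1) * (t * b * x ^ 2) by ring]
  exact hb'.mul_right _

theorem qdS_mul {a b : E} (ha : a ≠ 0) (hb : b ≠ 0) (hab : IsCoprime a b) (t : E) :
    qdS t (a * b) = qdS (t * b) a * qdS (t * a) b := by
  have h1 := inv_spec hab
  have h2 := inv_spec hab.symm
  have hp : ∀ c u : E, Per c fun x => psf (t * x ^ 2 * u) c := fun c u x y h =>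
    psf_congr (by
      rw [show t * x ^ 2 * u - t * y ^ 2 * u = (x - y) * (t * (x + y) * u) by ring]
      exact h.mul_right _)
  rw [← qdS_inv ha hab.symm h2, ← qdS_inv hb hab h1, ← rsum_crt ha hb hab (hp _ _) (hp _ _), qdS]
  exact congrArg _ (funext fun x => psf_crt ha hb hab h1 h2 _)

theorem qdG_mul {a b : E} (ha : a ≠ 0) (hb : b ≠ 0) (hab : IsCoprime a b) (t : E) :
    qdG t (a * b) = qdG (t * b) a * qdG (t * a) b := by
  unfold qdG
  rw [qdS_mul ha hb hab, nm_mul, Nat.cast_mul, Real.sqrt_mul (Nat.cast_nonneg _), ofReal_mul,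
    div_mul_div_comm]

theorem qdS_sq {p c t : E} (hp : Prime p) (hc : c ≠ 0) (h2 : ¬ p ∣ 2) (ht : ¬ p ∣ t) :
    qdS t (p * c * p) = nm p * qdS t c := by
  have hp0 := hp.ne_zero
  have hpc : p * c ≠ 0 := mul_ne_zero hp0 hc
  have key : ∀ x, rsum p (fun y => psf (t * (x + p * c * y) ^ 2) (p * c * p)) =
      if p ∣ x then (nm p : ℂ) * psf (t * x ^ 2) (p * c * p) else 0 := by
    intro x
    have e : (fun y => psf (t * (x + p * c * y) ^ 2) (p * c * p)) =
        fun y => psf (t * x ^ 2) (p * c * p) * psf (y * (2 * t * x)) p := by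
      funext y
      rw [← psf_scale hpc (y * (2 * t * x)) p, ← psf_add]
      refine psf_congr ⟨t * c * y ^ 2, by ring⟩
    rw [e, rsum_mul_left, rsum_psf hp0]
    by_cases hx : p ∣ x
    · rw [if_pos hx, if_pos (hx.mul_left _), mul_comm]
    · rw [if_neg hx, if_neg, mul_zero]
      intro h
      rcases hp.dvd_or_dvd h with h | h
      · exact (hp.dvd_or_dvd h).elim h2 ht
      · exact hx h
  have hper : Per (p * c) fun x =>
      if p ∣ x then (nm p : ℂ) * psf (t * x ^ 2) (p * c * p) else 0 := by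
    intro x y hxy
    have h1 : p ∣ x - y := (dvd_mul_right p c).trans hxy
    by_cases hx : p ∣ x
    · have hy : p ∣ y := by simpa using hx.sub h1
      simp only [if_pos hx, if_pos hy]
      congr 1
      refine psf_congr ?_
      rw [show t * x ^ 2 - t * y ^ 2 = (x - y) * (x + y) * t by ring]
      exact (mul_dvd_mul hxy (hx.add hy)).mul_right _
    · have hy : ¬ p ∣ y := fun hy => hx (by simpa using h1.add hy)
      simp only [if_neg hx, if_neg hy]
  rw [qdS, rsum_mul hpc hp0 (qd_per _ _), funext key,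
    rsum_supp hp0 hc hper fun x hx => if_neg hx, qdS, ← rsum_mul_left]
  refine congrArg _ (funext fun y => ?_)
  rw [if_pos (dvd_mul_right p y), ← psf_scale (mul_ne_zero hp0 hp0) (t * y ^ 2) c]
  congr 2 <;> ring

theorem qdG_sq {p c t : E} (hp : Prime p) (hc : c ≠ 0) (h2 : ¬ p ∣ 2) (ht : ¬ p ∣ t) :
    qdG t (p * c * p) = qdG t c := by
  have h0 : (nm p : ℂ) ≠ 0 := Nat.cast_ne_zero.2 fun h => hp.ne_zero (nm_eq_zero.1 h)
  have h1 : √(nm (p * c * p) : ℝ) = nm p * √(nm c : ℝ) := by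
    rw [mul_right_comm, nm_mul, nm_mul, Nat.cast_mul, Nat.cast_mul,
      Real.sqrt_mul (mul_self_nonneg _), Real.sqrt_mul_self (Nat.cast_nonneg _)]
  unfold qdG
  rw [qdS_sq hp hc h2 ht, h1, ofReal_mul, ofReal_natCast, mul_div_mul_left _ _ h0]

theorem qdS_prime {p : P} {t : E} (ht : ¬ p.1 ∣ t) : qdS t p.1 = c2 p t * gs c2 {p} := by
  have e : (fun x => psf (t * x ^ 2) p.1) = fun x => psf (x ^ 2 * t) p.1 :=
    funext fun x => by rw [mul_comm]
  have h1 := rsum_sq p (per_psf t p.1)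
  have h3 : (fun y => (1 + c2 p y) * psf (y * t) p.1) =
      fun y => psf (y * t) p.1 + c2 p y * psf (y * t) p.1 := funext fun y => by ring
  rw [qdS, e, h1, h3, rsum_add, rsum_psf p.ne_zero, if_neg ht, zero_add,
    (c2_mc p).gauss_twist (c2_nt p), conj_c2, gs_singleton]

theorem qdS_unit {u : E} (hu : IsUnit u) (t : E) : qdS t u = 1 := by
  rw [qdS, rsum_unit hu (qd_per _ _), zero_pow two_ne_zero, mul_zero, psf_zero]

theorem qdG_unit {u : E} (hu : IsUnit u) (t : E) : qdG t u = 1 := by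
  rw [qdG, qdS_unit hu, isUnit_iff.1 hu, Nat.cast_one, Real.sqrt_one, ofReal_one, div_one]

theorem qdS_pr (s : Finset P) : ∀ t : E, (∀ p ∈ s, ¬ p.1 ∣ t) →
    qdS t (pr s) = xs c2 s t * gs c2 s := by
  induction s using Finset.induction_on with
  | empty => intro t _; rw [pr_empty, qdS_unit isUnit_one, xs_empty, gs_empty, mul_one]
  | insert p s hp ih =>
    intro t ht
    have hd : Disjoint {p} s := Finset.disjoint_singleton_left.2 hp
    have hc : IsCoprime p.1 (pr s) := by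
      rw [← pr_singleton]
      exact coprime_pr.2 hd
    have h1 : ¬ p.1 ∣ t * pr s := fun h =>
      (p.prime.dvd_or_dvd h).elim (ht p (Finset.mem_insert_self _ _)) fun h => hp (dvd_pr_iff.1 h)
    have h2 : ∀ q ∈ s, ¬ q.1 ∣ t * p.1 := fun q hq h =>
      (q.prime.dvd_or_dvd h).elim (ht q (Finset.mem_insert_of_mem hq)) fun h =>
        hp ((P.dvd_iff q p).1 h ▸ hq)
    have e : ∀ n, xs c2 {p} n = c2 p n := fun n => Finset.prod_singleton _ _
    rw [pr_insert hp, qdS_mul p.ne_zero (pr_ne_zero s) hc, qdS_prime h1, ih _ h2, Finset.insert_eq,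
      gs_union ch_c2 hd, xs_union hd, e, e, pr_singleton, (c2_mc p).mul, xs_mul ch_c2]
    ring

theorem qdG_sqf {s : Finset P} {c t : E} (hc : Associated c (pr s)) (ht : ∀ p ∈ s, ¬ p.1 ∣ t) :
    qdG t c = xs c2 s t * gamE c2 s c := by
  rw [qdG, gamE, nm_of_assoc_pr hc, ← mul_div_assoc]
  obtain ⟨u, rfl⟩ := hc.symm
  rw [mul_comm (pr s), qdS_mul u.ne_zero (pr_ne_zero s) (isCoprime_iff.2 fun p hp =>
    p.not_dvd_unit u.isUnit hp.1), qdS_unit u.isUnit, one_mul, qdS_pr s _ fun p hp h =>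
      (p.prime.dvd_or_dvd h).elim (ht p hp) (p.not_dvd_unit u.isUnit),
    gsE_unit ch_c2 (Associated.refl _) u.isUnit, xs_mul ch_c2, mul_assoc, gs]

theorem gq_unit (s : Finset P) {c : E} (hc : Associated c (pr s)) : gq c = gamE c2 s c := by
  rw [← qdG_one, qdG_sqf hc fun p _ => p.not_dvd_unit isUnit_one, xs_one ch_c2, one_mul]

theorem qd_main (n : ℕ) : ∀ c : E, nm c = n → c ≠ 0 →
    ∃ g : ℂ, ‖g‖ = 1 ∧ ∀ t, IsCoprime c t → qdG t c = xv c2 c t * g := by
  induction n using Nat.strong_induction_on with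
  | _ n ih =>
    intro c hn hc0
    have hnd : ∀ {t : E}, IsCoprime c t → ∀ p : P, p.1 ∣ c → ¬ p.1 ∣ t := fun h p h1 h3 =>
      isCoprime_iff.1 h p ⟨h1, h3⟩
    by_cases hv : ∀ p : P, vp p.1 c ≤ 1
    · have e := squarefree_iff_assoc.1 ((squarefree_iff_vp hc0).2 hv)
      refine ⟨gamE c2 (fac c) c, norm_gamE ch_c2 e, fun t ht => ?_⟩
      rw [xv_assoc e, xv_pr]
      exact qdG_sqf e fun p hp => hnd ht p ((mem_fac hc0).1 hp)
    · obtain ⟨p, hp⟩ := not_forall.1 hv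
      obtain ⟨c₁, h1⟩ := (pow_dvd_iff p.prime hc0 2).2 (not_le.1 hp)
      have e : c = p.1 * c₁ * p.1 := by rw [h1]; ring
      have hc₁0 : c₁ ≠ 0 := fun h => hc0 (by rw [h1, h, mul_zero])
      have hd : c₁ ∣ c := ⟨p.1 ^ 2, by rw [h1]; ring⟩
      have hpd : p.1 ∣ c := ⟨c₁ * p.1, by rw [h1]; ring⟩
      have hlt : nm c₁ < n := by
        have a1 := p.four_le_nm
        have a2 := one_le_nm hc₁0
        rw [← hn, h1, nm_mul, nm_pow]
        exact lt_mul_of_one_lt_left a2 (one_lt_pow₀ (by omega) two_ne_zero)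
      obtain ⟨g, hg, H⟩ := ih _ hlt c₁ rfl hc₁0
      refine ⟨g, hg, fun t ht => ?_⟩
      have a3 : xv c2 c t = xv c2 c₁ t := by
        rw [h1, xv_mul_left (pow_ne_zero 2 p.ne_zero) hc₁0, xv_pow_left p.ne_zero, xv_prime,
          c2_sq (hnd ht p hpd), one_mul]
      rw [a3, ← H t (ht.of_isCoprime_of_dvd_left hd), e,
        qdG_sq p.prime hc₁0 p.not_dvd_two (hnd ht p hpd)]

theorem qd_norm {c : E} (hc : c ≠ 0) : ‖gq c‖ = 1 := by
  obtain ⟨g, hg, H⟩ := qd_main _ c rfl hc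
  rw [← qdG_one, H 1 isCoprime_one_right, xv_one ch_c2, one_mul, hg]

theorem qd_ne {c : E} (hc : c ≠ 0) : gq c ≠ 0 := by
  intro h
  have := qd_norm hc
  rw [h, norm_zero] at this
  exact zero_ne_one this

theorem qdG_eq {c t : E} (hc : c ≠ 0) (ht : IsCoprime c t) : qdG t c = xv c2 c t * gq c := by
  obtain ⟨g, _, H⟩ := qd_main _ c rfl hc
  rw [← qdG_one, H 1 isCoprime_one_right, xv_one ch_c2, one_mul, H t ht]

theorem qd_pair {c n : E} (hc : c ≠ 0) (hn : n ≠ 0) (h : IsCoprime c n) :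
    gq (c * n) = xv c2 c n * xv c2 n c * (gq c * gq n) := by
  rw [← qdG_one, qdG_mul hc hn h, one_mul, one_mul, qdG_eq hc h, qdG_eq hn h.symm]
  ring

theorem qd_self {x : E} (hx : x ≠ 0) : gq (x * x) = 1 := by
  rw [← qdG_one]
  refine induction_nz (M := fun x => qdG 1 (x * x) = 1) (fun u hu => qdG_unit (hu.mul hu) 1)
    (fun p x hx h => ?_) hx
  rw [show p.1 * x * (p.1 * x) = p.1 * (x * x) * p.1 by ring,
    qdG_sq p.prime (mul_ne_zero hx hx) p.not_dvd_two (p.not_dvd_unit isUnit_one), h]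

theorem qd_mul_cl {a b c d : E} (h1 : Cl a c) (h2 : Cl b d) :
    Cl ((a * b : E) : FF) ((c * d : E) : FF) := h1.mul h2

theorem qd_ne_coe {a : FF} {c : E} (h : Cl a c) : c ≠ 0 := fun e =>
  h.ne_zero (by rw [e]; rfl)

theorem qd_sign_norm {a b : E} (ha : a ≠ 0) (hb : b ≠ 0) : ‖gq (a * b) / (gq a * gq b)‖ = 1 := by
  rw [norm_div, norm_mul, qd_norm ha, qd_norm hb, qd_norm (mul_ne_zero ha hb), mul_one, div_one]

/-- Reciprocity, with the sign computed from any elements of the two classes. -/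
theorem qd_rec (h : QG) {a b c n : E} (h1 : Cl a c) (h2 : Cl b n) :
    xv c2 c n = gq (a * b) / (gq a * gq b) * xv c2 n c := by
  have hc := qd_ne_coe h1
  have hn := qd_ne_coe h2
  by_cases hcn : IsCoprime c n
  · have h4 := xv_c2_sq hn (isCoprime_iff.1 hcn.symm)
    rw [h _ _ (qd_mul_cl h1 h2), h _ _ h1, h _ _ h2, qd_pair hc hn hcn,
      mul_div_cancel_right₀ _ (mul_ne_zero (qd_ne hc) (qd_ne hn)), mul_assoc, ← sq, h4, mul_one]
  · obtain ⟨p, hp⟩ := not_forall.1 (mt isCoprime_iff.2 hcn)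
    obtain ⟨p1, p2⟩ := not_not.1 hp
    rw [(xv_eq_zero_iff ch_c2 hc).2 ⟨p, p1, p2⟩, (xv_eq_zero_iff ch_c2 hn).2 ⟨p, p2, p1⟩, mul_zero]

theorem qd_refl {n : E} (hn : n ≠ 0) : Cl n n := Cl.refl fun e => hn (Subtype.ext e)

theorem xR2 (h : QG) : XR c2 := by
  intro a n ha hn
  obtain ⟨c0, h0, -⟩ := exists_Cl ha one_ne_zero 1
  exact ⟨_, qd_sign_norm (qd_ne_coe h0) hn, fun c hc => qd_rec h (h0.symm.trans hc) (qd_refl hn)⟩

theorem qRec (h : QG) : QRec := by
  obtain ⟨T, K, -, hT, hb⟩ := exists_bal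
  have h1 : ∀ x : E, ∃ a : T, x ≠ 0 → ∃ e : Eˣ, Cl a ((e ^ 6 * x : E) : FF) := fun x => by
    by_cases hx : x = 0
    · obtain ⟨-, a, ha, -⟩ := hb 1 one_ne_zero
      exact ⟨⟨a, ha⟩, fun h0 => absurd hx h0⟩
    · obtain ⟨e, a, ha, hc, -⟩ := hb x hx
      exact ⟨⟨a, ha⟩, fun _ => ⟨e, hc⟩⟩
  choose tp htp using h1
  have h2 : ∀ a : T, ∃ r : E, Cl a r := fun a =>
    (exists_Cl (hT a a.2).1 one_ne_zero 1).imp fun _ hr => hr.1
  choose r hr using h2
  refine ⟨T.card, fun x => T.equivFin (tp x), fun i j =>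
    gq (r (T.equivFin.symm i) * r (T.equivFin.symm j)) /
      (gq (r (T.equivFin.symm i)) * gq (r (T.equivFin.symm j))),
    fun i j => qd_sign_norm (qd_ne_coe (hr _)) (qd_ne_coe (hr _)), fun c n hc hn => ?_⟩
  obtain ⟨e, he⟩ := htp c hc
  obtain ⟨f, hf⟩ := htp n hn
  have h3 := qd_rec h ((hr _).symm.trans he) ((hr _).symm.trans hf)
  have h4 : ∀ (u : Eˣ) (x : E), Associated ((u : E) ^ 6 * x) x := fun u x =>
    associated_unit_mul_left x _ (u.isUnit.pow 6)
  rw [xv_unit_six ch_c2 six_c2, xv_unit_six ch_c2 six_c2, xv_assoc (h4 e c), xv_assoc (h4 f n)] at h3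
  simpa only [Equiv.symm_apply_apply] using h3

theorem qGam (h : QG) : QGam := by
  intro s t c c' hc hc' hcl
  rw [← gq_unit s hc, ← gq_unit t hc', h _ _ hcl]

theorem rec_c2 (h : QG) : Rec c2 := by
  intro c c' x x' hd hx hx' hcl
  have h0 := ga_ne hx
  have h0' := ga_ne hx'
  have h1 := qd_pair h0 h0' (((coprime_pr.2 hd).of_isCoprime_of_dvd_left hx.dvd).of_isCoprime_of_dvd_right
    hx'.dvd)
  have h6 : cj c2 = c2 := funext fun p => funext fun x => conj_c2 p x
  have h7 := gamE_mul_cj ch_c2 hx'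
  rw [h6, ← gq_unit c' hx'] at h7
  rw [h _ _ (qd_mul_cl hcl (qd_refl h0')), qd_self h0', h _ _ hcl, h7, xv_assoc hx, xv_assoc hx',
    xv_pr, xv_pr] at h1
  rw [conj_xs_c2, ← h1]

theorem uni_c2 (h : QG) : Uni c2 := by
  intro s u hu hcl
  have h0 := pr_ne_zero s
  have h1 := qd_pair h0 hu.ne_zero (isCoprime_iff.2 fun p hp => p.not_dvd_unit hu hp.2)
  have h2 := h _ _ (qd_mul_cl (b := 1) (qd_refl h0) hcl)
  rw [← h2, mul_one, xv_pr, xv_unit hu, ← qdG_one u, qdG_unit hu, mul_one, mul_one] at h1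
  exact mul_right_cancel₀ (qd_ne h0) (h1.symm.trans (one_mul _).symm)

end NQ
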