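import Vale.Agent.NQ.Tame
import Vale.Agent.P026.HOne
import Vale.Agent.P026.Recip

noncomputable section
namespace NQ
open NumberField IsDedekindDomain Polynomial
open scoped Classical

section
variable {F : Type} [Field F] [NumberField F] {w : 𝓞 F}

theorem RecB_span (hw : w ^ 2 + w + 1 = 0) (hF : Module.finrank ℚ F ≤ 2) (y : F) :
    ∃ a b : ℚ, y = a + b * (w : F) := by
  have h : ((w ^ 2 + w + 1 : 𝓞 F) : F) = 0 := by rw [hw]; rfl
  push_cast at h
  obtain ⟨φ, hφ⟩ : ∃ φ : (ℚ × ℚ) →ₗ[ℚ] F, ∀ p, φ p = p.1 + p.2 * (w : F) :=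
    ⟨(LinearMap.toSpanSingleton ℚ F 1).coprod (LinearMap.toSpanSingleton ℚ F w), fun p => by
      simp [Rat.smul_def]⟩
  have hi : Function.Injective φ := by
    refine (injective_iff_map_eq_zero φ).2 fun p hp => ?_
    rw [hφ] at hp
    have h1 : ((p.1 ^ 2 - p.1 * p.2 + p.2 ^ 2 : ℚ) : F) = 0 := by
      push_cast
      linear_combination (p.1 - p.2 - p.2 * (w : F)) * hp + (p.2 : F) ^ 2 * h
    rw [Rat.cast_eq_zero] at h1
    have h2 : p.2 = 0 := by nlinarith [sq_nonneg (2 * p.1 - p.2), sq_nonneg p.2]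
    rw [h2] at h1
    exact Prod.ext (by simpa using h1) h2
  have h2 : Module.finrank ℚ (ℚ × ℚ) = 2 := by simp
  obtain ⟨p, hp⟩ := (LinearMap.injective_iff_surjective_of_finrank_eq_finrank
    (le_antisymm (LinearMap.finrank_le_finrank_of_injective hi) (h2 ▸ hF))).1 hi y
  exact ⟨p.1, p.2, by rw [← hp, hφ]⟩

theorem RecB_surj (hw : w ^ 2 + w + 1 = 0) (hF : Module.finrank ℚ F ≤ 2) {y : F}
    (hy : IsIntegral ℤ y) : ∃ x, eis w hw x = y := by
  let _ : Algebra QRH.E F := (eis w hw).toAlgebra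
  have : FaithfulSMul QRH.E F := (faithfulSMul_iff_algebraMap_injective _ _).2 (eis_inj hw)
  have : IsScalarTower ℤ QRH.E F := IsScalarTower.of_algebraMap_eq' (Subsingleton.elim _ _)
  have : IsFractionRing QRH.E F := IsFractionRing.of_field _ _ fun z => by
    obtain ⟨a, b, rfl⟩ := RecB_span hw hF z
    refine ⟨a.num * b.den + b.num * a.den * QRH.om, a.den * b.den, ?_⟩
    have h1 : (a.den : F) ≠ 0 := Nat.cast_ne_zero.2 a.den_nz
    have h2 : (b.den : F) ≠ 0 := Nat.cast_ne_zero.2 b.den_nz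
    have h3 : algebraMap QRH.E F QRH.om = w := eis_om hw
    simp only [map_add, map_mul, map_intCast, map_natCast, h3, Rat.cast_def]
    field_simp
  exact IsIntegrallyClosed.algebraMap_eq_of_integral (R := QRH.E) hy.tower_top

theorem RecB_equiv (hw : w ^ 2 + w + 1 = 0) (hF : Module.finrank ℚ F ≤ 2) :
    ∃ e : QRH.E ≃+* 𝓞 F, ∀ x, (e x : F) = eis w hw x := by
  refine ⟨RingEquiv.ofBijective ((eis w hw).codRestrict (integralClosure ℤ F).toSubring
    (eis_integral hw)) ⟨fun x y h => eis_inj hw (congrArg Subtype.val h), fun y => ?_⟩,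
    fun _ => rfl⟩
  obtain ⟨x, hx⟩ := RecB_surj hw hF y.2
  exact ⟨x, Subtype.ext hx⟩

variable (e : QRH.E ≃+* 𝓞 F)

/-- The place attached to a primary prime. -/
def RecB_pl (p : QRH.P) : HS F :=
  ⟨Ideal.span {e p.1}, (Ideal.span_singleton_prime ((map_ne_zero_iff e e.injective).2
    p.ne_zero)).2 ((MulEquiv.prime_iff e.toMulEquiv).2 p.2.1),
    by simpa using p.ne_zero⟩

theorem RecB_mem (p : QRH.P) (k : ℕ) (x : QRH.E) :
    OG (RecB_pl e p) k (e x : F) ↔ p.1 ^ k ∣ x := by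
  rw [← mem_pow_iff_OG, RecB_pl, Ideal.span_singleton_pow, Ideal.mem_span_singleton, ← map_pow,
    map_dvd_iff]

theorem RecB_mem1 (p : QRH.P) (x : QRH.E) : e x ∈ (RecB_pl e p).asIdeal ↔ p.1 ∣ x := by
  rw [RecB_pl, Ideal.mem_span_singleton, map_dvd_iff]

omit [NumberField F] in
theorem RecB_ne {x : QRH.E} (hx : x ≠ 0) : (e x : F) ≠ 0 := by simpa using hx

theorem RecB_three (p : QRH.P) : (3 : 𝓞 F) ∉ (RecB_pl e p).asIdeal := by
  rw [← map_ofNat e, RecB_mem1]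
  exact p.not_dvd_three

theorem RecB_ord (p : QRH.P) {x : QRH.E} (hx : x ≠ 0) :
    ord (RecB_pl e p) (e x : F) = QRH.vp p.1 x := by
  have h1 := ((RecB_mem e p _ x).2 ((QRH.pow_dvd_iff p.2.1 hx _).2 le_rfl)).le (RecB_ne e hx)
  refine le_antisymm (not_lt.1 fun h => ?_) h1
  have h2 := (QRH.pow_dvd_iff p.2.1 hx (QRH.vp p.1 x + 1)).1 ((RecB_mem e p _ x).1 (Or.inr h))
  omega

theorem RecB_qv (p : QRH.P) : qv (RecB_pl e p) = QRH.nm p.1 := by
  rw [← card_quot, ← QRH.rs_card]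
  exact Nat.card_congr (Ideal.quotientEquiv _ _ e (by
    rw [Ideal.map_span, Set.image_singleton]; rfl)).symm.toEquiv

theorem RecB_inj : Function.Injective (RecB_pl e) := fun p q h =>
  (QRH.P.dvd_iff p q).1 ((RecB_mem1 e p _).1 (h ▸ (RecB_mem1 e q _).2 dvd_rfl))

theorem RecB_exists {v : HS F} (h : (3 : 𝓞 F) ∉ v.asIdeal) : ∃ p, RecB_pl e p = v := by
  obtain ⟨q, hq⟩ := (IsPrincipalIdealRing.principal (v.asIdeal.comap e)).principal
  have h1 : v.asIdeal = Ideal.span {e q} := by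
    rw [← Ideal.map_comap_of_surjective e e.surjective v.asIdeal, hq, Ideal.submodule_span_eq,
      Ideal.map_span, Set.image_singleton]
  have h2 : e q ≠ 0 := fun h0 => v.ne_bot (by rw [h1, h0, Ideal.span_singleton_eq_bot])
  have h3 : Prime q := (MulEquiv.prime_iff e.toMulEquiv).1
    ((Ideal.span_singleton_prime h2).1 (h1 ▸ v.isPrime))
  rcases QRH.prime_cases h3 with h4 | ⟨p, h4⟩
  · rw [h1, Ideal.mem_span_singleton, ← map_ofNat e, map_dvd_iff] at h
    exact absurd (h4.dvd.trans QRH.lam_dvd_three) h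
  · exact ⟨p, HeightOneSpectrum.ext (h1 ▸
      Ideal.span_singleton_eq_span_singleton.2 (h4.symm.map e))⟩

/-- The character with values in the cube roots of unity. -/
def RecB_ch : AddChar (ZMod 3) ℂ := AddChar.zmodChar 3 QRH.omC_cube

theorem RecB_sum {ι : Type} (T : Finset ι) (f : ι → ZMod 3) :
    RecB_ch (∑ i ∈ T, f i) = ∏ i ∈ T, RecB_ch (f i) := by
  induction T using Finset.induction_on with
  | empty => simp
  | insert i T hi ih => rw [Finset.sum_insert hi, Finset.prod_insert hi, AddChar.map_add_eq_mul, ih]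

variable {e} (hw : w ^ 2 + w + 1 = 0) (he : ∀ x, (e x : F) = eis w hw x)
include he

theorem RecB_c3 (p : QRH.P) {x : QRH.E} (hx : ¬ p.1 ∣ x) :
    QRH.c3 p x = RecB_ch (zv w (RecB_pl e p) (e x)) := by
  have h0 := ord_eq_zero_of_not_mem (mt (RecB_mem1 e p x).1 hx)
  have h1 := zv_pow hw (RecB_three e p) h0.1 h0.2
  refine QRH.c3_eq_of ((RecB_mem1 e p _).1 ((mem_iff_OG _ _).2 ?_))
  rwa [he, map_sub, map_pow, map_pow, eis_om, ← he, ← RecB_qv e p]

theorem RecB_hs (p : QRH.P) {a b : QRH.E} (ha : a ≠ 0) (hb : b ≠ 0) :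
    QRH.hs p a b = RecB_ch (hv w (RecB_pl e p) (e a) (e b)) := by
  have h1 : ord (RecB_pl e p) (e p.1 : F) = 1 := by
    have := (QRH.vp_up_eq p.2.1 p.2.1.not_dvd_one 1).1
    rw [pow_one, mul_one] at this
    rw [RecB_ord e p p.ne_zero, this, Nat.cast_one]
  have h2 : ∀ x : QRH.E, (e x : F) / (e p.1 : F) ^ (QRH.vp p.1 x : ℤ) = e (QRH.up p.1 x) :=
    fun x => by
      rw [zpow_natCast, div_eq_iff (pow_ne_zero _ (RecB_ne e p.ne_zero)), he, he, he, ← map_pow,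
        ← map_mul, mul_comm, QRH.pow_vp_mul_up]
  rw [hv_eq hw (RecB_three e p) (RecB_ne e ha) (RecB_ne e hb) (RecB_ne e p.ne_zero) h1,
    RecB_ord e p ha, RecB_ord e p hb, h2, h2, sub_eq_add_neg, AddChar.map_add_eq_mul,
    AddChar.map_neg_eq_conj, Int.cast_natCast, Int.cast_natCast, ← nsmul_eq_mul, ← nsmul_eq_mul,
    AddChar.map_nsmul_eq_pow, AddChar.map_nsmul_eq_pow, map_pow,
    ← RecB_c3 hw he p (QRH.not_dvd_up p.2.1 ha), ← RecB_c3 hw he p (QRH.not_dvd_up p.2.1 hb)]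
  rfl

theorem RecB_H {a b : QRH.E} (ha : a ≠ 0) (hb : b ≠ 0) :
    QRH.H a b = RecB_ch (HF 3 w (e a) (e b)) := by
  rw [HF_eq_sum hw dvd_rfl (RecB_ne e ha) (RecB_ne e hb) ((QRH.fac (a * b)).image (RecB_pl e)),
    Finset.sum_image (RecB_inj e).injOn, RecB_sum]
  · refine Finset.prod_congr rfl fun p _ => ?_
    rw [if_neg (by simpa using RecB_three e p), RecB_hs hw he p ha hb]
  · intro v hv hT
    obtain ⟨p, rfl⟩ := RecB_exists e (v := v) (by simpa using hv)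
    have h := mt (QRH.mem_fac (mul_ne_zero ha hb)).2 (mt (Finset.mem_image_of_mem (RecB_pl e)) hT)
    rw [RecB_ord e p ha, RecB_ord e p hb, QRH.vp_of_not_dvd (mt (·.mul_right b) h),
      QRH.vp_of_not_dvd (mt (·.mul_left a) h)]
    exact ⟨rfl, rfl⟩

theorem RecB_nine {u b : QRH.E} (hu : (9 : QRH.E) ∣ u - 1) (hb : b ≠ 0) :
    HF 3 w (e u) (e b) = 0 := by
  have h := QRH.hOne QRH.cubRec u b hu hb
  rw [RecB_H hw he (QRH.primary_ne_zero (QRH.ho_primary hu)) hb, RecB_ch, AddChar.zmodChar_apply,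
    ← pow_zero QRH.omC, QRH.omC_pow_eq_iff, Nat.mod_eq_of_lt (ZMod.val_lt _)] at h
  exact (ZMod.val_eq_zero _).1 h

omit he in
include hw in
theorem RecB_HF {s : ℕ} (hs0 : 0 < s) (hs : 3 ∣ s) {a b : F} (ha : a ≠ 0) (hb : b ≠ 0)
    (hc : Close s a) : HF s w a b = HF 3 w a b := by
  have hT : ∀ v : HS F, v ∉ (finite_ord a).toFinset ∪ (finite_ord b).toFinset →
      ord v a = 0 ∧ ord v b = 0 := fun v hv => by simpa using hv
  rw [HF_eq_sum hw hs ha hb _ fun v _ => hT v, HF_eq_sum hw dvd_rfl ha hb _ fun v _ => hT v]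
  refine Finset.sum_congr rfl fun v _ => ?_
  by_cases h : (s : 𝓞 F) ∈ v.asIdeal
  · rw [if_pos h]
    split_ifs with h3
    · rfl
    · have h1 : 1 ≤ ord v (s : F) := ((mem_iff_OG v _).1 h).le (by simpa using hs0.ne')
      refine (hv_close hw (by simpa using h3)
        (((close_iff hs0.ne').1 hc v h).mono ?_) hb).symm
      omega
  · rw [if_neg h, if_neg (by simpa using three_not_mem hs h)]

end

theorem recB : RecB := by
  intro s F _ _ w hs0 hs hw hF a b ha hb hc _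
  obtain ⟨e, he⟩ := RecB_equiv hw hF
  rw [RecB_HF hw hs0 hs ha hb hc]
  obtain ⟨d, hd, hy⟩ := hc
  obtain ⟨n, hn, hz⟩ := exists_nat_mul_integral b
  obtain ⟨y, hy⟩ := RecB_surj hw hF hy
  obtain ⟨z, hz⟩ := RecB_surj hw hF hz
  obtain ⟨t, rfl⟩ := hs
  have hd3 : d.Coprime 9 := (hd.coprime_mul_right_right).pow_right 2
  have hd0 : (d : F) ≠ 0 := Nat.cast_ne_zero.2 (by rintro rfl; simp at hd3)
  have hn0 : (n : F) ≠ 0 := Nat.cast_ne_zero.2 hn
  have ht0 : ((3 * t : ℕ) : F) ≠ 0 := Nat.cast_ne_zero.2 hs0.ne'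
  obtain ⟨k, hk⟩ := (Nat.ModEq.pow_totient hd3).symm.dvd
  rw [show Nat.totient 9 = 6 by decide] at hk
  have hk' : (d : QRH.E) ^ 6 - 1 = 9 * k := by exact_mod_cast congrArg (Int.cast (R := QRH.E)) hk
  have h1 : (e (d ^ 6 + d ^ 5 * (3 * t : ℕ) ^ 2 * y) : F) = a * ((d : F) ^ 2) ^ 3 := by
    rw [he, map_add, map_mul, map_mul, map_pow, map_pow, map_pow, map_natCast, map_natCast, hy]
    field_simp
    ring
  have h2 : (e (n ^ 2 * z) : F) = b * (n : F) ^ 3 := by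
    rw [he, map_mul, map_pow, map_natCast, hz]
    ring
  rw [← HF_cube_left hw dvd_rfl ha hb (pow_ne_zero 2 hd0), ← HF_cube_right hw dvd_rfl
    (mul_ne_zero ha (pow_ne_zero 3 (pow_ne_zero 2 hd0))) hb hn0, ← h1, ← h2]
  refine RecB_nine hw he ⟨k + d ^ 5 * t ^ 2 * y, ?_⟩ fun h0 => ?_
  · push_cast
    linear_combination hk'
  · rw [h0, map_zero] at h2
    exact mul_ne_zero hb (pow_ne_zero 3 hn0) h2.symm

end NQ
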