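import Vale.Agent.NQ.WtS
import Vale.Agent.P026.Sep

noncomputable section
namespace NQ
open Complex MeasureTheory NumberField Filter
open scoped ComplexConjugate Classical ContDiff Topology

theorem rs_unit {A y X Y : ℝ} (hA : 1 ≤ A) (hy : 0 < y) (hX : 0 < X) (h1 : X ≤ Y) (h2 : Y ≤ A * X)
    (s : ℂ) : (∫ v : ℝ, V0 (Real.exp v)) * wt (y / Y) s =
      ∫ u in Set.Icc (Real.log (1 / 16)) (Real.log (16 * A)),
        V0 (y / (X * Real.exp u)) * wt (y / Y) s := by
  by_cases h : wt (y / Y) s = 0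
  · simp [h]
  obtain ⟨h3, h4⟩ := QRH.wt_supp h
  have hY := hX.trans_le h1
  rw [lt_div_iff₀ hY] at h3
  rw [div_lt_iff₀ hY] at h4
  rw [integral_mul_const, setIntegral_eq_integral_of_forall_compl_eq_zero, ←
    integral_sub_left_eq_self (fun v : ℝ => V0 (Real.exp v)) volume (Real.log (y / X))]
  · congr 1
    refine integral_congr_ae (Eventually.of_forall fun u => ?_)
    simp only
    rw [Real.exp_sub, Real.exp_log (div_pos hy hX), div_div]
  · intro u hu
    by_contra h0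
    obtain ⟨h5, h6⟩ := QRH.V0_supp h0
    have hp := mul_pos hX (Real.exp_pos u)
    rw [lt_div_iff₀ hp] at h5
    rw [div_lt_iff₀ hp] at h6
    refine hu ⟨(Real.log_le_iff_le_exp (by norm_num)).2 ?_,
      (Real.le_log_iff_exp_le (by positivity)).2 ?_⟩
    · exact le_of_mul_le_mul_left (by linarith) hX
    · exact le_of_mul_le_mul_left (by nlinarith) hX

theorem rs_shift {κ : Type} (L : Finset κ) (x : κ → ℂ) (y : κ → ℝ) (hy : ∀ j ∈ L, 0 < y j)
    {X' Y : ℝ} (hX' : 0 < X') (hY : 0 < Y) (a : ℂ) (τ : ℝ) :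
    ‖∑ j ∈ L, x j * (V0 (y j / X') * (a * Complex.exp (τ * I * Real.log (y j / Y))))‖
      = ‖a‖ * ‖∑ j ∈ L, x j * wt (y j / X') (τ * I)‖ := by
  rw [← one_mul ‖a‖, ← QRH.sp_norm_exp τ (Real.log (X' / Y)), ← norm_mul, ← norm_mul,
    Finset.mul_sum]
  congr 1
  refine Finset.sum_congr rfl fun c hc' => ?_
  have hc := hy c hc'
  have e : Complex.exp (τ * I * Real.log (y c / Y)) =
      Complex.exp (τ * I * Real.log (X' / Y)) * Complex.exp (τ * I * Real.log (y c / X')) := by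
    rw [← Complex.exp_add, Real.log_div hc.ne' hY.ne', Real.log_div hX'.ne' hY.ne',
      Real.log_div hc.ne' hX'.ne']
    congr 1
    push_cast
    ring
  rw [e, QRH.wt, QRH.sp_cpow (div_pos hc hX')]
  ring

theorem rs_one (A : ℝ) (B : ℕ) (hA : 1 ≤ A) : ∃ C : ℝ, 0 < C ∧
    ∀ (ι κ : Type) (J : Finset ι) (L : Finset κ) (x : ι → κ → ℂ) (y : κ → ℝ) (Ti : ι → ℝ) (T K : ℝ)
      (s : ℂ), 0 < T → |s.re| ≤ 3 → (∀ j ∈ L, 0 < y j) → (∀ i ∈ J, T ≤ Ti i ∧ Ti i ≤ A * T) →
      (∀ T' τ : ℝ, T / 16 ≤ T' → T' ≤ 16 * A * T →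
        ∑ i ∈ J, ‖∑ j ∈ L, x i j * wt (y j / T') (τ * I)‖ ^ 2 ≤ K * (1 + |τ|) ^ B) →
      ∑ i ∈ J, ‖∑ j ∈ L, x i j * wt (y j / Ti i) s‖ ^ 2 ≤ C * K * (1 + ‖s‖) ^ B := by
  obtain ⟨C, hC, H⟩ := QRH.sp_wt B
  have hc0 : 0 < ‖∫ v : ℝ, V0 (Real.exp v)‖ ^ 2 :=
    pow_pos (norm_pos_iff.2 QRH.integral_V0_exp_ne) 2
  generalize hm :
    (volume.restrict (Set.Icc (Real.log (1 / 16)) (Real.log (16 * A)))).real Set.univ = m
  refine ⟨(m * Real.pi) ^ 2 * C / ‖∫ v : ℝ, V0 (Real.exp v)‖ ^ 2 + 1, by positivity,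
    fun ι κ J L γ y Xi X K s hX hs hy hXi hK => ?_⟩
  obtain ⟨h, h1, h2, h3⟩ := H s hs
  have hK0 : 0 ≤ K := by
    have := (Finset.sum_nonneg fun i _ => sq_nonneg _).trans (hK X 0 (by linarith) (by nlinarith))
    simpa using this
  have hD : 0 ≤ K * (C * (1 + ‖s‖) ^ B) := by positivity
  have i1 : ∀ i c, Integrable (fun u : ℝ => γ i c * (V0 (y c / (X * Real.exp u)) *
      wt (y c / Xi i) s)) (volume.restrict (Set.Icc (Real.log (1 / 16)) (Real.log (16 * A)))) :=
    fun i c => Continuous.integrableOn_Icc (continuous_const.mul ((QRH.continuous_V0.comp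
      (continuous_const.div (by fun_prop) fun u => (mul_pos hX (Real.exp_pos u)).ne')).mul
        continuous_const))
  have e1 : ∀ i ∈ J, ‖∫ v : ℝ, V0 (Real.exp v)‖ ^ 2 * ‖∑ c ∈ L, γ i c * wt (y c / Xi i) s‖ ^ 2 =
      ‖∫ u in Set.Icc (Real.log (1 / 16)) (Real.log (16 * A)), ∑ c ∈ L,
        γ i c * (V0 (y c / (X * Real.exp u)) * wt (y c / Xi i) s)‖ ^ 2 := fun i hi => by
    obtain ⟨a1, a2⟩ := hXi i hi
    rw [← mul_pow, ← norm_mul, integral_finsetSum _ fun c _ => i1 i c, Finset.mul_sum]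
    congr 2
    refine Finset.sum_congr rfl fun c hc => ?_
    rw [integral_const_mul, ← rs_unit hA (hy c hc) hX a1 a2]
    ring
  have key := QRH.sp_mink J (fun i _ => integrable_finsetSum L fun c _ => i1 i c)
    (integrable_const (√(K * (C * (1 + ‖s‖) ^ B)) * Real.pi)) (fun _ => by positivity)
    ((ae_restrict_mem measurableSet_Icc).mono fun u hu => by
      have b1 := (Real.log_le_iff_le_exp (by norm_num)).1 hu.1
      have b2 := (Real.le_log_iff_exp_le (by positivity)).1 hu.2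
      have b3 : X / 16 ≤ X * Real.exp u := by nlinarith
      have b4 : X * Real.exp u ≤ 16 * A * X := by nlinarith
      have hp := mul_pos hX (Real.exp_pos u)
      generalize X * Real.exp u = X' at *
      have i2 : ∀ i c, Integrable fun τ : ℝ => γ i c * (V0 (y c / X') *
          (h τ * Complex.exp (τ * I * Real.log (y c / Xi i)))) :=
        fun i c => ((h1 _).const_mul _).const_mul _
      have e2 : ∀ i ∈ J, ‖∑ c ∈ L, γ i c * (V0 (y c / X') * wt (y c / Xi i) s)‖ ^ 2 =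
          ‖∫ τ : ℝ, ∑ c ∈ L, γ i c * (V0 (y c / X') *
            (h τ * Complex.exp (τ * I * Real.log (y c / Xi i))))‖ ^ 2 := fun i hi => by
        rw [integral_finsetSum _ fun c _ => i2 i c]
        congr 2
        refine Finset.sum_congr rfl fun c hc => ?_
        rw [integral_const_mul, integral_const_mul,
          h3 _ (div_pos (hy c hc) (hX.trans_le (hXi i hi).1))]
      rw [Finset.sum_congr rfl e2, ← QRH.sp_integral_w _ s.im]
      refine QRH.sp_mink J (fun i _ => integrable_finsetSum _ fun c _ => i2 i c) (QRH.sp_int_w _ _)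
        (fun τ => by positivity) (Eventually.of_forall fun τ => ?_)
      rw [Finset.sum_congr rfl fun i hi => by
        rw [rs_shift L (γ i) y hy hp (hX.trans_le (hXi i hi).1), mul_pow], ← Finset.mul_sum,
        mul_pow, Real.sq_sqrt hD]
      calc _ ≤ ‖h τ‖ ^ 2 * (K * (1 + |τ|) ^ B) :=
            mul_le_mul_of_nonneg_left (hK X' τ b3 b4) (sq_nonneg _)
        _ = K * (‖h τ‖ ^ 2 * (1 + |τ|) ^ B) := by ring
        _ ≤ _ := (mul_le_mul_of_nonneg_left (h2 τ) hK0).trans (le_of_eq (by ring)))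
  rw [← Finset.sum_congr rfl e1, ← Finset.mul_sum, integral_const, hm, smul_eq_mul, mul_pow,
    mul_pow, Real.sq_sqrt hD, ← le_div_iff₀' hc0] at key
  refine key.trans ?_
  have hp : 0 ≤ K * (1 + ‖s‖) ^ B := by positivity
  calc _ = (m * Real.pi) ^ 2 * C / ‖∫ v : ℝ, V0 (Real.exp v)‖ ^ 2 * (K * (1 + ‖s‖) ^ B) := by ring
    _ ≤ _ := by rw [mul_assoc (_ + 1), add_mul]; linarith

theorem rs_ind (W : Type) [Fintype W] (A : ℝ) (B : ℕ) (hA : 1 ≤ A) : ∃ C : ℝ, 0 < C ∧
    ∀ (ι κ : Type) (J : Finset ι) (L : Finset κ) (x : ι → κ → ℂ) (y : κ → W → ℝ) (Ti : ι → W → ℝ)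
      (T : W → ℝ) (K : ℝ) (s : W → ℂ), (∀ w, 0 < T w) → (∀ w, |(s w).re| ≤ 3) →
      (∀ j ∈ L, ∀ w, 0 < y j w) → (∀ i ∈ J, ∀ w, T w ≤ Ti i w ∧ Ti i w ≤ A * T w) →
      (∀ T' τ : W → ℝ, (∀ w, T w / 16 ≤ T' w ∧ T' w ≤ 16 * A * T w) →
        ∑ i ∈ J, ‖∑ j ∈ L, x i j * ∏ w, wt (y j w / T' w) (τ w * I)‖ ^ 2
          ≤ K * (∏ w, (1 + |τ w|)) ^ B) →
      ∑ i ∈ J, ‖∑ j ∈ L, x i j * ∏ w, wt (y j w / Ti i w) (s w)‖ ^ 2
        ≤ C * K * (∏ w, (1 + ‖s w‖)) ^ B := by
  obtain ⟨C, hC, H⟩ := rs_one A B hA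
  refine ⟨C ^ (Finset.univ : Finset W).card, by positivity,
    fun ι κ J L x y Ti T K s hT hs hy hTi hK => ?_⟩
  have main : ∀ u : Finset W, ∀ T' τ : W → ℝ, (∀ w, T w / 16 ≤ T' w ∧ T' w ≤ 16 * A * T w) →
      ∑ i ∈ J, ‖∑ j ∈ L, x i j * ((∏ w ∈ u, wt (y j w / Ti i w) (s w)) *
        ∏ w ∈ uᶜ, wt (y j w / T' w) (τ w * I))‖ ^ 2
        ≤ C ^ u.card * K * ((∏ w ∈ u, (1 + ‖s w‖)) * ∏ w ∈ uᶜ, (1 + |τ w|)) ^ B := by
    intro u
    induction u using Finset.induction_on with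
    | empty =>
      intro T' τ hT'
      simpa using hK T' τ hT'
    | insert w0 u hw0 ih =>
      intro T' τ hT'
      have hm : w0 ∈ uᶜ := Finset.mem_compl.2 hw0
      have k := H ι κ J L (fun i j => x i j * ((∏ w ∈ u, wt (y j w / Ti i w) (s w)) *
        ∏ w ∈ uᶜ.erase w0, wt (y j w / T' w) (τ w * I))) (fun j => y j w0) (fun i => Ti i w0)
        (T w0) (C ^ u.card * K * ((∏ w ∈ u, (1 + ‖s w‖)) * ∏ w ∈ uᶜ.erase w0, (1 + |τ w|)) ^ B)
        (s w0) (hT w0) (hs w0) (fun j hj => hy j hj w0) (fun i hi => hTi i hi w0)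
        (fun t' τ' h1 h2 => by
          have k1 := ih (Function.update T' w0 t') (Function.update τ w0 τ') (fun w => by
            by_cases hw : w = w0
            · subst hw
              rw [Function.update_self]
              exact ⟨h1, h2⟩
            · rw [Function.update_of_ne hw]
              exact hT' w)
          have a1 : ∀ j, ∏ w ∈ uᶜ, wt (y j w / Function.update T' w0 t' w)
              (Function.update τ w0 τ' w * I) = wt (y j w0 / t') (τ' * I) *
              ∏ w ∈ uᶜ.erase w0, wt (y j w / T' w) (τ w * I) := fun j => by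
            rw [← Finset.mul_prod_erase _ _ hm, Function.update_self, Function.update_self]
            congr 1
            refine Finset.prod_congr rfl fun w hw => ?_
            rw [Function.update_of_ne (Finset.ne_of_mem_erase hw),
              Function.update_of_ne (Finset.ne_of_mem_erase hw)]
          have a2 : ∏ w ∈ uᶜ, (1 + |Function.update τ w0 τ' w|) = (1 + |τ'|) *
              ∏ w ∈ uᶜ.erase w0, (1 + |τ w|) := by
            rw [← Finset.mul_prod_erase _ _ hm, Function.update_self]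
            congr 1
            refine Finset.prod_congr rfl fun w hw => ?_
            rw [Function.update_of_ne (Finset.ne_of_mem_erase hw)]
          simp only [a1, a2] at k1
          refine le_of_eq_of_le ?_ (k1.trans (le_of_eq ?_))
          · refine Finset.sum_congr rfl fun i _ => ?_
            congr 2
            exact Finset.sum_congr rfl fun j _ => by ring
          · simp only [mul_pow]
            ring)
      rw [Finset.compl_insert, Finset.card_insert_of_notMem hw0, Finset.prod_insert hw0]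
      refine le_of_eq_of_le ?_ (k.trans (le_of_eq ?_))
      · refine Finset.sum_congr rfl fun i _ => ?_
        congr 2
        refine Finset.sum_congr rfl fun j _ => ?_
        rw [Finset.prod_insert hw0]
        ring
      · simp only [mul_pow]
        ring
  have := main Finset.univ T 0 fun w => ⟨by linarith [hT w], by nlinarith [hT w]⟩
  simpa using this

variable [σ : St]

/-- Rescaling in one variable. -/
theorem resc1 (A : ℝ) (B : ℕ) (hA : 1 ≤ A) : ∃ C : ℝ, 0 < C ∧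
    ∀ (ι κ : Type) (J : Finset ι) (L : Finset κ) (x : ι → κ → ℂ) (y : κ → ℝ) (Ti : ι → ℝ) (T K : ℝ)
      (s : ℂ), 0 < T → |s.re| ≤ 3 → (∀ j ∈ L, 0 < y j) → (∀ i ∈ J, T ≤ Ti i ∧ Ti i ≤ A * T) →
      (∀ T' τ : ℝ, T / 16 ≤ T' → T' ≤ 16 * A * T →
        ∑ i ∈ J, ‖∑ j ∈ L, x i j * wt (y j / T') (τ * I)‖ ^ 2 ≤ K * (1 + |τ|) ^ B) →
      ∑ i ∈ J, ‖∑ j ∈ L, x i j * wt (y j / Ti i) s‖ ^ 2 ≤ C * K * (1 + ‖s‖) ^ B :=
  rs_one A B hA

theorem rs_S {a : FF} (ha : a ≠ 0) {T M : Pl → ℝ} (hT : ∀ w, 0 < T w) (hM : ∀ w, T w ≤ M w)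
    (β : Finset P → ℂ) (z : Pl → ℂ) :
    S β ⟨a, T⟩ z = ∑ c ∈ box a (fun w => 16 * M w) with Squarefree c,
      (β (fac c) * ic a c) * ∏ w, wt (‖em w c‖ ^ 2 / T w) (z w) := by
  rw [S_eq_of_subset (X := ⟨a, T⟩) ⟨ha, hT⟩ (T := box a fun w => 16 * M w) fun c hc => by
    obtain ⟨h1, h2, h3⟩ := (mem_box ha).1 hc
    exact (mem_box ha).2 ⟨h1, h2, fun w => (h3 w).trans (by have := hM w; simp only; linarith)⟩]
  exact Finset.sum_congr rfl fun c _ => by rw [Kx, mul_assoc]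

theorem resc : Resc := by
  intro A B hA
  obtain ⟨C, hC, H⟩ := rs_ind Pl A B hA
  refine ⟨C, hC, fun ι J γ a Ti T K s ha hT hs hTi hK => ?_⟩
  have k := H ι E J ((box a fun w => 16 * (16 * A * T w)).filter Squarefree)
    (fun i c => γ i (fac c) * ic a c) (fun c w => ‖em w c‖ ^ 2) Ti T K s hT hs
    (fun c hc w => pow_pos (norm_pos_iff.2 ((map_ne_zero (em w)).2 fun h =>
      ((mem_box ha).1 (Finset.mem_filter.1 hc).1).1 (Subtype.ext h))) 2) hTi
    (fun T' τ hT' => by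
      have k1 := hK T' τ hT'
      rw [Tb_iT] at k1
      refine le_of_eq_of_le (Finset.sum_congr rfl fun i _ => ?_) k1
      rw [rs_S ha (fun w => lt_of_lt_of_le (by linarith [hT w]) (hT' w).1) fun w => (hT' w).2]
      rfl)
  refine le_of_eq_of_le (Finset.sum_congr rfl fun i hi => ?_) k
  rw [rs_S ha (M := fun w => 16 * A * T w) (fun w => (hT w).trans_le (hTi i hi w).1)
    fun w => (hTi i hi w).2.trans (by nlinarith [hT w])]

end NQ
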