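import Vale.Agent.NQ.SInt
import Vale.Agent.NQ.Rsum
import Vale.Agent.NQ.Lat

noncomputable section
namespace NQ
open Complex MeasureTheory NumberField Filter
open scoped ComplexConjugate Classical ContDiff Topology

variable [σ : St]

theorem riem0_cos {m : E} (hm : m ≠ 0) (k : ℕ) : ∃ (a : E) (T : Finset FF) (y : E × FF → E),
    Associated m a ∧ (a : FF) / ss ^ k ∈ OS ∧
    (∀ p, m ∣ y p - p.1 ∧ ((y p : FF) - p.2) / a ∈ OS) ∧
    (∀ i ∈ T, ∀ j ∈ T, (i - j) / (a : FF) ∈ OS → i = j) ∧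
    ∀ x, ss ^ k * x ∈ OS → ∃ t ∈ T, (x - t) / (a : FF) ∈ OS := by
  obtain ⟨l, hl⟩ := exists_pow_mem_OS (m : FF)
  obtain ⟨a, ha⟩ : ∃ a : E, a = (σ.s : E) ^ (k + l) * m := ⟨_, rfl⟩
  have hma : Associated m a := ha ▸ (associated_unit_mul_left m _ (isUnit_s.pow _)).symm
  have ha0 : (a : FF) ≠ 0 := fun h => hm (hma.eq_zero_iff.2 (Subtype.ext h))
  have hs := pow_ne_zero k ss_ne_zero
  obtain ⟨K, hK⟩ := exists_pow_mem_OS (a : FF)⁻¹
  have hK' : ss ^ (K + k) / (a : FF) ∈ OS := by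
    rw [div_eq_mul_inv]
    exact pow_mul_mem_OS hK (Nat.le_add_right K k)
  let r : Setoid FF := ⟨fun x y => (x - y) / (a : FF) ∈ OS, fun x => by simp,
    fun {x y} h => by rw [← neg_sub, neg_div]; exact neg_mem h,
    fun {x y z} h h' => by rw [← sub_add_sub_cancel x y z, add_div]; exact add_mem h h'⟩
  choose y hy using fun p : E × FF => exists_approx_E hm p.1 p.2 ha0
  refine ⟨a, (sreps (K + k)).image fun x => (Quotient.mk r x).out, y, hma, ?_, hy, ?_,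
    fun x hx => ?_⟩
  · have e : (a : FF) / ss ^ k = ss ^ l * m := by
      rw [ha, Subring.coe_mul, Subring.coe_pow, coe_s, pow_add]
      field_simp
    rwa [e]
  · intro i hi j hj h
    obtain ⟨x, -, rfl⟩ := Finset.mem_image.1 hi
    obtain ⟨x', -, rfl⟩ := Finset.mem_image.1 hj
    have h1 := Quotient.sound (s := r) h
    rw [Quotient.out_eq, Quotient.out_eq] at h1
    rw [h1]
  · obtain ⟨t, ht, h⟩ := exists_srep (pow_mul_mem_OS hx (Nat.le_add_left k K))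
    exact ⟨_, Finset.mem_image_of_mem _ ht, r.trans
      (div_mem_OS_trans (pow_ne_zero _ ss_ne_zero) h hK') (r.symm (Quotient.mk_out t))⟩

theorem riem0_sum {a y z : FF} (ha : a ≠ 0) {Φ : Pl → ℂ × ℂ → ℂ} {M : ℝ}
    (hΦ : ∀ w, Dec2 M (Φ w)) {S1 S2 : Pl → ℂ} (h1 : ∀ w, S1 w ≠ 0) (h2 : ∀ w, S2 w ≠ 0) :
    Summable fun x : 𝓞 FF × 𝓞 FF =>
      ‖∏ w, Φ w (em w (y + a * x.1) / S1 w, em w (z + a * x.2) / S2 w)‖ := by
  have key : ∀ (y : FF) (S : Pl → ℂ), (∀ w, S w ≠ 0) → Summable fun x : 𝓞 FF =>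
      ∏ w, (1 + ‖em w (y + a * x) / S w‖) ^ (-3 : ℝ) := fun y S hS => by
    refine (summable_int_decay (θ := 3) (by norm_num) (fun w => em w a / S w)
      (fun w => em w y / S w) fun w => div_ne_zero (em_ne_zero w ha) (hS w)).congr fun x => ?_
    refine Finset.prod_congr rfl fun w _ => ?_
    rw [map_add, map_mul, add_div, add_comm (em w y / S w), mul_div_right_comm]
  have p0 : ∀ u : Pl → ℂ, 0 ≤ ∏ w, (1 + ‖u w‖) ^ (-3 : ℝ) := fun u =>
    Finset.prod_nonneg fun w _ => by positivity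
  refine Summable.of_nonneg_of_le (fun x => norm_nonneg _) (fun x => ?_)
    (((key y S1 h1).mul_of_nonneg (key z S2 h2) (fun x => p0 _) fun x => p0 _).mul_left
      (∏ _w : Pl, M))
  rw [norm_prod, ← Finset.prod_mul_distrib, ← Finset.prod_mul_distrib]
  exact Finset.prod_le_prod (fun w _ => norm_nonneg _) fun w _ =>
    (hΦ w _).trans_eq (mul_assoc _ _ _)

theorem riem0 (h : RiemO) : Riem0 := by
  intro m A k g Φ M S1 S2 hm hA hg hc hΦ h1 h2
  obtain ⟨a, T, y, hma, hak, hy, hinj, hsurj⟩ := riem0_cos hm k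
  have haE : a ≠ 0 := fun h => hm (hma.eq_zero_iff.2 h)
  have ha : (a : FF) ≠ 0 := fun h => haE (Subtype.ext h)
  have hs := pow_ne_zero k ss_ne_zero
  have hint : ∀ f : FF → ℂ, SB k f → sint f = (sS a : ℝ) * ∑ t ∈ T, f t := fun f hf =>
    sint_eq_sum (inv_ne_zero hs) ha
      (fun x hx => by rw [div_inv_eq_mul, mul_comm]; exact hf.1 x hx)
      (fun x x' hx => hf.2 x x' (div_mem_OS_trans ha hx hak)) T id hinj
      fun x hx => hsurj x (by rwa [div_inv_eq_mul, mul_comm] at hx)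
  let e : (reps m ×ˢ T : Finset (E × FF)) → 𝓞 FF → E := fun p x => y p + a * toE x
  have e0 : ∀ p x, (e p x : FF) = y p + a * x := fun p x => by
    simp only [e, Subring.coe_add, Subring.coe_mul, coe_toE]
  have e1 : ∀ p x, m ∣ e p x - p.1.1 := fun p x => by
    rw [add_sub_right_comm]
    exact (hy p).1.add (hma.dvd.mul_right _)
  have e2 : ∀ p x, ((e p x : FF) - p.1.2) / a ∈ OS := fun p x => by
    rw [e0, add_sub_right_comm, add_div, mul_div_cancel_left₀ _ ha]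
    exact add_mem (hy p).2 (mem_OS_of_integral x.isIntegral_coe)
  have e3 : ∀ p x q x', e p x = e q x' → p = q ∧ x = x' := fun p x q x' h => by
    obtain ⟨hp1, hp2⟩ := Finset.mem_product.1 p.2
    obtain ⟨hq1, hq2⟩ := Finset.mem_product.1 q.2
    have a1 := (e1 q x').sub (e1 p x)
    have a2 := sub_mem (e2 q x') (e2 p x)
    rw [h, sub_sub_sub_cancel_left] at a1
    rw [h, ← sub_div, sub_sub_sub_cancel_left] at a2
    obtain rfl : p = q := Subtype.ext (Prod.ext (rep_unique hm hp1 hq1 a1) (hinj _ hp2 _ hq2 a2))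
    have a3 := congrArg (fun u : E => (u : FF)) h
    simp only [e0, add_right_inj] at a3
    exact ⟨rfl, RingOfIntegers.ext (mul_left_cancel₀ ha a3)⟩
  have e4 : ∀ u : E, ss ^ k * u ∈ OS → ∃ p x, e p x = u := fun u hu => by
    obtain ⟨r, hr, a1⟩ := exists_rep hm u
    obtain ⟨t, ht, a2⟩ := hsurj u hu
    have a3 := a1.sub (hy (r, t)).1
    have a4 := sub_mem a2 (hy (r, t)).2
    rw [sub_sub_sub_cancel_right] at a3
    rw [← sub_div, sub_sub_sub_cancel_right] at a4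
    obtain ⟨v, hv⟩ := hma.symm.dvd.trans a3
    have a5 : (u : FF) - y (r, t) = a * v := congrArg (fun u : E => (u : FF)) hv
    rw [a5, mul_div_cancel_left₀ _ ha] at a4
    refine ⟨⟨(r, t), Finset.mem_product.2 ⟨hr, ht⟩⟩, ⟨v, integral_of_mem a4⟩, Subtype.ext ?_⟩
    exact (e0 _ _).trans (eq_add_of_sub_eq' a5).symm
  have key : ∀ X, (∀ w, S1 X w ≠ 0) → (∀ w, S2 X w ≠ 0) →
      ∑' x : E × E, A x.1 x.2 * g x.1 x.2 * ∏ w, Φ w (em w x.1 / S1 X w, em w x.2 / S2 X w) =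
      ∑ i : (reps m ×ˢ T : Finset (E × FF)) × (reps m ×ˢ T : Finset (E × FF)),
        A i.1.1.1 i.2.1.1 * g i.1.1.2 i.2.1.2 * ∑' x : 𝓞 FF × 𝓞 FF,
          ∏ w, Φ w (em w (y i.1 + a * x.1) / S1 X w, em w (y i.2 + a * x.2) / S2 X w) := by
    intro X b1 b2
    have hi : Function.Injective fun p : ((reps m ×ˢ T : Finset (E × FF)) ×
        (reps m ×ˢ T : Finset (E × FF))) × 𝓞 FF × 𝓞 FF => (e p.1.1 p.2.1, e p.1.2 p.2.2) := by
      intro p q hpq
      obtain ⟨a1, a2⟩ := Prod.mk.inj hpq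
      obtain ⟨a3, a4⟩ := e3 _ _ _ _ a1
      obtain ⟨a5, a6⟩ := e3 _ _ _ _ a2
      exact Prod.ext (Prod.ext a3 a5) (Prod.ext a4 a6)
    rw [← hi.tsum_eq (by
      intro x hx
      have a0 := hg.1 _ _ (right_ne_zero_of_mul (left_ne_zero_of_mul hx))
      obtain ⟨p, u, a1⟩ := e4 _ a0.1
      obtain ⟨q, v, a2⟩ := e4 _ a0.2
      exact ⟨((p, q), (u, v)), Prod.ext a1 a2⟩)]
    have a1 : ∀ p q x x', A (e p x) (e q x') * g (e p x) (e q x') =
        A p.1.1 q.1.1 * g p.1.2 q.1.2 := fun p q x x' => by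
      rw [hA _ _ _ _ (e1 p x) (e1 q x'), hg.2 _ _ _ _ (div_mem_OS_trans ha (e2 p x) hak)
        (div_mem_OS_trans ha (e2 q x') hak)]
    simp only [a1]
    simp only [e0]
    rw [Summable.tsum_prod, tsum_fintype]
    · simp only [tsum_mul_left]
    · refine Summable.of_norm ((summable_prod_of_nonneg fun _ => norm_nonneg _).2
        ⟨fun i => ?_, Summable.of_finite⟩)
      simp only [norm_mul]
      exact (riem0_sum ha hΦ b1 b2).mul_left _
  have hne : ∀ {S : ℝ → Pl → ℂ}, (∀ w, Tendsto (fun X => ‖S X w‖) atTop atTop) →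
      ∀ᶠ X in atTop, ∀ w, S X w ≠ 0 := fun hS => eventually_all.2 fun w =>
    ((hS w).eventually_gt_atTop 0).mono fun X hX => norm_pos_iff.1 hX
  have lim := tendsto_finsetSum (Finset.univ : Finset ((reps m ×ˢ T : Finset (E × FF)) ×
    (reps m ×ˢ T : Finset (E × FF)))) fun i _ =>
      (h a (y i.1) (y i.2) Φ M S1 S2 ha hc hΦ h1 h2).const_mul
        (A i.1.1.1 i.2.1.1 * g i.1.1.2 i.2.1.2)
  have e5 : ∑ i : (reps m ×ˢ T : Finset (E × FF)) × (reps m ×ˢ T : Finset (E × FF)),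
      A i.1.1.1 i.2.1.1 * g i.1.1.2 i.2.1.2 = rsum2 m A * ∑ t ∈ T, ∑ t' ∈ T, g t t' := by
    rw [Fintype.sum_prod_type, Finset.sum_coe_sort (reps m ×ˢ T) fun p =>
      ∑ q : (reps m ×ˢ T : Finset (E × FF)), A p.1 q.1.1 * g p.2 q.1.2]
    simp only [Finset.sum_product, rsum2, rsum, Finset.sum_mul_sum]
    refine Finset.sum_congr rfl fun r _ => Finset.sum_congr rfl fun t _ => ?_
    rw [Finset.sum_coe_sort (reps m ×ˢ T) fun q => A r q.1 * g t q.2, Finset.sum_product]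
  have e6 : sint2 g = ((sS a : ℝ) : ℂ) ^ 2 * ∑ t ∈ T, ∑ t' ∈ T, g t t' := by
    rw [sint2, hint _ hg.sint, Finset.sum_congr rfl fun t _ => hint _ (hg.right t),
      ← Finset.mul_sum]
    ring
  have e7 : (nm m : ℂ) = (Ninf a : ℝ) * (sS a : ℝ) := by
    rw [nm_assoc hma, ← ofReal_mul, ← nm_eq haE, ofReal_natCast]
  rw [← Finset.sum_mul, e5] at lim
  refine (lim.congr' ?_).trans_eq ?_
  · filter_upwards [hne h1, hne h2] with X b1 b2
    rw [key X b1 b2, Finset.mul_sum]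
    exact Finset.sum_congr rfl fun i _ => mul_left_comm _ _ _
  · have n1 : ((Ninf a : ℝ) : ℂ) ≠ 0 := ofReal_ne_zero.2 (Ninf_pos ha).ne'
    have n2 : ((sS a : ℝ) : ℂ) ≠ 0 := ofReal_ne_zero.2 (sS_pos _).ne'
    rw [e6, e7]
    congr 1
    push_cast
    field_simp

end NQ
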