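import Vale.Agent.NQ.SInt
import Vale.Agent.NQ.Rsum
import Vale.Agent.NQ.Lat
import Vale.Agent.P026.FtD

noncomputable section
namespace NQ
open Complex MeasureTheory NumberField Filter
open scoped ComplexConjugate Classical ContDiff Topology

theorem RL_approx {T : ℝ → ℂ} {Tn : ℕ → ℝ → ℂ} {L : ℕ → ℂ} {l : ℂ} {e : ℕ → ℝ}
    (h1 : ∀ n, Tendsto (Tn n) atTop (𝓝 (L n))) (h2 : ∀ n, ∀ᶠ X in atTop, ‖T X - Tn n X‖ ≤ e n)
    (h3 : Tendsto e atTop (𝓝 0)) (h4 : Tendsto L atTop (𝓝 l)) : Tendsto T atTop (𝓝 l) := by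
  rw [Metric.tendsto_nhds]
  intro ε hε
  have hε3 : 0 < ε / 3 := by positivity
  obtain ⟨n, hn1, hn2⟩ := ((h3.eventually (gt_mem_nhds hε3)).and
    (Metric.tendsto_nhds.1 h4 _ hε3)).exists
  filter_upwards [h2 n, Metric.tendsto_nhds.1 (h1 n) _ hε3] with X a1 a2
  rw [← dist_eq_norm] at a1
  linarith [dist_triangle4 (T X) (Tn n X) (L n) l]

/-- The archimedean majorant. -/
def RLW (z : ℂ × ℂ) : ℝ :=
  ‖z.1‖ ^ (-(3 / 2) : ℝ) * (1 + ‖z.1‖) ^ (-(5 / 2) : ℝ) * (1 + ‖z.2‖) ^ (-3 : ℝ)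

theorem RLW_nonneg (z : ℂ × ℂ) : 0 ≤ RLW z := by
  unfold RLW
  positivity

theorem RL_W_eq {z : ℂ × ℂ} (hz : z.1 ≠ 0) : RLW z = √((1 + ‖z.1‖) / ‖z.1‖) *
    ((‖z.1‖⁻¹ * (1 + ‖z.1‖) ^ (-3 : ℝ)) * (1 + ‖z.2‖) ^ (-3 : ℝ)) := by
  have h0 : 0 < ‖z.1‖ := norm_pos_iff.2 hz
  have h1 : 0 < 1 + ‖z.1‖ := by positivity
  unfold RLW
  rw [Real.sqrt_eq_rpow, Real.div_rpow h1.le h0.le, ← Real.rpow_neg_one ‖z.1‖,
    show (-(3 / 2) : ℝ) = -1 - 1 / 2 by norm_num, show (-(5 / 2) : ℝ) = 1 / 2 + -3 by norm_num,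
    Real.rpow_sub h0, Real.rpow_add h1]
  ring

theorem RL_one_le {t : ℝ} (ht : 0 < t) : 1 ≤ √((1 + t) / t) := by
  rw [Real.one_le_sqrt, one_le_div ht]
  linarith

/-- The cutoff near zero. -/
def RLchi (n : ℕ) (z : ℂ) : ℝ := min 1 (max 0 ((n + 1) * ‖z‖ - 1))

theorem RLchi_nonneg (n : ℕ) (z : ℂ) : 0 ≤ RLchi n z := le_min zero_le_one (le_max_left _ _)
theorem RLchi_le (n : ℕ) (z : ℂ) : RLchi n z ≤ 1 := min_le_left _ _
theorem RLchi_zero {n : ℕ} {z : ℂ} (h : (n + 1) * ‖z‖ ≤ 1) : RLchi n z = 0 := by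
  unfold RLchi
  rw [max_eq_left (by linarith), min_eq_right zero_le_one]
theorem RLchi_one {n : ℕ} {z : ℂ} (h : 2 ≤ (n + 1) * ‖z‖) : RLchi n z = 1 :=
  min_eq_left (le_max_of_le_right (by linarith))
theorem RLchi_cont (n : ℕ) : Continuous (RLchi n) := by
  unfold RLchi
  fun_prop

section Arch
variable {Φ : ℂ × ℂ → ℂ} {M : ℝ}

theorem RL_M (h : ∀ z : ℂ × ℂ, z.1 ≠ 0 →
    ‖Φ z‖ ≤ M * (‖z.1‖⁻¹ * (1 + ‖z.1‖) ^ (-3 : ℝ)) * (1 + ‖z.2‖) ^ (-3 : ℝ)) : 0 ≤ M := by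
  have h1 := (norm_nonneg _).trans (h (1, 0) one_ne_zero)
  rw [mul_assoc] at h1
  refine nonneg_of_mul_nonneg_left h1 ?_
  simp only [norm_one]
  positivity

theorem RL_cont (hc : ContinuousOn Φ {z | z.1 ≠ 0}) (n : ℕ) :
    Continuous fun z : ℂ × ℂ => (RLchi n z.1 : ℂ) * Φ z := by
  refine continuous_iff_continuousAt.2 fun z => ?_
  by_cases hz : z.1 = 0
  · have h1 : ∀ᶠ u : ℂ × ℂ in 𝓝 z, ((n : ℝ) + 1) * ‖u.1‖ < 1 := by
      refine ContinuousAt.eventually_lt (by fun_prop) continuousAt_const ?_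
      simp [hz]
    refine (continuousAt_const (y := (0 : ℂ))).congr ?_
    filter_upwards [h1] with u hu
    rw [RLchi_zero hu.le, ofReal_zero, zero_mul]
  · have ho : IsOpen {z : ℂ × ℂ | z.1 ≠ 0} := isOpen_ne_fun continuous_fst continuous_const
    exact (continuous_ofReal.comp ((RLchi_cont n).comp continuous_fst)).continuousAt.mul
      (hc.continuousAt (ho.mem_nhds hz))

theorem RL_norm_le (n : ℕ) (z : ℂ × ℂ) : ‖(RLchi n z.1 : ℂ) * Φ z‖ ≤ ‖Φ z‖ := by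
  rw [norm_mul, norm_real, Real.norm_of_nonneg (RLchi_nonneg _ _)]
  exact mul_le_of_le_one_left (norm_nonneg _) (RLchi_le _ _)

theorem RL_dec (h : ∀ z : ℂ × ℂ, z.1 ≠ 0 →
    ‖Φ z‖ ≤ M * (‖z.1‖⁻¹ * (1 + ‖z.1‖) ^ (-3 : ℝ)) * (1 + ‖z.2‖) ^ (-3 : ℝ)) (n : ℕ) :
    Dec2 (M * (n + 1)) fun z : ℂ × ℂ => (RLchi n z.1 : ℂ) * Φ z := by
  have hM := RL_M h
  intro z
  by_cases hz : ((n : ℝ) + 1) * ‖z.1‖ ≤ 1
  · simp only [RLchi_zero hz, ofReal_zero, zero_mul, norm_zero]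
    positivity
  · push Not at hz
    have h0 : z.1 ≠ 0 := fun h0 => by
      rw [h0, norm_zero, mul_zero] at hz
      linarith
    have h1 : ‖z.1‖⁻¹ ≤ n + 1 := by
      rw [inv_le_iff_one_le_mul₀ (norm_pos_iff.2 h0)]
      exact hz.le
    refine (RL_norm_le n z).trans ((h z h0).trans ?_)
    rw [← mul_assoc]
    gcongr

theorem RL_int (hc : ContinuousOn Φ {z | z.1 ≠ 0}) (h : ∀ z : ℂ × ℂ, z.1 ≠ 0 →
    ‖Φ z‖ ≤ M * (‖z.1‖⁻¹ * (1 + ‖z.1‖) ^ (-3 : ℝ)) * (1 + ‖z.2‖) ^ (-3 : ℝ)) :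
    Tendsto (fun n : ℕ => ∫ z : ℂ × ℂ, (RLchi n z.1 : ℂ) * Φ z) atTop (𝓝 (∫ z, Φ z)) := by
  have hae : ∀ᵐ z : ℂ × ℂ, z.1 ≠ 0 := by
    rw [ae_iff]
    have : {z : ℂ × ℂ | ¬ z.1 ≠ 0} = ({0} : Set ℂ) ×ˢ (Set.univ : Set ℂ) := by
      ext z
      simp
    rw [this, Measure.volume_eq_prod, Measure.prod_prod, measure_singleton, zero_mul]
  have hi : Integrable fun z : ℂ × ℂ =>
      M * (‖z.1‖⁻¹ * (1 + ‖z.1‖) ^ (-3 : ℝ)) * (1 + ‖z.2‖) ^ (-3 : ℝ) := by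
    rw [Measure.volume_eq_prod]
    exact (QRH.integrable_sing.const_mul M).mul_prod (QRH.integrable_decay (σ := 3) (by norm_num))
  refine tendsto_integral_of_dominated_convergence _
    (fun n => (RL_cont hc n).aestronglyMeasurable) hi (fun n => ?_) ?_
  · filter_upwards [hae] with z hz
    exact (RL_norm_le n z).trans (h z hz)
  · filter_upwards [hae] with z hz
    have h0 : 0 < ‖z.1‖ := norm_pos_iff.2 hz
    have h1 : Tendsto (fun n : ℕ => ((n : ℝ) + 1) * ‖z.1‖) atTop atTop :=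
      (tendsto_natCast_atTop_atTop.atTop_add tendsto_const_nhds).atTop_mul_const h0
    refine tendsto_const_nhds.congr' ?_
    filter_upwards [h1.eventually_ge_atTop 2] with n hn
    rw [RLchi_one hn, ofReal_one, one_mul]

theorem RL_le_W (h : ∀ z : ℂ × ℂ, z.1 ≠ 0 →
    ‖Φ z‖ ≤ M * (‖z.1‖⁻¹ * (1 + ‖z.1‖) ^ (-3 : ℝ)) * (1 + ‖z.2‖) ^ (-3 : ℝ)) {z : ℂ × ℂ}
    (hz : z.1 ≠ 0) : √((1 + ‖z.1‖) / ‖z.1‖) * ‖Φ z‖ ≤ M * RLW z := by
  rw [RL_W_eq hz, mul_left_comm]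
  refine mul_le_mul_of_nonneg_left ?_ (Real.sqrt_nonneg _)
  rw [← mul_assoc]
  exact h z hz

end Arch

variable [σ : St]

section ArchP
variable {Φ : Pl → ℂ × ℂ → ℂ} {M : ℝ}

theorem RL_prod0 (h : ∀ w (z : ℂ × ℂ), z.1 ≠ 0 →
    ‖Φ w z‖ ≤ M * (‖z.1‖⁻¹ * (1 + ‖z.1‖) ^ (-3 : ℝ)) * (1 + ‖z.2‖) ^ (-3 : ℝ)) {z : Pl → ℂ × ℂ}
    (hz : ∀ w, (z w).1 ≠ 0) :
    (∏ w, √((1 + ‖(z w).1‖) / ‖(z w).1‖)) * ‖∏ w, Φ w (z w)‖ ≤ M ^ rk * ∏ w, RLW (z w) := by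
  rw [norm_prod, ← Finset.prod_mul_distrib, ← prod_const_Pl, ← Finset.prod_mul_distrib]
  exact Finset.prod_le_prod (fun w _ => by positivity) fun w _ => RL_le_W (h w) (hz w)

theorem RL_prod1 (h : ∀ w (z : ℂ × ℂ), z.1 ≠ 0 →
    ‖Φ w z‖ ≤ M * (‖z.1‖⁻¹ * (1 + ‖z.1‖) ^ (-3 : ℝ)) * (1 + ‖z.2‖) ^ (-3 : ℝ)) (z : Pl → ℂ × ℂ)
    (hz : ∀ w, (z w).1 ≠ 0) : ‖∏ w, Φ w (z w)‖ ≤ M ^ rk * ∏ w, RLW (z w) :=
  (le_mul_of_one_le_left (norm_nonneg _) (Finset.one_le_prod fun w _ =>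
    RL_one_le (norm_pos_iff.2 (hz w)))).trans (RL_prod0 h hz)

theorem RL_prod2 (h : ∀ w (z : ℂ × ℂ), z.1 ≠ 0 →
    ‖Φ w z‖ ≤ M * (‖z.1‖⁻¹ * (1 + ‖z.1‖) ^ (-3 : ℝ)) * (1 + ‖z.2‖) ^ (-3 : ℝ)) (n : ℕ)
    (z : Pl → ℂ × ℂ) (hz : ∀ w, (z w).1 ≠ 0) :
    ‖∏ w, Φ w (z w) - ∏ w, (RLchi n (z w).1 : ℂ) * Φ w (z w)‖
      ≤ √(2 / (n + 1)) * M ^ rk * ∏ w, RLW (z w) := by
  have hM := RL_M (h (Classical.arbitrary _))
  have hW : 0 ≤ ∏ w, RLW (z w) := Finset.prod_nonneg fun w _ => RLW_nonneg _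
  by_cases h1 : ∀ w, 2 ≤ ((n : ℝ) + 1) * ‖(z w).1‖
  · simp only [RLchi_one (h1 _), ofReal_one, one_mul, sub_self, norm_zero]
    positivity
  · push Not at h1
    obtain ⟨w0, hw0⟩ := h1
    have h0 : 0 < ‖(z w0).1‖ := norm_pos_iff.2 (hz w0)
    have h2 : 1 ≤ √(2 / (n + 1)) * ∏ w, √((1 + ‖(z w).1‖) / ‖(z w).1‖) := by
      rw [← Finset.mul_prod_erase _ _ (Finset.mem_univ w0), ← mul_assoc]
      refine one_le_mul_of_one_le_of_one_le ?_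
        (Finset.one_le_prod fun w _ => RL_one_le (norm_pos_iff.2 (hz w)))
      rw [← Real.sqrt_mul (by positivity), Real.one_le_sqrt, div_mul_div_comm,
        one_le_div (by positivity)]
      linarith
    have h3 : ‖∏ w, Φ w (z w) - ∏ w, (RLchi n (z w).1 : ℂ) * Φ w (z w)‖ ≤ ‖∏ w, Φ w (z w)‖ := by
      rw [Finset.prod_mul_distrib, ← one_sub_mul, norm_mul, ← ofReal_prod, ← ofReal_one,
        ← ofReal_sub, norm_real]
      refine mul_le_of_le_one_left (norm_nonneg _) ?_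
      have a1 : 0 ≤ ∏ w, RLchi n (z w).1 := Finset.prod_nonneg fun w _ => RLchi_nonneg _ _
      have a2 : ∏ w, RLchi n (z w).1 ≤ 1 :=
        Finset.prod_le_one (fun w _ => RLchi_nonneg _ _) fun w _ => RLchi_le _ _
      rw [Real.norm_of_nonneg (by linarith)]
      linarith
    refine h3.trans ((le_mul_of_one_le_left (norm_nonneg _) h2).trans ?_)
    rw [mul_assoc, mul_assoc]
    exact mul_le_mul_of_nonneg_left (RL_prod0 h hz) (Real.sqrt_nonneg _)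

end ArchP

/-- The `S`-adic majorant. -/
def RLS (c0 z0 : FF) (D : ℝ) (h : FF → FF → ℂ) : Prop :=
  (∀ C ζ, h C ζ ≠ 0 → C ≠ 0 ∧ C / c0 ∈ OS ∧ ζ / z0 ∈ OS) ∧
    ∀ C ζ, ‖h C ζ‖ ≤ D * sS C ^ (-(7 / 8) : ℝ)

theorem RL_bd {c0 z0 : FF} (hc : c0 ≠ 0) (hz : z0 ≠ 0) : ∃ K : ℝ, 0 < K ∧
    ∀ (A : E → E → ℂ) (h : FF → FF → ℂ) (B : (Pl → ℂ × ℂ) → ℂ) (a D M : ℝ) (S1 S2 : Pl → ℂ),
    0 ≤ a → 0 ≤ D → 0 ≤ M → (∀ x y, ‖A x y‖ ≤ a) → RLS c0 z0 D h →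
    (∀ z, (∀ w, (z w).1 ≠ 0) → ‖B z‖ ≤ M * ∏ w, RLW (z w)) → (∀ w, 1 ≤ ‖S1 w‖) → (∀ w, 1 ≤ ‖S2 w‖) →
    Summable (fun x : E × E => A x.1 x.2 * h x.1 x.2 *
      B fun w => (em w x.1 / S1 w, em w x.2 / S2 w)) ∧
    ‖(((∏ w, ‖S1 w‖ ^ 2 * ‖S2 w‖ ^ 2)⁻¹ : ℝ) : ℂ) * ∑' x : E × E, A x.1 x.2 * h x.1 x.2 *
      B fun w => (em w x.1 / S1 w, em w x.2 / S2 w)‖ ≤ K * (a * D * M) := by
  obtain ⟨C1, hC1, H1⟩ := lat_sum (θ := 7 / 8) (α := 3 / 2) (β := 5 / 2) (by norm_num) (by norm_num)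
    (by norm_num) (by norm_num) (by norm_num)
  obtain ⟨C2, hC2, H2⟩ := lat_decay (β := 3) (by norm_num)
  have p1 := sS_pos c0
  have p2 := sS_pos z0
  refine ⟨C1 * sS c0 ^ (1 - 7 / 8 : ℝ) * (1 + C2 * sS z0), by positivity,
    fun A h B a D M S1 S2 ha hD hM hA hh hB h1 h2 => ?_⟩
  have q1 : ∀ w, 0 < ‖S1 w‖ := fun w => zero_lt_one.trans_le (h1 w)
  have q2 : ∀ w, 0 < ‖S2 w‖ := fun w => zero_lt_one.trans_le (h2 w)
  obtain ⟨s1, b1⟩ := H1 c0 (fun w => ‖S1 w‖) hc q1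
  obtain ⟨s2, b2⟩ := H2 z0 (fun w => ‖S2 w‖) hz q2
  set u : E → ℝ := fun x => if x ≠ 0 ∧ (x : FF) / c0 ∈ OS then sS x ^ (-(7 / 8) : ℝ) *
    ∏ w, (‖em w x‖ / ‖S1 w‖) ^ (-(3 / 2) : ℝ) * (1 + ‖em w x‖ / ‖S1 w‖) ^ (-(5 / 2) : ℝ) else 0
    with hu
  set v : E → ℝ := fun x => if (x : FF) / z0 ∈ OS then
    ∏ w, (1 + ‖em w x‖ / ‖S2 w‖) ^ (-3 : ℝ) else 0 with hv
  have u0 : ∀ x, 0 ≤ u x := fun x => by
    have := sS_pos (x : FF)
    simp only [hu]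
    split_ifs
    · positivity
    · exact le_rfl
  have v0 : ∀ x, 0 ≤ v x := fun x => by
    simp only [hv]
    split_ifs
    · positivity
    · exact le_rfl
  have s3 := s1.mul_of_nonneg s2 u0 v0
  have hb : ∀ x : E × E, ‖A x.1 x.2 * h x.1 x.2 * B fun w => (em w x.1 / S1 w, em w x.2 / S2 w)‖
      ≤ a * D * M * (u x.1 * v x.2) := by
    rintro ⟨x, y⟩
    by_cases h0 : h x y = 0
    · simp only [h0, mul_zero, zero_mul, norm_zero]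
      exact mul_nonneg (by positivity) (mul_nonneg (u0 _) (v0 _))
    · obtain ⟨a1, a2, a3⟩ := hh.1 _ _ h0
      have a4 : x ≠ 0 := fun h => a1 (by rw [h]; rfl)
      have a5 := hB (fun w => (em w x / S1 w, em w y / S2 w))
        fun w => div_ne_zero (em_ne_zero w a1) (norm_pos_iff.1 (q1 w))
      have := sS_pos (x : FF)
      simp only [hu, hv, if_pos (And.intro a4 a2), if_pos a3]
      rw [norm_mul, norm_mul]
      refine (mul_le_mul (mul_le_mul (hA x y) (hh.2 x y) (norm_nonneg _) ha) a5 (norm_nonneg _)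
        (by positivity)).trans (le_of_eq ?_)
      simp only [RLW, norm_div]
      rw [Finset.prod_mul_distrib]
      ring
  have s4 := s3.mul_left (a * D * M)
  refine ⟨s4.of_norm_bounded hb, ?_⟩
  have P1 : 0 < ∏ w, ‖S1 w‖ ^ 2 := Finset.prod_pos fun w _ => pow_pos (q1 w) 2
  have P2 : 1 ≤ ∏ w, ‖S2 w‖ ^ 2 := Finset.one_le_prod fun w _ => one_le_pow₀ (h2 w)
  have b3 := tsum_of_norm_bounded s4.hasSum hb
  rw [tsum_mul_left, ← s1.tsum_mul_tsum s2 s3] at b3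
  have b4 : ∑' x, v x ≤ (1 + C2 * sS z0) * ∏ w, ‖S2 w‖ ^ 2 := by
    refine b2.trans ?_
    rw [add_mul, one_mul]
    linarith
  have b5 := mul_le_mul b1 b4 (tsum_nonneg v0) (by positivity)
  rw [norm_mul, norm_real, Finset.prod_mul_distrib, Real.norm_of_nonneg (by positivity),
    inv_mul_le_iff₀ (by positivity)]
  refine b3.trans ((mul_le_mul_of_nonneg_left b5 (by positivity)).trans (le_of_eq ?_))
  ring

theorem RL_sint (H : Riem0) {c0 z0 : FF} (hc : c0 ≠ 0) (hz : z0 ≠ 0) : ∃ K : ℝ, 0 < K ∧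
    ∀ (h : FF → FF → ℂ) (D : ℝ), 0 ≤ D → HSB2 h → RLS c0 z0 D h →
      ‖((kap ^ 2 : ℝ) : ℂ) * sint2 h‖ ≤ K * D := by
  obtain ⟨K, hK, HK⟩ := RL_bd hc hz
  set φ : ℂ × ℂ → ℝ := fun z => (1 + ‖z.1‖) ^ (-4 : ℝ) * (1 + ‖z.2‖) ^ (-3 : ℝ) with hφ
  have φc : Continuous φ := by
    refine Continuous.mul ?_ ?_ <;>
      exact Continuous.rpow_const (by fun_prop) fun z => Or.inl (by positivity)
  have φ0 : ∀ z, 0 < φ z := fun z => by positivity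
  have φi : Integrable φ := by
    rw [Measure.volume_eq_prod]
    exact (QRH.integrable_decay (σ := 4) (by norm_num)).mul_prod
      (QRH.integrable_decay (σ := 3) (by norm_num))
  have hI : 0 < ∫ z, φ z :=
    integral_pos_of_integrable_nonneg_nonzero (x := 0) φc φi (fun z => (φ0 z).le) (φ0 0).ne'
  have e4 : ∀ t : ℝ, 0 ≤ t → (1 + t) ^ (-4 : ℝ) = (1 + t)⁻¹ * (1 + t) ^ (-3 : ℝ) := fun t ht => by
    rw [← Real.rpow_neg_one, ← Real.rpow_add (by positivity)]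
    norm_num
  have d1 : Dec2 1 fun z => (φ z : ℂ) := fun z => by
    rw [norm_real, Real.norm_of_nonneg (φ0 z).le]
    simp only [hφ]
    rw [e4 _ (norm_nonneg _)]
    gcongr
    exact inv_le_one_of_one_le₀ (le_add_of_nonneg_right (norm_nonneg _))
  have d2 : ∀ (_ : Pl) (z : ℂ × ℂ), z.1 ≠ 0 → ‖(φ z : ℂ)‖
      ≤ 1 * (‖z.1‖⁻¹ * (1 + ‖z.1‖) ^ (-3 : ℝ)) * (1 + ‖z.2‖) ^ (-3 : ℝ) := fun _ z hz => by
    have := norm_pos_iff.2 hz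
    rw [norm_real, Real.norm_of_nonneg (φ0 z).le, one_mul]
    simp only [hφ]
    rw [e4 _ (norm_nonneg _)]
    gcongr
    linarith
  have hP : 0 < (4 / 3 * ∫ z, φ z) ^ rk := by positivity
  refine ⟨K / (4 / 3 * ∫ z, φ z) ^ rk, by positivity, fun h D hD ⟨k, hk⟩ hh => ?_⟩
  have tS : ∀ _ : Pl, Tendsto (fun X : ℝ => ‖(X : ℂ)‖) atTop atTop := fun _ => by
    simp only [norm_real]
    exact tendsto_abs_atTop_atTop
  have h1 := H 1 (fun _ _ => 1) k h (fun _ z => (φ z : ℂ)) 1 (fun X _ => X) (fun X _ => X)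
    one_ne_zero (fun _ _ _ _ _ _ => rfl) hk (fun _ => continuous_ofReal.comp φc) (fun _ => d1) tS tS
  have h2 := le_of_tendsto h1.norm (b := K * (1 * D * 1 ^ rk)) (by
    filter_upwards [(tS (Classical.arbitrary _)).eventually_ge_atTop 1] with X hX
    exact (HK (fun _ _ => 1) h (fun z => ∏ w, (φ (z w) : ℂ)) 1 D (1 ^ rk) (fun _ => X) (fun _ => X)
      zero_le_one hD (by positivity) (fun _ _ => norm_one.le) hh
      (RL_prod1 (Φ := fun _ z => (φ z : ℂ)) d2) (fun _ => hX) fun _ => hX).2)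
  simp only [rsum2, rsum_const one_ne_zero, nm_one, Nat.cast_one, one_mul, one_pow, div_one,
    mul_one, integral_complex_ofReal] at h2
  rw [norm_mul, norm_prod] at h2
  simp only [← ofReal_mul, norm_real] at h2
  rw [prod_const_Pl, Real.norm_of_nonneg (by positivity)] at h2
  rw [div_mul_eq_mul_div, le_div_iff₀ hP]
  exact h2

theorem RL_S {c0 z0 : FF} {g h : FF → FF → ℂ} {G t : ℝ} (hG : 0 ≤ G) (ht : 0 ≤ t)
    (h1 : ∀ C ζ, g C ζ ≠ 0 → C / c0 ∈ OS ∧ ζ / z0 ∈ OS)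
    (h2 : ∀ C ζ, C ≠ 0 → ‖g C ζ‖ ≤ G * sS C ^ (-(3 / 4) : ℝ))
    (h3 : ∀ C ζ, h C ζ ≠ 0 → h C ζ = g C ζ ∧ C ≠ 0 ∧ (C / c0 ∈ OS → sS C ≤ t)) :
    RLS c0 z0 (G * t ^ (1 / 8 : ℝ)) h := by
  refine ⟨fun C ζ h0 => ?_, fun C ζ => ?_⟩
  · obtain ⟨a1, a2, -⟩ := h3 C ζ h0
    exact ⟨a2, h1 C ζ (a1 ▸ h0)⟩
  · have p := sS_pos C
    by_cases h0 : h C ζ = 0
    · rw [h0, norm_zero]
      positivity
    · obtain ⟨a1, a2, a3⟩ := h3 C ζ h0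
      have a4 := a3 (h1 C ζ (a1 ▸ h0)).1
      rw [a1]
      refine (h2 C ζ a2).trans ?_
      rw [show (-(3 / 4) : ℝ) = 1 / 8 + -(7 / 8) by norm_num, Real.rpow_add p, mul_assoc]
      gcongr

theorem RL_A {m : E} (hm : m ≠ 0) {A : E → E → ℂ} (hA : Per2 m A) :
    ∃ a : ℝ, 0 ≤ a ∧ ∀ x y, ‖A x y‖ ≤ a := by
  refine ⟨∑ p ∈ reps m ×ˢ reps m, ‖A p.1 p.2‖, Finset.sum_nonneg fun _ _ => norm_nonneg _,
    fun x y => ?_⟩
  obtain ⟨r, hr, hx⟩ := exists_rep hm x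
  obtain ⟨t, ht, hy⟩ := exists_rep hm y
  rw [hA x r y t hx hy]
  exact Finset.single_le_sum (f := fun p : E × E => ‖A p.1 p.2‖) (a := (r, t))
    (fun _ _ => norm_nonneg _) (Finset.mem_product.2 ⟨hr, ht⟩)

theorem RL_sub {f g : FF → FF → ℂ} (hf : HSB2 f) (hg : HSB2 g) :
    HSB2 fun x y => f x y - g x y := by
  obtain ⟨k, hk⟩ := hf
  obtain ⟨l, hl⟩ := hg
  have h1 := hk.mono (le_max_left k l)
  have h2 := hl.mono (le_max_right k l)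
  refine ⟨max k l, fun x y h => ?_, fun x x' y y' hx hy => by
    simp only [h1.2 x x' y y' hx hy, h2.2 x x' y y' hx hy]⟩
  by_cases h0 : f x y = 0
  · exact h2.1 x y fun h' => h (by simp only [h0, h', sub_zero])
  · exact h1.1 x y h0

theorem riemL (h : Riem0) : RiemL := by
  intro c0 z0 hc hz
  obtain ⟨K1, hK1, H1⟩ := RL_sint h hc hz
  obtain ⟨K2, hK2, H2⟩ := RL_bd hc hz
  obtain ⟨K0, hK0, H0⟩ := sS_small hc
  have p0 := sS_pos c0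
  refine ⟨K1 * sS c0 ^ (1 / 8 : ℝ), by positivity, fun g G hG h1 h2 h3 => ?_⟩
  have r1 : ∀ k, RLS c0 z0 (G * sS c0 ^ (1 / 8 : ℝ)) (tr k g) := fun k =>
    RL_S hG p0.le h1 h2 fun C ζ h0 => by
      unfold tr at h0 ⊢
      split_ifs at h0 ⊢ with hC
      · exact ⟨rfl, hC.1, sS_mono hC.1 hc⟩
      · exact (h0 rfl).elim
  have r2 : ∀ n k, n ≤ k → RLS c0 z0 (G * (K0 * (1 / 2) ^ n) ^ (1 / 8 : ℝ))
      fun C ζ => tr k g C ζ - tr n g C ζ := fun n k hnk =>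
    RL_S hG (by positivity) h1 h2 fun C ζ h0 => by
      unfold tr at h0 ⊢
      split_ifs at h0 ⊢ with hC hC' hC'
      · exact (h0 (sub_self _)).elim
      · exact ⟨sub_zero _, hC.1, fun h => H0 n C hC.1 h fun h' => hC' ⟨hC.1, h'⟩⟩
      · refine (hC ⟨hC'.1, ?_⟩).elim
        obtain ⟨d, rfl⟩ := Nat.exists_eq_add_of_le hnk
        rw [pow_add, mul_comm, mul_div_assoc]
        exact OS.mul_mem (OS.pow_mem ss_mem_OS d) hC'.2
      · exact (h0 (sub_self _)).elim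
  have r3 : ∀ n, RLS c0 z0 (G * (K0 * (1 / 2) ^ n) ^ (1 / 8 : ℝ))
      fun C ζ => (if C = 0 then 0 else g C ζ) - tr n g C ζ := fun n =>
    RL_S hG (by positivity) h1 h2 fun C ζ h0 => by
      unfold tr at h0 ⊢
      split_ifs at h0 ⊢ with hC hC' hC'
      · exact (hC'.1 hC).elim
      · exact (h0 (sub_self _)).elim
      · exact (h0 (sub_self _)).elim
      · exact ⟨sub_zero _, hC, fun h => H0 n C hC h fun h' => hC' ⟨hC, h'⟩⟩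
  have t0 : Tendsto (fun n : ℕ => G * (K0 * (1 / 2) ^ n) ^ (1 / 8 : ℝ)) atTop (𝓝 0) := by
    have a1 := ((tendsto_pow_atTop_nhds_zero_of_lt_one (r := (1 / 2 : ℝ)) (by norm_num)
      (by norm_num)).const_mul K0).rpow_const (p := 1 / 8) (Or.inr (by norm_num))
    rw [mul_zero, Real.zero_rpow (by norm_num)] at a1
    simpa only [mul_zero] using a1.const_mul G
  have hcau : CauchySeq fun k => ((kap ^ 2 : ℝ) : ℂ) * sint2 (tr k g) := by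
    refine cauchySeq_of_le_tendsto_0' (fun n : ℕ => K1 * (G * (K0 * (1 / 2) ^ n) ^ (1 / 8 : ℝ)))
      (fun n k hnk => ?_) (by simpa only [mul_zero] using t0.const_mul K1)
    rw [dist_comm, dist_eq_norm, ← mul_sub, ← sint2_sub (h3 k) (h3 n)]
    exact H1 _ _ (by positivity) (RL_sub (h3 k) (h3 n)) (r2 n k hnk)
  obtain ⟨l, hl⟩ := cauchySeq_tendsto_of_complete hcau
  refine ⟨l, le_of_tendsto' hl.norm fun k => ?_, fun m A Φ M S1 S2 hm hA hΦc hΦ t1 t2 => ?_⟩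
  · refine (H1 _ _ (by positivity) (h3 k) (r1 k)).trans (le_of_eq ?_)
    ring
  obtain ⟨a, ha, hAa⟩ := RL_A hm hA
  have hM := RL_M (hΦ (Classical.arbitrary _))
  refine RL_approx (Tn := fun n X => (((∏ w, ‖S1 X w‖ ^ 2 * ‖S2 X w‖ ^ 2)⁻¹ : ℝ) : ℂ) *
      ∑' x : E × E, A x.1 x.2 * tr n g x.1 x.2 * ∏ w, (RLchi n (em w x.1 / S1 X w) : ℂ) *
        Φ w (em w x.1 / S1 X w, em w x.2 / S2 X w))
    (e := fun n => K2 * (a * (G * (K0 * (1 / 2) ^ n) ^ (1 / 8 : ℝ)) * M ^ rk)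
      + K2 * (a * (G * sS c0 ^ (1 / 8 : ℝ)) * (√(2 / (n + 1)) * M ^ rk)))
    (L := fun n => rsum2 m A / (nm m : ℂ) ^ 2 * (((kap ^ 2 : ℝ) : ℂ) * sint2 (tr n g))
      * ∏ w, (((4 / 3 : ℝ) : ℂ) * ∫ u : ℂ × ℂ, (RLchi n u.1 : ℂ) * Φ w u))
    (fun n => ?_) (fun n => ?_) ?_ ?_
  · obtain ⟨j, hj⟩ := h3 n
    exact h m A j (tr n g) (fun w z => (RLchi n z.1 : ℂ) * Φ w z) (M * (n + 1)) S1 S2 hm hA hj
      (fun w => RL_cont (hΦc w) n) (fun w => RL_dec (hΦ w) n) t1 t2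
  · filter_upwards [eventually_all.2 fun w => (t1 w).eventually_ge_atTop 1,
      eventually_all.2 fun w => (t2 w).eventually_ge_atTop 1] with X x1 x2
    obtain ⟨s1, b1⟩ := H2 A _ (fun z => ∏ w, Φ w (z w)) a _ (M ^ rk) (S1 X) (S2 X) ha
      (by positivity) (by positivity) hAa (r3 n) (RL_prod1 hΦ) x1 x2
    obtain ⟨s2, b2⟩ := H2 A _ (fun z => ∏ w, Φ w (z w) - ∏ w, (RLchi n (z w).1 : ℂ) * Φ w (z w)) a _
      (√(2 / (n + 1)) * M ^ rk) (S1 X) (S2 X) ha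
      (by positivity) (by positivity) hAa (r1 n) (RL_prod2 hΦ n) x1 x2
    obtain ⟨s3, -⟩ := H2 A _ (fun z => ∏ w, (RLchi n (z w).1 : ℂ) * Φ w (z w)) a _ (M ^ rk)
      (S1 X) (S2 X) ha (by positivity) (by positivity) hAa (r1 n)
      (RL_prod1 (Φ := fun w z => (RLchi n z.1 : ℂ) * Φ w z)
        fun w z hz => (RL_norm_le n z).trans (hΦ w z hz)) x1 x2
    refine le_trans (le_of_eq ?_) ((norm_add_le _ _).trans (add_le_add b1 b2))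
    congr 1
    rw [sub_eq_iff_eq_add, ← mul_add, ← mul_add, ← s1.tsum_add s2, ← (s1.add s2).tsum_add s3]
    congr 1
    refine tsum_congr fun x => ?_
    by_cases hx : x.1 = 0
    · simp [hx, tr]
    · have hx' : (x.1 : FF) ≠ 0 := by exact_mod_cast hx
      rw [if_neg hx, if_neg hx']
      ring
  · have a1 : Tendsto (fun n : ℕ => √(2 / ((n : ℝ) + 1))) atTop (𝓝 0) := by
      have := (tendsto_const_nhds (x := (2 : ℝ))).div_atTop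
        (tendsto_natCast_atTop_atTop.atTop_add (tendsto_const_nhds (x := (1 : ℝ))))
      simpa only [Real.sqrt_zero] using this.sqrt
    have a2 := (((t0.const_mul a).mul_const (M ^ rk)).const_mul K2).add
      (((a1.mul_const (M ^ rk)).const_mul (a * (G * sS c0 ^ (1 / 8 : ℝ)))).const_mul K2)
    simpa only [mul_zero, zero_mul, add_zero] using a2
  · exact (hl.const_mul _).mul (tendsto_finsetProd _ fun w _ => (RL_int (hΦc w) (hΦ w)).const_mul _)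

end NQ
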