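import Vale.Agent.NQ.Lat0
import Vale.Agent.P026.FtD

noncomputable section
namespace NQ
open Complex MeasureTheory NumberField Filter
open scoped ComplexConjugate Classical ContDiff Topology

section Abs
variable {ι : Type} [Fintype ι] {n : ℕ} (B : Module.Basis (Fin n) ℝ (ι → ℂ))

/-- The lattice point with coordinates `k`. -/
def riemO_pt (k : Fin n → ℤ) : ι → ℂ := ∑ i, (k i : ℝ) • B i

/-- The coordinates of the lattice point whose cell contains `α u - β`. -/
def riemO_fl (α β u : ι → ℂ) : Fin n → ℤ := fun i => ⌊B.repr (fun w => α w * u w - β w) i⌋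

/-- Coordinatewise multiplication. -/
def riemO_L (α : ι → ℂ) : (ι → ℂ) →ₗ[ℝ] (ι → ℂ) :=
  LinearMap.pi fun w => (LinearMap.mul ℝ ℂ (α w)).comp (LinearMap.proj w)

theorem riemO_det (α : ι → ℂ) : LinearMap.det (riemO_L α) = ∏ w, ‖α w‖ ^ 2 := by
  rw [riemO_L, LinearMap.det_pi]
  refine Finset.prod_congr rfl fun w _ => ?_
  rw [Complex.sq_norm, ← Algebra.norm_complex_apply, Algebra.norm_apply]
  rfl

omit [Fintype ι] in
theorem riemO_repr (k : Fin n → ℤ) (i : Fin n) : B.repr (riemO_pt B k) i = k i := by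
  rw [riemO_pt, B.repr_sum_self]

theorem riemO_cell (α β : ι → ℂ) (k : Fin n → ℤ) : riemO_fl B α β ⁻¹' {k} =
    riemO_L α ⁻¹' ((fun v => v + (-β - riemO_pt B k)) ⁻¹' ZSpan.fundamentalDomain B) := by
  ext u
  have h : riemO_L α u + (-β - riemO_pt B k) = (fun w => α w * u w - β w) - riemO_pt B k := by
    funext w
    simp [riemO_L]
    ring
  simp only [Set.mem_preimage, Set.mem_singleton_iff, ZSpan.mem_fundamentalDomain, h, map_sub,
    Finsupp.sub_apply, riemO_repr, funext_iff, riemO_fl, Int.floor_eq_iff, Set.mem_Ico]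
  refine forall_congr' fun i => ⟨fun h => ⟨by linarith [h.1], by linarith [h.2]⟩,
    fun h => ⟨by linarith [h.1], by linarith [h.2]⟩⟩

theorem riemO_cell_meas (α β : ι → ℂ) (k : Fin n → ℤ) :
    MeasurableSet (riemO_fl B α β ⁻¹' {k}) := by
  rw [riemO_cell]
  exact (riemO_L α).continuous_of_finiteDimensional.measurable
    (measurable_add_const _ (ZSpan.fundamentalDomain_measurableSet B))

theorem riemO_cell_vol {α : ι → ℂ} (hα : ∀ w, α w ≠ 0) (β : ι → ℂ) (k : Fin n → ℤ) :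
    volume.real (riemO_fl B α β ⁻¹' {k}) =
      (∏ w, ‖α w‖ ^ 2)⁻¹ * (volume (ZSpan.fundamentalDomain B)).toReal := by
  have hd : 0 < ∏ w, ‖α w‖ ^ 2 :=
    Finset.prod_pos fun w _ => pow_pos (norm_pos_iff.2 (hα w)) 2
  rw [Measure.real, riemO_cell, Measure.addHaar_preimage_linearMap _ (by
    rw [riemO_det]; exact hd.ne'), measure_preimage_add_right, riemO_det, ENNReal.toReal_mul,
    ENNReal.toReal_ofReal (abs_nonneg _), abs_of_pos (inv_pos.2 hd)]

theorem riemO_close (α β u : ι → ℂ) (w : ι) :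
    ‖riemO_pt B (riemO_fl B α β u) w - (α w * u w - β w)‖ ≤ ∑ i, ‖B i‖ := by
  have h1 : riemO_pt B (riemO_fl B α β u) - (fun w => α w * u w - β w) =
      -ZSpan.fract B (fun w => α w * u w - β w) := by
    rw [ZSpan.fract_apply, neg_sub]
    congr 1
    refine B.repr.injective (Finsupp.ext fun i => ?_)
    rw [riemO_repr, ZSpan.repr_floor_apply]
    rfl
  have h2 := norm_le_pi_norm (riemO_pt B (riemO_fl B α β u) - fun w => α w * u w - β w) w
  rw [h1, norm_neg] at h2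
  have h3 := congrFun h1 w
  simp only [Pi.sub_apply] at h3
  rw [h3]
  exact h2.trans (ZSpan.norm_fract_le B _)

theorem riemO_near {a S : ι → ℂ} (y u : ι → ℂ) (w : ι) (ha : a w ≠ 0) (hS : S w ≠ 0) :
    ‖(y w + a w * riemO_pt B (riemO_fl B (fun w => S w / a w) (fun w => y w / a w) u) w) / S w -
      u w‖ ≤ ‖a w‖ * (∑ i, ‖B i‖) / ‖S w‖ := by
  have h := riemO_close B (fun w => S w / a w) (fun w => y w / a w) u w
  generalize riemO_pt B (riemO_fl B (fun w => S w / a w) (fun w => y w / a w) u) w = p at h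
  have h1 : (y w + a w * p) / S w - u w = a w * (p - (S w / a w * u w - y w / a w)) / S w := by
    field_simp
    ring
  rw [h1, norm_div, norm_mul]
  gcongr

theorem riemO_sum {Ω κ : Type} [MeasurableSpace Ω] [Countable κ] (μ : Measure Ω) (fl : Ω → κ)
    (hm : ∀ k, MeasurableSet (fl ⁻¹' {k})) (v : ℝ) (hv : ∀ k, μ.real (fl ⁻¹' {k}) = v)
    (G : κ → ℂ) (hG : Integrable (fun z => G (fl z)) μ) :
    ∫ z, G (fl z) ∂μ = (v : ℂ) * ∑' k, G k := by
  have hU : ⋃ k, fl ⁻¹' {k} = Set.univ := by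
    ext z
    simp
  have hs := hasSum_integral_iUnion (μ := μ) (f := fun z => G (fl z)) hm
    (fun x y hxy => (Set.disjoint_singleton.2 hxy).preimage _) hG.integrableOn
  rw [hU, Measure.restrict_univ] at hs
  have hc : ∀ k, ∫ z in fl ⁻¹' {k}, G (fl z) ∂μ = (v : ℂ) * G k := by
    intro k
    rw [setIntegral_congr_fun (g := fun _ => G k) (hm k)
      (fun z hz => by rw [show fl z = k from hz]), setIntegral_const, hv, Complex.real_smul]
  simp only [hc] at hs
  rw [← hs.tsum_eq, tsum_mul_left]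

theorem riemO_decay {K : ℝ} {w z : ℂ} (hK : 0 ≤ K) (h : ‖w - z‖ ≤ K) :
    (1 + ‖w‖) ^ (-3 : ℝ) ≤ (1 + K) ^ (3 : ℝ) * (1 + ‖z‖) ^ (-3 : ℝ) := by
  have h1 : ‖z‖ ≤ ‖w‖ + K := by
    have := norm_sub_norm_le z w
    rw [norm_sub_rev] at this
    linarith
  have hw := norm_nonneg w
  have hz := norm_nonneg z
  have h2 : (1 + ‖z‖) / (1 + K) ≤ 1 + ‖w‖ := by
    rw [div_le_iff₀ (by positivity)]
    nlinarith
  refine (Real.rpow_le_rpow_of_nonpos (by positivity) h2 (by norm_num)).trans (le_of_eq ?_)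
  rw [Real.div_rpow (by positivity) (by positivity), Real.rpow_neg (x := 1 + K) (by positivity),
    div_inv_eq_mul, mul_comm]

omit [Fintype ι] in
theorem riemO_cell2 (f g : (ι → ℂ) → Fin n → ℤ) (k : (Fin n → ℤ) × (Fin n → ℤ)) :
    Prod.map f g ⁻¹' {k} = (f ⁻¹' {k.1}) ×ˢ (g ⁻¹' {k.2}) := by
  ext z
  simp [Prod.ext_iff]

/-- Riemann sums over a product of two lattices. -/
theorem riemO_abs (a y z : ι → ℂ) (ha : ∀ w, a w ≠ 0) (Φ : ι → ℂ × ℂ → ℂ) (M : ℝ)
    (S1 S2 : ℝ → ι → ℂ) (hΦ : ∀ w, Continuous (Φ w)) (hM : ∀ w, Dec2 M (Φ w))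
    (h1 : ∀ w, Tendsto (fun X => ‖S1 X w‖) atTop atTop)
    (h2 : ∀ w, Tendsto (fun X => ‖S2 X w‖) atTop atTop) :
    Tendsto (fun X => ((((∏ w, ‖a w‖ ^ 2) * (volume (ZSpan.fundamentalDomain B)).toReal) ^ 2 *
      (∏ w, ‖S1 X w‖ ^ 2 * ‖S2 X w‖ ^ 2)⁻¹ : ℝ) : ℂ) * ∑' k : (Fin n → ℤ) × (Fin n → ℤ),
        ∏ w, Φ w ((y w + a w * riemO_pt B k.1 w) / S1 X w,
          (z w + a w * riemO_pt B k.2 w) / S2 X w)) atTop (𝓝 (∏ w, ∫ u, Φ w u)) := by
  set K : ι → ℝ := fun w => ‖a w‖ * ∑ i, ‖B i‖ with hK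
  have hK0 : ∀ w, 0 ≤ K w := fun w =>
    mul_nonneg (norm_nonneg _) (Finset.sum_nonneg fun _ _ => norm_nonneg _)
  set fl : ℝ → (ι → ℂ) × (ι → ℂ) → (Fin n → ℤ) × (Fin n → ℤ) := fun X =>
    Prod.map (riemO_fl B (fun w => S1 X w / a w) (fun w => y w / a w))
      (riemO_fl B (fun w => S2 X w / a w) (fun w => z w / a w)) with hfl
  set G : ℝ → (Fin n → ℤ) × (Fin n → ℤ) → ℂ := fun X k =>
    ∏ w, Φ w ((y w + a w * riemO_pt B k.1 w) / S1 X w,
      (z w + a w * riemO_pt B k.2 w) / S2 X w) with hG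
  have hm : ∀ X k, MeasurableSet (fl X ⁻¹' {k}) := fun X k => by
    rw [hfl, riemO_cell2]
    exact (riemO_cell_meas B _ _ _).prod (riemO_cell_meas B _ _ _)
  have hGm : ∀ X, Measurable fun u => G X (fl X u) := fun X => by
    exact (measurable_of_countable (G X)).comp (measurable_to_countable' (hm X))
  set g : (ι → ℂ) × (ι → ℂ) → ℝ := fun u =>
    (∏ w, |M| * (1 + K w) ^ (3 : ℝ) * (1 + K w) ^ (3 : ℝ)) *
      ((∏ w, (1 + ‖u.1 w‖) ^ (-3 : ℝ)) * ∏ w, (1 + ‖u.2 w‖) ^ (-3 : ℝ)) with hg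
  have hi1 : Integrable fun z : ℂ => (1 + ‖z‖) ^ (-3 : ℝ) :=
    integrable_one_add_norm (by simp; norm_num)
  have hi2 : Integrable fun u : ι → ℂ => ∏ w, (1 + ‖u w‖) ^ (-3 : ℝ) :=
    Integrable.fintype_prod (f := fun _ (z : ℂ) => (1 + ‖z‖) ^ (-3 : ℝ)) fun _ => hi1
  have hgi : Integrable g := (hi2.mul_prod hi2).const_mul _
  have hev : ∀ᶠ X in atTop, ∀ w, 1 ≤ ‖S1 X w‖ ∧ 1 ≤ ‖S2 X w‖ :=
    eventually_all.2 fun w => ((h1 w).eventually_ge_atTop 1).and ((h2 w).eventually_ge_atTop 1)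
  have hbd : ∀ X, (∀ w, 1 ≤ ‖S1 X w‖ ∧ 1 ≤ ‖S2 X w‖) → ∀ u, ‖G X (fl X u)‖ ≤ g u := by
    intro X hX u
    simp only [hG, hg, hfl, norm_prod, Prod.map_fst, Prod.map_snd]
    rw [← Finset.prod_mul_distrib, ← Finset.prod_mul_distrib]
    refine Finset.prod_le_prod (fun _ _ => norm_nonneg _) fun w _ => ?_
    have e1 := riemO_decay (hK0 w) ((riemO_near B y u.1 w (ha w)
      (norm_pos_iff.1 (by linarith [(hX w).1]))).trans (div_le_self (hK0 w) (hX w).1))
    have e2 := riemO_decay (hK0 w) ((riemO_near B z u.2 w (ha w)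
      (norm_pos_iff.1 (by linarith [(hX w).2]))).trans (div_le_self (hK0 w) (hX w).2))
    refine (hM w _).trans ?_
    have := hK0 w
    refine (mul_le_mul (mul_le_mul (le_abs_self M) e1 (by positivity) (abs_nonneg M)) e2
      (by positivity) (by positivity)).trans (le_of_eq ?_)
    ring
  have htend : ∀ (S : ℝ → ι → ℂ) (y u : ι → ℂ) (w : ι),
      Tendsto (fun X => ‖S X w‖) atTop atTop → Tendsto (fun X => (y w + a w * riemO_pt B
        (riemO_fl B (fun w => S X w / a w) (fun w => y w / a w) u) w) / S X w) atTop (𝓝 (u w)) := by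
    intro S y u w hS
    rw [tendsto_iff_norm_sub_tendsto_zero]
    refine squeeze_zero' (Eventually.of_forall fun _ => norm_nonneg _) ?_
      (hS.const_div_atTop (K w))
    filter_upwards [hS.eventually_gt_atTop 0] with X hX
    exact riemO_near B y u w (ha w) (norm_pos_iff.1 hX)
  have hlim : Tendsto (fun X => ∫ u, G X (fl X u)) atTop
      (𝓝 (∫ u : (ι → ℂ) × (ι → ℂ), ∏ w, Φ w (u.1 w, u.2 w))) := by
    refine tendsto_integral_filter_of_dominated_convergence g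
      (Eventually.of_forall fun X => (hGm X).aestronglyMeasurable) ?_ hgi
      (Eventually.of_forall fun u => ?_)
    · filter_upwards [hev] with X hX
      exact Eventually.of_forall (hbd X hX)
    · exact tendsto_finsetProd _ fun w _ => ((hΦ w).tendsto _).comp
        ((htend S1 y u.1 w (h1 w)).prodMk_nhds (htend S2 z u.2 w (h2 w)))
  have hint : ∫ u : (ι → ℂ) × (ι → ℂ), ∏ w, Φ w (u.1 w, u.2 w) = ∏ w, ∫ u, Φ w u := by
    rw [← (volume_measurePreserving_arrowProdEquivProdArrow ℂ ℂ ι).integral_comp',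
      ← integral_fintype_prod_volume_eq_prod]
    rfl
  rw [hint] at hlim
  refine hlim.congr' ?_
  filter_upwards [hev] with X hX
  have hS1 : ∀ w, S1 X w ≠ 0 := fun w => norm_pos_iff.1 (by linarith [(hX w).1])
  have hS2 : ∀ w, S2 X w ≠ 0 := fun w => norm_pos_iff.1 (by linarith [(hX w).2])
  refine riemO_sum volume (fl X) (hm X) _ (fun k => ?_) (G X)
    (hgi.mono' (hGm X).aestronglyMeasurable (Eventually.of_forall (hbd X hX)))
  rw [hfl, riemO_cell2, Measure.volume_eq_prod, measureReal_prod_prod,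
    riemO_cell_vol B fun w => div_ne_zero (hS1 w) (ha w),
    riemO_cell_vol B fun w => div_ne_zero (hS2 w) (ha w)]
  simp only [norm_div, div_pow, Finset.prod_div_distrib, Finset.prod_mul_distrib, inv_div]
  ring

end Abs

variable [σ : St]

theorem riemO : RiemO := by
  intro a y z Φ M S1 S2 ha hΦ hM h1 h2
  obtain ⟨n, b, B, -, hB, hbij, hcov, hpos⟩ := exists_latBasis
  have ha' : ∀ w : Pl, em w a ≠ 0 := fun w => (map_ne_zero _).2 ha
  have h := (riemO_abs B (fun w => em w a) (fun w => em w y) (fun w => em w z) ha' Φ M S1 S2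
    hΦ hM h1 h2).const_mul ((((Ninf a * ZLattice.covolume latO) ^ 2)⁻¹ : ℝ) : ℂ)
  have hN : 0 < Ninf a := Finset.prod_pos fun w _ => pow_pos (norm_pos_iff.2 (ha' w)) 2
  have hc : (((kap / Ninf a) ^ 2 : ℝ) : ℂ) * ∏ w, (((4 / 3 : ℝ) : ℂ) * ∫ u, Φ w u) =
      ((((Ninf a * ZLattice.covolume latO) ^ 2)⁻¹ : ℝ) : ℂ) * ∏ w, ∫ u, Φ w u := by
    rw [Finset.prod_mul_distrib, Finset.prod_const, Finset.card_univ, ← mul_assoc,
      ← Complex.ofReal_pow, ← Complex.ofReal_mul]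
    congr 2
    have h3 : ((2 / √3 : ℝ) ^ rk) ^ 2 = (4 / 3) ^ rk := by
      rw [← pow_mul, mul_comm, pow_mul, div_pow, Real.sq_sqrt (by norm_num)]
      norm_num
    have h4 : (0 : ℝ) < (2 / √3) ^ rk := by positivity
    change _ * (4 / 3 : ℝ) ^ rk = _
    rw [← h3, kap]
    field_simp
  rw [hc]
  refine h.congr fun X => ?_
  have hpt : ∀ (k : Fin n → ℤ) (w : Pl),
      em w ((∑ i, (k i : 𝓞 FF) * b i : 𝓞 FF) : FF) = riemO_pt B k w := by
    intro k w
    simp [riemO_pt, hB]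
  rw [← mul_assoc, ← Complex.ofReal_mul, ← hcov,
    ← ((Equiv.ofBijective _ hbij).prodCongr (Equiv.ofBijective _ hbij)).tsum_eq]
  congr 1
  · congr 1
    exact inv_mul_cancel_left₀ (pow_pos (mul_pos hN hpos) 2).ne' _
  · refine tsum_congr fun k => Finset.prod_congr rfl fun w _ => ?_
    simp only [Equiv.prodCongr_apply, Prod.map_fst, Prod.map_snd, Equiv.ofBijective_apply,
      map_add, map_mul, hpt]

end NQ
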