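import Vale.Agent.NQ.Sym
import Vale.Agent.NQ.Psq
import Vale.Agent.P026.SPha

noncomputable section
namespace NQ
open Complex MeasureTheory NumberField Filter
open scoped ComplexConjugate Classical ContDiff Topology

variable [σ : St]

theorem sPh_rsum {c : E} (hc : c ≠ 0) [Fintype (E ⧸ Ideal.span {c})]
    (F : E ⧸ Ideal.span {c} → ℂ) :
    rsum c (fun x => F (Ideal.Quotient.mk _ x)) = ∑ y, F y := by
  have hq : ∀ {x y : E}, Ideal.Quotient.mk (Ideal.span {c}) x = Ideal.Quotient.mk _ y ↔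
      c ∣ x - y := Ideal.Quotient.eq.trans Ideal.mem_span_singleton
  rw [rsum_eq_sum hc (fun x y h => by rw [hq.2 h]) Finset.univ
    fun x : E ⧸ Ideal.span {c} => Quotient.out x]
  · simp only [Ideal.Quotient.mk_out]
  · intro i _ j _ h
    simpa only [Ideal.Quotient.mk_out] using hq.2 h
  · exact fun x => ⟨Ideal.Quotient.mk _ x, Finset.mem_univ _,
      hq.1 (Ideal.Quotient.mk_out _).symm⟩

theorem sPh : SPh := by
  intro p u δ ξ a m hu hm
  obtain ⟨n, rfl⟩ : ∃ n, m = n + 1 + 1 := ⟨m - 2, by omega⟩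
  have hp := p.2.1
  have hp0 := p.ne_zero
  obtain ⟨c, hc⟩ : ∃ c, c = p.1 ^ (n + 1 + 1) := ⟨_, rfl⟩
  have hc0 : c ≠ 0 := hc ▸ pow_ne_zero _ hp0
  have hpc : p.1 ∣ c := hc ▸ dvd_pow_self _ (by omega)
  haveI := finite_quot hc0
  letI := Fintype.ofFinite (E ⧸ Ideal.span {c})
  obtain ⟨mk, hmk⟩ : ∃ mk : E →+* E ⧸ Ideal.span {c}, mk = Ideal.Quotient.mk _ := ⟨_, rfl⟩
  have hq : ∀ {x y : E}, mk x = mk y ↔ c ∣ x - y :=
    hmk ▸ Ideal.Quotient.eq.trans Ideal.mem_span_singleton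
  have hq0 : ∀ {x : E}, mk x = 0 ↔ c ∣ x := fun {x} => by rw [← map_zero mk, hq, sub_zero]
  have hs : Function.Surjective mk := hmk ▸ Ideal.Quotient.mk_surjective
  have ho : ∀ x, c ∣ Quotient.out (mk x) - x := fun x =>
    hq.1 (hmk ▸ Ideal.Quotient.mk_out _)
  have hsum : ∀ F : E ⧸ Ideal.span {c} → ℂ, rsum c (fun x => F (mk x)) = ∑ y, F y :=
    hmk ▸ sPh_rsum hc0
  have hcard : (Fintype.card (E ⧸ Ideal.span {c}) : ℂ) = nm c := by
    have := hsum fun _ => 1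
    rw [rsum_const hc0] at this
    simpa using this.symm
  have hd : ∀ {x : E}, mk p.1 ∣ mk x ↔ p.1 ∣ x := fun {x} =>
    ⟨fun ⟨k, hk⟩ => by
      obtain ⟨k, rfl⟩ := hs k
      rw [← map_mul, hq] at hk
      exact (dvd_sub_left (dvd_mul_right _ k)).1 (hpc.trans hk), map_dvd mk⟩
  have hinv : ∀ {x : E}, ¬ p.1 ∣ x → ∃ y, c ∣ x * y - 1 := fun {x} hx =>
    ⟨_, inv_spec (hc ▸ ((isCoprime_prime hp).2 hx).pow_right)⟩
  have hR : QRH.SPha.Ring' (mk p.1) (mk (p.1 ^ (n + 1))) (mk om) := by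
    refine ⟨fun x => ?_, fun z => ?_, map_dvd mk (dvd_pow_self _ (by omega)), fun z => ?_, ?_, ?_⟩
    · obtain ⟨x, rfl⟩ := hs x
      rw [hd]
      refine ⟨fun h hx => ?_, fun h => ?_⟩
      · obtain ⟨y, hy⟩ := h.exists_right_inv
        obtain ⟨y, rfl⟩ := hs y
        rw [← map_mul, ← map_one mk, hq] at hy
        exact hp.not_dvd_one ((dvd_sub_right (hx.mul_right y)).1 (hpc.trans hy))
      · obtain ⟨y, hy⟩ := hinv h
        exact IsUnit.of_mul_eq_one (mk y) (by rw [← map_mul, ← map_one mk, hq]; exact hy)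
    · obtain ⟨z, rfl⟩ := hs z
      rw [← map_mul, hq0, hd, hc, pow_succ, mul_dvd_mul_iff_left (pow_ne_zero _ hp0)]
    · obtain ⟨z, rfl⟩ := hs z
      rw [← map_mul, hq0, hd, hc, pow_succ', mul_dvd_mul_iff_left hp0]
      exact (dvd_pow_self _ (by omega)).trans
    · rw [← map_pow, ← map_one mk, ← map_add, ← map_add, om_rel, map_zero]
    · rw [← map_ofNat mk 3, hd]; exact p.not_dvd_three
  obtain ⟨u', hu'⟩ := hinv hu
  obtain ⟨e, he⟩ : ∃ e : E ⧸ Ideal.span {c} → ℂ, ∀ x, e (mk x) = psf (x * u') c :=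
    ⟨fun r => psf (Quotient.out r * u') c, fun x => psf_congr (by
      rw [← sub_mul]; exact (ho x).mul_right _)⟩
  obtain ⟨χ, hχ⟩ : ∃ χ : E ⧸ Ideal.span {c} → ℂ, ∀ x, χ (mk x) = c3 p x ^ a :=
    ⟨fun r => c3 p (Quotient.out r) ^ a, fun x => by
      show c3 p _ ^ a = _
      rw [(c3_mc p).per _ _ (hpc.trans (ho x))]⟩
  have hP : QRH.SPha.Prim e := by
    refine ⟨fun x y => ?_, fun t => ?_⟩
    · obtain ⟨x, rfl⟩ := hs x
      obtain ⟨y, rfl⟩ := hs y
      rw [← map_add, he, he, he, add_mul, psf_add]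
    · obtain ⟨t, rfl⟩ := hs t
      rw [← hsum fun x => e (x * mk t)]
      simp only [← map_mul, he, mul_assoc]
      rw [rsum_psf hc0, hcard, hq0]
      refine if_congr ⟨fun h => ?_, fun h => h.mul_right _⟩ rfl rfl
      rw [show t = t * u' * u - t * (u * u' - 1) by ring]
      exact dvd_sub (h.mul_right _) (hu'.mul_left _)
  have hq1 : ∀ A, psq p.1 A (c * u) = e (mk A) := fun A => by
    rw [he, hc, psq_eq hp rfl hu (hc ▸ hu')]
  have hq2 : ∀ A {y : E}, ¬ p.1 ∣ y → psq p.1 A (c * u * y) = e (mk A * Ring.inverse (mk y)) := by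
    intro A y hy
    obtain ⟨y', hy'⟩ := hinv hy
    rw [QRH.SPha.inv_eq (y := mk y') (by rw [← map_mul, ← map_one mk, hq]; exact hy'), ← map_mul, he,
      psq_eq (y := y' * u') hp (show c * u * y = p.1 ^ (n + 1 + 1) * (u * y) by rw [hc, mul_assoc])
        (fun h => (hp.dvd_or_dvd h).elim hu hy), ← hc, mul_assoc]
    rw [← hc, show u * y * (y' * u') - 1 = (y * y' - 1) * (u * u') + (u * u' - 1) by ring]
    exact dvd_add (hy'.mul_right _) hu'
  have key := QRH.SPha.main hR hP (χ := χ) (fun y y' h => by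
      obtain ⟨y, rfl⟩ := hs y
      obtain ⟨y', rfl⟩ := hs y'
      rw [← map_sub, hd] at h
      rw [hχ, hχ, (c3_mc p).per _ _ h])
    (fun y t ht => by
      obtain ⟨y, rfl⟩ := hs y
      obtain ⟨t, rfl⟩ := hs t
      rw [hR.loc, hd] at ht
      rw [← map_pow, ← map_mul, hχ, hχ, (c3_mc p).mul, (c3_mc p).map_pow, c3_cube ht, mul_one])
    (mk δ) (mk ξ)
  rw [Fintype.sum_prod_type, ← hsum] at key
  simp only [← hsum] at key
  rw [← Nat.cast_pow, ← nm_pow, ← hc]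
  refine Eq.trans ?_ (key.trans ?_)
  · refine congrArg (rsum c) (funext fun y => congrArg (rsum c) (funext fun x => ?_))
    simp only [QRH.SPha.G, hd]
    split_ifs with h
    · rw [hq1, hq2 _ h.1, hχ, hP.add, mul_assoc]
      simp only [map_add, map_mul, map_pow, map_ofNat]
    · rfl
  · simp only [hd]
    split_ifs with h
    · rw [hq2 _ h.1, hχ, hcard, map_pow]
    · rfl

end NQ
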