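import Vale.Agent.NQ.WtS
import Vale.Agent.P026.Sep

noncomputable section
namespace NQ
open Complex MeasureTheory NumberField Filter
open scoped ComplexConjugate Classical ContDiff Topology

variable [σ : St]

theorem sep2_int (D t : Pl → ℝ) (c : ℝ) :
    Integrable fun τ : Pl → ℝ => c * ∏ w, D w * (1 + (τ w - t w) ^ 2)⁻¹ :=
  (Integrable.fintype_prod (f := fun w (τ : ℝ) => D w * (1 + (τ - t w) ^ 2)⁻¹)
    fun w => QRH.sp_int_w (D w) (t w)).const_mul c

theorem sep2_integral (D t : Pl → ℝ) (c : ℝ) :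
    ∫ τ : Pl → ℝ, c * ∏ w, D w * (1 + (τ w - t w) ^ 2)⁻¹ = c * (Real.pi ^ rk * ∏ w, D w) := by
  rw [integral_const_mul, integral_fintype_prod_volume_eq_prod
    (fun w (τ : ℝ) => D w * (1 + (τ - t w) ^ 2)⁻¹)]
  simp only [QRH.sp_integral_w]
  rw [Finset.prod_mul_distrib, prod_const_Pl, mul_comm (Real.pi ^ rk)]

/-- The product bump. -/
def sep2P (v : Pl → ℝ) : ℂ := ∏ w, ((beta (v w) * Real.exp (v w) : ℝ) : ℂ)

theorem sep2P_cont : Continuous sep2P := by
  have := QRH.contDiff_beta.continuous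
  unfold sep2P
  fun_prop

theorem sep2_K_int (v : Pl → ℝ) :
    Integrable fun τ : Pl → ℝ => ∏ w, QRH.spK 1 (τ w) * Complex.exp (τ w * I * v w) :=
  Integrable.fintype_prod (f := fun w (τ : ℝ) => QRH.spK 1 τ * Complex.exp (τ * I * v w))
    fun w => (QRH.sp_K_int 1).mul_bdd (c := 1) (Continuous.aestronglyMeasurable (by fun_prop))
      (Eventually.of_forall fun τ => (QRH.sp_norm_exp τ (v w)).le)

theorem sep2P_eq (v : Pl → ℝ) :
    sep2P v = ∫ τ : Pl → ℝ, ∏ w, QRH.spK 1 (τ w) * Complex.exp (τ w * I * v w) := by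
  rw [integral_fintype_prod_volume_eq_prod
    (fun w (τ : ℝ) => QRH.spK 1 τ * Complex.exp (τ * I * v w))]
  refine Finset.prod_congr rfl fun w _ => ?_
  rw [← QRH.sp_inv, one_mul]
  push_cast
  rfl

theorem sep2_shift {A : ℝ} (G : (Pl → ℝ) → ℂ) {a b : Pl → ℝ} (ha : ∀ w, 1 ≤ a w ∧ a w ≤ A)
    (hb : ∀ w, 1 ≤ b w ∧ b w ≤ A) :
    ∫ v : Pl → ℝ, sep2P v * G (fun w => v w - Real.log (a w) - Real.log (b w)) =
      ∫ u in Set.Icc (fun _ : Pl => -(2 * Real.log A + 2)) (fun _ => 2 * Real.log A + 2),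
        sep2P (fun w => u w + (Real.log (a w) + Real.log (b w))) * G u := by
  rw [setIntegral_eq_integral_of_forall_compl_eq_zero, ← integral_add_right_eq_self
    (fun v : Pl → ℝ => sep2P v * G (fun w => v w - Real.log (a w) - Real.log (b w)))
    fun w => Real.log (a w) + Real.log (b w)]
  · refine integral_congr_ae (Eventually.of_forall fun u => ?_)
    have e : (fun w => (u + fun w => Real.log (a w) + Real.log (b w)) w - Real.log (a w)
        - Real.log (b w)) = u := by
      funext w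
      simp only [Pi.add_apply]
      ring
    simp only [e]
    rfl
  · intro u hu
    by_contra h
    have h1 := Finset.prod_ne_zero_iff.1 (left_ne_zero_of_mul h)
    have h2 : ∀ w, -(2 * Real.log A + 2) ≤ u w ∧ u w ≤ 2 * Real.log A + 2 := fun w => by
      obtain ⟨a1, a2⟩ := QRH.beta_supp (left_ne_zero_of_mul
        (ofReal_ne_zero.1 (h1 w (Finset.mem_univ w))))
      have a3 := Real.log_nonneg (ha w).1
      have a4 := Real.log_nonneg (hb w).1
      have a5 := Real.log_le_log (by linarith [(ha w).1]) (ha w).2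
      have a6 := Real.log_le_log (by linarith [(hb w).1]) (hb w).2
      have a7 : Real.log 4 ≤ 2 := by
        rw [show (4 : ℝ) = 2 ^ 2 by norm_num, Real.log_pow]
        have := Real.log_le_sub_one_of_pos (two_pos (α := ℝ))
        push_cast
        linarith
      constructor <;> linarith
    exact hu ⟨fun w => (h2 w).1, fun w => (h2 w).2⟩

theorem sep2_term (τ u : Pl → ℝ) {a b : Pl → ℝ} (ha : ∀ w, 0 < a w) (hb : ∀ w, 0 < b w) :
    ∏ w, QRH.spK 1 (τ w) * Complex.exp (τ w * I * (u w + (Real.log (a w) + Real.log (b w)) : ℝ)) =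
      (∏ w, QRH.spK 1 (τ w) * Complex.exp (τ w * I * u w)) *
        ((∏ w, (a w : ℂ) ^ iT τ w) * ∏ w, (b w : ℂ) ^ iT τ w) := by
  rw [← Finset.prod_mul_distrib, ← Finset.prod_mul_distrib]
  refine Finset.prod_congr rfl fun w _ => ?_
  rw [QRH.sp_cpow (ha w), QRH.sp_cpow (hb w), mul_assoc (QRH.spK 1 (τ w)), ← Complex.exp_add,
    ← Complex.exp_add, iT]
  congr 2
  push_cast
  ring

theorem sepW : SepW := by
  intro A B hA
  obtain ⟨C, hC, H⟩ := QRH.sp_K_le 1 (B + 2)
  have hR : 0 ≤ 2 * Real.log A + 2 := by linarith [Real.log_nonneg hA]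
  generalize hm : (volume.restrict (Set.Icc (fun _ : Pl => -(2 * Real.log A + 2))
    (fun _ => 2 * Real.log A + 2))).real Set.univ = m
  have hm0 : 0 ≤ m := hm ▸ measureReal_nonneg
  refine ⟨m * (Real.pi ^ rk * C ^ rk) + 1, by positivity,
    fun ι κ T J J' G g K x x' a b hG hg ha hb hK => ?_⟩
  have hg0 : ∀ i ∈ T, 0 ≤ g i := fun i hi =>
    (norm_nonneg _).trans (hg i hi 0 fun w => by simpa using hR)
  have hK0 : 0 ≤ K := by
    have := (Finset.sum_nonneg fun i hi => by have := hg0 i hi; positivity).trans (hK 0)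
    simpa [Tb, iT] using this
  have i1 : ∀ i ∈ T, ∀ j j', Integrable (fun u : Pl → ℝ => x i j * x' i j' *
      (sep2P (fun w => u w + (Real.log (a i j w) + Real.log (b i j' w))) * G i u))
      (volume.restrict (Set.Icc (fun _ : Pl => -(2 * Real.log A + 2))
        (fun _ => 2 * Real.log A + 2))) := fun i hi j j' =>
    Continuous.integrableOn_Icc (continuous_const.mul ((sep2P_cont.comp
      (f := fun u : Pl → ℝ => fun w => u w + (Real.log (a i j w) + Real.log (b i j' w)))
      (by fun_prop)).mul (hG i hi)))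
  have i2 := fun i hi j => integrable_finsetSum (J' i) fun j' _ => i1 i hi j j'
  have e : ∀ i ∈ T, ‖∑ j ∈ J i, ∑ j' ∈ J' i, x i j * x' i j' *
      ∫ v : Pl → ℝ, (∏ w, ((beta (v w) * Real.exp (v w) : ℝ) : ℂ)) *
        G i (fun w => v w - Real.log (a i j w) - Real.log (b i j' w))‖ =
      ‖∫ u in Set.Icc (fun _ : Pl => -(2 * Real.log A + 2)) (fun _ => 2 * Real.log A + 2),
        ∑ j ∈ J i, ∑ j' ∈ J' i, x i j * x' i j' *
          (sep2P (fun w => u w + (Real.log (a i j w) + Real.log (b i j' w))) * G i u)‖ :=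
    fun i hi => by
    rw [integral_finsetSum _ fun j _ => i2 i hi j]
    congr 1
    refine Finset.sum_congr rfl fun j hj => ?_
    rw [integral_finsetSum _ fun j' _ => i1 i hi j j']
    refine Finset.sum_congr rfl fun j' hj' => ?_
    rw [integral_const_mul]
    by_cases h0 : x i j * x' i j' = 0
    · rw [h0, zero_mul, zero_mul]
    · rw [← sep2_shift (G i) (ha i hi j hj (left_ne_zero_of_mul h0))
        (hb i hi j' hj' (right_ne_zero_of_mul h0))]
      rfl
  rw [Finset.sum_congr rfl e]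
  refine (QRH.sp_tri T (fun i hi => integrable_finsetSum (J i) fun j _ => i2 i hi j)
    (Continuous.integrableOn_Icc (continuous_const (y := K * (Real.pi ^ rk * C ^ rk))))
    ((ae_restrict_mem measurableSet_Icc).mono fun u hu => ?_)).trans ?_
  swap
  · rw [integral_const, hm, smul_eq_mul]
    nlinarith
  have hu' : ∀ w, |u w| ≤ 2 * Real.log A + 2 := fun w => abs_le.2 ⟨hu.1 w, hu.2 w⟩
  have i3 : ∀ i j j', Integrable fun τ : Pl → ℝ => x i j * x' i j' *
      ((∏ w, QRH.spK 1 (τ w) * Complex.exp (τ w * I *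
        (u w + (Real.log (a i j w) + Real.log (b i j' w)) : ℝ))) * G i u) := fun i j j' =>
    ((sep2_K_int fun w => u w + (Real.log (a i j w) + Real.log (b i j' w))).mul_const _).const_mul _
  have i4 := fun i j => integrable_finsetSum (J' i) fun j' _ => i3 i j j'
  have e1 : ∀ i, ∑ j ∈ J i, ∑ j' ∈ J' i, x i j * x' i j' *
      (sep2P (fun w => u w + (Real.log (a i j w) + Real.log (b i j' w))) * G i u) =
      ∫ τ : Pl → ℝ, ∑ j ∈ J i, ∑ j' ∈ J' i, x i j * x' i j' *
        ((∏ w, QRH.spK 1 (τ w) * Complex.exp (τ w * I *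
          (u w + (Real.log (a i j w) + Real.log (b i j' w)) : ℝ))) * G i u) := fun i => by
    rw [integral_finsetSum _ fun j _ => i4 i j]
    refine Finset.sum_congr rfl fun j _ => ?_
    rw [integral_finsetSum _ fun j' _ => i3 i j j']
    refine Finset.sum_congr rfl fun j' _ => ?_
    rw [integral_const_mul, integral_mul_const, sep2P_eq]
  simp only [e1]
  refine (QRH.sp_tri T (fun i _ => integrable_finsetSum (J i) fun j _ => i4 i j)
    (sep2_int (fun _ => C) 0 K) (Eventually.of_forall fun τ => ?_)).trans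
    (le_of_eq (by rw [sep2_integral, prod_const_Pl]))
  have e2 : ∀ i ∈ T, ‖∑ j ∈ J i, ∑ j' ∈ J' i, x i j * x' i j' *
      ((∏ w, QRH.spK 1 (τ w) * Complex.exp (τ w * I *
        (u w + (Real.log (a i j w) + Real.log (b i j' w)) : ℝ))) * G i u)‖ ≤
      (∏ w, ‖QRH.spK 1 (τ w)‖) * (g i * ‖∑ j ∈ J i, x i j * ∏ w, (a i j w : ℂ) ^ iT τ w‖
        * ‖∑ j ∈ J' i, x' i j * ∏ w, (b i j w : ℂ) ^ iT τ w‖) := fun i hi => by
    have e3 : ∑ j ∈ J i, ∑ j' ∈ J' i, x i j * x' i j' *
        ((∏ w, QRH.spK 1 (τ w) * Complex.exp (τ w * I *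
          (u w + (Real.log (a i j w) + Real.log (b i j' w)) : ℝ))) * G i u) =
        (∏ w, QRH.spK 1 (τ w) * Complex.exp (τ w * I * u w)) * (G i u *
          ((∑ j ∈ J i, x i j * ∏ w, (a i j w : ℂ) ^ iT τ w) *
            ∑ j ∈ J' i, x' i j * ∏ w, (b i j w : ℂ) ^ iT τ w)) := by
      rw [Finset.sum_mul_sum, Finset.mul_sum, Finset.mul_sum]
      refine Finset.sum_congr rfl fun j hj => ?_
      rw [Finset.mul_sum, Finset.mul_sum]
      refine Finset.sum_congr rfl fun j' hj' => ?_
      by_cases h0 : x i j = 0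
      · simp [h0]
      by_cases h1 : x' i j' = 0
      · simp [h1]
      rw [sep2_term τ u (fun w => one_pos.trans_le (ha i hi j hj h0 w).1)
        fun w => one_pos.trans_le (hb i hi j' hj' h1 w).1]
      ring
    rw [e3, norm_mul, norm_mul, norm_mul, norm_prod, mul_assoc (g i)]
    simp only [norm_mul, QRH.sp_norm_exp, mul_one]
    exact mul_le_mul_of_nonneg_left (mul_le_mul_of_nonneg_right (hg i hi u hu') (by positivity))
      (by positivity)
  refine (Finset.sum_le_sum e2).trans ?_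
  rw [← Finset.mul_sum]
  refine (mul_le_mul_of_nonneg_left (hK τ) (by positivity)).trans ?_
  rw [mul_left_comm, Tb, ← Finset.prod_pow, ← Finset.prod_mul_distrib]
  refine mul_le_mul_of_nonneg_left
    (Finset.prod_le_prod (fun w _ => by positivity) fun w _ => ?_) hK0
  have h1 := H 1 (τ w) (by simp)
  have h2 : ‖iT τ w‖ = |τ w| := by simp [iT]
  rw [one_im, sub_zero] at h1
  rw [h2, Pi.zero_apply, sub_zero]
  exact QRH.sp_w_le (by positivity) (le_of_eq_of_le (by ring) h1)

theorem sepM : SepM := by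
  intro A
  obtain ⟨C, hC, H⟩ := QRH.sp_two A 0
  refine ⟨((C * Real.pi) ^ rk) ^ 2, by positivity,
    fun ι κ T J G θ g K s x a b hs hG hg ha hb hK => ?_⟩
  choose h h1 h2 h4 h3 using fun w => H (G w) (θ w) (g w) (s w) (hs w) (hG w) (hg w)
  have hK0 : 0 ≤ K := (Finset.sum_nonneg fun i hi => mul_nonneg
    (Finset.prod_nonneg fun w _ => Real.rpow_nonneg (hb i hi w).le _) (sq_nonneg _)).trans (hK 0)
  have hg0 : ∀ w, 0 ≤ g w := fun w => (integral_nonneg fun v => by positivity).trans (hg w)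
  have i1 : ∀ i j, Integrable fun τ : Pl → ℝ => x i j * ∏ w,
      h w (τ w) * Complex.exp (-((θ w + τ w * I) * Real.log (a j w * b i w))) := fun i j =>
    (Integrable.fintype_prod (f := fun w (τ : ℝ) =>
      h w τ * Complex.exp (-((θ w + τ * I) * Real.log (a j w * b i w))))
      fun w => h1 w _).const_mul _
  have e : ∀ i, ∑ j ∈ J, x i j * ∏ w, sm (s w) (G w) (Real.log (a j w * b i w)) =
      ∫ τ : Pl → ℝ, ∑ j ∈ J, x i j * ∏ w,
        h w (τ w) * Complex.exp (-((θ w + τ w * I) * Real.log (a j w * b i w))) := fun i => by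
    rw [integral_finsetSum _ fun j _ => i1 i j]
    refine Finset.sum_congr rfl fun j _ => ?_
    rw [integral_const_mul, integral_fintype_prod_volume_eq_prod (fun w (τ : ℝ) =>
      h w τ * Complex.exp (-((θ w + τ * I) * Real.log (a j w * b i w))))]
    simp only [h3]
  simp only [e]
  refine (QRH.sp_mink T (fun i _ => integrable_finsetSum J fun j _ => i1 i j)
    (sep2_int (fun w => C * g w) (fun w => (s w).im) √K)
    (fun τ => mul_nonneg (Real.sqrt_nonneg _) (Finset.prod_nonneg fun w _ => by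
      have := hg0 w; positivity))
    (Eventually.of_forall fun τ => ?_)).trans (le_of_eq (by
      rw [sep2_integral, Finset.prod_mul_distrib, prod_const_Pl, mul_pow √K, Real.sq_sqrt hK0,
        mul_pow C]
      ring))
  have e2 : ∀ i ∈ T, ‖∑ j ∈ J, x i j * ∏ w,
      h w (τ w) * Complex.exp (-((θ w + τ w * I) * Real.log (a j w * b i w)))‖ ^ 2 =
      (∏ w, ‖h w (τ w)‖) ^ 2 * ((∏ w, b i w ^ (-(2 * θ w))) *
        ‖∑ j ∈ J, x i j * ∏ w, (a j w : ℂ) ^ (-(θ w + τ w * I))‖ ^ 2) := fun i hi => by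
    have e4 : ∏ w, b i w ^ (-(2 * θ w)) = ‖∏ w, (b i w : ℂ) ^ (-(θ w + τ w * I))‖ ^ 2 := by
      rw [norm_prod, ← Finset.prod_pow]
      refine Finset.prod_congr rfl fun w _ => ?_
      rw [QRH.sp_norm_cpow (hb i hi w), ← Real.rpow_natCast, ← Real.rpow_mul (hb i hi w).le]
      congr 1
      push_cast
      ring
    rw [e4, ← norm_prod, ← mul_pow, ← mul_pow, ← norm_mul, ← norm_mul, Finset.mul_sum,
      Finset.mul_sum]
    congr 2
    refine Finset.sum_congr rfl fun j hj => ?_
    have e3 : ∏ w, h w (τ w) * Complex.exp (-((θ w + τ w * I) * Real.log (a j w * b i w))) =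
        (∏ w, h w (τ w)) * ((∏ w, (b i w : ℂ) ^ (-(θ w + τ w * I))) *
          ∏ w, (a j w : ℂ) ^ (-(θ w + τ w * I))) := by
      rw [← Finset.prod_mul_distrib, ← Finset.prod_mul_distrib]
      refine Finset.prod_congr rfl fun w _ => ?_
      rw [QRH.sp_cpow (hb i hi w), QRH.sp_cpow (ha j hj w), ← Complex.exp_add,
        Real.log_mul (ha j hj w).ne' (hb i hi w).ne']
      congr 2
      push_cast
      ring
    rw [e3]
    ring
  rw [Finset.sum_congr rfl e2, ← Finset.mul_sum, mul_pow, Real.sq_sqrt hK0, mul_comm K]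
  exact (mul_le_mul_of_nonneg_left (hK τ) (sq_nonneg _)).trans (mul_le_mul_of_nonneg_right
    (pow_le_pow_left₀ (by positivity)
      (Finset.prod_le_prod (fun w _ => norm_nonneg _) fun w _ => h2 w (τ w)) 2) hK0)

end NQ
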