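import Vale.Agent.NQ.Sym
import Vale.Agent.NQ.Rearr
import Vale.Agent.NQ.WtS
import Vale.Agent.P026.StarA

noncomputable section
namespace NQ
open Complex MeasureTheory NumberField Filter
open scoped ComplexConjugate Classical ContDiff Topology

variable [σ : St]

theorem sa_fib {ι : Type} (J : Finset ι) (n : ι → E) (T : Finset E) {μ : ℝ} (G : E → ℝ)
    (hG : ∀ x, 0 ≤ G x) (hn : ∀ i ∈ J, n i ∈ T)
    (hμ : ∀ n0, ((J.filter fun i => n i = n0).card : ℝ) ≤ μ) :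
    ∑ i ∈ J, G (n i) ≤ μ * ∑ x ∈ T, G x := by
  rw [← Finset.sum_fiberwise_of_maps_to hn, Finset.mul_sum]
  refine Finset.sum_le_sum fun x _ => ?_
  rw [Finset.sum_congr rfl fun i hi => congrArg G (Finset.mem_filter.1 hi).2, Finset.sum_const,
    nsmul_eq_mul]
  exact mul_le_mul_of_nonneg_right (hμ x) (hG x)

theorem sa_norm_cA (ρ n : E) (s : Finset P) : ‖cA ρ n s‖ ≤ 1 := by
  simp only [cA, norm_mul, RCLike.norm_conj, norm_mu, one_mul]
  exact mul_le_one₀ (norm_xs_le ch_c6 _ _) (norm_nonneg _) (norm_xs_le ch_c6 _ _)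

theorem sa_common {η : ℝ} (hη : 0 ≤ η) (h : HA η) {ε : ℝ} (hε : 0 < ε) : ∃ B : ℕ,
    ∀ L : ℝ, 1 ≤ L → ∃ D : ℝ, 0 < D ∧
    ∀ (ι : Type) (J : Finset ι) (n : ι → E) (Y : Sc) (μ Z X N : ℝ) (τ : Pl → ℝ) (ρ : E),
      0 < X → X ≤ Z → 1 ≤ N → N ≤ Z → ρ ≠ 0 → Rr ρ ≤ Z → Y.OK → Y.sz ≤ L * X →
      (∀ i ∈ J, n i ∈ ball N) → (∀ n0, ((J.filter fun i => n i = n0).card : ℝ) ≤ μ) →
      ∑ i ∈ J, ‖S (cA ρ (n i)) Y (iT τ)‖ ^ 2
        ≤ D * μ * Z ^ ε * (X * (N + X ^ (1 + η) * Rr ρ)) * Tb (iT τ) ^ B := by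
  obtain ⟨B, C, hC, hA⟩ := h ε hε
  obtain ⟨C2, hC2, hS⟩ := norm_S_le
  refine ⟨B, fun L hL => ?_⟩
  have hK := one_le_Kb
  obtain ⟨D, hD, hD1, hD2⟩ : ∃ D : ℝ, 0 < D ∧ Kb * C2 ^ 2 * L ≤ D ∧
      C * L ^ ε * (L * L ^ (1 + η)) ≤ D :=
    ⟨Kb * C2 ^ 2 * L + C * L ^ ε * (L * L ^ (1 + η)), by positivity,
      le_add_of_nonneg_right (by positivity), le_add_of_nonneg_left (by positivity)⟩
  refine ⟨D, hD, fun ι J n Y μ Z X N τ ρ hX hXZ hN hNZ hρ hRZ hY h2 hJ hμ => ?_⟩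
  have hμ0 : 0 ≤ μ := (Nat.cast_nonneg _).trans (hμ 0)
  have hZ : 1 ≤ Z := hN.trans hNZ
  have hR1 := one_le_Rr ρ
  have hX' := hY.sz_pos
  have h7 : 1 ≤ Tb (iT τ) ^ B := one_le_pow₀ (one_le_Tb _)
  have h4 := sa_fib J n (ball N) (fun x => ‖S (cA ρ x) Y (iT τ)‖ ^ 2) (fun _ => by positivity)
    hJ hμ
  refine h4.trans ?_
  rcases lt_or_ge Y.sz 1 with h3 | h3
  · have h5 := Finset.sum_le_card_nsmul (ball N) (fun x => ‖S (cA ρ x) Y (iT τ)‖ ^ 2)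
      (C2 ^ 2 * (L * X)) fun x _ => by
        have h5 := pow_le_pow_left₀ (norm_nonneg _)
          (hS _ Y (iT τ) hY (sa_norm_cA ρ x) (fun w => by rw [iT_re]; norm_num)) 2
        rw [mul_pow] at h5
        exact h5.trans (mul_le_mul_of_nonneg_left (by nlinarith) (sq_nonneg _))
    rw [nsmul_eq_mul] at h5
    have h6 := card_ball_le (R := N) (by linarith)
    have h8 : 1 ≤ Z ^ ε := Real.one_le_rpow hZ hε.le
    calc _ ≤ μ * (Kb * N * (C2 ^ 2 * (L * X))) :=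
          mul_le_mul_of_nonneg_left (h5.trans (by gcongr)) hμ0
      _ = Kb * C2 ^ 2 * L * μ * 1 * (X * (N + 0)) * 1 := by ring
      _ ≤ _ := by gcongr; positivity
  · have hZL : Z ≤ L * Z := le_mul_of_one_le_left (by linarith) hL
    have h5 := hA (L * Z) N Y τ ρ hY h3 (h2.trans (by gcongr)) hN (by linarith) hρ (by linarith)
    rw [Real.mul_rpow (by linarith) (by linarith)] at h5
    have h6 : Y.sz ^ (1 + η) ≤ L ^ (1 + η) * X ^ (1 + η) := by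
      rw [← Real.mul_rpow (by linarith) hX.le]
      exact Real.rpow_le_rpow hX'.le h2 (by linarith)
    have h8 : N ≤ L ^ (1 + η) * N :=
      le_mul_of_one_le_left (by linarith) (Real.one_le_rpow hL (by linarith))
    calc _ ≤ μ * (C * (L ^ ε * Z ^ ε) * Tb (iT τ) ^ B *
          (L * X * (L ^ (1 + η) * N + L ^ (1 + η) * X ^ (1 + η) * Rr ρ))) := by
          refine mul_le_mul_of_nonneg_left (h5.trans ?_) hμ0
          gcongr
      _ = C * L ^ ε * (L * L ^ (1 + η)) * μ * Z ^ ε *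
          (X * (N + X ^ (1 + η) * Rr ρ)) * Tb (iT τ) ^ B := by ring
      _ ≤ _ := by gcongr

theorem sa_empty (hR : Resc) {η : ℝ} (hη : 0 ≤ η) (h : HA η)
    {ε : ℝ} (hε : 0 < ε) : ∃ (B : ℕ) (C : ℝ), 0 < C ∧
    ∀ (ι : Type) (J : Finset ι) (n : ι → E) (Xi : ι → Sc) (μ Z X N : ℝ) (s : Pl → ℂ) (ρ : E),
      0 < X → X ≤ Z → 1 ≤ N → N ≤ Z → (∀ w, |(s w).re| ≤ 3) → ρ ≠ 0 → Rr ρ ≤ Z →
      (∀ i ∈ J, n i ≠ 0 ∧ (nm (n i) : ℝ) ≤ N ∧ (Xi i).OK ∧ X ≤ (Xi i).sz ∧ (Xi i).sz ≤ 2 * X) →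
      (∀ n0, ((J.filter fun i => Associated (n i) n0).card : ℝ) ≤ μ) →
      ∑ i ∈ J, ‖S (cA ρ (n i)) (Xi i) s‖ ^ 2
        ≤ C * μ * Z ^ ε * Tb s ^ B * (X * (N + X ^ (1 + η) * Rr ρ)) := by
  obtain ⟨T, K, hK, hT, hn⟩ := exists_norm
  obtain ⟨B, hB⟩ := sa_common hη h hε
  obtain ⟨D, hD, hc⟩ := hB ((32 * K) ^ rk) (one_le_pow₀ (by linarith))
  obtain ⟨C1, hC1, hres⟩ := hR (2 * K ^ 2) B (by nlinarith)
  refine ⟨B, (T.card + 1) * (C1 * D), by positivity,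
    fun ι J n Xi μ Z X N s ρ hX hXZ hN hNZ hs hρ hRZ hJ hμ => ?_⟩
  have hμ0 : 0 ≤ μ := (Nat.cast_nonneg _).trans (hμ 0)
  have hZ : 1 ≤ Z := hN.trans hNZ
  have hR1 := one_le_Rr ρ
  have hTb := one_le_Tb s
  have h1 : ∀ i, ∃ (e e1 : Eˣ) (a0 : FF), i ∈ J → e1 ^ 6 * n i ∈ ball N ∧ a0 ∈ T ∧
      Cl a0 (((e : E) : FF) ^ 6 * (Xi i).a) ∧
      ∀ w, (Xi i).sz ^ (1 / rk : ℝ) / K ≤ ‖em w (((e : E) : FF) ^ 6)‖ ^ 2 * (Xi i).T w ∧
        ‖em w (((e : E) : FF) ^ 6)‖ ^ 2 * (Xi i).T w ≤ K * (Xi i).sz ^ (1 / rk : ℝ) := fun i => by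
    by_cases hi : i ∈ J
    · obtain ⟨e, a0, h⟩ := hn (Xi i) (hJ i hi).2.2.1
      obtain ⟨e1, h'⟩ := exists_ball_rep (hJ i hi).1 (hJ i hi).2.1
      exact ⟨e, e1, a0, fun _ => ⟨h', h⟩⟩
    · exact ⟨1, 1, 0, fun h => (hi h).elim⟩
  choose e e1 a0 h1 using h1
  have hr0 : (0 : ℝ) < rk := by exact_mod_cast rk_pos
  have hr1 : (1 : ℝ) ≤ rk := by exact_mod_cast rk_pos
  have hXr : 0 < X ^ (1 / rk : ℝ) := Real.rpow_pos_of_pos hX _
  have h2 : ∀ a ∈ T, ∑ i ∈ J with a0 i = a, ‖S (cA ρ (n i)) (Xi i) s‖ ^ 2 ≤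
      C1 * (D * μ * Z ^ ε * (X * (N + X ^ (1 + η) * Rr ρ))) * Tb s ^ B := by
    intro a ha
    have h3 : ∀ i ∈ J.filter fun i => a0 i = a, ‖S (cA ρ (n i)) (Xi i) s‖ ^ 2 =
        ‖S (cA ρ (e1 i ^ 6 * n i))
          ⟨a, fun w => ‖em w (((e i : E) : FF) ^ 6)‖ ^ 2 * (Xi i).T w⟩ s‖ ^ 2 := by
      intro i hi
      obtain ⟨hi', hia⟩ := Finset.mem_filter.1 hi
      have h4 : cA ρ (e1 i ^ 6 * n i) = cA ρ (n i) := by
        funext t
        simp only [cA, xs_unit_six ch_c6 six_c6]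
      rw [h4, ← S_nz (hJ i hi').2.2.1 (h1 i hi').2.2.1, ← hia]
      rfl
    rw [Finset.sum_congr rfl h3]
    refine hres ι _ _ a _ (fun _ => X ^ (1 / rk : ℝ) / K) _ s (hT a ha).1
      (fun _ => by positivity) hs (fun i hi w => ?_) fun T' τ hT' => ?_
    · have hi' := (Finset.mem_filter.1 hi).1
      obtain ⟨h4, h5⟩ := (h1 i hi').2.2.2 w
      have h6 : X ^ (1 / rk : ℝ) ≤ (Xi i).sz ^ (1 / rk : ℝ) :=
        Real.rpow_le_rpow hX.le (hJ i hi').2.2.2.1 (by positivity)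
      have h7 : (Xi i).sz ^ (1 / rk : ℝ) ≤ 2 * X ^ (1 / rk : ℝ) := by
        refine (Real.rpow_le_rpow (hJ i hi').2.2.1.sz_pos.le (hJ i hi').2.2.2.2
          (by positivity)).trans ?_
        rw [Real.mul_rpow (by norm_num) hX.le]
        refine mul_le_mul_of_nonneg_right ?_ hXr.le
        calc (2 : ℝ) ^ (1 / rk : ℝ) ≤ 2 ^ (1 : ℝ) :=
              Real.rpow_le_rpow_of_exponent_le (by norm_num) (by rw [div_le_one hr0]; exact hr1)
          _ = 2 := Real.rpow_one 2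
      refine ⟨le_trans (by gcongr) h4, h5.trans ?_⟩
      calc K * (Xi i).sz ^ (1 / rk : ℝ) ≤ K * (2 * X ^ (1 / rk : ℝ)) := by gcongr
        _ = _ := by field_simp
    · have hT0 : ∀ w, 0 < T' w := fun w => lt_of_lt_of_le (by positivity) (hT' w).1
      refine hc ι _ (fun i => e1 i ^ 6 * n i) ⟨a, T'⟩ μ Z X N τ ρ hX hXZ hN hNZ hρ hRZ
        ⟨(hT a ha).1, hT0⟩ ?_ (fun i hi => (h1 i (Finset.mem_filter.1 hi).1).1) fun n0 => ?_
      · have h4 : ∏ w, T' w ≤ ∏ _w : Pl, 32 * K * X ^ (1 / rk : ℝ) :=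
          Finset.prod_le_prod (fun w _ => (hT0 w).le) fun w _ => (hT' w).2.trans (le_of_eq (by
            field_simp; norm_num))
        rw [prod_const_Pl, mul_pow, rpow_rk hX.le] at h4
        exact (mul_le_of_le_one_left (Finset.prod_nonneg fun w _ => (hT0 w).le)
          (sS_le_one (hT a ha).2)).trans h4
      · refine le_trans ?_ (hμ n0)
        refine Nat.cast_le.2 (Finset.card_le_card fun i hi => ?_)
        obtain ⟨hi1, hi2⟩ := Finset.mem_filter.1 hi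
        exact Finset.mem_filter.2 ⟨(Finset.mem_filter.1 hi1).1, hi2 ▸ cnt_assoc (e1 i) 6 (n i)⟩
  rw [← Finset.sum_fiberwise_of_maps_to fun i hi => (h1 i hi).2.1]
  refine (Finset.sum_le_card_nsmul _ _ _ h2).trans ?_
  rw [nsmul_eq_mul]
  calc _ ≤ (T.card + 1) * (C1 * (D * μ * Z ^ ε * (X * (N + X ^ (1 + η) * Rr ρ))) * Tb s ^ B) := by
        gcongr; linarith
    _ = _ := by ring

theorem sa_split (ρ n : E) {K : Finset P} {p : P} (hp : p ∉ K) {X : Sc} (hX : X.OK)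
    (s : Pl → ℂ) : ∃ g : ℂ, ‖g‖ ≤ 1 ∧ S (cAK ρ (insert p K) n) X s =
      S (cAK ρ K n) X s + g * S (cAK ρ (insert p K) n) (X.dv p.1) s := by
  refine ⟨-cA ρ n {p}, by rw [norm_neg]; exact sa_norm_cA _ _ _, ?_⟩
  rw [neg_mul, eq_add_neg_iff_add_eq, S_split hX {p} (cAK ρ K n), ← Finset.insert_empty,
    Finset.sum_powerset_insert (Finset.notMem_empty p), Finset.powerset_empty,
    Finset.sum_singleton, Finset.sum_singleton, Finset.insert_empty, pr_empty, pr_singleton,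
    OneMemClass.coe_one, Sc.dv_one, ← S_smul]
  congr 2
  · funext c
    by_cases h2 : p ∈ c <;> simp [cAK, h2]
  · funext c
    by_cases h2 : p ∈ c
    · simp [cAK, h2]
    have h3 : Disjoint {p} c := Finset.disjoint_singleton_left.2 h2
    rw [if_pos h3.symm]
    by_cases h4 : Disjoint c K
    · have h5 : Disjoint c (insert p K) := Finset.disjoint_insert_right.2 ⟨h2, h4⟩
      have h6 : Disjoint ({p} ∪ c) K :=
        Finset.disjoint_union_left.2 ⟨Finset.disjoint_singleton_left.2 hp, h4⟩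
      simp only [cAK, if_pos h5, if_pos h6, cA, mu_union h3, xs_union h3, map_mul]
      ring
    · have h5 : ¬ Disjoint c (insert p K) := fun h => h4 (Finset.disjoint_insert_right.1 h).2
      have h6 : ¬ Disjoint ({p} ∪ c) K := fun h => h4 (Finset.disjoint_union_left.1 h).2
      simp only [cAK, if_neg h5, if_neg h6, mul_zero]

theorem sa_ind {ι : Type} (J : Finset ι) (n : ι → E) (ρ : E) (s : Pl → ℂ) {Z c : ℝ}
    (hc : 0 ≤ c) (M : ℝ → ℝ) (hM : ∀ X y : ℝ, 0 < X → 1 ≤ y → M (X / y) ≤ M X / y)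
    (h0 : ∀ (X : ℝ) (Xi : ι → Sc), 0 < X → X ≤ Z →
      (∀ i ∈ J, (Xi i).OK ∧ X ≤ (Xi i).sz ∧ (Xi i).sz ≤ 2 * X) →
      √(∑ i ∈ J, ‖S (cA ρ (n i)) (Xi i) s‖ ^ 2) ≤ c * √(M X)) (K : Finset P) :
    ∀ (X : ℝ) (Xi : ι → Sc), 0 < X → X ≤ Z →
      (∀ i ∈ J, (Xi i).OK ∧ X ≤ (Xi i).sz ∧ (Xi i).sz ≤ 2 * X) →
      √(∑ i ∈ J, ‖S (cAK ρ K (n i)) (Xi i) s‖ ^ 2) ≤
        c * (∏ p ∈ K, (1 - (nm p.1 : ℝ) ^ (-(1 / 2) : ℝ))⁻¹) * √(M X) := by
  induction K using Finset.induction_on with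
  | empty =>
    intro X Xi hX hXZ hJ
    have : ∀ n, cAK ρ ∅ n = cA ρ n := fun n => funext fun t => by simp [cAK]
    simpa only [this, Finset.prod_empty, mul_one] using h0 X Xi hX hXZ hJ
  | insert p K hp ih =>
    have hq : ∀ p : P, 0 < 1 - (nm p.1 : ℝ) ^ (-(1 / 2) : ℝ) := fun p => sub_pos.2
      (Real.rpow_lt_one_of_one_lt_of_neg (by linarith [dvs_four_le p]) (by norm_num))
    have hP : 0 ≤ c * ∏ p ∈ K, (1 - (nm p.1 : ℝ) ^ (-(1 / 2) : ℝ))⁻¹ :=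
      mul_nonneg hc (Finset.prod_nonneg fun p _ => (inv_pos.2 (hq p)).le)
    have h4 := dvs_four_le p
    have hW := one_le_cW
    have hp0 : ((p.1 : E) : FF) ≠ 0 := cnt_coe_ne p.ne_zero
    rw [Finset.prod_insert hp, mul_left_comm]
    generalize c * ∏ p ∈ K, (1 - (nm p.1 : ℝ) ^ (-(1 / 2) : ℝ))⁻¹ = A at ih hP ⊢
    have key : ∀ (j : ℕ) (X : ℝ) (Xi : ι → Sc), cW * (2 * X) < 4 ^ j → 0 < X → X ≤ Z →
        (∀ i ∈ J, (Xi i).OK ∧ X ≤ (Xi i).sz ∧ (Xi i).sz ≤ 2 * X) →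
        √(∑ i ∈ J, ‖S (cAK ρ (insert p K) (n i)) (Xi i) s‖ ^ 2) ≤
          (1 - (nm p.1 : ℝ) ^ (-(1 / 2) : ℝ))⁻¹ * A * √(M X) := by
      intro j
      induction j with
      | zero =>
        intro X Xi hj _ _ hJ
        rw [Finset.sum_eq_zero fun i hi => by
          rw [S_eq_zero (hJ i hi).1 (lt_of_le_of_lt (mul_le_mul_of_nonneg_left (hJ i hi).2.2
            (by linarith)) (by rwa [pow_zero] at hj))]; simp]
        have := hq p
        rw [Real.sqrt_zero]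
        positivity
      | succ j ihj =>
        intro X Xi hj hX hXZ hJ
        have h1 : ∀ i, ∃ g : ℂ, i ∈ J → ‖g‖ ≤ 1 ∧
            S (cAK ρ (insert p K) (n i)) (Xi i) s = S (cAK ρ K (n i)) (Xi i) s +
              g * S (cAK ρ (insert p K) (n i)) ((Xi i).dv p.1) s := fun i => by
          by_cases hi : i ∈ J
          · obtain ⟨g, h⟩ := sa_split ρ (n i) hp (hJ i hi).1 s
            exact ⟨g, fun _ => h⟩
          · exact ⟨0, fun h => (hi h).elim⟩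
        choose g h1 using h1
        have h2 := ihj (X / nm p.1) (fun i => (Xi i).dv p.1) (by
            rw [← mul_div_assoc, ← mul_div_assoc, div_lt_iff₀ (by linarith)]
            rw [pow_succ] at hj
            nlinarith [pow_pos (show (0 : ℝ) < 4 by norm_num) j]) (by positivity)
          ((div_le_self hX.le (by linarith)).trans hXZ) fun i hi => ⟨(hJ i hi).1.dv hp0, by
            rw [(hJ i hi).1.sz_dv p.ne_zero]
            exact div_le_div_of_nonneg_right (hJ i hi).2.1 (by linarith), by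
              rw [(hJ i hi).1.sz_dv p.ne_zero, ← mul_div_assoc]
              exact div_le_div_of_nonneg_right (hJ i hi).2.2 (by linarith)⟩
        have h3 : √(M (X / nm p.1)) ≤ (nm p.1 : ℝ) ^ (-(1 / 2) : ℝ) * √(M X) := by
          refine (Real.sqrt_le_sqrt (hM X _ hX (by linarith))).trans (le_of_eq ?_)
          rw [Real.sqrt_div' _ (by linarith), Real.rpow_neg (by linarith), ← Real.sqrt_eq_rpow,
            div_eq_inv_mul]
        have h5 : √(∑ i ∈ J, ‖g i * S (cAK ρ (insert p K) (n i)) ((Xi i).dv p.1) s‖ ^ 2) ≤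
            √(∑ i ∈ J, ‖S (cAK ρ (insert p K) (n i)) ((Xi i).dv p.1) s‖ ^ 2) := by
          refine Real.sqrt_le_sqrt (Finset.sum_le_sum fun i hi =>
            pow_le_pow_left₀ (norm_nonneg _) ?_ 2)
          rw [norm_mul]
          exact mul_le_of_le_one_left (norm_nonneg _) (h1 i hi).1
        rw [Finset.sum_congr rfl fun i hi => by rw [(h1 i hi).2]]
        refine (QRH.sa_tri J _ _).trans ((add_le_add (ih X Xi hX hXZ hJ) (h5.trans (h2.trans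
          (mul_le_mul_of_nonneg_left h3 (mul_nonneg (inv_pos.2 (hq p)).le hP))))).trans
          (le_of_eq ?_))
        have := (hq p).ne'
        field_simp
        ring
    intro X Xi
    obtain ⟨j, hj⟩ := pow_unbounded_of_one_lt (cW * (2 * X)) (show (1 : ℝ) < 4 by norm_num)
    exact key j X Xi hj

theorem hAs (hR : Resc) {η : ℝ} (hη : 0 ≤ η) (h : HA η) : HAs η := by
  intro ε hε
  obtain ⟨B, C, hC, h0⟩ := sa_empty hR hη h (half_pos hε)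
  obtain ⟨C1, hC1, hP⟩ := prod_inv_le (θ := 1 / 2) (ε := ε / 4) (by norm_num) (by positivity)
  refine ⟨B, C * C1 ^ 2, by positivity,
    fun ι J n Xi μ Z X N s ρ K hX hXZ hN hNZ hs hρ hRZ hK hJ hμ => ?_⟩
  have hμ0 : 0 ≤ μ := (Nat.cast_nonneg _).trans (hμ 0)
  have hZ : 0 < Z := hX.trans_le hXZ
  have hR1 := one_le_Rr ρ
  have hTb := one_le_Tb s
  have h1 := sa_ind J n ρ s (Z := Z) (c := √(C * μ * Z ^ (ε / 2) * Tb s ^ B))
    (Real.sqrt_nonneg _) (fun X => X * (N + X ^ (1 + η) * Rr ρ)) (fun X y hX hy => by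
      have : (X / y) ^ (1 + η) ≤ X ^ (1 + η) :=
        Real.rpow_le_rpow (by positivity) (div_le_self hX.le hy) (by linarith)
      rw [div_mul_eq_mul_div]
      gcongr) (fun X Xi hX hXZ hJ' => by
      rw [← Real.sqrt_mul (by positivity)]
      exact Real.sqrt_le_sqrt (h0 ι J n Xi μ Z X N s ρ hX hXZ hN hNZ hs hρ hRZ
        (fun i hi => ⟨(hJ i hi).1, (hJ i hi).2.1, hJ' i hi⟩) hμ)) K X Xi hX hXZ
    fun i hi => (hJ i hi).2.2
  have h2 : ∏ p ∈ K, (1 - (nm p.1 : ℝ) ^ (-(1 / 2) : ℝ))⁻¹ ≤ C1 * Z ^ (ε / 4) :=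
    (hP K).trans (mul_le_mul_of_nonneg_left
      (Real.rpow_le_rpow (Ns_pos K).le hK (by positivity)) hC1.le)
  have h3 := pow_le_pow_left₀ (Real.sqrt_nonneg _) (h1.trans (mul_le_mul_of_nonneg_right
    (mul_le_mul_of_nonneg_left h2 (Real.sqrt_nonneg _)) (Real.sqrt_nonneg _))) 2
  rw [Real.sq_sqrt (by positivity), mul_pow, mul_pow, mul_pow, Real.sq_sqrt (by positivity),
    Real.sq_sqrt (by positivity)] at h3
  refine h3.trans (le_of_eq ?_)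
  have h4 : Z ^ ε = Z ^ (ε / 2) * (Z ^ (ε / 4)) ^ 2 := by
    rw [sq, ← Real.rpow_add hZ, ← Real.rpow_add hZ]; congr 1; ring
  rw [h4]
  ring

end NQ
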