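import Vale.Agent.NQ.Gauss
import Vale.Agent.NQ.Rearr
import Vale.Agent.NQ.WtS

noncomputable section
namespace NQ
open Complex MeasureTheory NumberField Filter
open scoped ComplexConjugate Classical ContDiff Topology

variable [σ : St]

theorem sb_norm_conj (s : Finset P) (n : E) : ‖conj (xs c6 s n)‖ ≤ 1 := by
  rw [Complex.norm_conj]
  exact norm_xs_le ch_c6 s n

omit σ in
theorem sb_norm_mul {x y : ℂ} (hx : ‖x‖ ≤ 1) (hy : ‖y‖ ≤ 1) : ‖x * y‖ ≤ 1 := by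
  rw [norm_mul]
  exact mul_le_one₀ hx (norm_nonneg _) hy

theorem sb_norm_cH (a : FF) (ρ m : E) (s : Finset P) : ‖cH a ρ m s‖ ≤ 1 :=
  sb_norm_mul (sb_norm_mul (sb_norm_mul (norm_mu s).le
    (norm_gamA ch_c6 a s).le) (sb_norm_conj _ _)) (sb_norm_conj _ _)

theorem sb_norm_cB (a : FF) (ρ : E) (K : Finset P) (t m : E) (s : Finset P) :
    ‖cB a ρ K t m s‖ ≤ 1 := by
  rw [cB]
  split_ifs
  · exact sb_norm_mul (sb_norm_cH _ _ _ _) (norm_xs_le ch_c6 _ _)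
  · simp

theorem sb_cH (hu : Uni c6) {a a0 : FF} (e : Eˣ) (hcl : Cl a0 (((e : E) : FF) ^ 6 * a))
    {s : Finset P} (hs : HasCl a s) (ρ m : E) : cH a0 ρ m s = cH a ρ m s := by
  rw [cH, cH, gamA_norm ch_c6 hu six_c6 e hcl hs]

/-- The trivial bound for short sums. -/
theorem sb_short : ∃ C : ℝ, 0 < C ∧ ∀ (β : E → Finset P → ℂ) (Y : Sc) (X M : ℝ) (τ : Pl → ℝ),
    Y.OK → Y.sz ≤ 1 → Y.sz ≤ X → 0 ≤ M → (∀ m s, ‖β m s‖ ≤ 1) →
    ∑ m ∈ ball M, ‖S (β m) Y (iT τ)‖ ^ 2 ≤ C * (X * M) := by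
  obtain ⟨C, hC, h⟩ := norm_S_le
  have hb := one_le_Kb
  refine ⟨Kb * C ^ 2, by positivity, fun β Y X M τ hY h1 h2 hM hβ => ?_⟩
  have h0 := hY.sz_pos
  have h3 : ∀ m, ‖S (β m) Y (iT τ)‖ ^ 2 ≤ C ^ 2 * X := fun m => by
    refine (pow_le_pow_left₀ (norm_nonneg _)
      (h _ _ _ hY (hβ m) (fun w => by rw [iT_re]; norm_num)) 2).trans ?_
    rw [mul_pow]
    exact mul_le_mul_of_nonneg_left (by nlinarith) (sq_nonneg C)
  refine (Finset.sum_le_card_nsmul _ _ _ fun m _ => h3 m).trans ?_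
  rw [nsmul_eq_mul]
  have h4 : 0 ≤ C ^ 2 * X := mul_nonneg (sq_nonneg C) (by linarith)
  exact (mul_le_mul_of_nonneg_right (card_ball_le hM) h4).trans (le_of_eq (by ring))

/-- Reduction to a common scale. -/
theorem sb_resc (hR : Resc) (B : ℕ) : ∃ C L : ℝ, 0 < C ∧ 1 ≤ L ∧
    ∀ (ι : Type) (J : Finset ι) (γ : FF → ι → Finset P → ℂ) (Xi : ι → Sc) (X K : ℝ) (s : Pl → ℂ),
    0 < X → 0 ≤ K → (∀ w, |(s w).re| ≤ 3) →
    (∀ i ∈ J, (Xi i).OK ∧ X ≤ (Xi i).sz ∧ (Xi i).sz ≤ 2 * X) →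
    (∀ (i : ι) (a a0 : FF) (e : Eˣ) (c : Finset P), Cl a0 (((e : E) : FF) ^ 6 * a) → HasCl a c →
      γ a0 i c = γ a i c) →
    (∀ (Y : Sc) (τ : Pl → ℝ), Y.OK → Y.sz ≤ L * X →
      ∑ i ∈ J, ‖S (γ Y.a i) Y (iT τ)‖ ^ 2 ≤ K * Tb (iT τ) ^ B) →
    ∑ i ∈ J, ‖S (γ (Xi i).a i) (Xi i) s‖ ^ 2 ≤ C * K * Tb s ^ B := by
  obtain ⟨T0, K0, hK0, hT0, hn⟩ := exists_norm
  have hA : 1 ≤ 2 * K0 ^ 2 := by nlinarith
  obtain ⟨C, hC, hR⟩ := hR (2 * K0 ^ 2) B hA
  refine ⟨(T0.card + 1) * C, (32 * K0) ^ rk, by positivity, one_le_pow₀ (by linarith),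
    fun ι J γ Xi X K s hX hK hs hJ hγ h => ?_⟩
  have hn' : ∀ i, ∃ (e : Eˣ) (a0 : FF), i ∈ J → (a0 ∈ T0 ∧
      Cl a0 (((e : E) : FF) ^ 6 * (Xi i).a) ∧
      ∀ w, (Xi i).sz ^ (1 / rk : ℝ) / K0 ≤ ‖em w (((e : E) : FF) ^ 6)‖ ^ 2 * (Xi i).T w ∧
        ‖em w (((e : E) : FF) ^ 6)‖ ^ 2 * (Xi i).T w ≤ K0 * (Xi i).sz ^ (1 / rk : ℝ)) := fun i => by
    by_cases hi : i ∈ J
    · obtain ⟨e, a0, h0⟩ := hn _ (hJ i hi).1
      exact ⟨e, a0, fun _ => h0⟩
    · exact ⟨1, 0, fun h0 => absurd h0 hi⟩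
  choose e a0 he using hn'
  have hr : (1 : ℝ) ≤ rk := by exact_mod_cast rk_pos
  have hr0 : (0 : ℝ) ≤ 1 / rk := by positivity
  have hXr : 0 < X ^ (1 / rk : ℝ) := Real.rpow_pos_of_pos hX _
  have hTb : 0 ≤ Tb s ^ B := pow_nonneg (zero_le_one.trans (one_le_Tb s)) B
  rw [← Finset.sum_fiberwise_of_maps_to (g := a0) fun i hi => (he i hi).1]
  have hb : ∀ a ∈ T0, ∑ i ∈ J with a0 i = a, ‖S (γ (Xi i).a i) (Xi i) s‖ ^ 2
      ≤ C * K * Tb s ^ B := fun a ha => by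
    have key := hR ι (J.filter fun i => a0 i = a) (γ a) a
      (fun i w => ‖em w (((e i : E) : FF) ^ 6)‖ ^ 2 * (Xi i).T w)
      (fun _ => X ^ (1 / rk : ℝ) / K0) K s (hT0 a ha).1 (fun _ => by positivity) hs
      (fun i hi w => by
        have hi' := (Finset.mem_filter.1 hi).1
        obtain ⟨h1, h2⟩ := (he i hi').2.2 w
        obtain ⟨_, h3, h4⟩ := hJ i hi'
        refine ⟨le_trans ?_ h1, h2.trans ?_⟩
        · gcongr
        · have h5 : (Xi i).sz ^ (1 / rk : ℝ) ≤ 2 * X ^ (1 / rk : ℝ) := by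
            refine (Real.rpow_le_rpow (by linarith) h4 hr0).trans ?_
            rw [Real.mul_rpow (by norm_num) hX.le]
            gcongr
            exact Real.rpow_le_self_of_one_le (by norm_num) (by rwa [div_le_one (by linarith)])
          calc _ ≤ K0 * (2 * X ^ (1 / rk : ℝ)) := by gcongr
            _ = _ := by field_simp)
      (fun T' τ hT' => by
        have hp : ∀ w, 0 < T' w := fun w => lt_of_lt_of_le (by positivity) (hT' w).1
        refine le_trans (Finset.sum_le_sum_of_subset_of_nonneg (Finset.filter_subset _ _)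
          fun _ _ _ => sq_nonneg _) (h ⟨a, T'⟩ τ ⟨(hT0 a ha).1, hp⟩ ?_)
        have h1 : ∏ w, T' w ≤ ∏ _w : Pl, 32 * K0 * X ^ (1 / rk : ℝ) :=
          Finset.prod_le_prod (fun w _ => (hp w).le) fun w _ =>
            (hT' w).2.trans (le_of_eq (by field_simp; norm_num))
        rw [prod_const_Pl, mul_pow, ← Real.rpow_natCast (X ^ (1 / rk : ℝ)), ← Real.rpow_mul hX.le,
          one_div_mul_cancel (by linarith), Real.rpow_one] at h1
        refine le_trans ?_ h1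
        exact mul_le_of_le_one_left (Finset.prod_nonneg fun w _ => (hp w).le)
          (sS_le_one (hT0 a ha).2))
    refine le_trans (le_of_eq (Finset.sum_congr rfl fun i hi => ?_)) key
    obtain ⟨hi', h0⟩ := Finset.mem_filter.1 hi
    have hcl := (he i hi').2.1
    rw [h0] at hcl
    have h1 := S_nz (hJ i hi').1 hcl (γ a i) s
    rw [S_congr (β' := γ (Xi i).a i) (fun c hc => hγ i _ _ _ c hcl hc) s] at h1
    rw [← h1]
    rfl
  refine (Finset.sum_le_card_nsmul _ _ _ hb).trans ?_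
  rw [nsmul_eq_mul]
  calc _ = T0.card * C * K * Tb s ^ B := by ring
    _ ≤ _ := by gcongr; linarith

theorem sb_one_le (τ : Pl → ℝ) (B : ℕ) : 1 ≤ Tb (iT τ) ^ B := one_le_pow₀ (one_le_Tb _)

theorem hBs (hR : Resc) (hu : Uni c6) {η : ℝ} (hη : 0 ≤ η) (h : HB η) : HBs η := by
  intro ε hε
  obtain ⟨B, C, hC, h⟩ := h ε hε
  obtain ⟨C1, L, hC1, hL, hR⟩ := sb_resc hR B
  obtain ⟨C2, hC2, hS⟩ := sb_short
  obtain ⟨D, hD⟩ : ∃ D : ℝ, D = C * L ^ ε * L ^ (2 + η) := ⟨_, rfl⟩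
  have hD0 : 0 ≤ D := by rw [hD]; positivity
  refine ⟨B, C1 * (D + C2 * L), by positivity,
    fun ι J t Xi Z X M T s ρ K hX hXZ hM hMZ hT hTZ hs hρ hρZ hK hinj hJ => ?_⟩
  have hZ : 1 ≤ Z := hM.trans hMZ
  have hZε : 1 ≤ Z ^ ε := Real.one_le_rpow hZ hε.le
  have hRr := one_le_Rr ρ
  have hLZ : Z ≤ L * Z := le_mul_of_one_le_left (by linarith) hL
  obtain ⟨W, hW⟩ : ∃ W : ℝ, W = J.card * X * M + X ^ 2 * T + M * X ^ (1 + η) * Rr ρ := ⟨_, rfl⟩
  have w1 : 0 ≤ J.card * X * M := by positivity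
  have w2 : 0 ≤ X ^ 2 * T := by positivity
  have w3 : 0 ≤ M * X ^ (1 + η) * Rr ρ := by positivity
  have hW0 : 0 ≤ W := by rw [hW]; positivity
  have hCL : 0 ≤ C2 * L := by positivity
  have key := hR (ι × E) (J ×ˢ ball M) (fun a p => cB a ρ K (t p.1) p.2) (fun p => Xi p.1) X
    ((D + C2 * L) * Z ^ ε * W) s hX (by positivity) hs
    (fun p hp => (hJ _ (Finset.mem_product.1 hp).1).2)
    (fun p a a0 e c hcl hc => by simp only [cB, sb_cH hu e hcl hc])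
    fun Y τ hY h2 => by
      have hτ := sb_one_le τ B
      rw [Finset.sum_product]
      rcases le_total Y.sz 1 with h3 | h3
      · refine (Finset.sum_le_card_nsmul _ _ _ fun i _ => hS (fun m => cB Y.a ρ K (t i) m) Y
          (L * X) M τ hY h3 h2 (by linarith) fun m s => sb_norm_cB _ _ _ _ _ _).trans ?_
        rw [nsmul_eq_mul]
        calc _ = C2 * L * 1 * (J.card * X * M) * 1 := by ring
          _ ≤ _ := by gcongr <;> linarith
      have e1 : ∑ i ∈ J, ∑ m ∈ ball M, ‖S (cB Y.a ρ K (t i) m) Y (iT τ)‖ ^ 2 =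
          ∑ t0 ∈ J.image t, ∑ m ∈ ball M, ‖S (cB Y.a ρ K t0 m) Y (iT τ)‖ ^ 2 := by
        rw [Finset.sum_image hinj]
      refine e1.le.trans ?_
      refine (h (L * Z) M T Y τ ρ K _ hY h3 (h2.trans (by gcongr)) hM (by linarith) hT
        (by linarith) hρ (by linarith) (by linarith) fun t0 ht0 => ?_).trans ?_
      · obtain ⟨i, hi, rfl⟩ := Finset.mem_image.1 ht0
        exact (hJ _ hi).1
      have c1 : ((J.image t).card : ℝ) ≤ J.card := by exact_mod_cast Finset.card_image_le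
      have d0 : L ≤ L ^ (2 + η) := Real.self_le_rpow_of_one_le hL (by linarith)
      have d1 : L ^ 2 ≤ L ^ (2 + η) := by
        rw [← Real.rpow_two]
        exact Real.rpow_le_rpow_of_exponent_le hL (by linarith)
      have d2 : L ^ (1 + η) ≤ L ^ (2 + η) := Real.rpow_le_rpow_of_exponent_le hL (by linarith)
      have c2 : Y.sz ≤ L ^ (2 + η) * X := h2.trans (by gcongr)
      have c3 : Y.sz ^ 2 ≤ L ^ (2 + η) * X ^ 2 := by
        refine (pow_le_pow_left₀ (by linarith) h2 2).trans ?_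
        rw [mul_pow]
        gcongr
      have c4 : Y.sz ^ (1 + η) ≤ L ^ (2 + η) * X ^ (1 + η) := by
        refine (Real.rpow_le_rpow (by linarith) h2 (by linarith)).trans ?_
        rw [Real.mul_rpow (by linarith) hX.le]
        gcongr
      rw [Real.mul_rpow (by linarith) (by linarith)]
      calc _ ≤ C * (L ^ ε * Z ^ ε) * Tb (iT τ) ^ B * (J.card * (L ^ (2 + η) * X) * M +
            L ^ (2 + η) * X ^ 2 * T + M * (L ^ (2 + η) * X ^ (1 + η)) * Rr ρ) := by gcongr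
        _ = D * Z ^ ε * W * Tb (iT τ) ^ B := by rw [hW, hD]; ring
        _ ≤ _ := by gcongr; linarith
  rw [Finset.sum_product] at key
  exact key.trans (le_of_eq (by rw [hW]; ring))

theorem hHs (hR : Resc) (hu : Uni c6) {η : ℝ} (hη : 0 ≤ η) (h : HH η) : HHs η := by
  intro ε hε
  obtain ⟨B, C, hC, h⟩ := h ε hε
  obtain ⟨C1, L, hC1, hL, hR⟩ := sb_resc hR B
  obtain ⟨C2, hC2, hS⟩ := sb_short
  obtain ⟨D, hD⟩ : ∃ D : ℝ, D = C * L ^ ε * L := ⟨_, rfl⟩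
  have hD0 : 0 ≤ D := by rw [hD]; positivity
  refine ⟨B, C1 * (D + C2 * L), by positivity,
    fun Z M X s ρ hX hXZ hM hMZ hs hρ hρZ => ?_⟩
  have hZ : 1 ≤ Z := hM.trans hMZ
  have hZε : 1 ≤ Z ^ ε := Real.one_le_rpow hZ hε.le
  have hRr := one_le_Rr ρ
  have h0 := hX.sz_pos
  have hLZ : Z ≤ L * Z := le_mul_of_one_le_left (by linarith) hL
  have hCL : 0 ≤ C2 * L := by positivity
  have h4 : M ≤ M * Rr ρ := le_mul_of_one_le_right (by linarith) hRr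
  have h5 : M ≤ (M * Rr ρ) ^ (1 + η) :=
    h4.trans (Real.self_le_rpow_of_one_le (hM.trans h4) (by linarith))
  have key := hR E (ball M) (fun a m => cH a ρ m) (fun _ => X) X.sz
    ((D + C2 * L) * Z ^ ε * (X.sz * (M * Rr ρ) ^ (1 + η))) s h0 (by positivity) hs
    (fun _ _ => ⟨hX, le_rfl, by linarith⟩) (fun m a a0 e c hcl hc => sb_cH hu e hcl hc ρ m)
    fun Y τ hY h2 => by
      have hτ := sb_one_le τ B
      rcases le_total Y.sz 1 with h3 | h3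
      · refine (hS (fun m => cH Y.a ρ m) Y (L * X.sz) M τ hY h3 h2 (by linarith)
          fun m s => sb_norm_cH _ _ _ _).trans ?_
        calc _ = C2 * L * 1 * (X.sz * M) * 1 := by ring
          _ ≤ _ := by gcongr; linarith
      refine (h (L * Z) M Y τ ρ hY h3 (h2.trans (by gcongr)) hM (by linarith) hρ
        (by linarith)).trans ?_
      rw [Real.mul_rpow (by linarith) (by linarith)]
      calc _ ≤ C * (L ^ ε * Z ^ ε) * Tb (iT τ) ^ B * (L * X.sz * (M * Rr ρ) ^ (1 + η)) := by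
            gcongr
        _ = D * Z ^ ε * (X.sz * (M * Rr ρ) ^ (1 + η)) * Tb (iT τ) ^ B := by rw [hD]; ring
        _ ≤ _ := by gcongr; linarith
  exact key.trans (le_of_eq (by ring))

end NQ
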