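import Vale.Agent.NQ.DualC
import Vale.Agent.NQ.WtS

noncomputable section
namespace NQ
open Complex MeasureTheory NumberField Filter
open scoped ComplexConjugate Classical ContDiff Topology

variable [σ : St]

/-- The fibres of `(t, d, f, n) -> n t d (d / f)` (up to units) are small. -/
theorem StepB_fibre {δ C N1 : ℝ} (hδ : 0 < δ) (hC : 0 < C)
    (h : ∀ (x : E) (R : ℝ), x ≠ 0 →
      (((ball R).filter fun y => y ∣ x).card : ℝ) ≤ C * (nm x : ℝ) ^ δ)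
    (J : Finset (Σ _ : E, Σ _ : Finset P, Σ _ : Finset P, E))
    (hJ : ∀ i ∈ J, i.2.2.1 ⊆ i.2.1 ∧ IsU 6 (un i.1) ∧ IsU 6 (un i.2.2.2) ∧
      i.2.2.2 * i.1 * pr i.2.1 * pr (i.2.1 \ i.2.2.1) ≠ 0 ∧
      (nm (i.2.2.2 * i.1 * pr i.2.1 * pr (i.2.1 \ i.2.2.1)) : ℝ) ≤ N1)
    (_hN1 : 0 ≤ N1) (n0 : E) :
    ((J.filter fun i =>
        Associated (i.2.2.2 * i.1 * pr i.2.1 * pr (i.2.1 \ i.2.2.1)) n0).card : ℝ)
      ≤ (C * N1 ^ δ) ^ 4 := by
  by_cases hn : n0 ≠ 0 ∧ (nm n0 : ℝ) ≤ N1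
  swap
  · rw [Finset.filter_eq_empty_iff.2]
    · simp only [Finset.card_empty, Nat.cast_zero]; positivity
    · intro i hi he
      obtain ⟨-, -, -, h4, h5⟩ := hJ i hi
      exact hn ⟨fun h0 => h4 ((associated_zero_iff_eq_zero _).1 (h0 ▸ he)), nm_assoc he ▸ h5⟩
  obtain ⟨h0, hle⟩ := hn
  set Dv := (ball (nm n0)).filter (· ∣ n0) with hDv
  have hmem : ∀ y, IsU 6 (un y) → y ∣ n0 → y ∈ Dv := fun y hu hy => by
    refine Finset.mem_filter.2 ⟨mem_ball.2 ⟨?_, ?_, hu⟩, hy⟩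
    · rintro rfl; exact h0 (zero_dvd_iff.1 hy)
    · exact_mod_cast nm_le_of_dvd hy h0
  have hpr : ∀ s : Finset P, IsU 6 (un (pr s)) := fun s =>
    (mem_ball.1 (prim_subset_ball _ (mem_prim.2 ⟨prim_pr s, le_rfl⟩))).2.2
  have hD : (Dv.card : ℝ) ≤ C * N1 ^ δ := (h n0 _ h0).trans (by gcongr)
  have hc : (J.filter fun i =>
        Associated (i.2.2.2 * i.1 * pr i.2.1 * pr (i.2.1 \ i.2.2.1)) n0).card
      ≤ (Dv ×ˢ Dv ×ˢ Dv ×ˢ Dv).card := by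
    refine Finset.card_le_card_of_injOn
      (fun i => (i.1, pr i.2.1, pr (i.2.1 \ i.2.2.1), i.2.2.2)) ?_ ?_
    · intro i hi
      obtain ⟨hi1, he⟩ := Finset.mem_filter.1 hi
      obtain ⟨-, h2, h3, -, -⟩ := hJ i hi1
      simp only [Finset.coe_product, Set.mem_prod, Finset.mem_coe]
      refine ⟨hmem _ h2 (dvd_trans ?_ he.dvd), hmem _ (hpr _) (dvd_trans ?_ he.dvd),
        hmem _ (hpr _) (dvd_trans ?_ he.dvd), hmem _ h3 (dvd_trans ?_ he.dvd)⟩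
      · exact ⟨i.2.2.2 * pr i.2.1 * pr (i.2.1 \ i.2.2.1), by ring⟩
      · exact ⟨i.2.2.2 * i.1 * pr (i.2.1 \ i.2.2.1), by ring⟩
      · exact ⟨i.2.2.2 * i.1 * pr i.2.1, by ring⟩
      · exact ⟨i.1 * pr i.2.1 * pr (i.2.1 \ i.2.2.1), by ring⟩
    · rintro ⟨t, d, f, n⟩ hi ⟨t', d', f', n'⟩ hi' he
      have h1 := (hJ _ (Finset.mem_filter.1 hi).1).1
      have h2 := (hJ _ (Finset.mem_filter.1 hi').1).1
      simp only [Prod.mk.injEq] at he h1 h2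
      obtain ⟨rfl, hd, hf, rfl⟩ := he
      obtain rfl := pr_inj hd
      have hf' := pr_inj hf
      have : f = f' := by
        rw [← Finset.sdiff_sdiff_eq_self h1, hf', Finset.sdiff_sdiff_eq_self h2]
      subst this
      rfl
  calc _ ≤ ((Dv ×ˢ Dv ×ˢ Dv ×ˢ Dv).card : ℝ) := by exact_mod_cast hc
    _ = (Dv.card : ℝ) ^ 4 := by simp only [Finset.card_product]; push_cast; ring
    _ ≤ _ := by gcongr

theorem StepB_swap (F : Finset E) (X N : ℝ) (G : E → Finset P → Finset P → Finset P → ℝ) :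
    ∑ t ∈ F, PSum X N (G t) = ∑ e ∈ sqf (cW * X), ∑ d ∈ sqf (cW * X) with Disjoint d e,
      ∑ t ∈ F, ∑ f ∈ d.powerset, N * Ns d / (X * Ns f) * G t d f e := by
  unfold PSum
  simp only [Finset.sum_filter]
  rw [Finset.sum_comm]
  rw [Finset.sum_comm (s := sqf (cW * X)) (t := sqf (cW * X))]
  refine Finset.sum_congr rfl fun d _ => ?_
  have : ∀ t ∈ F, (∑ f ∈ d.powerset, ∑ e ∈ sqf (cW * X),
      if Disjoint d e then N * Ns d / (X * Ns f) * G t d f e else 0)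
      = ∑ e ∈ sqf (cW * X), ∑ f ∈ d.powerset,
        if Disjoint d e then N * Ns d / (X * Ns f) * G t d f e else 0 :=
    fun t _ => Finset.sum_comm
  rw [Finset.sum_congr rfl this, Finset.sum_comm]
  refine Finset.sum_congr rfl fun e _ => ?_
  split_ifs <;> simp

omit σ in
theorem StepB_pow {W Z δ : ℝ} (hW : 1 ≤ W) (hZ : 1 ≤ Z) (hδ1 : 7 * δ ≤ 1) (j : ℕ) :
    ((W * 2 ^ j * Z ^ 3) ^ δ) ^ 7 ≤ W * 2 ^ j * Z ^ (21 * δ) := by
  have h2 : (1 : ℝ) ≤ W * 2 ^ j := one_le_mul_of_one_le_of_one_le hW (one_le_pow₀ one_le_two)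
  rw [← Real.rpow_natCast, ← Real.rpow_mul (by positivity), Real.mul_rpow (by positivity)
    (by positivity), ← Real.rpow_natCast Z 3, ← Real.rpow_mul (by positivity)]
  have e1 : ((3 : ℕ) : ℝ) * (δ * ((7 : ℕ) : ℝ)) = 21 * δ := by push_cast; ring
  rw [e1]
  gcongr
  calc (W * 2 ^ j : ℝ) ^ (δ * ((7 : ℕ) : ℝ)) ≤ (W * 2 ^ j : ℝ) ^ (1 : ℝ) :=
        Real.rpow_le_rpow_of_exponent_le h2 (by push_cast; linarith)
    _ = _ := Real.rpow_one _

set_option maxHeartbeats 600000 in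
theorem stepB (hP : PL (cj c6)) (hR : XR c6) (hu : Uni c6) {η : ℝ} (hη : 0 < η) (hA : HAs η) :
    HB η := by
  intro ε hε
  obtain ⟨δ, hδ, hδ1, hδ2⟩ : ∃ δ : ℝ, 0 < δ ∧ 7 * δ ≤ 1 ∧ 22 * δ ≤ ε :=
    ⟨min (1 / 7) (ε / 22), by positivity, by linarith [min_le_left (1 / 7 : ℝ) (ε / 22)],
      by linarith [min_le_right (1 / 7 : ℝ) (ε / 22)]⟩
  obtain ⟨B, C1, hC1, h1⟩ := hA δ hδ
  obtain ⟨C2, hC2, h2⟩ := hP δ B hδ
  obtain ⟨C3, hC3, h3⟩ := card_dvd_le hδ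
  obtain ⟨C4, hC4, h4⟩ := sum_sqf_inv hδ
  obtain ⟨C5, hC5, h5⟩ := QRH.log_le_rpow hδ
  have hW := one_le_cW
  have hW0 : (0 : ℝ) < cW := by linarith
  refine ⟨B, C2 * (1 + 2 * cW * C1 * C3 ^ 4 * C4 * C5), by positivity, ?_⟩
  intro Z M T Y τ ρ K F hY hX hXZ hM hMZ hT hTZ hρ hRZ hKZ hF
  set X := Y.sz with hXY
  have hZ : 1 ≤ Z := hX.trans hXZ
  have hX0 : 0 < X := by linarith
  have hR1 := one_le_Rr ρ
  have hXη : 1 ≤ X ^ (1 + η) := Real.one_le_rpow hX (by linarith)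
  set mn := X ^ 2 * T + M * X ^ (1 + η) * Rr ρ with hmn
  have hmn0 : 0 ≤ mn := by positivity
  have hch : ∀ (t : E) (d f e : Finset P), ∃ κ : ℂ, f ⊆ d → Disjoint d e →
      ‖κ‖ ≤ 1 ∧ ∀ n s, S (dual (cj c6) (bB Y.a ρ K t) (Y.de d e).a d f e n) (Y.de d e) s
        = κ * S (cAK ρ (K ∪ e) (n * t * pr d * pr (d \ f))) (Y.de d e) s := by
    intro t d f e
    by_cases h : f ⊆ d ∧ Disjoint d e
    · obtain ⟨κ, hk, h'⟩ := dual_bB hR hu hY.1 ρ K t h.1 h.2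
      refine ⟨κ, fun _ _ => ⟨hk, fun n s => ?_⟩⟩
      rw [← S_smul]
      exact S_congr (fun c hc => h' n c hc) s
    · exact ⟨0, fun h1 h2 => absurd ⟨h1, h2⟩ h⟩
  choose κ hκ using hch
  have key := h2 E F (fun t => bB Y.a ρ K t) Y M
    (2 * cW * C1 * C3 ^ 4 * C4 * C5 * Z ^ (21 * δ) * mn) τ hY hX hM
    (fun t _ s => norm_bB_le _ ρ K t s) ?_
  · simp only [cB_eq]
    refine key.trans ?_
    rw [← hXY]
    have hb : (1 : ℝ) ≤ Tb (iT τ) ^ B := one_le_pow₀ (one_le_Tb _)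
    have hz : (1 : ℝ) ≤ Z ^ ε := Real.one_le_rpow hZ hε.le
    have hz2 : X ^ δ * Z ^ (21 * δ) ≤ Z ^ ε := by
      calc X ^ δ * Z ^ (21 * δ) ≤ Z ^ δ * Z ^ (21 * δ) := by gcongr
        _ = Z ^ (22 * δ) := by rw [← Real.rpow_add (by linarith)]; ring_nf
        _ ≤ _ := Real.rpow_le_rpow_of_exponent_le hZ hδ2
    set c := 2 * cW * C1 * C3 ^ 4 * C4 * C5 with hc
    have hc0 : 0 < c := by positivity
    set u := (F.card : ℝ) * X * M with hu
    have hu0 : 0 ≤ u := by positivity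
    have e1 : (F.card : ℝ) * M * X = u := by rw [hu]; ring
    have e2 : u + X ^ 2 * T + M * X ^ (1 + η) * Rr ρ = u + mn := by rw [hmn]; ring
    rw [e1, e2]
    set b := Tb (iT τ) ^ B with hbd
    have e3 : X ^ δ * (c * Z ^ (21 * δ) * mn) * b ≤ c * (Z ^ ε * b * mn) := by
      calc _ = c * (X ^ δ * Z ^ (21 * δ) * b * mn) := by ring
        _ ≤ _ := by gcongr
    have e4 : u ≤ Z ^ ε * b * u :=
      le_mul_of_one_le_left hu0 (one_le_mul_of_one_le_of_one_le hz hb)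
    have e5 : 0 ≤ Z ^ ε * b := by positivity
    calc _ ≤ C2 * (Z ^ ε * b * u + c * (Z ^ ε * b * mn)) := by gcongr
      _ ≤ C2 * ((1 + c) * (Z ^ ε * b * (u + mn))) := by
        gcongr
        nlinarith [mul_nonneg e5 hu0, mul_nonneg e5 hmn0, mul_nonneg hc0.le (mul_nonneg e5 hu0)]
      _ = _ := by ring
  intro j s hs
  rw [← hXY]
  have hTb : 0 ≤ Tb s ^ B := pow_nonneg (zero_le_one.trans (one_le_Tb s)) B
  set Z1 := cW * 2 ^ j * Z ^ 3 with hZ1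
  set N1 := max 1 (2 ^ j * X ^ 2 * T / M) with hN1
  have h2j : (1 : ℝ) ≤ 2 ^ j := one_le_pow₀ one_le_two
  have hZ3 : Z ≤ Z ^ 3 := le_self_pow₀ hZ (by norm_num)
  have hZ23 : Z ^ 2 ≤ Z ^ 3 := pow_le_pow_right₀ hZ (by norm_num)
  have hZ31 : cW * Z ^ 3 ≤ Z1 := by
    calc cW * Z ^ 3 = cW * 1 * Z ^ 3 := by ring
      _ ≤ Z1 := by rw [hZ1]; gcongr
  have hZ32 : 2 ^ j * Z ^ 3 ≤ Z1 := by
    calc 2 ^ j * Z ^ 3 = 1 * 2 ^ j * Z ^ 3 := by ring
      _ ≤ Z1 := by rw [hZ1]; gcongr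
  have hWX : cW * X ≤ Z1 := le_trans (by gcongr; linarith) hZ31
  have hWX1 : 1 ≤ cW * X := one_le_mul_of_one_le_of_one_le hW hX
  have hZZ : Z ≤ Z1 := by
    calc Z ≤ 1 * Z ^ 3 := by linarith
      _ ≤ cW * Z ^ 3 := by gcongr
      _ ≤ Z1 := hZ31
  have hN1Z : N1 ≤ Z1 := by
    refine max_le (by linarith) ?_
    calc 2 ^ j * X ^ 2 * T / M ≤ 2 ^ j * X ^ 2 * T := div_le_self (by positivity) hM
      _ ≤ 2 ^ j * Z ^ 2 * Z := by gcongr
      _ = 2 ^ j * Z ^ 3 := by ring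
      _ ≤ Z1 := hZ32
  have hMN1 : M * N1 + M * X ^ (1 + η) * Rr ρ ≤ 2 * 2 ^ j * mn := by
    have e1 : M * N1 ≤ M + 2 ^ j * X ^ 2 * T := by
      rcases le_total 1 (2 ^ j * X ^ 2 * T / M) with h | h
      · rw [hN1, max_eq_right h, mul_div_cancel₀ _ (by linarith)]; linarith
      · rw [hN1, max_eq_left h]; have : (0 : ℝ) ≤ 2 ^ j * X ^ 2 * T := by positivity
        linarith
    have e2 : M ≤ M * X ^ (1 + η) * Rr ρ := by
      calc M = M * 1 * 1 := by ring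
        _ ≤ _ := by gcongr
    have e3 : 0 ≤ X ^ 2 * T := by positivity
    rw [hmn]
    nlinarith
  obtain ⟨J0, hJ0, hJ0'⟩ := QRH.exists_dyadic (R := cW * X) hWX1
  set w := C1 * (C3 * Z1 ^ δ) ^ 4 * Z1 ^ δ * Tb s ^ B * (2 * 2 ^ j * mn) with hw
  have hw0 : 0 ≤ w := by positivity
  have hblock : ∀ e ∈ sqf (cW * X), ∀ i : ℕ,
      ∑ d ∈ (sqf (cW * X)).filter (fun d => Disjoint d e) with 2 ^ i ≤ Ns d ∧ Ns d < 2 ^ (i + 1),
        ∑ t ∈ F, ∑ f ∈ d.powerset, M * Ns d / (X * Ns f) *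
          ∑ m ∈ ball (2 ^ j * M0 X M d f),
            ‖S (dual (cj c6) (bB Y.a ρ K t) (Y.de d e).a d f e m) (Y.de d e) s‖ ^ 2
        ≤ w * (Ns e)⁻¹ := by
    intro e he i
    set Ds := ((sqf (cW * X)).filter (fun d => Disjoint d e)).filter
      fun d => 2 ^ i ≤ Ns d ∧ Ns d < 2 ^ (i + 1) with hDs
    have hNe := one_le_Ns e
    have h2i : (1 : ℝ) ≤ 2 ^ i := one_le_pow₀ one_le_two
    set X1 := X / (2 ^ (i + 1) * Ns e) with hX1
    have hX10 : 0 < X1 := by positivity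
    have hX1X : X1 ≤ X := div_le_self hX0.le
      (one_le_mul_of_one_le_of_one_le (one_le_pow₀ one_le_two) hNe)
    set J : Finset (Σ _ : E, Σ _ : Finset P, Σ _ : Finset P, E) :=
      F.sigma fun _ => Ds.sigma fun d => d.powerset.sigma fun f => ball (2 ^ j * M0 X M d f)
      with hJ
    have hJm : ∀ x ∈ J, x.1 ∈ F ∧ x.2.1 ∈ Ds ∧ x.2.2.1 ⊆ x.2.1 ∧
        x.2.2.2 ∈ ball (2 ^ j * M0 X M x.2.1 x.2.2.1) := by
      intro x hx
      simpa only [hJ, Finset.mem_sigma, Finset.mem_powerset] using hx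
    have hball : ∀ x ∈ J, x.2.2.2 * x.1 * pr x.2.1 * pr (x.2.1 \ x.2.2.1) ≠ 0 ∧
        (nm (x.2.2.2 * x.1 * pr x.2.1 * pr (x.2.1 \ x.2.2.1)) : ℝ) ≤ N1 := by
      rintro ⟨t, d, f, n⟩ hx
      obtain ⟨ht, -, hf, hn⟩ := hJm _ hx
      simp only at ht hf hn ⊢
      obtain ⟨ht0, htT, -⟩ := mem_ball.1 (hF ht)
      obtain ⟨hn0, hnM, -⟩ := mem_ball.1 hn
      refine ⟨mul_ne_zero (mul_ne_zero (mul_ne_zero hn0 ht0) (pr_ne_zero _))
        (pr_ne_zero _), le_trans ?_ (le_max_right _ _)⟩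
      have hsd : Ns (d \ f) * Ns f = Ns d := by
        rw [← Ns_union Finset.sdiff_disjoint, Finset.sdiff_union_of_subset hf]
      have hd := Ns_pos d
      have hf0 := Ns_pos f
      have hdf := Ns_pos (d \ f)
      rw [nm_mul, nm_mul, nm_mul]
      push_cast
      calc (nm n : ℝ) * nm t * nm (pr d) * nm (pr (d \ f))
          ≤ 2 ^ j * M0 X M d f * T * Ns d * Ns (d \ f) := by
            have : (0 : ℝ) ≤ 2 ^ j * M0 X M d f := le_trans (by positivity) hnM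
            change (nm n : ℝ) * nm t * Ns d * Ns (d \ f) ≤ _
            gcongr
        _ = 2 ^ j * X ^ 2 * T / M := by
            unfold M0; rw [← hsd]; field_simp
    have hmain := h1 _ J (fun x => x.2.2.2 * x.1 * pr x.2.1 * pr (x.2.1 \ x.2.2.1))
      (fun x => Y.de x.2.1 e) ((C3 * N1 ^ δ) ^ 4) Z1 X1
      N1 s ρ (K ∪ e) hX10 (by linarith) (le_max_left _ _) hN1Z hs hρ (by linarith) ?_ ?_
      (StepB_fibre hδ hC3 h3 J (fun x hx => ⟨(hJm x hx).2.2.1,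
          (mem_ball.1 (hF (hJm x hx).1)).2.2, (mem_ball.1 (hJm x hx).2.2.2).2.2, hball x hx⟩)
        (le_trans zero_le_one (le_max_left _ _)))
    rotate_left
    · calc Ns (K ∪ e) ≤ Ns K * Ns e := Ns_union_le _ _
        _ ≤ Z * (cW * Z) := by
            have := (mem_sqf.1 he).trans (by gcongr : cW * X ≤ cW * Z)
            gcongr
        _ = cW * Z ^ 2 := by ring
        _ ≤ cW * Z ^ 3 := by gcongr
        _ ≤ Z1 := hZ31
    · intro x hx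
      obtain ⟨-, hd, hf, -⟩ := hJm x hx
      obtain ⟨hd1, hd2, hd3⟩ := Finset.mem_filter.1 hd
      refine ⟨(hball x hx).1, (hball x hx).2, hY.de _ _, ?_, ?_⟩
      · rw [hY.sz_de, ← hXY, hX1]; have := Ns_pos x.2.1; gcongr
      · rw [hY.sz_de, ← hXY, hX1, pow_succ]
        calc X / (Ns x.2.1 * Ns e) ≤ X / (2 ^ i * Ns e) := by gcongr
          _ = _ := by field_simp
    rw [Finset.sum_comm]
    calc _ ≤ ∑ t ∈ F, ∑ d ∈ Ds, ∑ f ∈ d.powerset, ∑ m ∈ ball (2 ^ j * M0 X M d f),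
          M * 2 ^ (i + 1) / X * ‖S (cAK ρ (K ∪ e) (m * t * pr d * pr (d \ f)))
            (Y.de d e) s‖ ^ 2 := by
          refine Finset.sum_le_sum fun t _ => Finset.sum_le_sum fun d hd =>
            Finset.sum_le_sum fun f hf => ?_
          obtain ⟨hd1, hd2, hd3⟩ := Finset.mem_filter.1 hd
          obtain ⟨hk1, hk3⟩ := hκ t d f e (Finset.mem_powerset.1 hf)
            (Finset.mem_filter.1 hd1).2
          rw [Finset.mul_sum]
          refine Finset.sum_le_sum fun m _ => ?_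
          rw [hk3, norm_mul, mul_pow]
          have hf1 := one_le_Ns f
          have hd0 := Ns_pos d
          have e1 : M * Ns d / (X * Ns f) ≤ M * 2 ^ (i + 1) / X := by
            calc M * Ns d / (X * Ns f) ≤ M * 2 ^ (i + 1) / (X * 1) := by gcongr
              _ = _ := by rw [mul_one]
          have e2 : ‖κ t d f e‖ ^ 2 ≤ 1 := pow_le_one₀ (norm_nonneg _) hk1
          calc _ ≤ M * 2 ^ (i + 1) / X * (1 * ‖S (cAK ρ (K ∪ e)
                (m * t * pr d * pr (d \ f))) (Y.de d e) s‖ ^ 2) := by gcongr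
            _ = _ := by rw [one_mul]
      _ = M * 2 ^ (i + 1) / X * ∑ x ∈ J, ‖S (cAK ρ (K ∪ e)
            (x.2.2.2 * x.1 * pr x.2.1 * pr (x.2.1 \ x.2.2.1))) (Y.de x.2.1 e) s‖ ^ 2 := by
          simp only [hJ, Finset.sum_sigma, Finset.mul_sum]
      _ ≤ M * 2 ^ (i + 1) / X * (C1 * (C3 * Z1 ^ δ) ^ 4 * Z1 ^ δ * Tb s ^ B
            * (X1 * (N1 + X ^ (1 + η) * Rr ρ))) := by
          gcongr
          refine hmain.trans ?_
          have : 0 ≤ N1 := le_trans zero_le_one (le_max_left _ _)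
          gcongr
      _ = C1 * (C3 * Z1 ^ δ) ^ 4 * Z1 ^ δ * Tb s ^ B
            * (M * N1 + M * X ^ (1 + η) * Rr ρ) * (Ns e)⁻¹ := by
          rw [hX1]; field_simp
      _ ≤ _ := by rw [hw]; gcongr
  have h16 : (cW * X) ^ δ ≤ Z1 ^ δ := by gcongr
  rw [StepB_swap]
  calc _ ≤ ∑ e ∈ sqf (cW * X), C5 * Z1 ^ δ * (w * (Ns e)⁻¹) := by
        refine Finset.sum_le_sum fun e he => ?_
        rw [QRH.sum_dyadic _ Ns _ (J := J0) fun d hd =>
          ⟨one_le_Ns d, (mem_sqf.1 (Finset.mem_filter.1 hd).1).trans_lt hJ0'⟩]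
        refine (Finset.sum_le_sum fun i _ => hblock e he i).trans ?_
        rw [Finset.sum_const, Finset.card_range, nsmul_eq_mul]
        have := Ns_pos e
        gcongr
        push_cast
        exact (h5 _ _ hWX1 hJ0).trans (by gcongr)
    _ = C5 * Z1 ^ δ * w * ∑ e ∈ sqf (cW * X), (Ns e)⁻¹ := by
        rw [Finset.mul_sum]; exact Finset.sum_congr rfl fun _ _ => by ring
    _ ≤ C5 * Z1 ^ δ * w * (C4 * Z1 ^ δ) := by
        gcongr
        exact (h4 _ (by linarith)).trans (by gcongr)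
    _ = 2 * C1 * C3 ^ 4 * C4 * C5 * (Z1 ^ δ) ^ 7 * 2 ^ j * mn * Tb s ^ B := by rw [hw]; ring
    _ ≤ 2 * C1 * C3 ^ 4 * C4 * C5 * (cW * 2 ^ j * Z ^ (21 * δ)) * 2 ^ j * mn * Tb s ^ B := by
        gcongr
        exact StepB_pow hW hZ hδ1 j
    _ = 2 * cW * C1 * C3 ^ 4 * C4 * C5 * Z ^ (21 * δ) * mn * (2 * 2) ^ j * Tb s ^ B := by
        rw [mul_pow]; ring
    _ ≤ _ := by gcongr; norm_num

end NQ
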