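import Vale.Agent.NQ.Hs
import Vale.Agent.NQ.Gauss
noncomputable section
namespace NQ
open Complex MeasureTheory NumberField Filter
open scoped ComplexConjugate Classical ContDiff Topology
variable [σ : St]
theorem ph_le_rpow {a b : ℝ} (hb : 0 ≤ b) (h : a ^ 3 ≤ b ^ 2) :
    a ≤ b ^ (2 / 3 : ℝ) := by
  have h1 : (b ^ (2 / 3 : ℝ)) ^ 3 = b ^ 2 := by
    rw [← Real.rpow_natCast, ← Real.rpow_mul hb, ← Real.rpow_natCast]
    norm_num
  exact le_of_pow_le_pow_left₀ (n := 3) (by norm_num) (Real.rpow_nonneg hb _) (h1 ▸ h)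
theorem ph_ne_zero {p : P} {s : E} (h : ¬ p.1 ∣ s) : s ≠ 0 := fun h0 => h (h0 ▸ dvd_zero _)
theorem ph_vp_unit_mul {p : P} {s c : E} (hs : ¬ p.1 ∣ s) (hc : c ≠ 0) :
    vp p.1 (s * c) = vp p.1 c := by
  rw [vp_mul p.2.1 (ph_ne_zero hs) hc, vp_of_not_dvd hs, zero_add]
theorem ph_pow_vp_dvd (p x : E) : p ^ vp p x ∣ x := ⟨_, (pow_vp_mul_up p x).symm⟩
theorem ph_not_dvd_pow {p : P} {s : E} (hs : ¬ p.1 ∣ s) (k : ℕ) : ¬ p.1 ∣ s ^ k :=
  fun h => hs (p.2.1.dvd_of_dvd_pow h)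
theorem Tp_of_not_dvd {p : P} {c : E} (h : ¬ p.1 ∣ c) (x : E) : Tp p c x = 1 := by
  simp [Tp, vp_of_not_dvd h]
theorem ph_Tp_iff {p : P} {c x x' : E}
    (h : p.1 ^ (2 * (vp p.1 c / 3) + vp p.1 c % 3) ∣ x ↔
      p.1 ^ (2 * (vp p.1 c / 3) + vp p.1 c % 3) ∣ x') : Tp p c x = Tp p c x' := by
  simp only [Tp, h]
theorem Tp_congr {p : P} {c x x' : E} (h : p.1 ^ vp p.1 c ∣ x - x') : Tp p c x = Tp p c x' :=
  ph_Tp_iff (dvd_iff_dvd_of_dvd_sub ((pow_dvd_pow _ (by omega)).trans h))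
theorem Tp_neg (p : P) (c x : E) : Tp p c (-x) = Tp p c x := ph_Tp_iff dvd_neg
theorem ph_Tp_unit {p : P} {s : E} (hs : ¬ p.1 ∣ s) (c x : E) : Tp p c (s * x) = Tp p c x :=
  ph_Tp_iff ⟨fun h => p.2.1.pow_dvd_of_dvd_mul_left _ hs h, fun h => h.mul_left s⟩
/-- Change of the first argument inside a valuation class. -/
theorem Tp_change {p : P} {e e' : E} (he : e ≠ 0) (he' : e' ≠ 0) (h : vp p.1 e' = vp p.1 e)
    (x : E) : Tp p e' x = hs p e' e * Tp p e x := by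
  have h1 := not_dvd_up p.2.1 he
  have h2 := not_dvd_up p.2.1 he'
  simp only [Tp, hs, h]
  rw [← map_pow, c3_pow_mod h1, c3_pow_mod h2]
  split_ifs with ha hb
  · simp
  · simp [hb]
  · have h3 : vp p.1 e % 3 = 1 := by omega
    have h4 := (c3_mc p).mul_conj h1
    rw [h3, pow_one, pow_one]
    linear_combination (-((nm p.1 : ℂ) ^ (2 * (vp p.1 e / 3)) * conj (c3 p (up p.1 e')) * G3 p)) * h4
theorem ph_Tp_ne {p : P} {c x : E} (h : Tp p c x ≠ 0) :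
    vp p.1 c % 3 ≠ 2 ∧ p.1 ^ (2 * (vp p.1 c / 3) + vp p.1 c % 3) ∣ x := by
  by_contra hc
  apply h
  rw [Tp, if_pos (by tauto)]
theorem Tp_supp {p : P} {c x : E} (h : Tp p c x ≠ 0) : p.1 ^ (2 * vp p.1 c) ∣ x ^ 3 := by
  have h1 := pow_dvd_pow_of_dvd (ph_Tp_ne h).2 3
  rw [← pow_mul] at h1
  exact (pow_dvd_pow _ (by omega)).trans h1
theorem Tp_supp' {p : P} {c x : E} (h : Tp p c x ≠ 0) : p.1 ^ vp p.1 c ∣ x ^ 2 := by
  have h1 := pow_dvd_pow_of_dvd (ph_Tp_ne h).2 2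
  rw [← pow_mul] at h1
  exact (pow_dvd_pow _ (by omega)).trans h1
theorem norm_Tp_le (p : P) (c x : E) :
    ‖Tp p c x‖ ≤ ((nm p.1 : ℝ) ^ vp p.1 c) ^ (2 / 3 : ℝ) := by
  have hN : (1 : ℝ) ≤ nm p.1 := one_le_nmR p.ne_zero
  refine ph_le_rpow (by positivity) ?_
  rw [Tp]
  split_ifs with ha hb
  · simp only [norm_zero]
    norm_num
  · rw [mul_one, norm_pow, Complex.norm_natCast, ← pow_mul, ← pow_mul]
    exact pow_le_pow_right₀ hN (by omega)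
  · have h3 : vp p.1 c * 2 = 2 * (vp p.1 c / 3) * 3 + 2 := by omega
    have h4 := norm_G3 p
    have h5 : ‖conj (c3 p (up p.1 c)) * G3 p‖ ≤ ‖G3 p‖ := by
      rw [norm_mul, RCLike.norm_conj]
      exact mul_le_of_le_one_left (norm_nonneg _) ((c3_mc p).norm_le _)
    have h6 : 1 ≤ ‖G3 p‖ := by
      by_contra hh
      have := norm_nonneg (G3 p)
      nlinarith
    have h7 : ‖conj (c3 p (up p.1 c)) * G3 p‖ ^ 3 ≤ (nm p.1 : ℝ) ^ 2 := by
      rw [← h4, ← pow_mul]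
      exact (pow_le_pow_left₀ (norm_nonneg _) h5 3).trans (pow_le_pow_right₀ h6 (by norm_num))
    rw [norm_mul, norm_pow, Complex.norm_natCast, mul_pow, ← pow_mul, ← pow_mul, h3, pow_add]
    exact mul_le_mul_of_nonneg_left h7 (by positivity)
theorem phip_of_not_dvd {p : P} {c : E} (h : ¬ p.1 ∣ c) (d x : E) : phip p c d x = 1 := by
  rw [phip, if_pos (Or.inr (by rw [vp_of_not_dvd h]; exact Nat.zero_le _)), Tp_of_not_dvd h]
theorem phip_of_dvd {p : P} {c d : E} (h : p.1 ^ vp p.1 c ∣ d) (x : E) :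
    phip p c d x = Tp p c x := by
  rw [phip, if_pos]
  by_cases hd : d = 0
  · exact Or.inl hd
  · exact Or.inr ((pow_dvd_iff p.2.1 hd _).1 h)
theorem phip_of_le {p : P} {c d : E} (hc : c ≠ 0) (hd : d ≠ 0) (h : vp p.1 d ≤ vp p.1 c) (x : E) :
    phip p c d x = hs p c d * psq p.1 (x ^ 3) (c * d) * Tp p d x := by
  rw [phip]
  split_ifs with h1
  · have h2 : vp p.1 c = vp p.1 d := le_antisymm (h1.resolve_left hd) h
    rw [Tp_change hd hc h2]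
    by_cases h3 : Tp p d x = 0
    · simp [h3]
    · rw [psq_of_dvd, mul_one]
      rw [vp_mul p.2.1 hc hd, h2, ← two_mul]
      exact Tp_supp h3
  · rfl
theorem ph_lt {p : P} {c d : E} (h : ¬ p.1 ^ vp p.1 c ∣ d) : d ≠ 0 ∧ vp p.1 d < vp p.1 c := by
  have hd : d ≠ 0 := fun h0 => h (h0 ▸ dvd_zero _)
  exact ⟨hd, not_le.1 fun h1 => h ((pow_dvd_iff p.2.1 hd _).2 h1)⟩
theorem phip_per (p : P) {c : E} (hc : c ≠ 0) : Per2 (p.1 ^ vp p.1 c) (phip p c) := by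
  intro d d' x x' hd hx
  by_cases h : p.1 ^ vp p.1 c ∣ d
  · rw [phip_of_dvd h, phip_of_dvd ((dvd_iff_dvd_of_dvd_sub hd).1 h), Tp_congr hx]
  · obtain ⟨hd0, hlt⟩ := ph_lt h
    have h1 : p.1 ^ (vp p.1 d + 1) ∣ d' - d := (pow_dvd_pow _ hlt).trans (dvd_sub_comm.1 hd)
    obtain ⟨hd0', hv, -⟩ := vp_up_congr p.2.1 hd0 0 h1
    have hx1 : p.1 ^ vp p.1 d ∣ x - x' := (pow_dvd_pow _ hlt.le).trans hx
    rw [phip_of_le hc hd0 hlt.le, phip_of_le hc hd0' (hv ▸ hlt.le), hs_congr_right p hd0 h1,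
      Tp_change hd0 hd0' hv, hs_congr_left p hd0 h1, hs_self p hd0, one_mul, ← Tp_congr hx1]
    by_cases h3 : Tp p d x = 0
    · simp [h3]
    · congr 2
      refine psq_eq_of p.2.1 (mul_ne_zero hc hd0) (mul_ne_zero hc hd0') ?_
      rw [vp_mul p.2.1 hc hd0, vp_mul p.2.1 hc hd0', hv]
      have a1 := Tp_supp h3
      have a2 := Tp_supp' h3
      have a3 : p.1 ^ vp p.1 d ∣ x' ^ 2 := Tp_supp' (Tp_congr hx1 ▸ h3)
      have a4 : p.1 ^ vp p.1 d ∣ x ^ 2 + x * x' + x' ^ 2 := by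
        have e : x ^ 2 + x * x' + x' ^ 2 = 2 * x ^ 2 - x * (x - x') + x' ^ 2 := by ring
        rw [e]
        exact ((a2.mul_left _).sub (hx1.mul_left _)).add a3
      have b1 := mul_dvd_mul (mul_dvd_mul (ph_pow_vp_dvd p.1 c) a1) hd
      have b2 := mul_dvd_mul (mul_dvd_mul (ph_pow_vp_dvd p.1 c) (mul_dvd_mul a4
        (ph_pow_vp_dvd p.1 d))) hx
      have e1 : x ^ 3 * (c * d') - x' ^ 3 * (c * d) =
          c * ((x ^ 2 + x * x' + x' ^ 2) * d) * (x - x') - c * x ^ 3 * (d - d') := by ring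
      have e2 : p.1 ^ (vp p.1 c + vp p.1 d + (vp p.1 c + vp p.1 d)) =
          p.1 ^ vp p.1 c * p.1 ^ (2 * vp p.1 d) * p.1 ^ vp p.1 c := by ring
      have e3 : p.1 ^ vp p.1 c * (p.1 ^ vp p.1 d * p.1 ^ vp p.1 d) * p.1 ^ vp p.1 c =
          p.1 ^ vp p.1 c * p.1 ^ (2 * vp p.1 d) * p.1 ^ vp p.1 c := by ring
      rw [e1, e2]
      exact (e3 ▸ b2).sub b1
theorem phip_neg (p : P) {c : E} (hc : c ≠ 0) (d x : E) :
    phip p c (-d) (-x) = phip p c d x := by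
  by_cases h : p.1 ^ vp p.1 c ∣ d
  · rw [phip_of_dvd h, phip_of_dvd (dvd_neg.2 h), Tp_neg]
  · obtain ⟨hd0, hlt⟩ := ph_lt h
    have hv := vp_neg p.2.1 hd0
    rw [phip_of_le hc hd0 hlt.le, phip_of_le hc (neg_ne_zero.2 hd0) (hv ▸ hlt.le),
      hs_neg_right p hd0, Tp_change hd0 (neg_ne_zero.2 hd0) hv, hs_neg_left p hd0, hs_self p hd0,
      one_mul, Tp_neg, ← psq_scale p.2.1 (neg_ne_zero.2 one_ne_zero) (mul_ne_zero hc hd0) (x ^ 3)]
    congr 3 <;> ring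
theorem ph_Tp_cube {p : P} {c s : E} (hc : c ≠ 0) (hs : ¬ p.1 ∣ s) (x : E) :
    Tp p (s ^ 3 * c) x = Tp p c x := by
  have h0 := ph_ne_zero hs
  rw [Tp_change hc (mul_ne_zero (pow_ne_zero _ h0) hc) (ph_vp_unit_mul (ph_not_dvd_pow hs 3) hc),
    hs_cube_left p hc hc h0, hs_self p hc, one_mul]
theorem phip_scale {p : P} {c s t : E} (hc : c ≠ 0) (hs : ¬ p.1 ∣ s) (ht : ¬ p.1 ∣ t) (d x : E) :
    phip p (s ^ 3 * c) (t ^ 3 * d) (s * t * x) = phip p c d x := by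
  have hst : ¬ p.1 ∣ s * t := fun h => (p.2.1.dvd_or_dvd h).elim hs ht
  have h0 := ph_ne_zero hs
  have h0' := ph_ne_zero ht
  have hv := ph_vp_unit_mul (ph_not_dvd_pow hs 3) hc
  have hc' := mul_ne_zero (pow_ne_zero 3 h0) hc
  by_cases h : p.1 ^ vp p.1 c ∣ d
  · rw [phip_of_dvd h, phip_of_dvd (hv ▸ h.mul_left _), ph_Tp_cube hc hs, ph_Tp_unit hst]
  · obtain ⟨hd0, hlt⟩ := ph_lt h
    have hv' := ph_vp_unit_mul (ph_not_dvd_pow ht 3) hd0
    have hd' := mul_ne_zero (pow_ne_zero 3 h0') hd0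
    rw [phip_of_le hc hd0 hlt.le, phip_of_le hc' hd' (by rw [hv, hv']; exact hlt.le),
      hs_cube_left p hc hd' h0, hs_cube_right p hc hd0 h0', ph_Tp_cube hd0 ht, ph_Tp_unit hst,
      ← psq_scale p.2.1 (pow_ne_zero 3 (mul_ne_zero h0 h0')) (mul_ne_zero hc hd0) (x ^ 3)]
    congr 3 <;> ring
theorem norm_phip_le (p : P) {c : E} (hc : c ≠ 0) (d x : E) :
    ‖phip p c d x‖ ≤ ((nm p.1 : ℝ) ^ vp p.1 c) ^ (2 / 3 : ℝ) := by
  by_cases h : p.1 ^ vp p.1 c ∣ d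
  · rw [phip_of_dvd h]
    exact norm_Tp_le p c x
  · obtain ⟨hd0, hlt⟩ := ph_lt h
    rw [phip_of_le hc hd0 hlt.le, norm_mul, norm_mul, norm_hs p hc hd0, norm_psq, one_mul, one_mul]
    exact (norm_Tp_le p d x).trans (Real.rpow_le_rpow (by positivity)
      (pow_le_pow_right₀ (one_le_nmR p.ne_zero) hlt.le) (by norm_num))
theorem phig_eq_prod {c : E} (hc : c ≠ 0) {S : Finset P} (hS : fac c ⊆ S) (d x : E) :
    phig c d x = ∏ p ∈ S, phip p c d x :=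
  Finset.prod_subset hS fun _ _ hp => phip_of_not_dvd (fun h => hp ((mem_fac hc).2 h)) d x
theorem phig_per {c : E} (hc : c ≠ 0) : Per2 c (phig c) := fun _ _ _ _ h h' =>
  Finset.prod_congr rfl fun p _ =>
    phip_per p hc _ _ _ _ ((ph_pow_vp_dvd _ _).trans h) ((ph_pow_vp_dvd _ _).trans h')
theorem phig_neg {c : E} (hc : c ≠ 0) (d x : E) : phig c (-d) (-x) = phig c d x :=
  Finset.prod_congr rfl fun p _ => phip_neg p hc d x
theorem norm_phig_le {c : E} (hc : c ≠ 0) (d x : E) :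
    ‖phig c d x‖ ≤ (nm c : ℝ) ^ (2 / 3 : ℝ) := by
  rw [phig, norm_prod, nm_eq_prod hc]
  push_cast
  rw [← Real.finsetProd_rpow _ _ fun p _ => by positivity]
  exact Finset.prod_le_prod (fun _ _ => norm_nonneg _) fun p _ => norm_phip_le p hc d x
theorem phig_zero_supp {c x : E} (hc : c ≠ 0) (h : phig c 0 x ≠ 0) : c ∣ x ^ 2 := by
  rw [dvd_iff_forall hc]
  intro p hp
  have h1 := Finset.prod_ne_zero_iff.1 h p hp
  rw [phip_of_dvd (dvd_zero _)] at h1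
  exact Tp_supp' h1
theorem Tg_eq (c : E) : Tg c = ∏ p ∈ fac c, Tp p c 0 :=
  Finset.prod_congr rfl fun _ _ => phip_of_dvd (dvd_zero _) 0
theorem ph_Tg_prod {c : E} (hc : c ≠ 0) {S : Finset P} (hS : fac c ⊆ S) :
    Tg c = ∏ p ∈ S, Tp p c 0 :=
  (phig_eq_prod hc hS 0 0).trans (Finset.prod_congr rfl fun _ _ => phip_of_dvd (dvd_zero _) 0)
theorem Tg_cube {c d : E} (hc : c ≠ 0) (hd : d ≠ 0) : Tg (c * d ^ 3) = (nm d : ℂ) ^ 2 * Tg c := by
  have hd3 := pow_ne_zero 3 hd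
  have hcd := mul_ne_zero hc hd3
  have h1 : (nm d : ℂ) = ∏ p ∈ fac (c * d ^ 3), (nm p.1 : ℂ) ^ vp p.1 d := by
    rw [nm_eq_prod hd]
    push_cast
    refine Finset.prod_subset (fac_mono hcd ((dvd_pow_self d (by norm_num)).mul_left c))
      fun p _ hp => ?_
    rw [vp_of_not_dvd fun h => hp ((mem_fac hd).2 h), pow_zero]
  rw [h1, ph_Tg_prod hc (fac_mono hcd (Dvd.intro _ rfl)), Tg_eq, ← Finset.prod_pow,
    ← Finset.prod_mul_distrib]
  refine Finset.prod_congr rfl fun p _ => ?_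
  have e1 : (vp p.1 c + 3 * vp p.1 d) % 3 = vp p.1 c % 3 := by omega
  have e2 : (vp p.1 c + 3 * vp p.1 d) / 3 = vp p.1 c / 3 + vp p.1 d := by omega
  simp only [Tp, vp_mul p.2.1 hc hd3, vp_pow p.2.1 hd, up_mul p.2.1 hc hd3, up_pow p.2.1 hd, e1,
    e2, dvd_zero, not_true_eq_false, or_false, (c3_mc p).mul, (c3_mc p).map_pow,
    c3_cube (not_dvd_up p.2.1 hd), mul_one]
  split_ifs <;> ring
theorem Tg_eq_zero {c : E} (hc : c ≠ 0) {p : P} (h : vp p.1 c % 3 = 2) : Tg c = 0 := by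
  rw [Tg_eq]
  refine Finset.prod_eq_zero ((mem_fac hc).2 ((dvd_iff_vp p.2.1 hc).2 (by omega))) ?_
  rw [Tp, if_pos (Or.inl h)]
theorem Tg_decomp {c : E} (hc : c ≠ 0) (h : Tg c ≠ 0) :
    ∃ x d : E, Squarefree x ∧ Prim d ∧ c = x * d ^ 3 := by
  have hd := prim_prod_pow (fac c) fun p => vp p.1 c / 3
  have h1 : Associated (pr ((fac c).filter fun p => vp p.1 c % 3 = 1) *
      (∏ p ∈ fac c, p.1 ^ (vp p.1 c / 3)) ^ 3) c := by
    refine assoc_of_vp (mul_ne_zero (pr_ne_zero _) (pow_ne_zero 3 hd.1)) hc fun p => ?_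
    rw [vp_mul p.2.1 (pr_ne_zero _) (pow_ne_zero _ hd.1), vp_pr, vp_pow p.2.1 hd.1, vp_prod_pow]
    have h2 : vp p.1 c % 3 ≠ 2 := fun h2 => h (Tg_eq_zero hc h2)
    by_cases hp : p ∈ fac c
    · simp only [Finset.mem_filter, hp, true_and, if_true]
      split_ifs <;> omega
    · simp only [Finset.mem_filter, hp, false_and, if_false]
      exact (vp_of_not_dvd fun h => hp ((mem_fac hc).2 h)).symm
  obtain ⟨u, hu⟩ := h1
  refine ⟨pr ((fac c).filter fun p => vp p.1 c % 3 = 1) * u, _, ?_, hd, by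
    rw [mul_right_comm, hu]⟩
  exact (associated_mul_unit_right _ _ u.isUnit).squarefree_iff.1 (squarefree_pr _)
theorem decomp_unique {x x' d d' : E} (hx : Squarefree x) (hx' : Squarefree x') (hd : Prim d)
    (hd' : Prim d') (h : x * d ^ 3 = x' * d' ^ 3) : x = x' ∧ d = d' := by
  have key : d = d' := by
    refine prim_unique hd hd' (assoc_of_vp hd.1 hd'.1 fun p => ?_)
    have h1 := vp_mul p.2.1 hx.ne_zero (pow_ne_zero 3 hd.1)
    rw [h, vp_mul p.2.1 hx'.ne_zero (pow_ne_zero 3 hd'.1), vp_pow p.2.1 hd.1,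
      vp_pow p.2.1 hd'.1] at h1
    have h2 := (squarefree_iff_vp hx.ne_zero).1 hx p
    have h3 := (squarefree_iff_vp hx'.ne_zero).1 hx' p
    omega
  rw [← key] at h
  exact ⟨mul_right_cancel₀ (pow_ne_zero 3 hd.1) h, key⟩
theorem norm_Tg_le {c : E} (hc : c ≠ 0) : ‖Tg c‖ ≤ (nm c : ℝ) ^ (2 / 3 : ℝ) :=
  norm_phig_le hc 0 0
theorem Tg_sqf {s : Finset P} {c : E} (hc : Associated c (pr s)) : Tg c = conj (gsE c3 s c) := by
  rw [Tg_eq, fac_assoc hc, fac_pr, gsE_eq_prod ch_c3 hc, map_prod]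
  refine Finset.prod_congr rfl fun p hp => ?_
  simp [Tp, vp_assoc hc, vp_pr, hp, G3_eq]
theorem norm_Tg_sqf {s : Finset P} {c : E} (hc : Associated c (pr s)) : ‖Tg c‖ = √(Ns s) := by
  rw [Tg_sqf hc, RCLike.norm_conj, norm_gsE ch_c3 hc]
theorem Tg_mul_unit {c u : E} (hc : c ≠ 0) (hu : IsUnit u) :
    Tg (u * c) = conj (xv c3 c u) * Tg c := by
  have hu0 := hu.ne_zero
  have huc := mul_ne_zero hu0 hc
  have hS : fac c ⊆ fac (u * c) := fac_mono huc (Dvd.intro_left _ rfl)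
  rw [ph_Tg_prod hc hS, xv_eq_prod hc hS, Tg_eq, map_prod, ← Finset.prod_mul_distrib]
  refine Finset.prod_congr rfl fun p _ => ?_
  rw [Tp_change hc huc (vp_unit_mul hu), hs_mul_left p hu0 hc hc, hs_self p hc, mul_one,
    hs_unit_left (p.not_dvd_unit hu), map_pow]
theorem norm_Tg_assoc {c c' : E} (h : Associated c c') : ‖Tg c‖ = ‖Tg c'‖ := by
  obtain ⟨u, rfl⟩ := h
  by_cases hc : c = 0
  · rw [hc, zero_mul]
  rw [mul_comm, Tg_mul_unit hc u.isUnit, norm_mul, RCLike.norm_conj,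
    norm_xv ch_c3 hc fun p h => p.not_dvd_unit u.isUnit h.2, one_mul]
/-- The mean value of the section. -/
theorem rsum2_phig (h : GlS) {c : E} (hc : c ≠ 0) : rsum2 c (phig c) = nm c * Tg c := by
  simpa [psf_zero, Tg] using h c 0 0 hc
end NQ
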