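import Vale.Agent.NQ.DualC
import Vale.Agent.NQ.WtS
import Vale.Agent.NQ.Phi1

noncomputable section
namespace NQ
open Complex MeasureTheory NumberField Filter
open scoped ComplexConjugate Classical ContDiff Topology

theorem StepH_mink {ι κ : Type*} (I : Finset κ) (D : Finset ι) (N : ι → ℝ) (v y : κ → ι → ℂ)
    {K L : ℝ} (hK : 0 ≤ K) (hN : ∀ d ∈ D, 0 < N d) (hv : ∀ m, ∀ d ∈ D, ‖v m d‖ ≤ √(N d))
    (hy : ∀ d ∈ D, ∑ m ∈ I, ‖y m d‖ ^ 2 ≤ K / N d ^ 3) (hL : ∑ d ∈ D, (N d)⁻¹ ≤ L) :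
    ∑ m ∈ I, ‖∑ d ∈ D, v m d * y m d‖ ^ 2 ≤ K * L ^ 2 := by
  have h1 : ∑ d ∈ D, √(∑ m ∈ I, ‖v m d * y m d‖ ^ 2) ≤ √K * L := by
    refine le_trans ?_ (mul_le_mul_of_nonneg_left hL (Real.sqrt_nonneg K))
    rw [Finset.mul_sum]
    refine Finset.sum_le_sum fun d hd => ?_
    have h2 := hN d hd
    refine Real.sqrt_le_iff.2 ⟨by positivity, ?_⟩
    calc _ ≤ ∑ m ∈ I, N d * ‖y m d‖ ^ 2 := Finset.sum_le_sum fun m _ => by
          rw [norm_mul, mul_pow]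
          refine mul_le_mul_of_nonneg_right ?_ (by positivity)
          exact (pow_le_pow_left₀ (norm_nonneg _) (hv m d hd) 2).trans_eq (Real.sq_sqrt h2.le)
      _ ≤ N d * (K / N d ^ 3) := by
          rw [← Finset.mul_sum]
          exact mul_le_mul_of_nonneg_left (hy d hd) h2.le
      _ = _ := by
          rw [mul_pow, Real.sq_sqrt hK]
          field_simp
  have h2 := pow_le_pow_left₀ (Real.sqrt_nonneg _)
    ((QRH.minkowski I D fun m d => v m d * y m d).trans h1) 2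
  rwa [Real.sq_sqrt (by positivity), mul_pow, Real.sq_sqrt hK] at h2

theorem StepH_small {M R X η : ℝ} (hη : 0 < η) (hM : 1 ≤ M) (hR : 1 ≤ R) (hX : 0 < X)
    (h : X ≤ M * R) :
    X * M + X ^ 2 + M * X ^ (1 + η) * R ≤ 3 * (X * (M * R) ^ (1 + η)) := by
  have h1 : 1 ≤ M * R := one_le_mul_of_one_le_of_one_le hM hR
  have h2 : M * R ≤ (M * R) ^ (1 + η) := Real.self_le_rpow_of_one_le h1 (by linarith)
  have h3 : M ≤ M * R := le_mul_of_one_le_right (by linarith) hR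
  have h4 : M * X ^ (1 + η) * R ≤ X * (M * R) ^ (1 + η) := by
    rw [Real.rpow_add hX, Real.rpow_add (by linarith), Real.rpow_one, Real.rpow_one]
    have := mul_le_mul_of_nonneg_left (Real.rpow_le_rpow hX.le h hη.le)
      (by positivity : 0 ≤ X * (M * R))
    linarith
  have h5 := mul_le_mul_of_nonneg_left (h3.trans h2) hX.le
  have h6 := mul_le_mul_of_nonneg_left (h.trans h2) hX.le
  nlinarith

theorem StepH_sum {W C ε X Z s : ℝ} (hW : 1 ≤ W) (hC : 0 < C) (hε : 0 < ε) (hX : 0 < X)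
    (hZ : X ≤ Z) (h : s ≤ C * (W * X) ^ ε) : s ≤ C * W ^ ε * Z ^ ε := by
  rw [mul_assoc, ← Real.mul_rpow (by linarith) (by linarith)]
  exact h.trans (mul_le_mul_of_nonneg_left
    (Real.rpow_le_rpow (by positivity) (by gcongr) hε.le) hC.le)

variable [σ : St]

/-- The coefficient in `Th`. -/
def StepH_t (n c : E) : ℂ := Tg c * ang c / (√(nm c : ℝ) : ℝ) * conj (xv c6 c n)
/-- The factor coming from a cube. -/
def StepH_w (n d : E) : ℂ := ang d ^ 3 * (√(nm d : ℝ) : ℝ) * conj (xv c6 d n) ^ 3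
/-- The summand of `Th`. -/
def StepH_F (n : E) (X : Sc) (z : Pl → ℂ) (c : E) : ℂ := StepH_t n c * Kx X z c
/-- The squarefree terms of `Th`. -/
def StepH_U (n : E) (X : Sc) (z : Pl → ℂ) : ℂ := ∑ c ∈ bx X with Squarefree c, StepH_F n X z c

theorem StepH_Th (n : E) (X : Sc) (z : Pl → ℂ) : Th n X z = ∑ c ∈ bx X, StepH_F n X z c := rfl

theorem StepH_t_mul (n : E) {c d : E} (hc : c ≠ 0) (hd : d ≠ 0) :
    StepH_t n (d ^ 3 * c) = StepH_w n d * StepH_t n c := by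
  have h1 : (0 : ℝ) < nm c := zero_lt_one.trans_le (one_le_nmR hc)
  have h2 : (0 : ℝ) < nm d := zero_lt_one.trans_le (one_le_nmR hd)
  have h3 : √(nm (d ^ 3 * c) : ℝ) = √(nm d : ℝ) ^ 3 * √(nm c : ℝ) := by
    rw [nm_mul, nm_pow]
    push_cast
    rw [Real.sqrt_mul (by positivity), pow_succ _ 2, Real.sqrt_mul (by positivity),
      Real.sqrt_sq h2.le, pow_succ _ 2, Real.sq_sqrt h2.le]
  have h4 : (nm d : ℂ) = ((√(nm d : ℝ) : ℝ) : ℂ) ^ 2 := by
    rw [← Complex.ofReal_pow, Real.sq_sqrt h2.le, Complex.ofReal_natCast]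
  have h5 : ang ((d ^ 3 * c : E) : FF) = ang d ^ 3 * ang c := by
    rw [← ang_pow, ← ang_mul]
    push_cast
    rfl
  have h6 : ((√(nm c : ℝ) : ℝ) : ℂ) ≠ 0 := by exact_mod_cast (Real.sqrt_pos.2 h1).ne'
  have h7 : ((√(nm d : ℝ) : ℝ) : ℂ) ≠ 0 := by exact_mod_cast (Real.sqrt_pos.2 h2).ne'
  rw [StepH_t, StepH_t, StepH_w, h3, h5, xv_mul_left (pow_ne_zero 3 hd) hc, xv_pow_left hd,
    mul_comm (d ^ 3) c, Tg_cube hc hd, h4, map_mul, map_pow]
  push_cast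
  field_simp

theorem StepH_norm_w (n : E) {d : E} (hd : d ≠ 0) : ‖StepH_w n d‖ ≤ √(nm d : ℝ) := by
  rw [StepH_w, norm_mul, norm_mul, norm_pow, norm_pow, norm_ang (cnt_coe_ne hd), one_pow, one_mul,
    RCLike.norm_conj, Complex.norm_real, Real.norm_of_nonneg (Real.sqrt_nonneg _)]
  exact mul_le_of_le_one_right (Real.sqrt_nonneg _)
    (pow_le_one₀ (norm_nonneg _) (norm_xv_le ch_c6 d n))

theorem StepH_F_mul (n : E) (X : Sc) (z : Pl → ℂ) {c d : E} (hc : c ≠ 0) (hd : d ≠ 0) :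
    StepH_F n X z (d ^ 3 * c) = StepH_w n d * StepH_F n (X.dv (d ^ 3 : E)) z c := by
  rw [StepH_F, StepH_F, Kx_dv X (pow_ne_zero 3 hd), StepH_t_mul n hc hd, mul_assoc]

theorem StepH_F_ne {n c : E} {X : Sc} {z : Pl → ℂ} (h : StepH_F n X z c ≠ 0) : Tg c ≠ 0 :=
  fun h2 => h (by simp [StepH_F, StepH_t, h2])

theorem StepH_II (n : E) {X : Sc} (hX : X.OK) (z : Pl → ℂ) :
    Th n X z = ∑ d ∈ prim (cW * X.sz), StepH_w n d * StepH_U n (X.dv (d ^ 3 : E)) z := by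
  simp only [StepH_U, Finset.mul_sum]
  rw [Finset.sum_sigma', StepH_Th]
  symm
  refine Finset.sum_of_injOn (fun x => x.1 ^ 3 * x.2) ?_ ?_ ?_ ?_
  · intro x hx y hy h
    simp only [Finset.coe_sigma, Set.mem_sigma_iff, Finset.mem_coe, Finset.mem_filter,
      mem_prim] at hx hy
    have := decomp_unique hx.2.2 hy.2.2 hx.1.1 hy.1.1
      ((mul_comm _ _).trans (Eq.trans h (mul_comm _ _)))
    exact Sigma.ext this.2 (heq_of_eq this.1)
  · intro x hx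
    simp only [Finset.coe_sigma, Set.mem_sigma_iff, Finset.mem_coe, Finset.mem_filter,
      mem_prim] at hx
    exact (mem_bx_dv hX (pow_ne_zero 3 hx.1.1.1)).1 hx.2.1
  · intro c hc h
    by_contra h0
    obtain ⟨hc0, hc1⟩ := nm_le_of_mem_bx hX hc
    obtain ⟨x, d, hx, hd, rfl⟩ := Tg_decomp hc0 (StepH_F_ne h0)
    have h4 : d ∣ x * d ^ 3 := (dvd_pow_self d (by norm_num)).mul_left _
    refine h ⟨⟨d, x⟩, ?_, mul_comm _ _⟩
    simp only [Finset.coe_sigma, Set.mem_sigma_iff, Finset.mem_coe, Finset.mem_filter, mem_prim]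
    refine ⟨⟨hd, le_trans ?_ hc1⟩, (mem_bx_dv hX (pow_ne_zero 3 hd.1)).2 (mul_comm x _ ▸ hc), hx⟩
    exact_mod_cast nm_le_of_dvd h4 hc0
  · intro x hx
    simp only [Finset.mem_sigma, Finset.mem_filter, mem_prim] at hx
    exact (StepH_F_mul n X z hx.2.2.ne_zero hx.1.1.1).symm

theorem StepH_I1 (n : E) {X : Sc} (hX : X.OK) (z : Pl → ℂ) {d : E} (hd : d ≠ 0) :
    StepH_w n d * Th n (X.dv (d ^ 3 : E)) z =
      ∑ c ∈ bx X, if d ^ 3 ∣ c then StepH_F n X z c else 0 := by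
  have hd3 := pow_ne_zero 3 hd
  rw [StepH_Th, Finset.mul_sum]
  refine Finset.sum_of_injOn (fun c => d ^ 3 * c) ?_ ?_ ?_ ?_
  · exact fun x _ y _ h => mul_left_cancel₀ hd3 h
  · exact fun c hc => (mem_bx_dv hX hd3).1 hc
  · intro c hc h
    refine if_neg fun h1 => h ?_
    obtain ⟨y, rfl⟩ := h1
    exact ⟨y, (mem_bx_dv hX hd3).2 hc, rfl⟩
  · intro c hc
    rw [if_pos (dvd_mul_right _ _),
      StepH_F_mul n X z (nm_le_of_mem_bx (hX.dv (cnt_coe_ne hd3)) hc).1 hd]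

theorem StepH_cube_dvd {c : E} (hc : c ≠ 0) (d : Finset P) :
    pr d ^ 3 ∣ c ↔ d ⊆ (fac c).filter fun p => 3 ≤ vp p.1 c := by
  constructor
  · intro h p hp
    have h1 : p.1 ^ 3 ∣ c := (pow_dvd_pow_of_dvd (dvd_pr_iff.2 hp) 3).trans h
    exact Finset.mem_filter.2 ⟨(mem_fac hc).2 ((dvd_pow_self _ (by norm_num)).trans h1),
      (pow_dvd_iff p.2.1 hc 3).1 h1⟩
  · intro h
    rw [pr, ← Finset.prod_pow]
    exact b2_e_prod_dvd (k := fun _ => 3) fun p hp =>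
      (pow_dvd_iff p.2.1 hc 3).2 (Finset.mem_filter.1 (h hp)).2

theorem StepH_I (n : E) {X : Sc} (hX : X.OK) (z : Pl → ℂ) :
    StepH_U n X z = ∑ d ∈ sqf (cW * X.sz),
      mu d * StepH_w n (pr d) * Th n (X.dv (pr d ^ 3 : E)) z := by
  have h1 : ∀ d ∈ sqf (cW * X.sz), mu d * StepH_w n (pr d) * Th n (X.dv (pr d ^ 3 : E)) z =
      ∑ c ∈ bx X, (if pr d ^ 3 ∣ c then mu d else 0) * StepH_F n X z c := by
    intro d _
    rw [mul_assoc, StepH_I1 n hX z (pr_ne_zero d), Finset.mul_sum]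
    exact Finset.sum_congr rfl fun c _ => by split_ifs <;> simp
  rw [Finset.sum_congr rfl h1, Finset.sum_comm, StepH_U, Finset.sum_filter]
  refine Finset.sum_congr rfl fun c hc => ?_
  obtain ⟨hc0, hc1⟩ := nm_le_of_mem_bx hX hc
  have h2 : ∑ d ∈ sqf (cW * X.sz), (if pr d ^ 3 ∣ c then mu d else 0) =
      if ((fac c).filter fun p => 3 ≤ vp p.1 c) = ∅ then 1 else 0 := by
    rw [← Finset.sum_filter, ← sum_mu]
    congr 1
    ext d
    rw [Finset.mem_filter, Finset.mem_powerset, ← StepH_cube_dvd hc0]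
    refine ⟨fun h => h.2, fun h => ?_⟩
    have h5 : pr d ∣ c := (dvd_pow_self _ (by norm_num)).trans h
    exact ⟨mem_sqf.2 ((b2_e_Ns_le hc0 h5).trans hc1), h⟩
  rw [← Finset.sum_mul, h2]
  by_cases h3 : Squarefree c
  · rw [if_pos h3, if_pos, one_mul]
    refine Finset.filter_eq_empty_iff.2 fun p _ => ?_
    have := (squarefree_iff_vp hc0).1 h3 p
    omega
  · rw [if_neg h3]
    by_contra h0
    have h4 : StepH_F n X z c ≠ 0 := right_ne_zero_of_mul (Ne.symm h0)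
    have h6 : ((fac c).filter fun p => 3 ≤ vp p.1 c) = ∅ := by
      by_contra h6
      exact h0 (by rw [if_neg h6, zero_mul])
    refine h3 ((squarefree_iff_vp hc0).2 fun p => ?_)
    by_contra h7
    have h8 : vp p.1 c % 3 ≠ 2 := fun h8 => StepH_F_ne h4 (Tg_eq_zero hc0 h8)
    exact Finset.filter_eq_empty_iff.1 h6 ((mem_fac hc0).2
      ((dvd_iff_vp p.2.1 hc0).2 (by omega))) (by omega)

theorem StepH_S (hM : MuGam) (hu : Uni c6) {X : Sc} (hX : X.OK) (ρ m : E) (z : Pl → ℂ) :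
    ‖S (cH X.a ρ m) X z‖ = ‖StepH_U (m * ρ) X z‖ := by
  obtain ⟨κ, h1, h2⟩ := hM X.a hX.1
  have h : S (cH X.a ρ m) X z = κ * StepH_U (m * ρ) X z := by
    rw [S, StepH_U, Finset.mul_sum]
    refine Finset.sum_congr rfl fun c hc => ?_
    by_cases h4 : Kx X z c = 0
    · simp [StepH_F, h4]
    · have h5 := (Kx_supp hX h4).1
      have h6 := squarefree_iff_assoc.1 (Finset.mem_filter.1 hc).2
      rw [cH, gamA_eq ch_c6 hu h6 h5, h2 _ c h6 h5, StepH_F, StepH_t, nm_of_assoc_pr h6,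
        xv_assoc h6, xv_pr, xs_mul ch_c6, map_mul]
      ring
  rw [h, norm_mul, h1, one_mul]

theorem StepH_sz {X : Sc} (hX : X.OK) {d : E} (hd : d ≠ 0) :
    (X.dv (d ^ 3 : E)).sz = X.sz / (nm d : ℝ) ^ 3 := by
  rw [hX.sz_dv (pow_ne_zero 3 hd), nm_pow]
  push_cast
  rfl

theorem StepH_claim (hM : MuGam) (hu : Uni c6) {η : ℝ} (hη : 0 < η) (hV : VB)
    (hB : HBs η) {ε : ℝ} (hε : 0 < ε) : ∃ (B : ℕ) (C : ℝ), 0 < C ∧
    ∀ (Z M : ℝ) (X : Sc) (τ : Pl → ℝ) (ρ : E), X.OK → X.sz ≤ Z → 1 ≤ M → M ≤ Z → ρ ≠ 0 →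
      Rr ρ ≤ Z → ∑ m ∈ ball M, ‖Th (m * ρ) X (iT τ)‖ ^ 2
        ≤ C * (Z ^ ε) ^ 3 * Tb (iT τ) ^ B * (X.sz * (M * Rr ρ) ^ (1 + η)) := by
  obtain ⟨B1, C1, hC1, h1⟩ := hV ε hε
  obtain ⟨B2, C2, hC2, h2⟩ := hB ε hε
  obtain ⟨C3, hC3, h3⟩ := sum_ball_inv hε
  have hW := one_le_cW
  refine ⟨B1 + B2, 2 * C1 + 3 * C2 * (C3 * cW ^ ε) ^ 2, by positivity,
    fun Z M X τ ρ hX0 hXZ hM1 hMZ hρ hR => ?_⟩
  have hX := hX0.sz_pos
  have hR1 := one_le_Rr ρ
  have hMR : 1 ≤ M * Rr ρ := one_le_mul_of_one_le_of_one_le hM1 hR1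
  have hZ : 1 ≤ Z ^ ε := Real.one_le_rpow (hM1.trans hMZ) hε.le
  have hτ := one_le_Tb (iT τ)
  have hP : 0 ≤ X.sz * (M * Rr ρ) ^ (1 + η) := by positivity
  rcases le_total (M * Rr ρ) X.sz with h | h
  · refine (h1 Z M X τ ρ hX0 (hMR.trans h) hXZ hM1 hMZ hρ hR).trans ?_
    have a1 : M * Rr ρ ≤ (M * Rr ρ) ^ (1 + η) := Real.self_le_rpow_of_one_le hMR (by linarith)
    have a2 : M ≤ M * Rr ρ := le_mul_of_one_le_right (by linarith) hR1
    have a3 : X.sz * M + (M * Rr ρ) ^ 2 ≤ 2 * (X.sz * (M * Rr ρ) ^ (1 + η)) := by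
      have b1 := mul_le_mul_of_nonneg_left (a2.trans a1) hX.le
      have b2 := mul_le_mul h a1 (by positivity) hX.le
      nlinarith
    calc _ ≤ C1 * (Z ^ ε) ^ 3 * Tb (iT τ) ^ (B1 + B2)
          * (2 * (X.sz * (M * Rr ρ) ^ (1 + η))) := by
          gcongr
          · exact le_self_pow₀ hZ (by norm_num)
          · omega
      _ = 2 * C1 * (Z ^ ε) ^ 3 * Tb (iT τ) ^ (B1 + B2) * (X.sz * (M * Rr ρ) ^ (1 + η)) := by ring
      _ ≤ _ := by
          gcongr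
          exact le_add_of_nonneg_right (by positivity)
  · simp only [StepH_II _ hX0]
    refine (StepH_mink _ _ (fun d => (nm d : ℝ)) (fun m d => StepH_w (m * ρ) d) _
      (K := C2 * Z ^ ε * Tb (iT τ) ^ B2 * (3 * (X.sz * (M * Rr ρ) ^ (1 + η))))
      (L := C3 * cW ^ ε * Z ^ ε) (by positivity) (fun d hd => ?_) (fun m d hd => ?_)
      (fun d hd => ?_) ?_).trans ?_
    · exact zero_lt_one.trans_le (one_le_nmR (mem_prim.1 hd).1.1)
    · exact StepH_norm_w _ (mem_prim.1 hd).1.1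
    · have a1 := (mem_prim.1 hd).1.1
      have a3 := one_le_nmR a1
      have a4 := hX0.dv (cnt_coe_ne (pow_ne_zero 3 a1))
      have a5 : 0 < X.sz / (nm d : ℝ) ^ 3 := by positivity
      have a6 : X.sz / (nm d : ℝ) ^ 3 ≤ X.sz := div_le_self hX.le (one_le_pow₀ a3)
      have a8 := StepH_sz hX0 a1
      have a7 := h2 Unit {()} (fun _ => 1) (fun _ => X.dv (d ^ 3 : E)) Z
        (X.sz / (nm d : ℝ) ^ 3) M 1 (iT τ) ρ ∅ a5 (a6.trans hXZ) hM1
        hMZ le_rfl (hM1.trans hMZ) (fun w => by rw [iT_re]; simp) hρ hR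
        (by rw [Ns_empty]; exact hM1.trans hMZ)
        (fun _ _ _ _ _ => rfl) fun _ _ =>
          ⟨prim_subset_ball _ (mem_prim.2 ⟨prim_one, by simp [nm_one]⟩), a4, a8.ge, by linarith⟩
      simp only [Finset.sum_singleton, cB_triv, StepH_S hM hu a4, Finset.card_singleton,
        Nat.cast_one, one_mul, mul_one] at a7
      refine a7.trans ((mul_le_mul_of_nonneg_left (StepH_small hη hM1 hR1 a5 (a6.trans h))
        (by positivity)).trans_eq ?_)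
      ring
    · refine StepH_sum hW hC3 hε hX hXZ (le_trans ?_ (h3 _ (by positivity)))
      exact Finset.sum_le_sum_of_subset_of_nonneg (prim_subset_ball _) fun _ _ _ => by positivity
    · calc _ = 3 * C2 * (C3 * cW ^ ε) ^ 2 * (Z ^ ε) ^ 3 * Tb (iT τ) ^ B2 *
            (X.sz * (M * Rr ρ) ^ (1 + η)) := by ring
        _ ≤ _ := by
          gcongr
          · exact le_add_of_nonneg_left (by positivity)
          · omega

theorem stepH (hM : MuGam) (hu : Uni c6) {η : ℝ} (hη : 0 < η) (hV : VB) (hB : HBs η) : HH η := by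
  intro ε hε
  have hε' : 0 < ε / 5 := by positivity
  obtain ⟨B, C, hC, h⟩ := StepH_claim hM hu hη hV hB hε'
  obtain ⟨C3, hC3, h3⟩ := sum_sqf_inv hε'
  have hW := one_le_cW
  refine ⟨B, C * (C3 * cW ^ (ε / 5)) ^ 2, by positivity,
    fun Z M X τ ρ hX0 hX1 hXZ hM1 hMZ hρ hR => ?_⟩
  have hX := hX0.sz_pos
  have hZ : 0 < Z := hX.trans_le hXZ
  have hR1 := one_le_Rr ρ
  have hτ := one_le_Tb (iT τ)
  simp only [StepH_S hM hu hX0, StepH_I _ hX0]
  refine (StepH_mink _ _ Ns (fun m d => mu d * StepH_w (m * ρ) (pr d)) _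
    (K := C * (Z ^ (ε / 5)) ^ 3 * Tb (iT τ) ^ B * (X.sz * (M * Rr ρ) ^ (1 + η)))
    (L := C3 * cW ^ (ε / 5) * Z ^ (ε / 5)) (by positivity) (fun d _ => Ns_pos d)
    (fun m d _ => ?_) (fun d hd => ?_) ?_).trans_eq ?_
  · rw [norm_mul, norm_mu, one_mul]
    exact StepH_norm_w _ (pr_ne_zero d)
  · have a1 := StepH_sz hX0 (pr_ne_zero d)
    have a2 := Ns_pos d
    refine (h Z M _ τ ρ (hX0.dv (cnt_coe_ne (pow_ne_zero 3 (pr_ne_zero d))))
      (a1.le.trans ((div_le_self hX.le (one_le_pow₀ (one_le_Ns d))).trans hXZ)) hM1 hMZ hρ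
      hR).trans_eq ?_
    rw [a1, Ns]
    ring
  · exact StepH_sum hW hC3 hε' hX hXZ (h3 _ (by positivity))
  · have a1 : Z ^ ε = (Z ^ (ε / 5)) ^ 5 := by
      rw [← Real.rpow_natCast, ← Real.rpow_mul hZ.le]
      congr 1
      push_cast
      ring
    rw [a1]
    ring

end NQ
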