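import Vale.Agent.NQ.ASb

noncomputable section
namespace NQ
open NumberField IsDedekindDomain Polynomial
open scoped Classical

variable {s : ℕ}

theorem StepPb_nat (s : ℕ) {n : ℕ} (hn : n ≠ 0) : ∃ κ d : ℕ, d.Coprime s ∧ n ∣ d * s ^ κ := by
  induction n using induction_on_primes with
  | zero => exact absurd rfl hn
  | one => exact ⟨0, 1, Nat.coprime_one_left _, one_dvd _⟩
  | prime_mul p a hp ih =>
    obtain ⟨κ, d, hd, h⟩ := ih fun h => hn (by rw [h, mul_zero])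
    by_cases hps : p ∣ s
    · refine ⟨κ + 1, d, hd, ?_⟩
      rw [pow_succ, ← mul_assoc, mul_comm p]
      exact mul_dvd_mul h hps
    · refine ⟨κ, p * d, Nat.Coprime.mul_left ((Nat.Prime.coprime_iff_not_dvd hp).2 hps) hd, ?_⟩
      rw [mul_assoc]
      exact mul_dvd_mul_left p h

theorem StepPb_ne (h3 : 3 ∣ s) {k : ℕ} (hk : k ≠ 0) (c : QRH.E) : 1 + (s : QRH.E) ^ k * c ≠ 0 := by
  intro h
  have h1 : ((3 : ℕ) : QRH.E) ∣ 1 := by
    have h2 : (1 : QRH.E) = (s : QRH.E) ^ k * -c := by linear_combination h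
    rw [h2]
    exact ((Nat.cast_dvd_cast h3).trans (dvd_pow_self _ hk)).mul_right _
  have h2 := ((QRH.natCast_dvd_iff 3 1).1 h1).1
  revert h2
  decide

section
variable {F : Type} [Field F] [NumberField F] {w : 𝓞 F}

theorem StepPb_int {x : F} (hx : IsIntegral ℤ x) : x ∈ OO F s :=
  ⟨1, Nat.coprime_one_left _, by rwa [Nat.cast_one, one_mul]⟩

theorem StepPb_close (hw : w ^ 2 + w + 1 = 0) (hs : 0 < s) {θ : F} {κ n k : ℕ}
    (hθ : (s : F) ^ κ * θ ∈ OO F s) {f0 : QRH.E[X]} (hf : f0.natDegree < n) (hk : 2 + κ * n ≤ k) :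
    Close s ((1 + C ((s : QRH.E) ^ k) * f0).eval₂ (eis w hw) θ) := by
  have hs0 : (s : F) ≠ 0 := Nat.cast_ne_zero.2 hs.ne'
  rw [Close, eval₂_add, eval₂_one, eval₂_mul, eval₂_C, map_pow, map_natCast, add_sub_cancel_left,
    eval₂_eq_sum_range' _ hf, Finset.mul_sum, Finset.sum_div]
  refine Subring.sum_mem _ fun i hi => ?_
  have hi' : κ * i ≤ κ * n := Nat.mul_le_mul_left κ (Finset.mem_range.1 hi).le
  obtain ⟨j, rfl⟩ : ∃ j, k = 2 + κ * i + j := ⟨k - (2 + κ * i), by omega⟩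
  have : (s : F) ^ (2 + κ * i + j) * (eis w hw (f0.coeff i) * θ ^ i) / (s : F) ^ 2 =
      (s : F) ^ j * eis w hw (f0.coeff i) * ((s : F) ^ κ * θ) ^ i := by
    field_simp
    ring
  rw [this]
  exact Subring.mul_mem _ (Subring.mul_mem _ (Subring.pow_mem _ (natCast_mem _ s) j)
    (StepPb_int (eis_integral hw _))) (Subring.pow_mem _ hθ i)

theorem StepPb_lead (hw : w ^ 2 + w + 1 = 0) {θ : F} {g : QRH.E[X]}
    (hg : g.eval₂ (eis w hw) θ = 0) : IsIntegral ℤ (eis w hw g.leadingCoeff * θ) := by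
  let := (eis w hw).toAlgebra
  have h1 : IsIntegral QRH.E (g.leadingCoeff • θ) := isIntegral_leadingCoeff_smul g θ hg
  have : Algebra.IsIntegral ℤ QRH.E := Algebra.IsIntegral.of_finite ℤ QRH.E
  exact isIntegral_trans (R := ℤ) _ h1

theorem StepPb_OG (hw : w ^ 2 + w + 1 = 0) (v : HS F) (x : QRH.E) : OG v 0 (eis w hw x) :=
  isIntegral_iff_OG.1 (eis_integral hw x) v

theorem StepPb_pole (hw : w ^ 2 + w + 1 = 0) (hs : 0 < s) {θ : F} {n k : ℕ} (hk : 2 * n ≤ k)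
    {f0 : QRH.E[X]} (hf : f0.natDegree < n)
    (h0 : (1 + C ((s : QRH.E) ^ k) * f0).eval₂ (eis w hw) θ = 0) {v : HS F}
    (hv : (s : 𝓞 F) ∈ v.asIdeal) : ¬ OG v (1 - 2 * ord v (s : F)) θ := by
  intro hθ
  have hs0 : (s : F) ≠ 0 := Nat.cast_ne_zero.2 hs.ne'
  have he : 1 ≤ ord v (s : F) := by
    have := (mem_iff_OG v _).1 hv
    exact OG.le (by simpa using this) hs0
  rw [eval₂_add, eval₂_one, eval₂_mul, eval₂_C, map_pow, map_natCast,
    eval₂_eq_sum_range' _ hf] at h0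
  have h1 : OG v (n * (1 - 2 * ord v (s : F)))
      (∑ i ∈ Finset.range n, eis w hw (f0.coeff i) * θ ^ i) := by
    refine OG.sum _ _ fun i hi => ((StepPb_OG hw v _).mul (hθ.pow i)).mono ?_
    have : (i : ℤ) ≤ n := Int.ofNat_le.2 (Finset.mem_range.1 hi).le
    nlinarith
  have h2 := (((OG.self v (s : F)).pow k).mul h1).neg
  rw [show -((s : F) ^ k * ∑ i ∈ Finset.range n, eis w hw (f0.coeff i) * θ ^ i) = 1 by
    linear_combination -h0] at h2
  have h3 := h2.le one_ne_zero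
  rw [ord_one] at h3
  have h4 : (2 * n : ℤ) ≤ k := by exact_mod_cast hk
  have h5 : (1 : ℤ) ≤ n := by exact_mod_cast (Nat.zero_le _).trans_lt hf
  nlinarith

theorem StepPb_close' (hw : w ^ 2 + w + 1 = 0) (hs : 0 < s) {θ : F} (hθ : θ ≠ 0)
    (hp : ∀ v : HS F, (s : 𝓞 F) ∈ v.asIdeal → ¬ OG v (1 - 2 * ord v (s : F)) θ) {M : QRH.E[X]}
    (hM : M.Monic) : Close s (M.eval₂ (eis w hw) θ / θ ^ M.natDegree) := by
  rw [close_iff hs.ne']
  intro v hv
  have h1 : ord v θ ≤ -(2 * ord v (s : F)) := by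
    by_contra h
    exact hp v hv (Or.inr (by omega))
  have h0 : 0 ≤ ord v (s : F) := (OG_natCast v s).le (Nat.cast_ne_zero.2 hs.ne')
  have hD : θ ^ M.natDegree ≠ 0 := pow_ne_zero _ hθ
  have h2 : M.eval₂ (eis w hw) θ / θ ^ M.natDegree - 1 =
      (∑ i ∈ Finset.range M.natDegree, eis w hw (M.coeff i) * θ ^ i) / θ ^ M.natDegree := by
    rw [eval₂_eq_sum_range, Finset.sum_range_succ, hM.coeff_natDegree, map_one, one_mul, add_div,
      div_self hD, add_sub_cancel_right]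
  rw [h2, OG_div_iff hD, ord_pow]
  refine OG.sum _ _ fun i hi => ((StepPb_OG hw v _).mul ((OG.self v θ).pow i)).mono ?_
  have : (i : ℤ) + 1 ≤ M.natDegree := by exact_mod_cast Finset.mem_range.1 hi
  nlinarith

end

/-- The components of `g`. -/
theorem comp_g (hL : Lch) (hV : Vert) (hE : ExCh) (hs : 0 < s) (h3 : 3 ∣ s) {n : ℕ}
    (ih : ∀ (F' : Type) [Field F'] [NumberField F'] (w' : 𝓞 F'), w' ^ 2 + w' + 1 = 0 →
      Module.finrank ℚ F' < 2 * n → RecF F' s w') {g : QRH.E[X]} (hg : g ≠ 0)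
    (hgd : g.natDegree < n) : ∃ k0 : ℕ, ∀ k, k0 ≤ k → ∀ (f0 : QRH.E[X]) (M h : (AS s)[X]),
      f0.natDegree < n → M3 M → Prime h → h ∣ g.map (algebraMap _ _) → ¬ h ∣ M →
      ¬ h ∣ (1 + C ((s : QRH.E) ^ k) * f0).map (algebraMap _ _) →
      Ideal.span {h, M, (1 + C ((s : QRH.E) ^ k) * f0).map (algebraMap _ _)} = ⊤ →
      Dz s h M ((1 + C ((s : QRH.E) ^ k) * f0).map (algebraMap _ _)) = 0 := by
  have := AS_dom hs
  have hγ : QRH.nm g.leadingCoeff ≠ 0 := fun h => hg (leadingCoeff_eq_zero.1 (QRH.nm_eq_zero.1 h))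
  obtain ⟨κ, d, hd, e, he⟩ := StepPb_nat s hγ
  refine ⟨2 + κ * n, fun k hk f0 M h hf hM hh hdv h1 h2 ht => ?_⟩
  rcases prime_cases_poly hs hh with h0 | ⟨π, hπ, rfl⟩
  · obtain ⟨F, _, _, w, ev, hw, hc, hr⟩ := hE s h hs hh h0
    have hg' : g.map (algebraMap _ (AS s)) ≠ 0 := (Polynomial.map_ne_zero_iff (AS_inj hs)).2 hg
    have hdeg : h.natDegree < n :=
      ((natDegree_le_of_dvd hdv hg').trans natDegree_map_le).trans_lt hgd
    have n1 : ev M ≠ 0 := fun h' => h1 ((hc.ker _).1 h')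
    have n2 := fun h' => h2 ((hc.ker _).1 h')
    rw [← hL s h F w ev M _ hs h3 hh h0 hc h1 h2 ht (Or.inr (Or.inl hM)), HF_swap hw h3 n2 n1,
      neg_eq_zero]
    refine ih F w hw (by omega) _ _ n2 n1 ?_
      (hc.d3 hs h2 h1 (span_top_perm ht).2.2.1 (Or.inr (Or.inr hM)))
    rw [hc.eval hw]
    refine StepPb_close hw hs (κ := κ) ⟨d, hd, ?_⟩ hf hk
    have h4 := StepPb_lead hw (θ := ev X) (g := g) (by rw [← hc.eval hw]; exact (hc.ker _).2 hdv)
    have h5 : (d : F) * (s : F) ^ κ = eis w hw g.leadingCoeff * eis w hw (star g.leadingCoeff) * e := by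
      rw [← map_mul, QRH.mul_star_eq, map_natCast]
      exact_mod_cast he
    have h6 : (d : F) * ((s : F) ^ κ * ev X) =
        eis w hw g.leadingCoeff * ev X * eis w hw (star g.leadingCoeff * e) := by
      rw [← mul_assoc, h5, map_mul, map_natCast]
      ring
    rw [h6]
    exact h4.mul (eis_integral hw _)
  · exact hV s π M _ hs h3 hπ hM ht
/-- The components of `f`. -/
theorem comp_f (hL : Lch) (hV : Vert) (hE : ExCh) (hs : 0 < s) (h3 : 3 ∣ s) {n : ℕ}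
    (ih : ∀ (F' : Type) [Field F'] [NumberField F'] (w' : 𝓞 F'), w' ^ 2 + w' + 1 = 0 →
      Module.finrank ℚ F' < 2 * n → RecF F' s w') {k : ℕ} (hk : 2 * n ≤ k) (f0 M : QRH.E[X])
    (g h : (AS s)[X]) (hf : f0.natDegree < n) (hM : M3 M) (hh : Prime h)
    (hd : h ∣ (1 + C ((s : QRH.E) ^ k) * f0).map (algebraMap _ _))
    (h1 : ¬ h ∣ M.map (algebraMap _ _)) (h2 : ¬ h ∣ g)
    (ht : Ideal.span {h, M.map (algebraMap _ _), g} = ⊤) :
    Dz s h (M.map (algebraMap _ _)) g = 0 := by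
  have := AS_dom hs
  have hk0 : k ≠ 0 := by omega
  have hM' : M3 (M.map (algebraMap _ (AS s))) := ⟨hM.1.map _, by rw [hM.1.natDegree_map]; exact hM.2⟩
  rcases prime_cases_poly hs hh with h0 | ⟨π, hπ, rfl⟩
  · obtain ⟨F, _, _, w, ev, hw, hc, hr⟩ := hE s h hs hh h0
    have hc0 : (1 + C ((s : QRH.E) ^ k) * f0).coeff 0 ≠ 0 := by
      rw [coeff_add, coeff_one_zero, coeff_C_mul]
      exact StepPb_ne h3 hk0 _
    have hf' : (1 + C ((s : QRH.E) ^ k) * f0).map (algebraMap _ (AS s)) ≠ 0 :=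
      (Polynomial.map_ne_zero_iff (AS_inj hs)).2 fun h' => hc0 (by rw [h', coeff_zero])
    have hdeg : h.natDegree < n := by
      refine ((natDegree_le_of_dvd hd hf').trans natDegree_map_le).trans_lt ?_
      refine (natDegree_add_le _ _).trans_lt (max_lt ?_ ((natDegree_C_mul_le _ _).trans_lt hf))
      rw [natDegree_one]
      omega
    have n1 := fun h' => h1 ((hc.ker _).1 h')
    have n2 : ev g ≠ 0 := fun h' => h2 ((hc.ker _).1 h')
    have hz : (1 + C ((s : QRH.E) ^ k) * f0).eval₂ (eis w hw) (ev X) = 0 := by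
      rw [← hc.eval hw]
      exact (hc.ker _).2 hd
    have hθ : ev X ≠ 0 := by
      intro h'
      rw [h', eval₂_at_zero] at hz
      exact hc0 (eis_inj hw (by rw [hz, map_zero]))
    have hcl := StepPb_close' hw hs hθ (fun v hv => StepPb_pole hw hs hk hf hz hv) hM.1
    have hd3 := hc.d3 hs h1 h2 ht (Or.inr (Or.inl hM'))
    rw [← hc.eval hw] at hcl
    obtain ⟨j, hj⟩ := hM.2
    have hD : ev X ^ M.natDegree ≠ 0 := pow_ne_zero _ hθ
    have na := div_ne_zero n1 hD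
    have e : ev (M.map (algebraMap _ (AS s))) =
        ev (M.map (algebraMap _ (AS s))) / ev X ^ M.natDegree * (ev X ^ j) ^ 3 := by
      rw [← pow_mul, mul_comm j, ← hj, div_mul_cancel₀ _ hD]
    rw [← hL s h F w ev _ g hs h3 hh h0 hc h1 h2 ht (Or.inr (Or.inl hM')), e,
      HF_cube_left hw h3 na n2 (pow_ne_zero _ hθ)]
    refine ih F w hw (by omega) _ _ na n2 hcl fun v hv => (hd3 v hv).imp_left fun h' => ?_
    rw [ord_div v n1 hD, ord_pow, hj]
    refine dvd_sub h' ⟨j * ord v (ev X), ?_⟩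
    push_cast
    ring
  · exact hV s π _ g hs h3 hπ hM' ht
/-- The horizontal line. -/
theorem comp_line (hL : Lch) (hE : ExCh) (hs : 0 < s) (h3 : 3 ∣ s)
    (ih : ∀ (F' : Type) [Field F'] [NumberField F'] (w' : 𝓞 F'), w' ^ 2 + w' + 1 = 0 →
      Module.finrank ℚ F' = 2 → RecF F' s w') {k : ℕ} (hk : 2 ≤ k) (f0 : QRH.E[X])
    (g : (AS s)[X]) (c : QRH.E)
    (h1 : ¬ X - C (algebraMap _ (AS s) c) ∣ (1 + C ((s : QRH.E) ^ k) * f0).map (algebraMap _ _))
    (h2 : ¬ X - C (algebraMap _ (AS s) c) ∣ g)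
    (ht : Ideal.span {X - C (algebraMap _ (AS s) c), (1 + C ((s : QRH.E) ^ k) * f0).map (algebraMap _ _), g}
      = ⊤) :
    Dz s (X - C (algebraMap _ (AS s) c)) ((1 + C ((s : QRH.E) ^ k) * f0).map (algebraMap _ _)) g = 0 := by
  have := AS_dom hs
  have hh := prime_X_sub_C (algebraMap _ (AS s) c)
  have hd := natDegree_X_sub_C (algebraMap _ (AS s) c)
  have hm := monic_X_sub_C (algebraMap _ (AS s) c)
  obtain ⟨F, _, _, w, ev, hw, hc, hr⟩ := hE s _ hs hh (by omega)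
  rw [← hL s _ F w ev _ g hs h3 hh (by omega) hc h1 h2 ht (Or.inl hm)]
  refine ih F w hw (by omega) _ _ (fun h' => h1 ((hc.ker _).1 h')) (fun h' => h2 ((hc.ker _).1 h'))
    ?_ (hc.d3 hs h1 h2 ht (Or.inl hm))
  rw [hc.eval hw]
  refine StepPb_close hw hs (κ := 0) ?_ (Nat.lt_succ_self _) (by omega)
  have h4 := (hc.ker _).2 dvd_rfl
  rw [map_sub, hc.eis hw, sub_eq_zero] at h4
  rw [pow_zero, one_mul, h4]
  exact StepPb_int (eis_integral hw c)

end NQ
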