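import Vale.Agent.NQ.StepPa
import Vale.Agent.NQ.StepPb

noncomputable section
namespace NQ
open NumberField IsDedekindDomain Polynomial
open scoped Classical

theorem stepP_mul {R : Type} [CommRing R] {a b f g : R} (ha : Ideal.span {a, f, g} = ⊤)
    (hb : Ideal.span {b, f, g} = ⊤) : Ideal.span {a * b, f, g} = ⊤ := by
  obtain ⟨x, y, z, h⟩ := span_top_iff.1 ha
  obtain ⟨x', y', z', h'⟩ := span_top_iff.1 hb
  exact span_top_iff.2 ⟨x * x', y + x * a * y', z + x * a * z', by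
    linear_combination h + x * a * h'⟩

theorem stepP_pow {R : Type} [CommRing R] {a f g : R} (ha : Ideal.span {a, f, g} = ⊤) (j : ℕ) :
    Ideal.span {a ^ j, f, g} = ⊤ := by
  induction j with
  | zero => exact span_top_iff.2 ⟨1, 0, 0, by simp⟩
  | succ j ih => rw [pow_succ]; exact stepP_mul ih ha

theorem stepP_dvd {R : Type} [CommRing R] {a h f g : R} (hd : h ∣ a)
    (ha : Ideal.span {a, f, g} = ⊤) : Ideal.span {h, f, g} = ⊤ := by
  obtain ⟨x, y, z, e⟩ := span_top_iff.1 ha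
  obtain ⟨t, rfl⟩ := hd
  exact span_top_iff.2 ⟨x * t, y, z, by linear_combination e⟩

theorem stepP_ne {s k : ℕ} (h3 : 3 ∣ s) (hk : k ≠ 0) (f0 : QRH.E[X]) :
    1 + C ((s : QRH.E) ^ k) * f0 ≠ 0 := by
  intro h
  obtain ⟨t, ht⟩ : 3 ∣ s ^ k := dvd_pow h3 hk
  have h1 := congrArg (fun p : QRH.E[X] => p.coeff 0) h
  simp only [coeff_add, coeff_one_zero, coeff_C_mul, coeff_zero, ← Nat.cast_pow, ht] at h1
  generalize hy : (t : QRH.E) * f0.coeff 0 = y
  have h2 : (1 : QRH.E) + (y + y + y) = 0 := by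
    rw [← h1, ← hy]; push_cast; ring
  have h4 := congrArg QuadraticAlgebra.re h2
  simp only [QuadraticAlgebra.re_add, QuadraticAlgebra.re_one, QuadraticAlgebra.re_zero] at h4
  omega

theorem stepP (hL : Lch) (hV : Vert) (hE : ExCh) (hD : DzAdd) : StepP := by
  intro s N m g F _ _ w ev hs ih hm h2 hN hc hg hgd
  have hs0 := hs.1
  have h3 := hs.2.1
  have := AS_dom hs0
  obtain ⟨k0, hk0⟩ := comp_g hL hV hE hs0 h3 ih hg hgd
  refine ⟨max k0 (2 * m.natDegree), fun f0 hf0 hfg htop => ?_⟩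
  generalize hk : max k0 (2 * m.natDegree) = k at hfg htop ⊢
  have hk1 : k0 ≤ k := hk ▸ le_max_left _ _
  have hk2 : 2 * m.natDegree ≤ k := hk ▸ le_max_right _ _
  have hinj := AS_inj hs0
  have hmm : (m.map (algebraMap QRH.E (AS s))).Monic := hm.map _
  have hmd : (m.map (algebraMap QRH.E (AS s))).natDegree = m.natDegree := hm.natDegree_map _
  have hmp : Prime (m.map (algebraMap QRH.E (AS s))) := hc.prime hs0 hmm.ne_zero
  have hg0 : g.map (algebraMap QRH.E (AS s)) ≠ 0 := (Polynomial.map_ne_zero_iff hinj).2 hg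
  have hf0' : (1 + C ((s : QRH.E) ^ k) * f0).map (algebraMap QRH.E (AS s)) ≠ 0 :=
    (Polynomial.map_ne_zero_iff hinj).2 (stepP_ne h3 (by omega) f0)
  have hgd' : (g.map (algebraMap QRH.E (AS s))).natDegree < m.natDegree :=
    natDegree_map_le.trans_lt hgd
  have hfd' : ((1 + C ((s : QRH.E) ^ k) * f0).map (algebraMap QRH.E (AS s))).natDegree
      < m.natDegree := by
    refine natDegree_map_le.trans_lt ((natDegree_add_le _ _).trans_lt (max_lt ?_ ?_))
    · rw [natDegree_one]; omega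
    · exact (natDegree_C_mul_le _ _).trans_lt hf0
  obtain ⟨c, hLt, hLf, hLg⟩ := exists_line hs hf0' hg0 (hfd'.trans_le hN) (hgd'.trans_le hN) hfg
  have hline := comp_line hL hE hs0 h3 (fun F' _ _ w' hw' hr => ih F' w' hw' (by omega))
    (show 2 ≤ k by omega) f0 _ c hLf hLg hLt
  have hM0 : M3 (m * (X - C c) ^ (2 * m.natDegree)) :=
    ⟨hm.mul ((monic_X_sub_C c).pow _), by
      rw [hm.natDegree_mul ((monic_X_sub_C c).pow _), (monic_X_sub_C c).natDegree_pow,
        natDegree_X_sub_C]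
      omega⟩
  have hMe : (m * (X - C c) ^ (2 * m.natDegree)).map (algebraMap QRH.E (AS s))
      = m.map (algebraMap QRH.E (AS s)) * (X - C (algebraMap QRH.E (AS s) c)) ^ (2 * m.natDegree) := by
    simp only [Polynomial.map_mul, Polynomial.map_pow, Polynomial.map_sub, map_X, map_C]
  have hM1 : M3 ((m * (X - C c) ^ (2 * m.natDegree)).map (algebraMap QRH.E (AS s))) :=
    ⟨hM0.1.map _, by rw [hM0.1.natDegree_map]; exact hM0.2⟩
  have hcf := fun h => comp_f hL hV hE hs0 h3 ih hk2 f0 _ (g.map (algebraMap _ _)) h hf0 hM0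
  have hcg := fun h => hk0 k hk1 f0 _ h hf0 hM1
  rw [hMe] at hcf hcg
  have hLp : Prime (X - C (algebraMap QRH.E (AS s) c)) := prime_X_sub_C _
  have hmf : ¬ m.map (algebraMap QRH.E (AS s)) ∣ _ := fun h =>
    (hmd ▸ hfd').not_ge (natDegree_le_of_dvd h hf0')
  have hmg : ¬ m.map (algebraMap QRH.E (AS s)) ∣ _ := fun h =>
    (hmd ▸ hgd').not_ge (natDegree_le_of_dvd h hg0)
  rw [hL s _ F w ev _ _ hs0 h3 hmp (by omega) hc hmf hmg htop (Or.inl hmm)]
  generalize (1 + C ((s : QRH.E) ^ k) * f0).map (algebraMap QRH.E (AS s)) = f at *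
  generalize g.map (algebraMap QRH.E (AS s)) = g' at *
  generalize m.map (algebraMap QRH.E (AS s)) = m' at *
  generalize X - C (algebraMap QRH.E (AS s) c) = L at *
  generalize 2 * m.natDegree = j at *
  have hLj : L ^ j ≠ 0 := pow_ne_zero _ hLp.ne_zero
  have hnL : ∀ h, Prime h → h ∣ L ^ j → ¬ h ∣ f ∧ ¬ h ∣ g' := fun h hh hd =>
    have e := (hh.associated_of_dvd hLp (hh.dvd_of_dvd_pow hd)).symm.dvd
    ⟨fun h1 => hLf (e.trans h1), fun h1 => hLg (e.trans h1)⟩
  have hnM : ∀ h, Prime h → h ∣ m' * L ^ j → ¬ h ∣ f ∧ ¬ h ∣ g' := fun h hh hd =>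
    (hh.dvd_or_dvd hd).elim (fun hd =>
      have e := (hh.associated_of_dvd hmp hd).symm.dvd
      ⟨fun h1 => hmf (e.trans h1), fun h1 => hmg (e.trans h1)⟩) (hnL h hh)
  have hMt := stepP_mul htop (stepP_pow hLt j)
  have e1 : Dz s g' (m' * L ^ j) f = 0 := by
    have ht := (span_top_perm hMt).2.1
    exact (hD s g' _ f hs0 h3 hg0
      (fun h hh hd => ⟨fun h1 => (hnM h hh h1).2 hd, fun h1 => hfg h hh h1 hd⟩) ht).2
      fun h hh hd => hcg h hh hd (fun h1 => (hnM h hh h1).2 hd) (fun h1 => hfg h hh h1 hd)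
        (stepP_dvd hd ht)
  have e2 : Dz s f (m' * L ^ j) g' = 0 := by
    have ht := (span_top_perm hMt).2.2.2.1
    exact (hD s f _ g' hs0 h3 hf0'
      (fun h hh hd => ⟨fun h1 => (hnM h hh h1).1 hd, hfg h hh hd⟩) ht).2
      fun h hh hd => hcf h hh hd (fun h1 => (hnM h hh h1).1 hd) (hfg h hh hd) (stepP_dvd hd ht)
  have e3 : Dz s (L ^ j) f g' = 0 :=
    (hD s _ f g' hs0 h3 hLj hnL (stepP_pow hLt j)).2 fun h hh hd =>
      (Dz_assoc (hh.associated_of_dvd hLp (hh.dvd_of_dvd_pow hd)) f g').trans hline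
  have e4 := (hD s _ f g' hs0 h3 (mul_ne_zero hmp.ne_zero hLj) hnM hMt).1 m' (L ^ j) rfl
  have e5 := Dz_cycle (m' * L ^ j) f g'
  rw [e1, Dz_swap f, e2, e4, e3] at e5
  simpa using e5

end NQ
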