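import Vale.Agent.NQ.StepPa

noncomputable section
namespace NQ
open NumberField IsDedekindDomain Polynomial
open scoped Classical

/-- Reduced representatives of the multiples of the index. -/
theorem StepT_red {s : ℕ} {F : Type} [Field F] [NumberField F] {w : 𝓞 F}
    {hw : w ^ 2 + w + 1 = 0} {θ : F} {t : QRH.E} (hG : Gen w hw θ t) {m : QRH.E[X]}
    {ev : (AS s)[X] →+* F} (hm : m.Monic) (hm1 : 0 < m.natDegree) (hX : ev X = θ)
    (hC : Chart s (m.map (algebraMap _ _)) F w ev) {y : F} (hy : IsIntegral ℤ y) :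
    ∃ p : QRH.E[X], p.natDegree < m.natDegree ∧
      ev (p.map (algebraMap _ _)) = eis w hw t * y := by
  obtain ⟨p, hp⟩ := hG.2.2 y hy
  refine ⟨p %ₘ m, natDegree_modByMonic_lt p hm ?_, ?_⟩
  · rintro rfl
    simp at hm1
  · have h0 : ev (m.map (algebraMap _ _)) = 0 := (hC.ker _).2 dvd_rfl
    rw [hp, ← hX, ← hC.eval hw p]
    conv_rhs => rw [← modByMonic_add_div p m]
    rw [Polynomial.map_add, Polynomial.map_mul, map_add, map_mul, h0, zero_mul, add_zero]

/-- A vertical prime does not divide two of three comaximal polynomials if the third is monic of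
positive degree. -/
theorem StepT_vert {A : Type} [CommRing A] {π : A} (hπ : Prime π) {m f g : A[X]} (hm : m.Monic)
    (hm1 : 0 < m.natDegree) (ht : Ideal.span {m, f, g} = ⊤) (hf : C π ∣ f) (hg : C π ∣ g) :
    False := by
  have hp : (Ideal.span {π}).IsPrime := (Ideal.span_singleton_prime hπ.ne_zero).2 hπ
  have : Nontrivial (A ⧸ Ideal.span {π}) := Ideal.Quotient.nontrivial_iff.2 hp.ne_top
  obtain ⟨x, y, z, h⟩ := span_top_iff.1 ht
  obtain ⟨f1, rfl⟩ := hf
  obtain ⟨g1, rfl⟩ := hg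
  have h0 : Ideal.Quotient.mk (Ideal.span {π}) π = 0 :=
    Ideal.Quotient.eq_zero_iff_mem.2 (Ideal.mem_span_singleton_self π)
  have h1 := congrArg (Polynomial.map (Ideal.Quotient.mk (Ideal.span {π}))) h
  simp only [Polynomial.map_add, Polynomial.map_mul, map_C, h0, map_zero, zero_mul, mul_zero,
    add_zero, Polynomial.map_one] at h1
  have h2 := (hm.map (Ideal.Quotient.mk (Ideal.span {π}))).eq_one_of_isUnit
    (IsUnit.of_mul_eq_one_right _ h1)
  have h3 := hm.natDegree_map (Ideal.Quotient.mk (Ideal.span {π}))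
  rw [h2, natDegree_one] at h3
  omega

theorem StepT_deg {R : Type} [CommRing R] {n : ℕ} (hn : 0 < n) {p p2 p3 : R[X]}
    (h : p.natDegree < n) (h2 : p2.natDegree < n) (h3 : p3.natDegree < n) (t c d e : R) :
    (C t * (p + C c + C d * p2 + C e * p3)).natDegree < n := by
  refine (natDegree_C_mul_le _ _).trans_lt ?_
  refine (natDegree_add_le _ _).trans_lt (max_lt ((natDegree_add_le _ _).trans_lt (max_lt
    ((natDegree_add_le _ _).trans_lt (max_lt h ?_)) ?_)) ?_)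
  · rwa [natDegree_C]
  · exact (natDegree_C_mul_le _ _).trans_lt h2
  · exact (natDegree_C_mul_le _ _).trans_lt h3

theorem stepT (hP : StepP) (hM : Move) : StepT := by
  intro s F _ _ w hw θ t hs h2 ih hG a b ha hb hcl hd3 hτ
  obtain ⟨m, ev, hm, hfr, hX, hC⟩ := exists_chart hs.1 hw hG
  have hs0 : 0 < s := hs.1
  have hdom := AS_dom hs0
  have hchar := AS_char hs0
  have hm1 : 0 < m.natDegree := by omega
  have hN : ∀ n : ℕ, IsIntegral ℤ (n : F) := fun n => by
    simpa using isIntegral_algebraMap (R := ℤ) (A := F) (x := n)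
  set τ := eis w hw t with hτd
  have hτ0 : τ ≠ 0 := fun h => hG.2.1 (eis_inj hw (by rw [map_zero]; exact h))
  have hτi : IsIntegral ℤ τ := eis_integral hw t
  have hsF : (s : F) ≠ 0 := Nat.cast_ne_zero.2 hs0.ne'
  obtain ⟨b1, hb1, hb1i, hk⟩ := hM s F w τ a b hs0 hs.2.1 hw hτ0 hτi ha hb hcl hd3 hτ
  obtain ⟨g, hgd, hg⟩ := StepT_red hG hm hm1 hX hC hb1i
  rw [← hτd, mul_div_cancel₀ _ hτ0] at hg
  have hb1I : IsIntegral ℤ b1 := by
    have := hτi.mul hb1i
    rwa [mul_div_cancel₀ _ hτ0] at this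
  have hg0 : g ≠ 0 := by
    rintro rfl
    exact hb1 (by rw [← hg]; simp)
  obtain ⟨k, hk'⟩ := hP s (Module.finrank ℚ F) m g F w ev hs
    (fun F' _ _ w' h1 h3 => ih F' w' h1 (by omega)) hm (by omega) (by omega) hC hg0 hgd
  obtain ⟨a1, ha1, hz, hab, hHF⟩ := hk k
  set σ : F := (s : F) ^ k * τ ^ 2 with hσ
  have hσ0 : σ ≠ 0 := mul_ne_zero (pow_ne_zero _ hsF) (pow_ne_zero _ hτ0)
  have hσi : IsIntegral ℤ σ := ((hN s).pow k).mul (hτi.pow 2)
  set z : F := (a1 - 1) / σ with hzd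
  have ha1e : a1 = 1 + σ * z := by rw [hzd, mul_div_cancel₀ _ hσ0]; ring
  obtain ⟨c0, hc0, hc0i⟩ := Ord_nat (a1 * b1)⁻¹
  set u0 : F := (c0 : F) * (a1 * b1)⁻¹ with hu0
  have hu : a1 * (u0 * b1) = c0 := by rw [hu0]; field_simp
  have hui : IsIntegral ℤ (u0 * b1) := hc0i.mul hb1I
  have hz2 : IsIntegral ℤ ((3 : ℕ) * σ * c0 * (u0 * b1)) :=
    (((hN 3).mul hσi).mul (hN c0)).mul hui
  have hz3 : IsIntegral ℤ (σ ^ 2 * c0 * (u0 * b1) ^ 2) :=
    ((hσi.pow 2).mul (hN c0)).mul (hui.pow 2)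
  obtain ⟨p, hpd, hp⟩ := StepT_red hG hm hm1 hX hC hz
  obtain ⟨p2, hpd2, hp2⟩ := StepT_red hG hm hm1 hX hC hz2
  obtain ⟨p3, hpd3, hp3⟩ := StepT_red hG hm hm1 hX hC hz3
  rw [← hτd] at hp hp2 hp3
  set φ := algebraMap QRH.E (AS s) with hφ
  have hφi : Function.Injective φ := AS_inj hs0
  have hmφ : (m.map φ).Monic := hm.map φ
  have hmd : (m.map φ).natDegree = m.natDegree := hm.natDegree_map φ
  have hgφ : g.map φ ≠ 0 := (Polynomial.map_ne_zero_iff hφi).2 hg0
  have hcne : φ ((s : QRH.E) ^ k * t * (3 * c0 * t)) ≠ 0 := by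
    have ht : φ t ≠ 0 := (map_ne_zero_iff φ hφi).2 hG.2.1
    have h1 : (s : AS s) ≠ 0 := Nat.cast_ne_zero.2 hs0.ne'
    have h3 : (c0 : AS s) ≠ 0 := Nat.cast_ne_zero.2 hc0
    have h4 : (3 : AS s) ≠ 0 := (AS_three hs.2.1).ne_zero
    simp only [map_mul, map_pow, map_natCast, map_ofNat]
    exact mul_ne_zero (mul_ne_zero (pow_ne_zero _ h1) ht)
      (mul_ne_zero (mul_ne_zero h4 h3) ht)
  obtain ⟨j, hj⟩ := exists_generic hs0 (mul_ne_zero hgφ hmφ.ne_zero)
    (1 + C (φ ((s : QRH.E) ^ k * t)) * p.map φ) (C (φ ((s : QRH.E) ^ k * t)) * p2.map φ)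
    (C (φ ((s : QRH.E) ^ k * t)) * p3.map φ) hcne
  set q0 : QRH.E[X] := p + C (3 * c0 * t * j) + C ((j : QRH.E) ^ 2) * p2 + C ((j : QRH.E) ^ 3) * p3
    with hq0
  set f : (AS s)[X] := (1 + C ((s : QRH.E) ^ k) * (C t * q0)).map φ with hf
  have hfe : (1 + C (φ ((s : QRH.E) ^ k * t)) * p.map φ) +
      (j : (AS s)[X]) * C (φ ((s : QRH.E) ^ k * t * (3 * c0 * t))) +
      (j : (AS s)[X]) ^ 2 * (C (φ ((s : QRH.E) ^ k * t)) * p2.map φ) +
      (j : (AS s)[X]) ^ 3 * (C (φ ((s : QRH.E) ^ k * t)) * p3.map φ) = f := by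
    simp only [hf, hq0, Polynomial.map_add, Polynomial.map_mul, Polynomial.map_one, map_C,
      map_mul, map_pow, map_natCast, map_ofNat, Polynomial.map_pow, Polynomial.map_natCast,
      Polynomial.map_ofNat]
    ring
  rw [hfe] at hj
  have hevt : ev (C (φ t)) = τ := hC.eis hw t
  set γ : F := 1 + σ * j * (u0 * b1) with hγ
  have hef : ev f = a1 * γ ^ 3 := by
    have e1 : ev f = 1 + σ * (z + 3 * c0 * j + j ^ 2 * ((3 : ℕ) * σ * c0 * (u0 * b1)) +
        j ^ 3 * (σ ^ 2 * c0 * (u0 * b1) ^ 2)) := by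
      rw [← hfe]
      simp only [map_add, map_mul, map_pow, map_natCast, map_ofNat, map_one, hevt, hp, hp2, hp3]
      rw [hσ]
      ring
    rw [e1, hγ, ← hu]
    push_cast
    linear_combination (-1 : F) * ha1e
  have hfm : ¬ m.map φ ∣ f :=
    hj _ (hC.prime hs0 hmφ.ne_zero) (by omega) (dvd_mul_left _ _)
  have hf0 : ev f ≠ 0 := fun h => hfm ((hC.ker f).1 h)
  have hγ0 : γ ≠ 0 := by
    intro h
    rw [hef, h] at hf0
    simp at hf0
  have hγi : IsIntegral ℤ γ := isIntegral_one.add ((hσi.mul (hN j)).mul hui)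
  have ha1i : IsIntegral ℤ a1 := by
    rw [ha1e]
    exact isIntegral_one.add (hσi.mul hz)
  have hfi : IsIntegral ℤ (ev f) := by
    rw [hef]
    exact ha1i.mul (hγi.pow 3)
  have hcop : ∀ v : HS F, (s : 𝓞 F) ∉ v.asIdeal → ord v (ev f) = 0 ∨ ord v b1 = 0 := by
    intro v hv
    by_cases h0 : ord v b1 = 0
    · exact Or.inr h0
    left
    have h1 : ord v a1 = 0 := (hab v hv).resolve_right h0
    have h3 : 0 ≤ ord v b1 := (isIntegral_iff_OG.1 hb1I v).le hb1
    have h4 : OG v 1 b1 := (OG.self v b1).mono (by omega)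
    have h5 : OG v 0 (σ * j * u0) := isIntegral_iff_OG.1 ((hσi.mul (hN j)).mul hc0i) v
    have h6 : OG v (ord v (1 : F) + 1) (γ - 1) := by
      have h7 := h5.mul h4
      have e : γ - 1 = σ * j * u0 * b1 := by rw [hγ]; ring
      rw [ord_one, e]
      exact h7
    have h8 := (ord_eq_of_OG one_ne_zero h6).2
    rw [hef, ord_mul v ha1 (pow_ne_zero _ hγ0), ord_pow, h8, h1, ord_one]
    simp
  obtain ⟨i, x, y, hxi, hyi, hxy⟩ := exists_bezout hs0 hf0 hb1 ⟨0, by simpa using hfi⟩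
    ⟨0, by simpa using hb1I⟩ hcop
  obtain ⟨px, -, hpx⟩ := StepT_red hG hm hm1 hX hC hxi
  obtain ⟨py, -, hpy⟩ := StepT_red hG hm hm1 hX hC hyi
  rw [← hτd, ← hφ] at hpx hpy
  have hspan : Ideal.span {m.map φ, f, g.map φ} = ⊤ := by
    have h1 : m.map φ ∣ px.map φ * f + py.map φ * g.map φ - C (φ t) * (s : (AS s)[X]) ^ i := by
      refine (hC.ker _).1 ?_
      simp only [map_sub, map_add, map_mul, map_pow, map_natCast, hevt, hpx, hpy, hg]
      linear_combination τ * hxy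
    obtain ⟨q, hq⟩ := h1
    have hun : IsUnit ((s : (AS s)[X]) ^ i) := by
      have := (AS_unit (s := s)).map (C : AS s →+* (AS s)[X])
      rw [map_natCast] at this
      exact this.pow i
    obtain ⟨e, he⟩ := hun.exists_right_inv
    have hfR : f = 1 + C (φ t) * ((s : (AS s)[X]) ^ k * q0.map φ) := by
      simp only [hf, Polynomial.map_add, Polynomial.map_mul, Polynomial.map_one, map_C,
        map_pow, map_natCast, Polynomial.map_pow, Polynomial.map_natCast]
      ring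
    generalize (s : (AS s)[X]) ^ k * q0.map φ = R at hfR
    refine span_top_iff.2 ⟨e * q * R, 1 - e * px.map φ * R, -(e * py.map φ * R), ?_⟩
    linear_combination hfR - e * R * hq - C (φ t) * R * he
  have hfin := hk' (C t * q0) (StepT_deg hm1 hpd hpd2 hpd3 _ _ _ _) (fun h hh hhf hhg => ?_) hspan
  · rw [hHF, ← HF_cube_left hw hs.2.1 ha1 hb1 hγ0, ← hef, ← hg]
    exact hfin
  · rcases prime_cases_poly hs0 hh with h0 | ⟨π, hπ, rfl⟩
    · exact hj h hh h0 (hhg.mul_right _) hhf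
    · exact StepT_vert hπ hmφ (by omega) hspan hhf hhg

end NQ
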