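import Vale.Agent.NQ.UnfL
import Vale.Agent.NQ.EulA
import Vale.Agent.NQ.Lat

noncomputable section
namespace NQ
open Complex MeasureTheory NumberField Filter
open scoped ComplexConjugate Classical ContDiff Topology

theorem unf_int {α ι : Type*} [MeasurableSpace α] {μ : Measure α} [Countable ι] {F : ι → α → ℂ}
    (h1 : ∀ i, Integrable (F i) μ) (h2 : Summable fun i => ∫ a, ‖F i a‖ ∂μ) :
    Integrable (fun a => ∑' i, F i a) μ := by
  refine ⟨(AEMeasurable.tsum fun i => (h1 i).aemeasurable).aestronglyMeasurable, ?_⟩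
  refine (lintegral_mono fun a => enorm_tsum_le_tsum_enorm).trans_lt ?_
  rw [lintegral_tsum fun i => (h1 i).1.enorm]
  simp only [← ofReal_integral_norm_eq_lintegral_enorm (h1 _)]
  rw [← ENNReal.ofReal_tsum_of_nonneg (fun i => integral_nonneg fun a => norm_nonneg _) h2]
  exact ENNReal.ofReal_lt_top

theorem unf_cpow {r : ℝ} (hr : 0 < r) (z : ℂ) : (r : ℂ) ^ z = Complex.exp (Real.log r * z) := by
  rw [cpow_def_of_ne_zero (ofReal_ne_zero.2 hr.ne'), ofReal_log hr.le]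

theorem unf_one {z : ℂ} (hz : 0 < z.re) :
    ∫ y : ℝ, (Vg (Real.exp y) : ℂ) * Complex.exp (z * y) = GG z := by
  have hr : 0 < 2 * Real.pi / √3 := by positivity
  have h1 := Complex.integral_cpow_mul_exp_neg_mul_Ioi hz hr
  rw [← Real.range_exp, ← Set.image_univ, integral_image_eq_integral_abs_deriv_smul
    MeasurableSet.univ (fun x _ => (Real.hasDerivAt_exp x).hasDerivWithinAt)
    Real.exp_injective.injOn, Measure.restrict_univ] at h1
  rw [GG, cpow_neg, ← inv_cpow _ _ (by rw [arg_ofReal_of_nonneg hr.le]; exact Real.pi_pos.ne),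
    ← one_div, ← h1]
  refine integral_congr_ae (Eventually.of_forall fun y => ?_)
  beta_reduce
  rw [abs_of_pos (Real.exp_pos y), real_smul, unf_cpow (Real.exp_pos y), Real.log_exp, Vg,
    ← mul_assoc, ofReal_exp y, ← Complex.exp_add, ← ofReal_exp y, ofReal_exp, ofReal_mul,
    ofReal_neg, neg_mul, mul_comm]
  congr 2
  ring

theorem unf_GG {z : ℂ} (hz : 0 < z.re) : GG z ≠ 0 :=
  mul_ne_zero (by rw [unf_cpow (by positivity)]; exact exp_ne_zero _) (Gamma_ne_zero_of_re_pos hz)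

variable [σ : St]

/-- The archimedean weight. -/
def unfG (z : ℂ) (y : Pl → ℝ) : ℂ := ∏ w, (Vg (Real.exp (y w)) : ℂ) * Complex.exp (z * y w)

theorem unfG_integral {z : ℂ} (hz : 0 < z.re) : ∫ y, unfG z y = GG z ^ rk := by
  unfold unfG
  rw [integral_fintype_prod_volume_eq_prod
    fun (_ : Pl) (y : ℝ) => (Vg (Real.exp y) : ℂ) * Complex.exp (z * y)]
  simp only [unf_one hz, Finset.prod_const, Finset.card_univ, rk]

theorem unfG_integrable {z : ℂ} (hz : 0 < z.re) : Integrable (unfG z) :=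
  Integrable.of_integral_ne_zero (by rw [unfG_integral hz]; exact pow_ne_zero _ (unf_GG hz))

/-- One term. -/
def unfT (φ : (Pl → ℝ) → ℝ) (z : ℂ) (b : FF) (x : E) (u : Pl → ℝ) : ℂ :=
  if x ≠ 0 ∧ x / b ∈ OS then φ u * unfG z (u + lg x) * ((Ninf x * sS b : ℝ) : ℂ) ^ (-z) else 0

theorem unf_pt (φ : (Pl → ℝ) → ℝ) (z : ℂ) (b : FF) (u : Pl → ℝ) :
    ((φ u * Tht b u : ℝ) : ℂ) * Complex.exp (z * Tl b u) = ∑' x : E, unfT φ z b x u := by
  rw [Tht, ofReal_mul, ofReal_tsum, ← tsum_mul_left, ← tsum_mul_right]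
  refine tsum_congr fun x => ?_
  unfold unfT
  split_ifs with h
  · have hx : (x : FF) ≠ 0 := fun h0 => h.1 (Subtype.ext h0)
    rw [unf_cpow (mul_pos (Ninf_pos hx) (sS_pos b)), Real.log_mul (Ninf_pos hx).ne' (sS_pos b).ne',
      ← sum_lg hx, unfG, Finset.prod_mul_distrib, ← Complex.exp_sum, mul_assoc, mul_assoc,
      mul_assoc, ← Complex.exp_add, ofReal_prod]
    congr 2
    · refine Finset.prod_congr rfl fun w _ => ?_
      rw [Pi.add_apply, Real.exp_add, lg, Real.exp_log (em_sq_pos w hx), mul_comm]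
    · simp only [Tl, Pi.add_apply, ← Finset.mul_sum, ofReal_add, Finset.sum_add_distrib,
        ofReal_sub, ofReal_sum]
      congr 1
      ring
  · simp

theorem unf (h : IdB) : Unf := by
  intro φ A hφ hA z hz
  have hz0 : 0 < z.re := by linarith
  obtain ⟨J, h1, h2, h3⟩ := h A hA
  choose b hb x hx0 hxb hJ using fun I : {J : Ideal (𝓞 FF) // J ≠ ⊥} => h3 I.1 I.2
  have he : ∀ e : (𝓞 FF)ˣ, ((e : 𝓞 FF) : FF) ≠ 0 := fun e => by
    exact_mod_cast e.ne_zero
  have hx1 : ∀ I, (x I : FF) ≠ 0 := fun I h0 => hx0 I (Subtype.ext h0)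
  have hc : ∀ I (e : (𝓞 FF)ˣ), ((toE e * x I : E) : FF) = (e : 𝓞 FF) * x I := fun I e => by
    rw [Subring.coe_mul, coe_toE]
  have k0 : ∀ I (e : (𝓞 FF)ˣ), toE e * x I ≠ 0 := fun I e h0 =>
    mul_ne_zero (he e) (hx1 I) ((hc I e).symm.trans (congrArg Subtype.val h0))
  have k1 : ∀ I (e : (𝓞 FF)ˣ), ((toE e * x I : E) : FF) / b I ∈ OS := fun I e => by
    rw [hc, mul_div_assoc]
    exact mul_mem (mem_OS_of_integral (e : 𝓞 FF).isIntegral_coe) (hxb I)
  have k2 : ∀ I (e : (𝓞 FF)ˣ), J (b I) (toE e * x I) = I.1 := fun I e =>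
    ((h2 _ (hb I) _ (hb I) _ _ (hx0 I) (hxb I) (k0 I e) (k1 I e)).2 ⟨rfl, e, hc I e⟩).symm.trans
      (hJ I)
  let ψ : {J : Ideal (𝓞 FF) // J ≠ ⊥} × (𝓞 FF)ˣ → A × E := fun p =>
    (⟨b p.1, hb p.1⟩, toE p.2 * x p.1)
  have hψ : Function.Injective ψ := by
    rintro ⟨I, e⟩ ⟨I', e'⟩ hp
    obtain ⟨a1, a2⟩ := Prod.mk.inj hp
    have a3 : b I = b I' := congrArg Subtype.val a1
    obtain rfl : I = I' := Subtype.ext (by rw [← k2 I e, ← k2 I' e', a3, a2])
    have a4 := (hc I e).symm.trans ((congrArg Subtype.val a2).trans (hc I e'))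
    rw [Units.ext (RingOfIntegers.ext (mul_right_cancel₀ (hx1 I) a4))]
  have hr : ∀ p ∉ Set.range ψ, unfT φ z p.1.1 p.2 = fun _ => 0 := by
    rintro ⟨⟨c, hcA⟩, y⟩ hp
    refine funext fun u => if_neg fun hy => hp ?_
    have a1 := (h1 c y (hA.1 c hcA) hy.1 hy.2).1
    obtain ⟨a2, e, a3⟩ := (h2 _ (hb ⟨_, a1⟩) _ hcA _ _ (hx0 _) (hxb _) hy.1 hy.2).1 (hJ ⟨_, a1⟩)
    exact ⟨(⟨_, a1⟩, e), Prod.ext (Subtype.ext a2) (Subtype.ext ((hc _ e).trans a3.symm))⟩
  have hT : ∀ p, unfT φ z (ψ p).1.1 (ψ p).2 = fun u => φ u * unfG z (u + lg (x p.1) +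
      lg ((p.2 : 𝓞 FF) : FF)) * (Ideal.absNorm p.1.1 : ℂ) ^ (-z) := fun p => funext fun u => by
    have a1 := (h1 _ _ (hA.1 _ (hb p.1)) (k0 p.1 p.2) (k1 p.1 p.2)).2
    rw [k2] at a1
    rw [unfT, if_pos ⟨k0 p.1 p.2, k1 p.1 p.2⟩, ← a1, ofReal_natCast, hc, lg_mul (he _) (hx1 _),
      add_comm (lg _), ← add_assoc]
  have hU := fun I => unfold hφ (unfG_integrable hz0) (lg (x I))
  have hint : ∀ p : A × E, Integrable (unfT φ z p.1.1 p.2) := fun p => by
    by_cases hp : p ∈ Set.range ψ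
    · obtain ⟨p, rfl⟩ := hp
      rw [hT]
      exact ((hU p.1).1 p.2).mul_const _
    · rw [hr p hp]
      exact integrable_zero _ _ _
  have hN : ∀ I : {J : Ideal (𝓞 FF) // J ≠ ⊥},
      ‖(Ideal.absNorm I.1 : ℂ) ^ (-z)‖ = (Ideal.absNorm I.1 : ℝ) ^ (-z.re) := fun I =>
    norm_natCast_cpow_of_pos (Nat.pos_of_ne_zero fun h0 => I.2 (Ideal.absNorm_eq_zero_iff.1 h0)) _
  have s0 : Summable fun p => ∫ u, ‖unfT φ z (ψ p).1.1 (ψ p).2 u‖ := by
    refine (summable_prod_of_nonneg fun p => integral_nonneg fun u => norm_nonneg _).2 ?_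
    simp only [hT, norm_mul _ (_ ^ (-z)), integral_mul_const, hN, tsum_mul_right]
    refine ⟨fun I => (hU I).2.2.summable.mul_right _, ?_⟩
    simp only [fun I => (hU I).2.2.tsum_eq]
    exact (summable_ideal hz).mul_left _
  have s1 : Summable fun p : A × E => ∫ u, ‖unfT φ z p.1.1 p.2 u‖ :=
    (hψ.summable_iff fun p hp => by simp [hr p hp]).1 s0
  have s2 : Summable fun p : A × E => ∫ u, unfT φ z p.1.1 p.2 u :=
    s1.of_norm_bounded fun p => norm_integral_le_integral_norm _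
  have s3 : Summable fun p => ∫ u, unfT φ z (ψ p).1.1 (ψ p).2 u :=
    s0.of_norm_bounded fun p => norm_integral_le_integral_norm _
  simp only [unf_pt]
  refine ⟨fun c hc => unf_int (fun y => hint (⟨c, hc⟩, y)) (s1.prod_factor ⟨c, hc⟩), ?_⟩
  rw [← Finset.sum_coe_sort A, Finset.sum_congr rfl fun c _ =>
    (integral_tsum_of_summable_integral_norm (fun y => hint (c, y)) (s1.prod_factor c)).symm,
    ← tsum_fintype (L := .unconditional _), ← s2.tsum_prod, ← hψ.tsum_eq (fun p hp => by_contra fun hp' => hp (by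
      simp [hr p hp'])), s3.tsum_prod, zeta, ← tsum_mul_left]
  refine tsum_congr fun I => ?_
  simp only [hT, integral_mul_const, tsum_mul_right]
  rw [(hU I).2.1.tsum_eq, unfG_integral hz0]

end NQ
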