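import Vale.Agent.NQ.WtS
import Vale.Agent.NQ.Phi1

noncomputable section
namespace NQ
open Complex MeasureTheory NumberField Filter
open scoped ComplexConjugate Classical ContDiff Topology

theorem ThE_term {X : ℝ} (hX : 0 < X) (τ v : ℝ) {z : ℂ} (hz : z ≠ 0) :
    Complex.exp (τ * I * v) * (√(X * Real.exp v) : ℝ) *
      (wtau τ (z / (√(X * Real.exp v) : ℝ)) * kk (z / (√(X * Real.exp v) : ℝ))) =
    z * ((‖z‖ ^ 2 / X : ℝ) : ℂ) ^ (τ * I) * V1 (‖z‖ ^ 2 / X * Real.exp (-v)) := by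
  have h0 : 0 < X * Real.exp v := by positivity
  have h1 : 0 < √(X * Real.exp v) := Real.sqrt_pos.2 h0
  have hn : (0 : ℝ) < ‖z‖ ^ 2 / X := div_pos (pow_pos (norm_pos_iff.2 hz) 2) hX
  have h2 : ‖z / (√(X * Real.exp v) : ℝ)‖ ^ 2 = ‖z‖ ^ 2 / X * Real.exp (-v) := by
    rw [norm_div, norm_real, Real.norm_of_nonneg h1.le, div_pow, Real.sq_sqrt h0.le,
      Real.exp_neg]
    field_simp
  have h3 : Complex.exp (τ * I * v) * ((‖z‖ ^ 2 / X * Real.exp (-v) : ℝ) : ℂ) ^ (τ * I) =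
      ((‖z‖ ^ 2 / X : ℝ) : ℂ) ^ (τ * I) := by
    rw [cpow_def_of_ne_zero (ofReal_ne_zero.2 (by positivity)),
      cpow_def_of_ne_zero (ofReal_ne_zero.2 hn.ne'), ← ofReal_log (by positivity),
      ← ofReal_log hn.le, Real.log_mul hn.ne' (Real.exp_pos _).ne', Real.log_exp,
      ← Complex.exp_add]
    congr 1
    push_cast
    ring
  have h4 : ((√(X * Real.exp v) : ℝ) : ℂ) ≠ 0 := ofReal_ne_zero.2 h1.ne'
  rw [wtau, a0, V1, ← QRH.kk_norm, ← Real.sqrt_sq (norm_nonneg (z / _)),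
    Real.sq_sqrt (sq_nonneg _), h2, ← h3]
  field_simp

variable [σ : St]

theorem Th_nz {X : Sc} (h : X.OK) {e : Eˣ} {a0 : FF} (hcl : Cl a0 (((e : E) : FF) ^ 6 * X.a))
    (n : E) (z : Pl → ℂ) : ‖Th n (X.nz e a0) z‖ = ‖Th n X z‖ := by
  have hu : IsUnit ((e : E) ^ 6) := e.isUnit.pow 6
  have h1 : Th n (X.nz e a0) z = ang (((e : E) ^ 6 : E) : FF) * Th n X z := by
    rw [Th, sum_bx_nz h hcl, Th, Finset.mul_sum]
    refine Finset.sum_congr rfl fun c hc => ?_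
    have h2 : xv c3 c ((e : E) ^ 6) = 1 := by
      have h3 := xv_unit_six ch_c3 six_c3 c e 1
      rwa [mul_one, xv_one ch_c3] at h3
    have h4 : Associated ((e : E) ^ 6 * c) c := associated_unit_mul_left c _ hu
    rw [Kx_nz hcl, Tg_mul_unit (nm_le_of_mem_bx h hc).1 hu, h2, map_one, one_mul, nm_assoc h4,
      xv_assoc h4, Subring.coe_mul, ang_mul]
    ring
  rw [h1, norm_mul, norm_ang (by simp), one_mul]

theorem ThE_ang {a : FF} {c : E} (hc : Cl a c) :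
    ang (c : FF) / (√(nm c : ℝ) : ℝ) = (√(sS a) : ℝ) / (nm c : ℂ) * ∏ w, em w c := by
  have h0 : (c : FF) ≠ 0 := hc.ne_zero
  have h1 : c ≠ 0 := by simpa using h0
  have hN : 0 < ∏ w, ‖em w c‖ := Finset.prod_pos fun w _ => norm_pos_iff.2 (em_ne_zero w h0)
  have hs : 0 < √(sS a) := Real.sqrt_pos.2 (sS_pos a)
  have h2 : (nm c : ℝ) = ((∏ w, ‖em w c‖) * √(sS a)) ^ 2 := by
    rw [nm_eq h1, hc.sS_eq, mul_pow, Real.sq_sqrt (sS_pos a).le, Ninf, Finset.prod_pow]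
  have h3 : √(nm c : ℝ) = (∏ w, ‖em w c‖) * √(sS a) := by
    rw [h2, Real.sqrt_sq (by positivity)]
  have h4 : (nm c : ℂ) = (((∏ w, ‖em w c‖ : ℝ) : ℂ) * (√(sS a) : ℝ)) ^ 2 := by
    rw [← ofReal_natCast, h2, ofReal_pow, ofReal_mul]
  have h5 : (((∏ w, ‖em w c‖ : ℝ)) : ℂ) ≠ 0 := ofReal_ne_zero.2 hN.ne'
  have h6 : ((√(sS a) : ℝ) : ℂ) ≠ 0 := ofReal_ne_zero.2 hs.ne'
  rw [h3, h4, ang, Finset.prod_div_distrib, ← ofReal_prod, ofReal_mul]
  field_simp

/-- The theta sums are averages of Voronoi sums. -/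
theorem Th_eq (n : E) {X : Sc} (h : X.OK) (τ : Pl → ℝ) :
    Th n X (iT τ) = ∫ v : Pl → ℝ, (∏ w, ((beta (v w) : ℝ) : ℂ)) *
      ((∏ w, Complex.exp (iT τ w * v w)) * ((√(sS X.a) * ∏ w, √(X.T w * Real.exp (v w)) : ℝ) : ℂ)
        * VL X.a (fun c => conj (xv c6 c n)) (fun w => wtau (τ w))
            (fun w => √(X.T w * Real.exp (v w)))) := by
  obtain ⟨k, hk⟩ : ∃ k : E → ℂ, ∀ c, k c = ic X.a c * conj (xv c6 c n) *
      (Tg c * ((√(sS X.a) : ℝ) / (nm c : ℂ))) *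
        ∏ w, em w c * ((‖em w c‖ ^ 2 / X.T w : ℝ) : ℂ) ^ (τ w * I) := ⟨_, fun _ => rfl⟩
  have h1 : ∀ v : Pl → ℝ, (∏ w, ((beta (v w) : ℝ) : ℂ)) *
      ((∏ w, Complex.exp (iT τ w * v w)) * ((√(sS X.a) * ∏ w, √(X.T w * Real.exp (v w)) : ℝ) : ℂ)
        * VL X.a (fun c => conj (xv c6 c n)) (fun w => wtau (τ w))
            (fun w => √(X.T w * Real.exp (v w)))) =
      ∑ c ∈ bx X, k c * ((∏ w, ((beta (v w) : ℝ) : ℂ)) *
        ∏ w, V1 (‖em w c‖ ^ 2 / X.T w * Real.exp (-(v w)))) := by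
    intro v
    by_cases hv : (∏ w, ((beta (v w) : ℝ) : ℂ)) = 0
    · simp [hv]
    have hb : ∀ w, beta (v w) ≠ 0 := fun w =>
      ofReal_ne_zero.1 (Finset.prod_ne_zero_iff.1 hv w (Finset.mem_univ w))
    have h0 : ∀ w, 0 < X.T w * Real.exp (v w) := fun w => mul_pos (h.2 w) (Real.exp_pos _)
    have hsub : box X.a (fun w => 4 * √(X.T w * Real.exp (v w)) ^ 2) ⊆ bx X := fun c hc => by
      obtain ⟨h2, h3, h4⟩ := (mem_box h.1).1 hc
      refine (mem_box h.1).2 ⟨h2, h3, fun w => (h4 w).trans ?_⟩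
      rw [Real.sq_sqrt (h0 w).le]
      nlinarith [(QRH.beta_exp (hb w)).2, h.2 w]
    rw [VL, Finset.mul_sum, Finset.mul_sum, ← Finset.sum_subset hsub]
    · refine Finset.sum_congr rfl fun c hc => ?_
      have hc0 : (c : FF) ≠ 0 := by simpa using ((mem_box h.1).1 hc).1
      have h2 := Finset.prod_congr (s₁ := Finset.univ) rfl fun w _ =>
        ThE_term (h.2 w) (τ w) (v w) (em_ne_zero w hc0)
      rw [Finset.prod_mul_distrib, Finset.prod_mul_distrib,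
        Finset.prod_mul_distrib (g := fun w => V1 _)] at h2
      rw [hk, ofReal_mul, ofReal_prod]
      simp only [iT]
      linear_combination (∏ w, ((beta (v w) : ℝ) : ℂ)) * ic X.a c * conj (xv c6 c n) *
        (Tg c * ((√(sS X.a) : ℝ) / (nm c : ℂ))) * h2
    · intro c hc hc'
      by_contra h2
      obtain ⟨h3, h4, -⟩ := (mem_box h.1).1 hc
      refine hc' ((mem_box h.1).2 ⟨h3, h4, fun w => ?_⟩)
      have h5 := (QRH.V1_supp (Finset.prod_ne_zero_iff.1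
        (right_ne_zero_of_mul (right_ne_zero_of_mul h2)) w (Finset.mem_univ w))).2
      rw [Real.exp_neg, ← div_eq_mul_inv, div_div, div_lt_iff₀ (h0 w)] at h5
      rw [Real.sq_sqrt (h0 w).le]
      exact h5.le
  simp only [h1]
  have h2 : ∀ c : E, Continuous fun v : Pl → ℝ =>
      ∏ w, V1 (‖em w c‖ ^ 2 / X.T w * Real.exp (-(v w))) := fun c =>
    continuous_finsetProd _ fun w _ => (QRH.wt_V1_cont _).comp (continuous_apply w)
  rw [integral_finsetSum _ fun c _ => (integrable_beta_pi (h2 c)).const_mul _, Th]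
  refine Finset.sum_congr rfl fun c _ => ?_
  simp only [← Finset.prod_mul_distrib]
  rw [integral_const_mul, integral_fintype_prod_volume_eq_prod
    (fun w (t : ℝ) => ((beta t : ℝ) : ℂ) * V1 (‖em w c‖ ^ 2 / X.T w * Real.exp (-t))), hk, Kx, ic]
  split_ifs with hc
  · rw [mul_div_assoc, ThE_ang hc]
    simp only [wt, V0, iT, Finset.prod_mul_distrib]
    ring
  · simp

end NQ
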