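import Vale.Agent.NQ.VorL
import Vale.Agent.NQ.Lat
import Vale.Agent.P026.Wt

noncomputable section
namespace NQ
open Complex MeasureTheory NumberField Filter
open scoped ComplexConjugate Classical ContDiff Topology

variable [σ : St]

theorem vor2_nm_ne {q : E} (hq : q ≠ 0) : (nm q : ℂ) ≠ 0 :=
  Nat.cast_ne_zero.2 fun h => hq (nm_eq_zero.1 h)

theorem vor2_zero {b : E → ℂ} {C : ℝ} (hb : ∀ δ, ‖b δ‖ ≤ C * ‖Tg δ‖ / nm δ) : b 0 = 0 := by
  have h := hb 0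
  rwa [nm_zero, Nat.cast_zero, div_zero, norm_le_zero_iff] at h

theorem vor0 (hA : VorA) (hB : VorB) (hC : VorC) (hS : VorS) (hD : VorD) (hE0 : VorE0)
    (hE : VorE) : Vor0 := by
  intro a q0 ha hq0
  obtain ⟨k, hk⟩ := exists_pow_mem_OS a⁻¹
  have hb : ss ^ k ≠ 0 := pow_ne_zero k ss_ne_zero
  have hab : (ss ^ k) ^ 3 / a ∈ OS := by
    rw [← pow_mul, div_eq_mul_inv]
    exact pow_mul_mem_OS hk (by omega)
  generalize ss ^ k = b at hb hab
  obtain ⟨C, δ1, bb, hC0, hδ1, hb1, hb2, hlim⟩ := hD a b q0 ha hb hq0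
  have hk0 := kap_pos
  have hs2 := sS_pos (ss ^ 2)
  have hsb := sS_pos b
  obtain ⟨κ, hκ⟩ : ∃ κ : ℝ, κ = kap * (∏ _v : Pl, (1 / 9 : ℝ)) / sS (ss ^ 2) := ⟨_, rfl⟩
  have hκ0 : 0 < κ := by
    rw [hκ]
    positivity
  refine ⟨κ * C, δ1, fun δ => κ * bb δ, by positivity, hδ1, fun δ => ?_,
    fun δ h => hb2 δ (right_ne_zero_of_mul h), fun q u η w Y hq hη hw hY => ?_⟩
  · rw [norm_mul, norm_real, Real.norm_of_nonneg hκ0.le, mul_assoc, mul_div_assoc]
    exact mul_le_mul_of_nonneg_left (hb1 δ) hκ0.le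
  obtain ⟨β, hβ⟩ := hη
  have hq1 : q ≠ 0 := fun h => hq.ne_zero (by rw [h]; rfl)
  have h : VP a b q u η β w Y := ⟨ha, hb, hab, hq1, by linear_combination hβ, hw, hY⟩
  obtain ⟨g, hg, hg'⟩ := hE a b q u η β w Y h
  have hE1 := hE0 a b q u η β w Y h
  have hqn := vor2_nm_ne hq1
  obtain ⟨T, hT⟩ : ∃ T : ℝ → E → ℂ, ∀ X δ, T X δ = ((∏ v, Y v ^ 2 / X ^ 2 : ℝ) : ℂ) / (nm q : ℂ)
      * ∑' x : E × E, G2 a b q w Y X δ x.1 x.2 := ⟨_, fun _ _ => rfl⟩
  simp only [← hT] at hE1 hg'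
  have h1 : Tendsto (fun X : ℝ => ∑' δ : E, psf (-(η * δ)) q * T X δ) atTop
      (𝓝 (∑' δ : E, bb δ * psf (-(η * δ)) q * ∏ v, Ka (w v) (zd q Y δ v))) := by
    refine tendsto_tsum_of_dominated_convergence (hg.update 0 1) (fun δ => ?_) ?_
    · by_cases h0 : δ = 0
      · subst h0
        simpa [vor2_zero hb1] using hE1.const_mul (psf (-(η * 0)) q)
      · have h2 := (hlim q u η β w Y h hq δ h0).const_mul (psf (-(η * δ)) q)
        simp only [← hT] at h2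
        exact h2.trans (le_of_eq (congrArg 𝓝 (by ring)))
    · have h2 : ∀ᶠ X : ℝ in atTop, ‖T X 0‖ ≤ 1 :=
        hE1.norm.eventually_le_const (by rw [norm_zero]; exact one_pos)
      filter_upwards [h2, eventually_ge_atTop 1] with X hX hX1 δ
      rw [norm_mul, norm_psf, one_mul]
      by_cases h0 : δ = 0
      · rw [h0, Function.update_self]
        exact hX
      · rw [Function.update_of_ne h0]
        exact hg' X hX1 δ h0
  have h3 : (fun X : ℝ => ((kap ^ 2 * sS (ss ^ 2) * sS b : ℝ) : ℂ) * (κ * xv c3 q u) *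
      ∑' δ : E, psf (-(η * δ)) q * T X δ) =ᶠ[atTop]
      fun X : ℝ => Sig a b q u w Y X / ((∏ v, (X ^ 3 / Y v) ^ 2 * X ^ 2 : ℝ) : ℂ) := by
    filter_upwards [eventually_gt_atTop 0] with X hX
    obtain ⟨s1, e1⟩ := hB a b q u η β w Y h X hX
    have s2 := hS a b q u η β w Y h X hX
    have e2 := hC a b q u η β w Y h X hX s1 s2
    have s3 : Summable fun x : E × E × E =>
        psf (-(η * x.1)) q * G2 a b q w Y X x.1 x.2.1 x.2.2 :=
      Summable.of_norm (s2.norm.congr fun x => by rw [norm_mul, norm_psf, one_mul])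
    have e3 : ∑' δ : E, psf (-(η * δ)) q * T X δ =
        ((∏ v, Y v ^ 2 / X ^ 2 : ℝ) : ℂ) / (nm q : ℂ) *
          ∑' x : E × E × E, psf (-(η * x.1)) q * G2 a b q w Y X x.1 x.2.1 x.2.2 := by
      rw [s3.tsum_prod, ← tsum_mul_left]
      refine tsum_congr fun δ => ?_
      rw [hT, mul_left_comm, ← tsum_mul_left]
    have e4 : (∏ v, X ^ 2 * Y v ^ 2) * ∏ v, (X ^ 3 / Y v) ^ 2 / (9 * X ^ 2) =
        (∏ v, (X ^ 3 / Y v) ^ 2 * X ^ 2) * ((∏ v, Y v ^ 2 / X ^ 2) * ∏ _v : Pl, (1 / 9 : ℝ)) := by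
      simp only [← Finset.prod_mul_distrib]
      exact Finset.prod_congr rfl fun v _ => by field_simp
    have e5 : 0 < ∏ v, (X ^ 3 / Y v) ^ 2 * X ^ 2 :=
      Finset.prod_pos fun v _ => by have := hY v; positivity
    have e6 : kap ^ 2 * sS (ss ^ 2) * sS b * κ * (∏ v, Y v ^ 2 / X ^ 2) *
        ∏ v, (X ^ 3 / Y v) ^ 2 * X ^ 2 = (kap * sS b * ∏ v, X ^ 2 * Y v ^ 2) *
          (kap ^ 2 * ∏ v, (X ^ 3 / Y v) ^ 2 / (9 * X ^ 2)) := by
      rw [mul_mul_mul_comm, e4, hκ]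
      field_simp
    have e7 := congrArg ofReal e6
    rw [ofReal_mul, ofReal_mul, ofReal_mul, ofReal_mul (kap * sS b * _)] at e7
    rw [e1, e2, e3, eq_div_iff (ofReal_ne_zero.2 e5.ne')]
    linear_combination (xv c3 q u / (nm q : ℂ) *
      ∑' x : E × E × E, psf (-(η * x.1)) q * G2 a b q w Y X x.1 x.2.1 x.2.2) * e7
  have h4 := tendsto_nhds_unique (hA a b q u η β w Y h) ((h1.const_mul _).congr' h3)
  have h5 := mul_left_cancel₀ (ofReal_ne_zero.2
    (by positivity : kap ^ 2 * sS (ss ^ 2) * sS b ≠ 0)) (h4.trans (mul_assoc _ _ _))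
  rw [h5, mul_comm (κ : ℂ), mul_assoc, ← tsum_mul_left]
  simp only [mul_assoc]

/-- Absolute convergence of the dual sums. -/
theorem summable_dual (hK : KFacts) {b : E → ℂ} {C : ℝ} {δ1 : FF} (hδ : δ1 ≠ 0)
    (hb : ∀ δ, ‖b δ‖ ≤ C * ‖Tg δ‖ / nm δ) (hs : ∀ δ, b δ ≠ 0 → (δ : FF) / δ1 ∈ OS) {D : E → ℂ}
    {M : ℝ} (hD : ∀ δ, ‖D δ‖ ≤ M) {w : Pl → ℂ → ℂ} (hw : ∀ v, Adm (w v)) {q : E} (hq : q ≠ 0)
    {Y : Pl → ℝ} (hY : ∀ v, 0 < Y v) :
    Summable fun δ : E => b δ * D δ * ∏ v, Ka (w v) (zd q Y δ v) := by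
  obtain ⟨n, C1, -, h1⟩ := hK.1 3
  choose W _ hW using fun v => (hw v).exists_DB n
  have hb' : ∀ δ, ‖b δ‖ ≤ |C| := fun δ => by
    by_cases h0 : δ = 0
    · rw [h0, vor2_zero hb, norm_zero]
      exact abs_nonneg _
    have h2 := one_le_nmR h0
    have h3 : ‖Tg δ‖ ≤ nm δ :=
      (norm_Tg_le h0).trans (Real.rpow_le_self_of_one_le h2 (by norm_num))
    refine (hb δ).trans ?_
    rw [div_le_iff₀ (by linarith)]
    exact mul_le_mul (le_abs_self C) h3 (norm_nonneg _) (abs_nonneg _)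
  have h4 : ∀ v, (Y v : ℂ) / em v q ^ 2 ≠ 0 := fun v => div_ne_zero (ofReal_ne_zero.2 (hY v).ne')
    (pow_ne_zero _ (em_ne_zero v fun h => hq (Subtype.ext h)))
  have h5 := summable_shift_decay (β := 3) (by norm_num) hδ _ (fun _ => 0) h4
  refine Summable.of_norm_bounded (h5.mul_left (|C| * M * ∏ v, C1 * W v)) fun δ => ?_
  have hM := (norm_nonneg _).trans (hD 0)
  have h6 : ‖∏ v, Ka (w v) (zd q Y δ v)‖ ≤ (∏ v, C1 * W v) *
      ∏ v, (1 + ‖(Y v : ℂ) / em v q ^ 2 * em v δ + 0‖) ^ (-3 : ℝ) := by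
    rw [norm_prod, ← Finset.prod_mul_distrib]
    refine Finset.prod_le_prod (fun v _ => norm_nonneg _) fun v _ => ?_
    have e : (Y v : ℂ) / em v q ^ 2 * em v δ + 0 = zd q Y δ v := by
      rw [zd]
      ring
    rw [e]
    exact_mod_cast h1 (w v) (W v) (hw v) (hW v) (zd q Y δ v)
  split_ifs with h0
  · rw [norm_mul, norm_mul, mul_assoc (|C| * M)]
    exact mul_le_mul (mul_le_mul (hb' δ) (hD δ) (norm_nonneg _) (abs_nonneg _)) h6
      (norm_nonneg _) (by positivity)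
  · rw [not_not.1 fun h => h0 (hs δ h)]
    simp

theorem vor2 (h0 : Vor0) (hK : KFacts) : Vor2 := by
  intro a q0 ha hq0
  obtain ⟨C, δ1, bb, hC0, hδ1, hb1, hb2, key⟩ := h0 a q0 ha hq0
  refine ⟨C, δ1, bb, hC0, hδ1, hb1, hb2, fun q f w Y hq hf hw hY => ?_⟩
  have hq1 : q ≠ 0 := fun h => hq.ne_zero (by rw [h]; rfl)
  have e3 : VL a f w Y = ∑ u ∈ reps q, fh q f u * VL a (fun c => psf (c * u) q) w Y := by
    simp only [VL, Finset.mul_sum]
    rw [Finset.sum_comm]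
    refine Finset.sum_congr rfl fun c _ => ?_
    have h1 : f c = ∑ u ∈ reps q, fh q f u * psf (c * u) q := by
      refine mul_left_cancel₀ (vor2_nm_ne hq1) ?_
      rw [fourier_inv hq1 hf.1, rsum, Finset.mul_sum]
      refine Finset.sum_congr rfl fun u _ => ?_
      rw [fh, ← mul_assoc, mul_inv_cancel_left₀ (vor2_nm_ne hq1)]
    rw [h1, Finset.mul_sum, Finset.sum_mul]
    exact Finset.sum_congr rfl fun u _ => by ring
  have s3 := fun u => summable_dual hK hδ1 hb1 hb2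
    (D := fun δ => fh q f u * xv c3 q u * psf (-(inv q u * δ)) q)
    (fun δ => (by rw [norm_mul, norm_psf, mul_one] : _ = ‖fh q f u * xv c3 q u‖).le) hw hq1 hY
  rw [e3]
  calc _ = ∑ u ∈ reps q, ∑' δ : E, bb δ * (fh q f u * xv c3 q u * psf (-(inv q u * δ)) q) *
        ∏ v, Ka (w v) (zd q Y δ v) := by
        refine Finset.sum_congr rfl fun u _ => ?_
        by_cases hu : IsCoprime u q
        · rw [key q u _ w Y hq (inv_spec hu) hw hY, ← mul_assoc, ← tsum_mul_left]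
          exact tsum_congr fun δ => by ring
        · simp [hf.2 u hu]
    _ = _ := by
        rw [← Summable.tsum_finsetSum fun u _ => s3 u]
        refine tsum_congr fun δ => ?_
        rw [Dq, rsum, Finset.mul_sum, Finset.sum_mul]

end NQ
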