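import Vale.Agent.NQ.VBc
import Vale.Agent.NQ.Vor2
import Vale.Agent.NQ.ThE

noncomputable section
namespace NQ
open Complex MeasureTheory NumberField Filter
open scoped ComplexConjugate Classical ContDiff Topology

theorem vb0_exp_half {y : ℝ} (hy : 0 < y) (v : ℝ) :
    Real.exp ((v + Real.log y) / 2) = √(y * Real.exp v) := by
  rw [Real.exp_half, Real.exp_add, Real.exp_log hy, mul_comm]

theorem vb0_lower {y b v : ℝ} (hy : 0 ≤ y) (hb : 0 < b) (hv : 1 < Real.exp v) :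
    y / (√b)⁻¹ ≤ Real.exp ((v + Real.log (y ^ 2 * b)) / 2) := by
  rcases hy.eq_or_lt with h | h
  · rw [← h, zero_div]
    exact (Real.exp_pos _).le
  have h2 : 0 < y ^ 2 * b := by positivity
  rw [vb0_exp_half h2, div_inv_eq_mul]
  refine Real.le_sqrt_of_sq_le ?_
  rw [mul_pow, Real.sq_sqrt hb.le]
  exact le_mul_of_one_le_right h2.le hv.le

theorem vb0_factor {G : ℝ → ℂ} {s : ℂ} {W y b v : ℝ} (hs : s.re = 1 / 2)
    (hGb : ∀ v, ‖G v‖ ≤ W * (1 + Real.exp (v / 2)) ^ (-6 : ℝ)) (hy : 0 ≤ y) (hb : 0 < b)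
    (h0 : beta v ≠ 0) :
    ‖Complex.exp (s * v) * G (v + Real.log (y ^ 2 * b))‖
      ≤ 2 * W * (1 + y / (√b)⁻¹) ^ (-6 : ℝ) := by
  have hW : 0 ≤ W := nonneg_of_mul_nonneg_left ((norm_nonneg _).trans (hGb 0)) (by positivity)
  obtain ⟨h1, h4⟩ := QRH.beta_exp h0
  have e1 : ‖Complex.exp (s * v)‖ ≤ 2 := by
    rw [Complex.norm_exp, Complex.mul_re, Complex.ofReal_re, Complex.ofReal_im, mul_zero, sub_zero,
      hs, one_div, inv_mul_eq_div, Real.exp_half]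
    exact Real.sqrt_le_iff.2 ⟨by norm_num, by linarith⟩
  have e2 : ‖G (v + Real.log (y ^ 2 * b))‖ ≤ W * (1 + y / (√b)⁻¹) ^ (-6 : ℝ) :=
    (hGb _).trans (mul_le_mul_of_nonneg_left (Real.rpow_le_rpow_of_nonpos (by positivity)
      (by linarith [vb0_lower hy hb h1]) (by norm_num)) hW)
  rw [norm_mul, mul_assoc]
  exact mul_le_mul e1 e2 (norm_nonneg _) (by norm_num)

theorem vb0_exp {X : ℝ} (hX : 0 < X) (τ v : ℝ) :
    Complex.exp (τ * I * v) * (√(X * Real.exp v) : ℝ) =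
      (√X : ℝ) * Complex.exp ((1 / 2 + τ * I) * v) := by
  rw [Real.sqrt_mul hX.le, ← Real.exp_half, add_mul, Complex.exp_add]
  push_cast
  rw [show (1 / 2 : ℂ) * v = v / 2 by ring]
  ring

theorem vb0_norm_ang {z : ℂ} (hz : z ≠ 0) : ‖z / (‖z‖ : ℝ)‖ = 1 := by
  rw [norm_div, Complex.norm_real, norm_norm, div_self (norm_ne_zero_iff.2 hz)]

theorem vb0_zd (h4 : KFacts) {w : ℂ → ℂ} (hw : Adm w) {δ D : ℂ} (hδ : δ ≠ 0) (hD : D ≠ 0) {X : ℝ}
    (hX : 0 < X) (v : ℝ) :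
    Ka w (δ * (√(X * Real.exp v) : ℝ) / D ^ 2) =
      conj (δ / (‖δ‖ : ℝ)) * (D / (‖D‖ : ℝ)) ^ 2 *
        Ka w (Real.exp ((v + Real.log (‖δ‖ ^ 2 * (X / ‖D‖ ^ 4))) / 2) : ℝ) := by
  have h1 : 0 < ‖δ‖ := norm_pos_iff.2 hδ
  have h2 : 0 < ‖D‖ := norm_pos_iff.2 hD
  have n1 : ((‖δ‖ : ℝ) : ℂ) ≠ 0 := Complex.ofReal_ne_zero.2 h1.ne'
  have n2 : ((‖D‖ : ℝ) : ℂ) ≠ 0 := Complex.ofReal_ne_zero.2 h2.ne'
  have e0 : (D / (‖D‖ : ℝ)) ^ 2 = conj (((D / (‖D‖ : ℝ)) ^ 2)⁻¹) := by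
    have h3 : ‖(D / (‖D‖ : ℝ)) ^ 2‖ = 1 := by rw [norm_pow, vb0_norm_ang hD, one_pow]
    rw [Complex.inv_eq_conj h3, Complex.conj_conj]
  rw [e0, ← map_mul, ← h4.2.1 w _ _ hw
    (by rw [norm_mul, norm_inv, norm_pow, vb0_norm_ang hδ, vb0_norm_ang hD]; simp),
    vb0_exp_half (by positivity)]
  congr 1
  have e : √(‖δ‖ ^ 2 * (X / ‖D‖ ^ 4) * Real.exp v) = ‖δ‖ * √(X * Real.exp v) / ‖D‖ ^ 2 := by
    rw [Real.sqrt_eq_iff_mul_self_eq (by positivity) (by positivity)]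
    have h5 := Real.mul_self_sqrt (show 0 ≤ X * Real.exp v by positivity)
    field_simp
    rw [sq, h5]
  rw [e]
  push_cast
  field_simp

variable [σ : St]

theorem vb0_hasSum {ι : Type} (J : Finset ι) {G : Pl → ℝ → ℂ} {s : Pl → ℂ} {W : Pl → ℝ} {A : ℝ}
    {δ1 : FF} (hδ1 : δ1 ≠ 0) (κ : ι → E → ℂ) (b : ι → Pl → ℝ) (hs : ∀ w, (s w).re = 1 / 2)
    (hG : ∀ w, Continuous (G w))
    (hGb : ∀ w v, ‖G w v‖ ≤ W w * (1 + Real.exp (v / 2)) ^ (-6 : ℝ))
    (hκ : ∀ j ∈ J, ∀ δ, ‖κ j δ‖ ≤ A) (hκs : ∀ j ∈ J, ∀ δ, κ j δ ≠ 0 → (δ : FF) / δ1 ∈ OS)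
    (hb : ∀ j ∈ J, ∀ w, 0 < b j w) :
    HasSum (fun δ : E => ∑ j ∈ J, κ j δ *
        ∏ w, sm (s w) (G w) (Real.log (‖em w δ‖ ^ 2 * b j w)))
      (∫ v : Pl → ℝ, ∑ j ∈ J, ∑' δ : E, κ j δ * ((∏ w, ((beta (v w) : ℝ) : ℂ)) *
        ∏ w, Complex.exp (s w * v w) * G w (v w + Real.log (‖em w δ‖ ^ 2 * b j w)))) := by
  have hW : ∀ w, 0 ≤ W w := fun w =>
    nonneg_of_mul_nonneg_left ((norm_nonneg _).trans (hGb w 0)) (by positivity)
  obtain ⟨C, -, hC⟩ := lat_decay (β := 6) (by norm_num)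
  obtain ⟨m, hm⟩ : ∃ m : ι → E → ℝ, m = fun j (δ : E) => A * ((∏ w, 2 * W w) *
    if (δ : FF) / δ1 ∈ OS then ∏ w, (1 + ‖em w δ‖ / (√(b j w))⁻¹) ^ (-6 : ℝ) else 0) := ⟨_, rfl⟩
  have hms : ∀ j ∈ J, Summable (m j) := fun j hj => by
    rw [hm]
    exact ((hC δ1 (fun w => (√(b j w))⁻¹) hδ1
      fun w => inv_pos.2 (Real.sqrt_pos.2 (hb j hj w))).1.mul_left _).mul_left A
  obtain ⟨F, hF⟩ : ∃ F : ι → E → (Pl → ℝ) → ℂ, F = fun j (δ : E) v => κ j δ *
    ((∏ w, ((beta (v w) : ℝ) : ℂ)) *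
      ∏ w, Complex.exp (s w * v w) * G w (v w + Real.log (‖em w δ‖ ^ 2 * b j w))) := ⟨_, rfl⟩
  have hle : ∀ j ∈ J, ∀ (δ : E) (v : Pl → ℝ), ‖F j δ v‖ ≤ (∏ w, beta (v w)) * m j δ := by
    intro j hj δ v
    have hA := (norm_nonneg _).trans (hκ j hj δ)
    have hβ : 0 ≤ ∏ w, beta (v w) := Finset.prod_nonneg fun w _ => QRH.beta_nonneg _
    have hW2 : 0 ≤ ∏ w, 2 * W w := Finset.prod_nonneg fun w _ => by have := hW w; positivity
    by_cases h0 : ∏ w, beta (v w) = 0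
    · rw [hF]
      beta_reduce
      rw [← Complex.ofReal_prod, h0]
      simp
    by_cases hk : κ j δ = 0
    · rw [hF, hm]
      beta_reduce
      rw [hk, zero_mul, norm_zero]
      have : 0 ≤ if (δ : FF) / δ1 ∈ OS then ∏ w, (1 + ‖em w δ‖ / (√(b j w))⁻¹) ^ (-6 : ℝ) else 0 := by
        split_ifs
        · exact Finset.prod_nonneg fun w _ => by positivity
        · exact le_rfl
      positivity
    have h1 : ∀ w, beta (v w) ≠ 0 := fun w h =>
      h0 (Finset.prod_eq_zero (Finset.mem_univ w) h)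
    have e2 : ‖∏ w, Complex.exp (s w * v w) * G w (v w + Real.log (‖em w δ‖ ^ 2 * b j w))‖ ≤
        (∏ w, 2 * W w) * ∏ w, (1 + ‖em w δ‖ / (√(b j w))⁻¹) ^ (-6 : ℝ) := by
      rw [norm_prod, ← Finset.prod_mul_distrib]
      exact Finset.prod_le_prod (fun w _ => norm_nonneg _) fun w _ =>
        vb0_factor (hs w) (hGb w) (norm_nonneg _) (hb j hj w) (h1 w)
    rw [hF, hm]
    beta_reduce
    rw [if_pos (hκs j hj δ hk), norm_mul, norm_mul, ← Complex.ofReal_prod, Complex.norm_real,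
      Real.norm_of_nonneg hβ]
    calc _ ≤ A * ((∏ w, beta (v w)) * ((∏ w, 2 * W w) *
          ∏ w, (1 + ‖em w δ‖ / (√(b j w))⁻¹) ^ (-6 : ℝ))) :=
          mul_le_mul (hκ j hj δ) (mul_le_mul_of_nonneg_left e2 hβ) (by positivity) hA
      _ = _ := by ring
  have hint : ∀ (j : ι) (δ : E), Integrable (F j δ) := fun j δ => by
    rw [hF]
    refine Integrable.const_mul (integrable_beta_pi ?_) _
    refine continuous_finsetProd _ fun w _ => ?_
    have := hG w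
    fun_prop
  have hβi : Integrable fun v : Pl → ℝ => ∏ w, beta (v w) :=
    Integrable.fintype_prod (f := fun (_ : Pl) => beta) fun _ => QRH.integrable_beta
  have key := hasSum_integral_of_summable_integral_norm (μ := volume)
    (F := fun (δ : E) (v : Pl → ℝ) => ∑ j ∈ J, F j δ v)
    (fun δ => integrable_finsetSum _ fun j _ => hint j δ) (by
      refine Summable.of_nonneg_of_le (fun δ => integral_nonneg fun v => norm_nonneg _)
        (fun δ => ?_) ((summable_sum hms).mul_left (∫ v : Pl → ℝ, ∏ w, beta (v w)))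
      rw [← integral_mul_const]
      refine integral_mono_of_nonneg (Eventually.of_forall fun v => norm_nonneg _)
        (hβi.mul_const _) (Eventually.of_forall fun v => ?_)
      beta_reduce
      rw [Finset.mul_sum]
      exact (norm_sum_le _ _).trans (Finset.sum_le_sum fun j hj => hle j hj δ v))
  have e1 : ∀ δ : E, (∫ v : Pl → ℝ, ∑ j ∈ J, F j δ v) =
      ∑ j ∈ J, κ j δ * ∏ w, sm (s w) (G w) (Real.log (‖em w δ‖ ^ 2 * b j w)) := fun δ => by
    rw [integral_finsetSum _ fun j _ => hint j δ]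
    refine Finset.sum_congr rfl fun j _ => ?_
    rw [prod_sm s G fun w => Real.log (‖em w δ‖ ^ 2 * b j w), hF]
    exact integral_const_mul _ _
  have e2 : ∀ v : Pl → ℝ, (∑' δ : E, ∑ j ∈ J, F j δ v) = ∑ j ∈ J, ∑' δ : E, F j δ v := fun v =>
    Summable.tsum_finsetSum fun j hj =>
      Summable.of_norm_bounded ((hms j hj).mul_left (∏ w, beta (v w))) fun δ => hle j hj δ v
  simp only [e1, e2] at key
  rw [hF] at key
  exact key

theorem vb0_norm_ang_le (x : FF) : ‖ang x‖ ≤ 1 := by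
  by_cases h : x = 0
  · rw [h, ang, norm_prod]
    exact Finset.prod_le_one (fun w _ => norm_nonneg _) fun w _ => by simp
  · exact (norm_ang h).le

theorem vb0_phi_le (r : Finset P) (δ : E) :
    ‖Tg δ‖ / nm δ * √(Ns (fac δ ∩ r)) ≤ √(Ns r) := by
  by_cases hδ : δ = 0
  · rw [hδ, nm_zero, Nat.cast_zero, div_zero, zero_mul]
    exact Real.sqrt_nonneg _
  have h1 := one_le_nmR hδ
  have h2 : ‖Tg δ‖ / nm δ ≤ 1 := by
    rw [div_le_one (by linarith)]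
    exact (norm_Tg_le hδ).trans (Real.rpow_le_self_of_one_le h1 (by norm_num))
  exact (mul_le_of_le_one_left (Real.sqrt_nonneg _) h2).trans
    (Real.sqrt_le_sqrt (Ns_mono Finset.inter_subset_right))

/-- The theta sum as a limit of finite dual sums. -/
theorem vb0_limit (h4 : KFacts) {n : E} {X : Sc} (hX : X.OK) {τ W : Pl → ℝ} {C : ℝ} {δ1 : FF}
    (hδ1 : δ1 ≠ 0) {ρ t : Finset P} {J : Finset (Finset P)} {q : Finset P → E}
    {x : Finset P → E → ℂ} {e : Finset P → ℂ} (hC : 0 ≤ C)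
    (hW : ∀ w z, ‖Ka (wtau (τ w)) z‖ ≤ W w * (1 + ‖z‖) ^ (-6 : ℝ))
    (hj : ∀ j ∈ J, q j ≠ 0 ∧ ∀ δ, ‖x j δ‖ ≤ ‖Tg δ‖ / nm δ * √(Ns (fac δ ∩ ρ)) ∧
      (x j δ ≠ 0 → (δ : FF) / δ1 ∈ OS)) (he : ∀ j, ‖e j‖ ≤ 1)
    (hV : ∀ Y : Pl → ℝ, (∀ w, 0 < Y w) →
      VL X.a (fun c => conj (xv c6 c n)) (fun w => wtau (τ w)) Y
        = ∑ j ∈ J, e j * ∑' δ : E, C * x j δ * xs c2 t δ *
          ∏ w, Ka (wtau (τ w)) (zd (q j) Y δ w)) :
    ∃ F : Finset E → ℂ, Tendsto F atTop (𝓝 (Th n X (iT τ))) ∧ ∀ T, ‖F T‖ ^ 2 ≤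
      J.card * (C ^ 2 * X.sz) * ∑ j ∈ J, ‖∑ δ ∈ T, x j δ * conj (ang δ) * xs c2 t δ *
          ∏ w, sm (1 / 2 + τ w * I) (fun v => Ka (wtau (τ w)) (Real.exp (v / 2) : ℝ))
            (Real.log (‖em w δ‖ ^ 2 * (X.T w / ‖em w (q j)‖ ^ 4)))‖ ^ 2 := by
  have hw := fun w => QRH.adm_wtau (τ w)
  have hq : ∀ j ∈ J, ((q j : E) : FF) ≠ 0 := fun j h => by
    have := (hj j h).1
    exact_mod_cast this
  obtain ⟨η, hη⟩ : ∃ η : Finset P → ℂ, η = fun j =>
    ((√(sS X.a) * ∏ w, √(X.T w) : ℝ) : ℂ) * e j * C * ang (q j) ^ 2 := ⟨_, rfl⟩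
  have hsq : √(sS X.a) * ∏ w, √(X.T w) = √X.sz := by
    rw [Sc.sz, Real.sqrt_mul (sS_pos _).le, Real.sqrt_prod _ fun w _ => (hX.2 w).le]
  have hη1 : ∀ j ∈ J, ‖η j‖ ≤ C * √X.sz := fun j h => by
    rw [hη]
    beta_reduce
    rw [hsq, norm_mul, norm_mul, norm_mul, norm_pow, norm_ang (hq j h), one_pow, mul_one,
      Complex.norm_real, Complex.norm_real, Real.norm_of_nonneg (Real.sqrt_nonneg _),
      Real.norm_of_nonneg hC, mul_comm]
    exact mul_le_mul_of_nonneg_left (mul_le_of_le_one_right (Real.sqrt_nonneg _) (he j)) hC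
  have hG : ∀ w, Continuous fun v : ℝ => Ka (wtau (τ w)) (Real.exp (v / 2) : ℝ) := fun w =>
    (h4.2.2 _ (hw w)).comp_continuous (by fun_prop)
      fun v => Complex.ofReal_ne_zero.2 (Real.exp_pos _).ne'
  have hs := vb0_hasSum J (s := fun w => 1 / 2 + τ w * I) (W := W) (A := C * √X.sz * √(Ns ρ)) hδ1
    (fun j δ => η j * (x j δ * conj (ang δ) * xs c2 t δ))
    (fun j w => X.T w / ‖em w (q j)‖ ^ 4) (fun w => by simp) hG
    (fun w v => by
      have := hW w (Real.exp (v / 2) : ℝ)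
      rwa [Complex.norm_real, Real.norm_of_nonneg (Real.exp_pos _).le] at this)
    (fun j h δ => by
      rw [norm_mul]
      refine mul_le_mul (hη1 j h) ?_ (norm_nonneg _) (by positivity)
      rw [norm_mul, norm_mul, Complex.norm_conj]
      exact (mul_le_of_le_one_right (by positivity) (norm_xs_le ch_c2 _ _)).trans
        ((mul_le_of_le_one_right (norm_nonneg _) (vb0_norm_ang_le _)).trans
          (((hj j h).2 δ).1.trans (vb0_phi_le ρ δ))))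
    (fun j h δ h0 => ((hj j h).2 δ).2
      (left_ne_zero_of_mul (left_ne_zero_of_mul (right_ne_zero_of_mul h0))))
    (fun j h w => div_pos (hX.2 w) (pow_pos (norm_pos_iff.2 (em_ne_zero w (hq j h))) 4))
  refine ⟨_, Tendsto.mono_right hs (le_of_eq (congrArg 𝓝 (Eq.symm ?_))), fun T => ?_⟩
  · rw [Th_eq n hX τ]
    refine integral_congr_ae (Eventually.of_forall fun v => ?_)
    beta_reduce
    have hT := hX.2
    rw [hV _ fun w => Real.sqrt_pos.2 (mul_pos (hT w) (Real.exp_pos _)), Finset.mul_sum,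
      Finset.mul_sum]
    refine Finset.sum_congr rfl fun j h => ?_
    rw [← tsum_mul_left, ← tsum_mul_left, ← tsum_mul_left]
    refine tsum_congr fun δ => ?_
    by_cases h0 : δ = 0
    · have h1 : x j δ = 0 := by
        have h2 := ((hj j h).2 δ).1
        rw [h0, nm_zero, Nat.cast_zero, div_zero, zero_mul] at h2
        rw [h0]
        exact norm_le_zero_iff.1 h2
      rw [h1]
      simp
    have h0' : (δ : FF) ≠ 0 := by exact_mod_cast h0
    have e1 : ∏ w, Ka (wtau (τ w)) (zd (q j) (fun w => √(X.T w * Real.exp (v w))) δ w) =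
        conj (ang δ) * ang (q j) ^ 2 * ∏ w, Ka (wtau (τ w))
          (Real.exp ((v w + Real.log (‖em w δ‖ ^ 2 * (X.T w / ‖em w (q j)‖ ^ 4))) / 2) : ℝ) := by
      rw [ang, ang, map_prod, ← Finset.prod_pow, ← Finset.prod_mul_distrib,
        ← Finset.prod_mul_distrib]
      exact Finset.prod_congr rfl fun w _ =>
        vb0_zd h4 (hw w) (em_ne_zero w h0') (em_ne_zero w (hq j h)) (hT w) (v w)
    have e2 : (∏ w, Complex.exp (iT τ w * v w)) *
        ((√(sS X.a) * ∏ w, √(X.T w * Real.exp (v w)) : ℝ) : ℂ) =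
        ((√(sS X.a) * ∏ w, √(X.T w) : ℝ) : ℂ) * ∏ w, Complex.exp ((1 / 2 + τ w * I) * v w) := by
      rw [Complex.ofReal_mul, Complex.ofReal_mul, Complex.ofReal_prod, Complex.ofReal_prod,
        mul_left_comm, mul_assoc, ← Finset.prod_mul_distrib, ← Finset.prod_mul_distrib]
      congr 1
      exact Finset.prod_congr rfl fun w _ => vb0_exp (hT w) (τ w) (v w)
    rw [e1, e2, hη, Finset.prod_mul_distrib]
    ring
  · rw [Finset.sum_comm]
    refine (norm_sum_sq_le _ _).trans ?_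
    rw [mul_assoc (J.card : ℝ), Finset.mul_sum J _ (C ^ 2 * X.sz)]
    refine mul_le_mul_of_nonneg_left (Finset.sum_le_sum fun j h => ?_) (Nat.cast_nonneg _)
    simp only [mul_assoc (η j)]
    rw [← Finset.mul_sum, norm_mul, mul_pow]
    refine mul_le_mul_of_nonneg_right ?_ (sq_nonneg _)
    refine (pow_le_pow_left₀ (norm_nonneg _) (hη1 j h) 2).trans_eq ?_
    rw [mul_pow, Real.sq_sqrt hX.sz_pos.le]

end NQ
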