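import Vale.Agent.NQ.VBc
import Vale.Agent.NQ.Vor2
import Vale.Agent.NQ.ThE
import Vale.Agent.NQ.VB0a

noncomputable section
namespace NQ
open Complex MeasureTheory NumberField Filter
open scoped ComplexConjugate Classical ContDiff Topology

theorem vb0_num {K K0 S N y T θ : ℝ} (hK : 1 ≤ K) (hK0 : 1 ≤ K0) (hS : 0 < S) (hN : 0 < N)
    (hθ : 0 ≤ θ) (hy : 0 < y) (hy2 : y ^ 2 ≤ K0 * N ^ θ) (hT : S ^ θ / K ≤ T) :
    (K * K0 ^ 2 * (1 + N ^ 2 / S) ^ θ)⁻¹ ≤ T / y ^ 4 := by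
  have h1 : y ^ 4 ≤ K0 ^ 2 * (N ^ 2) ^ θ := by
    have h2 : (N ^ 2) ^ θ = (N ^ θ) ^ 2 := by
      rw [sq, sq, Real.mul_rpow hN.le hN.le]
    calc y ^ 4 = (y ^ 2) ^ 2 := by ring
      _ ≤ (K0 * N ^ θ) ^ 2 := pow_le_pow_left₀ (sq_nonneg _) hy2 2
      _ = _ := by rw [h2]; ring
  have h3 : (N ^ 2) ^ θ ≤ (1 + N ^ 2 / S) ^ θ * S ^ θ := by
    rw [← Real.mul_rpow (by positivity) hS.le]
    refine Real.rpow_le_rpow (sq_nonneg _) ?_ hθ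
    rw [add_mul, div_mul_cancel₀ _ hS.ne']
    linarith
  have h4 : S ^ θ ≤ K * T := by rwa [div_le_iff₀' (by linarith)] at hT
  have h5 : 0 < (1 + N ^ 2 / S) ^ θ := by positivity
  rw [inv_eq_one_div, div_le_div_iff₀ (by positivity) (by positivity), one_mul]
  calc y ^ 4 ≤ K0 ^ 2 * ((1 + N ^ 2 / S) ^ θ * S ^ θ) :=
        h1.trans (mul_le_mul_of_nonneg_left h3 (sq_nonneg _))
    _ ≤ K0 ^ 2 * ((1 + N ^ 2 / S) ^ θ * (K * T)) := by gcongr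
    _ = _ := by ring

variable [σ : St]

theorem vb0_gen : ∃ (T0 : Finset FF) (K0 : ℝ) (q : Finset P → E) (q0 : Finset P → FF), 1 ≤ K0 ∧
    (∀ a ∈ T0, a ≠ 0) ∧ ∀ s, Associated (q s) (pr s) ∧ q0 s ∈ T0 ∧ Cl (q0 s) (q s) ∧
      ∀ w, ‖em w (q s)‖ ^ 2 ≤ K0 * Ns s ^ (1 / rk : ℝ) := by
  obtain ⟨T0, K0, hK0, hT0, hbal⟩ := exists_bal
  choose e a ha hcl hsz using fun s => hbal (pr s) (pr_ne_zero s)
  refine ⟨T0, K0, fun s => e s ^ 6 * pr s, a, hK0, fun b hb => (hT0 b hb).1,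
    fun s => ⟨?_, ha s, hcl s, fun w => (hsz s w).2⟩⟩
  exact associated_unit_mul_left _ _ ((e s).isUnit.pow 6)

theorem vb0_core (h1 : VorT) (h2 : VBc) (h4 : KFacts) : ∃ B : ℕ, ∀ ε : ℝ, 0 < ε →
    ∀ (a0 : FF) (K : ℝ), a0 ≠ 0 → 1 ≤ K → ∃ C : ℝ, 0 < C ∧
    ∀ (Z M : ℝ) (X : Sc) (τ : Pl → ℝ) (ρ : E), X.OK → X.a = a0 →
      (∀ w, X.sz ^ (1 / rk : ℝ) / K ≤ X.T w) → 1 ≤ X.sz → X.sz ≤ Z → 1 ≤ M → M ≤ Z → ρ ≠ 0 →
      Rr ρ ≤ Z → ∑ t ∈ sqf M with Disjoint t (fac ρ), ‖Th (pr t * ρ) X (iT τ)‖ ^ 2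
        ≤ C * Z ^ ε * Tb (iT τ) ^ B * (X.sz * M + (M * Rr ρ) ^ 2) := by
  obtain ⟨n, Ck, hCk, hK⟩ := h4.1 6
  obtain ⟨Cw, hCw, hw⟩ := QRH.db_wtau n
  refine ⟨2 * n, fun ε hε a0 K ha0 hK1 => ?_⟩
  obtain ⟨T0, K0, q, q0, hK0, hT0, hq⟩ := vb0_gen
  obtain ⟨C1, δ1, hC1, hδ1, hT⟩ := h1 a0 T0 ha0 hT0
  obtain ⟨ε1, hε1⟩ : ∃ ε1, ε1 = ε / 5 := ⟨_, rfl⟩
  have he0 : 0 < ε1 := by rw [hε1]; positivity
  obtain ⟨Cc, hCc, hcore⟩ := h2 δ1 ε1 hδ1 he0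
  obtain ⟨C5, hC5, hcard⟩ := pow_card_le (A := 4) (by norm_num) he0
  obtain ⟨K1, hK1e⟩ : ∃ K1, K1 = K * K0 ^ 2 := ⟨_, rfl⟩
  have hK11 : 1 ≤ K1 := by
    rw [hK1e]
    exact one_le_mul_of_one_le_of_one_le hK1 (one_le_pow₀ hK0)
  refine ⟨C5 * C1 ^ 2 * (T0.card + 1) * (Cc * (2 * K1) ^ ε1 * ((Ck * Cw) ^ rk) ^ 2) * (1 + K1 ^ rk),
    by positivity, ?_⟩
  intro Z M X τ ρ hX hXa hXT hS hSZ hM hMZ hρ hR
  obtain ⟨B, hB, hV⟩ := hT ρ hρ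
  have hZ : 1 ≤ Z := hS.trans hSZ
  have hS0 : 0 < X.sz := by linarith
  have hR1 := one_le_Rr ρ
  have hθ : (0 : ℝ) ≤ 1 / rk := by positivity
  have hθ1 : (1 / rk : ℝ) ≤ 1 := by
    have : (1 : ℝ) ≤ rk := by exact_mod_cast rk_pos
    exact div_le_one_of_le₀ this (by linarith)
  obtain ⟨y, hy⟩ : ∃ y, y = 1 + (M * Rr ρ) ^ 2 / X.sz := ⟨_, rfl⟩
  have hy1 : 1 ≤ y := by rw [hy]; exact le_add_of_nonneg_right (by positivity)
  obtain ⟨Δ, hΔ⟩ : ∃ Δ, Δ = K1 * y ^ (1 / rk : ℝ) := ⟨_, rfl⟩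
  have hΔ1 : 1 ≤ Δ := by
    rw [hΔ]
    exact one_le_mul_of_one_le_of_one_le hK11 (Real.one_le_rpow hy1 hθ)
  have hΔr : Δ ^ rk = K1 ^ rk * y := by rw [hΔ, mul_pow, rpow_rk (by linarith)]
  have hZ4 : Z ≤ Z ^ 4 := le_self_pow₀ hZ (by norm_num)
  have hyZ : y ≤ 2 * Z ^ 4 := by
    have b1 : (M * Rr ρ) ^ 2 / X.sz ≤ (Z * Z) ^ 2 :=
      (div_le_self (by positivity) hS).trans (by gcongr)
    have b2 : (Z * Z) ^ 2 = Z ^ 4 := by ring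
    rw [hy]
    linarith
  have hZ1 : Z ≤ 2 * K1 * Z ^ 4 :=
    hZ4.trans (le_mul_of_one_le_left (by positivity) (by linarith))
  have hΔZ : Δ ≤ 2 * K1 * Z ^ 4 := by
    have b1 : y ^ (1 / rk : ℝ) ≤ y := Real.rpow_le_self_of_one_le hy1 hθ1
    rw [hΔ]
    calc _ ≤ K1 * (2 * Z ^ 4) := mul_le_mul_of_nonneg_left (b1.trans hyZ) (by linarith)
      _ = _ := by ring
  obtain ⟨W, hWe⟩ : ∃ W : Pl → ℝ, W = fun w => Ck * (Cw * (1 + |τ w|) ^ n) := ⟨_, rfl⟩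
  have hW : ∀ w z, ‖Ka (wtau (τ w)) z‖ ≤ W w * (1 + ‖z‖) ^ (-6 : ℝ) := fun w z => by
    have := hK _ _ (QRH.adm_wtau (τ w)) (hw (τ w)) z
    rw [hWe]
    exact_mod_cast this
  have hC1' : (C1 : ℂ) ≠ 0 := Complex.ofReal_ne_zero.2 hC1.ne'
  have hx : ∀ r ⊆ fac ρ, ∀ a ∈ T0, ∀ δ : E,
      ‖B r a δ / C1‖ ≤ ‖Tg δ‖ / nm δ * √(Ns (fac δ ∩ fac ρ)) ∧
        (B r a δ / C1 ≠ 0 → (δ : FF) / δ1 ∈ OS) := fun r hr a ha δ => by
    refine ⟨?_, fun h => (hB r hr a ha δ).2 (left_ne_zero_of_mul h)⟩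
    rw [norm_div, Complex.norm_real, Real.norm_of_nonneg hC1.le, div_le_iff₀ hC1]
    exact (hB r hr a ha δ).1.trans_eq (by ring)
  have hq0 : ∀ s, q s ≠ 0 := fun s => (hq s).1.ne_zero_iff.2 (pr_ne_zero s)
  have hV1 := fun t (ht : Disjoint t (fac ρ)) => hV t (fun r => q (t ∪ r)) (fun r => q0 (t ∪ r)) ht
    fun r _ => ⟨(hq _).1, (hq _).2.1, (hq _).2.2.1⟩
  choose! e he hV' using hV1
  have hlim := fun t (ht : t ∈ (sqf M).filter fun t => Disjoint t (fac ρ)) =>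
    vb0_limit h4 (n := pr t * ρ) (t := t) (J := (fac ρ).powerset) (q := fun r => q (t ∪ r))
      (x := fun r δ => B r (q0 (t ∪ r)) δ / C1) (e := e t) hX hδ1 hC1.le hW
      (fun j h => ⟨hq0 _, hx j (Finset.mem_powerset.1 h) _ (hq _).2.1⟩)
      (he t (Finset.mem_filter.1 ht).2)
      fun Y hY => by
        rw [hXa, hV' t (Finset.mem_filter.1 ht).2 _ Y (fun w => QRH.adm_wtau (τ w)) hY]
        simp only [mul_div_cancel₀ _ hC1']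
  choose! F hF1 hF2 using hlim
  have hG : ∀ w, Continuous fun v : ℝ => Ka (wtau (τ w)) (Real.exp (v / 2) : ℝ) := fun w =>
    (h4.2.2 _ (QRH.adm_wtau (τ w))).comp_continuous (by fun_prop)
      fun v => Complex.ofReal_ne_zero.2 (Real.exp_pos _).ne'
  obtain ⟨Kc, hKe⟩ : ∃ Kc, Kc = Cc * (2 * K1 * Z ^ 4) ^ ε1 * (∏ w, W w) ^ 2 * (M + Δ ^ rk) :=
    ⟨_, rfl⟩
  have hK0' : 0 ≤ Kc := by rw [hKe]; positivity
  have hfin : ∀ T, ∑ t ∈ sqf M with Disjoint t (fac ρ), ‖F t T‖ ^ 2 ≤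
      (fac ρ).powerset.card * (C1 ^ 2 * X.sz) * ((fac ρ).powerset.card * (T0.card * Kc)) := by
    intro T
    refine (Finset.sum_le_sum fun t ht => hF2 t ht T).trans ?_
    rw [← Finset.mul_sum, Finset.sum_comm]
    refine mul_le_mul_of_nonneg_left ?_ (by positivity)
    refine (Finset.sum_le_card_nsmul _ _ _ fun r hr => ?_).trans_eq (nsmul_eq_mul _ _)
    have hr' := Finset.mem_powerset.1 hr
    rw [← Finset.sum_fiberwise_of_maps_to (t := T0) (g := fun t => q0 (t ∪ r))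
      fun t _ => (hq _).2.1]
    refine (Finset.sum_le_card_nsmul _ _ _ fun a ha => ?_).trans_eq (nsmul_eq_mul _ _)
    rw [hKe]
    refine le_of_eq_of_le ?_ (hcore (2 * K1 * Z ^ 4) M Δ (fac ρ)
      (fun δ => B r a δ / C1 * conj (ang δ))
      (((sqf M).filter fun t => Disjoint t (fac ρ)).filter fun t => q0 (t ∪ r) = a)
      (fun t w => X.T w / ‖em w (q (t ∪ r))‖ ^ 4)
      (fun w v => Ka (wtau (τ w)) (Real.exp (v / 2) : ℝ)) W (fun w => 1 / 2 + τ w * I) hM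
      (hMZ.trans hZ1) (hR.trans hZ1) hΔ1 hΔZ
      ((Finset.filter_subset _ _).trans (Finset.filter_subset _ _)) (fun δ => ?_)
      (fun δ h => (hx r hr' a ha δ).2 (left_ne_zero_of_mul h)) (fun t ht w => ?_)
      (fun w => by simp) hG (fun w v => ?_) T)
    · refine Finset.sum_congr rfl fun t ht => ?_
      rw [(Finset.mem_filter.1 ht).2]
    · rw [norm_mul, Complex.norm_conj]
      exact (mul_le_of_le_one_right (norm_nonneg _) (vb0_norm_ang_le _)).trans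
        (hx r hr' a ha δ).1
    · have h5 : Ns t ≤ M := mem_sqf.1 (Finset.mem_filter.1 (Finset.mem_filter.1 ht).1).1
      have h6 : Ns (t ∪ r) ≤ M * Rr ρ :=
        (Ns_union_le t r).trans (mul_le_mul h5 (Ns_mono hr') (Ns_pos _).le (by linarith))
      have h7 : ((q (t ∪ r) : E) : FF) ≠ 0 := by
        have := hq0 (t ∪ r)
        exact_mod_cast this
      rw [hΔ, hK1e, hy]
      refine vb0_num hK1 hK0 hS0 (by positivity) hθ (norm_pos_iff.2 (em_ne_zero w h7))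
        (((hq _).2.2.2 w).trans ?_) (hXT w)
      exact mul_le_mul_of_nonneg_left (Real.rpow_le_rpow (Ns_pos _).le h6 hθ) (by linarith)
    · have := hW w (Real.exp (v / 2) : ℝ)
      rwa [Complex.norm_real, Real.norm_of_nonneg (Real.exp_pos _).le] at this
  refine (le_of_tendsto' (tendsto_finsetSum _ fun t ht => ((hF1 t ht).norm.pow 2)) hfin).trans ?_
  have a1 : (((fac ρ).powerset.card : ℕ) : ℝ) ^ 2 ≤ C5 * Z ^ ε1 := by
    calc _ = (4 : ℝ) ^ (fac ρ).card := by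
          rw [Finset.card_powerset]
          push_cast
          rw [← pow_mul, mul_comm _ 2, pow_mul]
          norm_num
      _ ≤ _ := (hcard _).trans
          (mul_le_mul_of_nonneg_left (Real.rpow_le_rpow (Ns_pos _).le hR he0.le) hC5.le)
  have a3 : (2 * K1 * Z ^ 4) ^ ε1 = (2 * K1) ^ ε1 * Z ^ (4 * ε1) := by
    rw [Real.mul_rpow (by positivity) (by positivity), ← Real.rpow_natCast,
      ← Real.rpow_mul (by linarith)]
    norm_num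
  have a4 : X.sz * (M + Δ ^ rk) ≤ (1 + K1 ^ rk) * (X.sz * M + (M * Rr ρ) ^ 2) := by
    have b1 : X.sz ≤ X.sz * M := le_mul_of_one_le_right hS0.le hM
    have b2 : 0 ≤ K1 ^ rk := by positivity
    have b3 : 0 ≤ (M * Rr ρ) ^ 2 := sq_nonneg _
    have b4 : X.sz * y = X.sz + (M * Rr ρ) ^ 2 := by rw [hy]; field_simp
    have b5 := mul_le_mul_of_nonneg_left b1 b2
    rw [hΔr, mul_add, mul_left_comm, b4]
    nlinarith
  have a5 : Z ^ ε1 * Z ^ (4 * ε1) = Z ^ ε := by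
    rw [← Real.rpow_add (by linarith), hε1]
    congr 1
    ring
  have a6 : (∏ w, W w) ^ 2 = ((Ck * Cw) ^ rk) ^ 2 * Tb (iT τ) ^ (2 * n) := by
    rw [hWe, Tb_iT, ← prod_const_Pl, mul_comm 2 n, pow_mul, ← mul_pow, ← Finset.prod_pow,
      ← Finset.prod_pow, ← Finset.prod_mul_distrib, ← Finset.prod_pow]
    exact Finset.prod_congr rfl fun w _ => by ring
  have a7 : 0 ≤ X.sz * M + (M * Rr ρ) ^ 2 := by positivity
  have a8 : (T0.card : ℝ) ≤ T0.card + 1 := by linarith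
  have a9 : 0 ≤ Tb (iT τ) := zero_le_one.trans (one_le_Tb _)
  calc _ = (((fac ρ).powerset.card : ℕ) : ℝ) ^ 2 * C1 ^ 2 * T0.card *
        (Cc * (2 * K1 * Z ^ 4) ^ ε1 * (∏ w, W w) ^ 2) * (X.sz * (M + Δ ^ rk)) := by
        rw [hKe]; ring
    _ ≤ (C5 * Z ^ ε1) * C1 ^ 2 * (T0.card + 1) *
        (Cc * (2 * K1 * Z ^ 4) ^ ε1 * (∏ w, W w) ^ 2) *
          ((1 + K1 ^ rk) * (X.sz * M + (M * Rr ρ) ^ 2)) := by
        gcongr
    _ = _ := by rw [a3, a6, ← a5]; ring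

theorem vB0 (h1 : VorT) (h2 : VBc) (h4 : KFacts) : VB0 := by
  obtain ⟨B, hB⟩ := vb0_core h1 h2 h4
  obtain ⟨T1, K, hK, hT1, hnorm⟩ := exists_norm
  intro ε hε
  choose! C hC hC' using fun a0 (ha0 : a0 ≠ 0) => hB ε hε a0 K ha0 hK
  have hpos : ∀ a ∈ T1, 0 ≤ C a := fun a ha => (hC a (hT1 a ha).1).le
  refine ⟨B, 1 + ∑ a ∈ T1, C a, by have := Finset.sum_nonneg hpos; linarith, ?_⟩
  intro Z M X τ ρ hX hS hSZ hM hMZ hρ hR
  obtain ⟨e, a0, ha0, hcl, hbd⟩ := hnorm X hX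
  obtain ⟨hX', hsz⟩ := hX.nz hcl
  have key := hC' a0 (hT1 a0 ha0).1 Z M (X.nz e a0) τ ρ hX' rfl
    (fun w => by rw [hsz]; exact (hbd w).1) (by rw [hsz]; exact hS) (by rw [hsz]; exact hSZ)
    hM hMZ hρ hR
  simp only [Th_nz hX hcl, hsz] at key
  refine key.trans ?_
  have a1 : C a0 ≤ 1 + ∑ a ∈ T1, C a := by
    have := Finset.single_le_sum hpos ha0
    linarith
  have a2 : 0 ≤ Tb (iT τ) := zero_le_one.trans (one_le_Tb _)
  have a3 : 0 ≤ Z := by linarith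
  have a4 := hX.sz_pos
  have a5 : 0 ≤ M := by linarith
  gcongr

end NQ
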