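import Vale.Agent.NQ.Rearr
import Vale.Agent.NQ.UCt
import Vale.Agent.NQ.Phi1

noncomputable section
namespace NQ
open Complex MeasureTheory NumberField Filter
open scoped ComplexConjugate Classical ContDiff Topology

variable [σ : St]

theorem VBk_dec (δ : E) : ∃ g : (E × E) × Finset P, δ ≠ 0 → Tg δ ≠ 0 →
    IsU 2 g.1.1 ∧ Prim g.1.2 ∧ ∃ e : Eˣ, δ = e ^ 2 * (g.1.1 * g.1.2 ^ 3 * pr g.2) := by
  by_cases h : δ ≠ 0 ∧ Tg δ ≠ 0
  · obtain ⟨x, d, hx, hd, e⟩ := Tg_decomp h.1 h.2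
    obtain ⟨v, u0, hu, e2⟩ := exists_isU 2 (isUnit_un hx.ne_zero)
    refine ⟨((u0, d), fac x), fun _ _ => ⟨hu, hd, v, ?_⟩⟩
    have e3 := rr_sqf hx
    rw [e2] at e3
    change δ = v ^ 2 * (u0 * d ^ 3 * pr (fac x))
    linear_combination e - d ^ 3 * e3
  · exact ⟨((0, 0), ∅), fun h1 h2 => absurd ⟨h1, h2⟩ h⟩

theorem VBk_phi (r : Finset P) {δ d : E} (hd : d ≠ 0) (f : Finset P)
    (h : Associated δ (pr f * d ^ 3)) :
    ‖Tg δ‖ / nm δ * √(Ns (fac δ ∩ r)) ≤ Ns (fac d ∩ r) / nm d * √(Ns (f ∩ r) / Ns f) := by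
  have hN : (0 : ℝ) < nm d := lt_of_lt_of_le one_pos (one_le_nmR hd)
  have hF := Ns_pos f
  have h1 : ‖Tg δ‖ = (nm d : ℝ) ^ 2 * √(Ns f) := by
    rw [norm_Tg_assoc h, Tg_cube (pr_ne_zero f) hd, norm_mul, norm_Tg_sqf (Associated.refl _),
      norm_pow, Complex.norm_natCast]
  have h2 : (nm δ : ℝ) = Ns f * (nm d : ℝ) ^ 3 := by
    rw [nm_assoc h, nm_mul, nm_pow, Ns]
    push_cast
    ring
  have h3 : fac δ ∩ r = (f ∩ r) ∪ (fac d ∩ r) := by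
    rw [fac_assoc h, fac_mul (pr_ne_zero f) (pow_ne_zero 3 hd), fac_pr,
      fac_pow hd three_ne_zero, Finset.union_inter_distrib_right]
  have h4 : Ns (fac δ ∩ r) ≤ Ns (f ∩ r) * Ns (fac d ∩ r) ^ 2 := by
    rw [h3]
    refine (Ns_union_le _ _).trans ?_
    exact mul_le_mul_of_nonneg_left (le_self_pow₀ (one_le_Ns _) two_ne_zero) (Ns_pos _).le
  have h5 := Ns_pos (fac d ∩ r)
  have h6 := Ns_pos (f ∩ r)
  refine (sq_le_sq₀ (by positivity) (by positivity)).1 ?_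
  rw [h1, h2, mul_pow, div_pow, mul_pow, Real.sq_sqrt hF.le, Real.sq_sqrt (Ns_pos _).le, mul_pow,
    mul_pow, Real.sq_sqrt (by positivity)]
  calc _ ≤ ((nm d : ℝ) ^ 2) ^ 2 * Ns f / (Ns f ^ 2 * ((nm d : ℝ) ^ 3) ^ 2) *
        (Ns (f ∩ r) * Ns (fac d ∩ r) ^ 2) := mul_le_mul_of_nonneg_left h4 (by positivity)
    _ = _ := by field_simp

theorem VBk_nm {b : FF} (hb : b ≠ 0) {T : Pl → ℝ} {δ : E} (h : δ ∈ box b T) :
    (nm δ : ℝ) ≤ sS b * ∏ w, T w := by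
  obtain ⟨h0, h1, h2⟩ := (mem_box hb).1 h
  refine (nm_le_box hb h0 h1).trans (mul_le_mul_of_nonneg_left ?_ (sS_pos b).le)
  exact Finset.prod_le_prod (fun _ _ => by positivity) fun w _ => h2 w

theorem vBk (h : QLS) : VBk := by
  intro b ε hb hε
  have hη : 0 < ε / 6 := by positivity
  obtain ⟨C1, hC1, hq⟩ := h _ hη
  obtain ⟨C2, hC2, hg1⟩ := gcd_sum_sqf hη
  obtain ⟨C3, hC3, hg2⟩ := gcd_sum_ball hη
  obtain ⟨C0, hC0, hca⟩ := card_assoc_box hη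
  obtain ⟨U0, hU0⟩ : ∃ U0 : Finset E, ∀ u, u ∈ U0 ↔ IsU 2 u :=
    ⟨(finite_isU two_ne_zero).toFinset, fun u => Set.Finite.mem_toFinset _⟩
  obtain ⟨K, hK1, hK2⟩ : ∃ K : ℝ, 1 ≤ K ∧ sS b ≤ K := ⟨max 1 (sS b), le_max_left _ _, le_max_right _ _⟩
  choose g hg using VBk_dec
  refine ⟨((U0.card + 1) * C3) ^ 2 * (C1 * (C0 ^ 2 * C2)) * K ^ ε * (2 * K), by positivity, ?_⟩
  intro Z M T r x hZ hM hMZ hr hT hx
  obtain ⟨V, hV⟩ : ∃ V, V = ∏ w, T w := ⟨_, rfl⟩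
  have hV0 : 0 < V := hV ▸ Finset.prod_pos fun w _ => hT w
  rw [← hV]
  obtain ⟨U, hUd⟩ : ∃ U, U = K * (1 + V) := ⟨_, rfl⟩
  have hU : 1 ≤ U := by rw [hUd]; nlinarith
  have hbU : sS b * V ≤ U := by rw [hUd]; nlinarith
  have hZU : 1 ≤ Z * U := one_le_mul_of_one_le_of_one_le hZ hU
  have hUZ : U ≤ Z * U := le_mul_of_one_le_left (by linarith) hZ
  have hrZ : Ns r ≤ Z * U := hr.trans (le_mul_of_one_le_right (by linarith) hU)
  obtain ⟨Y, hY⟩ : ∃ Y, Y = (Z * U) ^ (ε / 6) := ⟨_, rfl⟩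
  have hY0 : 0 < Y := by rw [hY]; positivity
  obtain ⟨A, hA⟩ : ∃ A, A = C1 * Y * (M + U) * ((C0 * Y) ^ 2 * (C2 * Y)) := ⟨_, rfl⟩
  have hA0 : 0 ≤ A := by rw [hA]; positivity
  obtain ⟨B, hB⟩ : ∃ B, B = (box b T).filter fun δ => Tg δ ≠ 0 := ⟨_, rfl⟩
  have hBm : ∀ δ ∈ B, δ ∈ box b T ∧ δ ≠ 0 ∧ Tg δ ≠ 0 := fun δ hδ => by
    rw [hB, Finset.mem_filter] at hδ
    exact ⟨hδ.1, ((mem_box hb).1 hδ.1).1, hδ.2⟩
  have has : ∀ δ ∈ B, Associated δ (pr (g δ).2 * (g δ).1.2 ^ 3) := fun δ hδ => by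
    obtain ⟨-, h0, h1⟩ := hBm δ hδ
    obtain ⟨hu, -, e, he⟩ := hg δ h0 h1
    have hu' : IsUnit ((e : E) ^ 2 * (g δ).1.1) := (e.isUnit.pow 2).mul hu.1
    refine Associated.symm ⟨hu'.unit, ?_⟩
    rw [hu'.unit_spec]
    linear_combination -he
  have hmaps : ∀ δ ∈ B, g δ ∈ (U0 ×ˢ prim U) ×ˢ sqf U := fun δ hδ => by
    obtain ⟨hδ', h0, h1⟩ := hBm δ hδ
    obtain ⟨hu, hd, -⟩ := hg δ h0 h1
    have hle : ∀ y : E, y ∣ δ → (nm y : ℝ) ≤ U := fun y hy =>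
      le_trans (by exact_mod_cast nm_le_of_dvd hy h0) ((hV ▸ VBk_nm hb hδ').trans hbU)
    have hdv := (has δ hδ).symm.dvd
    refine Finset.mem_product.2 ⟨Finset.mem_product.2 ⟨(hU0 _).2 hu, mem_prim.2 ⟨hd, hle _ ?_⟩⟩,
      mem_sqf.2 (hle _ ((dvd_mul_right _ _).trans hdv))⟩
    exact ((dvd_pow_self _ three_ne_zero).trans (dvd_mul_left _ _)).trans hdv
  obtain ⟨α, hα⟩ : ∃ α : E × E → Finset P → ℂ, α = fun i f =>
    ∑ δ ∈ B.filter fun δ => g δ = (i, f), x δ := ⟨_, rfl⟩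
  have hre : ∀ t, ∑ δ ∈ box b T, x δ * xs c2 t δ = ∑ i ∈ U0 ×ˢ prim U,
      xs c2 t (i.1 * i.2 ^ 3) * ∑ f ∈ sqf U, α i f * xs c2 t (pr f) := fun t => by
    have e1 : ∑ δ ∈ box b T, x δ * xs c2 t δ = ∑ δ ∈ B, x δ * xs c2 t δ := by
      rw [hB]
      refine (Finset.sum_filter_of_ne fun δ _ h1 => ?_).symm
      intro h0
      apply h1
      have := hx δ
      rw [h0, norm_zero, zero_div, zero_mul, norm_le_zero_iff] at this
      rw [this, zero_mul]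
    rw [e1, ← Finset.sum_fiberwise_of_maps_to hmaps, Finset.sum_product]
    refine Finset.sum_congr rfl fun i _ => ?_
    rw [Finset.mul_sum]
    refine Finset.sum_congr rfl fun f _ => ?_
    rw [hα]
    beta_reduce
    rw [Finset.sum_mul, Finset.mul_sum]
    refine Finset.sum_congr rfl fun δ hδ => ?_
    obtain ⟨h1, h2⟩ := Finset.mem_filter.1 hδ
    obtain ⟨-, h0, h3⟩ := hBm δ h1
    obtain ⟨-, -, e, he⟩ := hg δ h0 h3
    rw [h2] at he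
    have e4 : xs c2 t δ = xs c2 t (i.1 * i.2 ^ 3) * xs c2 t (pr f) := by
      rw [← xs_mul ch_c2, ← xs_c2_unit_sq t e (i.1 * i.2 ^ 3 * pr f), ← he]
    rw [e4]
    ring
  have hαle : ∀ i ∈ U0 ×ˢ prim U, ∀ f, ‖α i f‖ ≤
      C0 * Y * (Ns (fac i.2 ∩ r) / nm i.2 * √(Ns (f ∩ r) / Ns f)) := fun i hi f => by
    have hd : i.2 ≠ 0 := (mem_prim.1 (Finset.mem_product.1 hi).2).1.1
    have hc : pr f * i.2 ^ 3 ≠ 0 := mul_ne_zero (pr_ne_zero f) (pow_ne_zero 3 hd)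
    have hw : 0 ≤ Ns (fac i.2 ∩ r) / nm i.2 * √(Ns (f ∩ r) / Ns f) :=
      mul_nonneg (div_nonneg (Ns_pos _).le (Nat.cast_nonneg _)) (Real.sqrt_nonneg _)
    have has' : ∀ δ ∈ B.filter fun δ => g δ = (i, f), Associated δ (pr f * i.2 ^ 3) :=
      fun δ hδ => by
        obtain ⟨h1, h2⟩ := Finset.mem_filter.1 hδ
        have h3 := has δ h1
        rwa [h2] at h3
    have hcard : (((B.filter fun δ => g δ = (i, f)).card : ℕ) : ℝ) ≤ C0 * Y := by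
      have s1 : (B.filter fun δ => g δ = (i, f)) ⊆
          (box b T).filter fun y => Associated y (pr f * i.2 ^ 3) := fun δ hδ =>
        Finset.mem_filter.2 ⟨(hBm δ (Finset.mem_filter.1 hδ).1).1, has' δ hδ⟩
      refine (Nat.cast_le.2 (Finset.card_le_card s1)).trans ((hca b T _ hb hT hc).trans ?_)
      rw [hY, ← hV]
      have s2 := sS_pos b
      refine mul_le_mul_of_nonneg_left (Real.rpow_le_rpow (by positivity) ?_ hη.le) hC0.le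
      exact (div_le_self (by positivity) (one_le_nmR hc)).trans (hbU.trans hUZ)
    rw [hα]
    refine (norm_sum_le _ _).trans ((Finset.sum_le_card_nsmul _ _ _ fun δ hδ =>
      (hx δ).trans (VBk_phi r hd f (has' δ hδ))).trans ?_)
    rw [nsmul_eq_mul]
    exact mul_le_mul_of_nonneg_right hcard hw
  have hblock : ∀ i ∈ U0 ×ˢ prim U, √(∑ t ∈ sqf M, ‖xs c2 t (i.1 * i.2 ^ 3) *
      ∑ f ∈ sqf U, α i f * xs c2 t (pr f)‖ ^ 2) ≤ √A * (Ns (fac i.2 ∩ r) / nm i.2) := by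
    intro i hi
    have hw : 0 ≤ Ns (fac i.2 ∩ r) / nm i.2 := div_nonneg (Ns_pos _).le (Nat.cast_nonneg _)
    refine Real.sqrt_le_iff.2 ⟨mul_nonneg (Real.sqrt_nonneg _) hw, ?_⟩
    rw [mul_pow, Real.sq_sqrt hA0]
    have e1 : ∀ t ∈ sqf M, ‖xs c2 t (i.1 * i.2 ^ 3) * ∑ f ∈ sqf U, α i f * xs c2 t (pr f)‖ ^ 2 ≤
        ‖∑ f ∈ sqf U, α i f * xs c2 t (pr f)‖ ^ 2 := fun t _ => by
      rw [norm_mul]
      exact pow_le_pow_left₀ (by positivity)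
        (mul_le_of_le_one_left (norm_nonneg _) (norm_xs_le ch_c2 _ _)) 2
    have e5 : ∑ f ∈ sqf U, ‖α i f‖ ^ 2 ≤
        (C0 * Y) ^ 2 * (C2 * Y) * (Ns (fac i.2 ∩ r) / nm i.2) ^ 2 := by
      calc _ ≤ ∑ f ∈ sqf U, (C0 * Y) ^ 2 * (Ns (fac i.2 ∩ r) / nm i.2) ^ 2 *
            (Ns (f ∩ r) / Ns f) := by
            refine Finset.sum_le_sum fun f _ => ?_
            refine (pow_le_pow_left₀ (norm_nonneg _) (hαle i hi f) 2).trans (le_of_eq ?_)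
            rw [mul_pow (C0 * Y), mul_pow (_ / _ : ℝ),
              Real.sq_sqrt (div_nonneg (Ns_pos _).le (Ns_pos _).le), mul_assoc]
        _ ≤ (C0 * Y) ^ 2 * (Ns (fac i.2 ∩ r) / nm i.2) ^ 2 * (C2 * Y) := by
            rw [← Finset.mul_sum]
            refine mul_le_mul_of_nonneg_left ?_ (by positivity)
            rw [hY]
            refine le_trans (Finset.sum_le_sum_of_subset_of_nonneg (sqf_mono hUZ) fun f _ _ => ?_)
              (hg1 r _ hZU hrZ)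
            exact div_nonneg (Ns_pos _).le (Ns_pos _).le
        _ = _ := by ring
    have e6 : (M * U) ^ (ε / 6) ≤ Y := by
      rw [hY]
      exact Real.rpow_le_rpow (by positivity) (mul_le_mul_of_nonneg_right hMZ (by linarith)) hη.le
    calc _ ≤ _ := Finset.sum_le_sum e1
      _ ≤ _ := hq M U (α i) hM hU
      _ ≤ C1 * Y * (M + U) * ((C0 * Y) ^ 2 * (C2 * Y) * (Ns (fac i.2 ∩ r) / nm i.2) ^ 2) := by
          gcongr
      _ = _ := by rw [hA]; ring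
  have hsum : ∑ i ∈ U0 ×ˢ prim U, Ns (fac i.2 ∩ r) / nm i.2 ≤ (U0.card + 1) * (C3 * Y) := by
    have s1 : ∑ d ∈ prim U, Ns (fac d ∩ r) / nm d ≤ C3 * Y := by
      rw [hY]
      refine le_trans (Finset.sum_le_sum_of_subset_of_nonneg
        ((prim_subset_ball _).trans (ball_mono hUZ)) fun f _ _ => ?_) (hg2 r _ hZU hrZ)
      exact div_nonneg (Ns_pos _).le (Nat.cast_nonneg _)
    have s4 : 0 ≤ ∑ d ∈ prim U, Ns (fac d ∩ r) / nm d :=
      Finset.sum_nonneg fun _ _ => div_nonneg (Ns_pos _).le (Nat.cast_nonneg _)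
    rw [Finset.sum_product]
    simp only [Finset.sum_const, nsmul_eq_mul]
    exact mul_le_mul (by linarith) s1 s4 (by positivity)
  simp only [hre]
  have hm := (minkowski (sqf M) (U0 ×ˢ prim U) fun t i => xs c2 t (i.1 * i.2 ^ 3) *
    ∑ f ∈ sqf U, α i f * xs c2 t (pr f)).trans (Finset.sum_le_sum hblock)
  rw [← Finset.mul_sum] at hm
  have hm2 := hm.trans (mul_le_mul_of_nonneg_left hsum (Real.sqrt_nonneg _))
  refine (Real.sqrt_le_iff.1 hm2).2.trans ?_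
  have hY6 : K ^ ε * (Z * (1 + V)) ^ ε = Y ^ 6 := by
    rw [hY, ← Real.rpow_natCast, ← Real.rpow_mul (by positivity),
      ← Real.mul_rpow (by positivity) (by positivity), hUd]
    congr 1
    · ring
    · push_cast
      ring
  have hMU : M + U ≤ 2 * K * (M + V) := by rw [hUd]; nlinarith
  calc _ = ((U0.card + 1) * C3) ^ 2 * (C1 * (C0 ^ 2 * C2)) * Y ^ 6 * (M + U) := by
        rw [mul_pow, Real.sq_sqrt hA0, hA]
        ring
    _ ≤ ((U0.card + 1) * C3) ^ 2 * (C1 * (C0 ^ 2 * C2)) * Y ^ 6 * (2 * K * (M + V)) := by gcongr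
    _ = _ := by rw [← hY6]; ring

end NQ
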