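import Vale.Agent.NQ.VorL
import Vale.Agent.NQ.Lat
import Vale.Agent.P026.Arch

noncomputable section
namespace NQ
open Complex MeasureTheory NumberField Filter
open scoped ComplexConjugate Classical ContDiff Topology

theorem vorA_decay {x r : ℝ} (h0 : 0 ≤ x) (h : 1 + x ≤ r) : (r ^ 3)⁻¹ ≤ (1 + x) ^ (-3 : ℝ) := by
  rw [Real.rpow_neg (by linarith), show (3 : ℝ) = (3 : ℕ) by norm_num, Real.rpow_natCast]
  exact inv_anti₀ (by positivity) (pow_le_pow_left₀ (by linarith) h 3)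

theorem vorA_dec (c : ℂ) :
    Dec2 216 fun z : ℂ × ℂ => a0 z.1 * b0 z.2 * psi (-(z.2 ^ 3 / (c * z.1))) := by
  intro z
  by_cases h1 : a0 z.1 = 0
  · simp only [h1, zero_mul, norm_zero]
    positivity
  by_cases h2 : b0 z.2 = 0
  · simp only [h2, mul_zero, zero_mul, norm_zero]
    positivity
  obtain ⟨k1, k2⟩ := QRH.a0_supp h1
  have k3 := QRH.b0_supp h2
  have e2 := vorA_decay (r := 3) (norm_nonneg z.1) (by linarith)
  have e3 := vorA_decay (r := 2) (norm_nonneg z.2) (by linarith)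
  rw [norm_mul, norm_mul, QRH.norm_psi, mul_one]
  calc _ ≤ (1 : ℝ) := mul_le_one₀ (QRH.norm_a0_le _) (norm_nonneg _) (QRH.norm_b0_le _)
    _ = 216 * (3 ^ 3)⁻¹ * (2 ^ 3)⁻¹ := by norm_num
    _ ≤ _ := by gcongr

theorem vorA_cont {c : ℂ} (hc : c ≠ 0) :
    Continuous fun z : ℂ × ℂ => a0 z.1 * b0 z.2 * psi (-(z.2 ^ 3 / (c * z.1))) := by
  refine continuous_iff_continuousAt.2 fun z => ?_
  by_cases hz : z.1 = 0
  · have h1 : ∀ᶠ y : ℂ × ℂ in 𝓝 z, ‖y.1‖ < 1 :=
      (continuous_fst.norm.tendsto z).eventually (gt_mem_nhds (by rw [hz, norm_zero]; exact one_pos))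
    refine (continuousAt_const (y := (0 : ℂ))).congr ?_
    filter_upwards [h1] with y hy
    have : a0 y.1 = 0 := by
      by_contra h0
      exact absurd (QRH.a0_supp h0).1 (not_lt.2 hy.le)
    rw [this, zero_mul, zero_mul]
  · exact ((QRH.contDiff_a0.continuous.comp continuous_fst).mul
      (QRH.contDiff_b0.continuous.comp continuous_snd)).continuousAt.mul
      (QRH.continuous_psi.continuousAt.comp (((continuous_snd.pow 3).continuousAt.div
        (continuous_const.mul continuous_fst).continuousAt (mul_ne_zero hc hz)).neg))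

variable [σ : St]

theorem vorA_term (h1 : Riem0) (h2 : GlS) {b : FF} (hb : b ≠ 0) {c : E} (hc : c ≠ 0) {Y : Pl → ℝ}
    (hY : ∀ v, 0 < Y v) :
    Tendsto (fun X : ℝ => (∑' x : E × E, phig c x.1 x.2 * (ic 1 x.1 * il b x.2) *
      ∏ v, a0 (em v x.1 / ((X ^ 3 / Y v : ℝ) : ℂ)) * b0 (em v x.2 / X)
        * psi (-(em v x.2 ^ 3 / (em v c * em v x.1)))) /
          ((∏ v, (X ^ 3 / Y v) ^ 2 * X ^ 2 : ℝ) : ℂ)) atTop
      (𝓝 (((kap ^ 2 * sS (ss ^ 2) * sS b : ℝ) : ℂ) *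
        ((∏ v, kk (em v c / Y v)) * Tg c / (nm c : ℂ)))) := by
  have hc0 : (c : FF) ≠ 0 := fun h => hc (Subtype.ext h)
  have hY' : ∀ v, (Y v : ℂ) ≠ 0 := fun v => ofReal_ne_zero.2 (hY v).ne'
  have t1 : ∀ v, Tendsto (fun X : ℝ => ‖((X ^ 3 / Y v : ℝ) : ℂ)‖) atTop atTop := fun v => by
    simp only [Complex.norm_real, Real.norm_eq_abs]
    exact tendsto_abs_atTop_atTop.comp ((tendsto_pow_atTop three_ne_zero).atTop_div_const (hY v))
  have t2 : Tendsto (fun X : ℝ => ‖(X : ℂ)‖) atTop atTop := by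
    simp only [Complex.norm_real, Real.norm_eq_abs]
    exact tendsto_abs_atTop_atTop
  obtain ⟨k, hk⟩ := (hSB_ic 1).prod2 (hSB_il hb)
  have h := h1 c (phig c) k (fun x y => ic 1 x * il b y)
    (fun v z => a0 z.1 * b0 z.2 * psi (-(z.2 ^ 3 / (em v c / Y v * z.1)))) 216
    (fun X v => ((X ^ 3 / Y v : ℝ) : ℂ)) (fun X _ => (X : ℂ)) hc (phig_per hc) hk
    (fun v => vorA_cont (div_ne_zero (em_ne_zero v hc0) (hY' v))) (fun v => vorA_dec _) t1
    fun _ => t2
  have n1 : (nm c : ℂ) ≠ 0 := Nat.cast_ne_zero.2 (nm_eq_zero.not.2 hc)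
  rw [rsum2_phig h2 hc, sint2_prod, sint_ic one_ne_zero, sint_il hb, one_mul] at h
  have e1 : ((kap ^ 2 * sS (ss ^ 2) * sS b : ℝ) : ℂ) *
        ((∏ v, kk (em v c / Y v)) * Tg c / (nm c : ℂ)) =
      nm c * Tg c / (nm c : ℂ) ^ 2 * (((kap ^ 2 : ℝ) : ℂ) * ((sS (ss ^ 2) : ℝ) * (sS b : ℝ)))
        * ∏ v, kk (em v c / Y v) := by
    push_cast
    field_simp
  rw [e1]
  refine h.congr' ?_
  filter_upwards [eventually_gt_atTop 0] with X hX
  have hX' : (X : ℂ) ≠ 0 := ofReal_ne_zero.2 hX.ne'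
  rw [div_eq_inv_mul (∑' x : E × E, _), ofReal_inv]
  congr 1
  · simp only [Complex.norm_real, Real.norm_eq_abs, sq_abs]
  refine tsum_congr fun x => ?_
  congr 1
  refine Finset.prod_congr rfl fun v _ => ?_
  have e2 : (em v x.2 / X) ^ 3 / (em v c / Y v * (em v x.1 / ((X ^ 3 / Y v : ℝ) : ℂ))) =
      em v x.2 ^ 3 / (em v c * em v x.1) := by
    have := hY' v
    have := em_ne_zero v hc0
    by_cases hx : em v x.1 = 0
    · simp only [hx, zero_div, mul_zero, div_zero]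
    push_cast
    field_simp
  simp only [e2]

theorem vorA (h1 : Riem0) (h2 : GlS) : VorA := by
  intro a b q u η β w Y hV
  simp only [Sig, VL, Finset.sum_div, Finset.mul_sum]
  refine tendsto_finsetSum _ fun c hc => ?_
  by_cases hl : Cl a c
  · have hc0 : c ≠ 0 := fun h => hl.ne_zero (by rw [h]; rfl)
    have h := (vorA_term h1 h2 hV.hb hc0 hV.hY).const_mul
      (ic a c * psf (c * u) q * ∏ v, w v (em v c / Y v))
    simp only [← mul_div_assoc] at h
    have e : ((kap ^ 2 * sS (ss ^ 2) * sS b : ℝ) : ℂ) * (ic a c * psf (c * u) q *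
        ((∏ v, w v (em v c / Y v) * kk (em v c / Y v)) * Tg c / (nm c : ℂ))) =
        (ic a c * psf (c * u) q * ∏ v, w v (em v c / Y v)) *
          (((kap ^ 2 * sS (ss ^ 2) * sS b : ℝ) : ℂ) * ((∏ v, kk (em v c / Y v)) * Tg c))
            / (nm c : ℂ) := by
      rw [Finset.prod_mul_distrib]
      ring
    rw [e]
    exact h
  · simp only [ic, if_neg hl, zero_mul, zero_div, mul_zero]
    exact tendsto_const_nhds

end NQ
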