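import Vale.Agent.NQ.VorL
import Vale.Agent.NQ.Lat
import Vale.Agent.P026.Arch

noncomputable section
namespace NQ
open Complex MeasureTheory NumberField Filter
open scoped ComplexConjugate Classical ContDiff Topology

/-- Cubic decay. -/
def VorB_D (g : ℂ → ℂ) : Prop := ∃ M : ℝ, 0 ≤ M ∧ ∀ x, ‖g x‖ ≤ M * (1 + ‖x‖) ^ (-3 : ℝ)

theorem VorB_D.aff {g : ℂ → ℂ} (h : VorB_D g) {s : ℂ} (hs : s ≠ 0) (c k : ℂ) :
    VorB_D fun x => k * g (s * x + c) := by
  obtain ⟨M, hM, H⟩ := h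
  obtain ⟨C, hC, HC⟩ := QRH.decay_affine hs c (σ := 3) (by norm_num)
  refine ⟨‖k‖ * (M * C), by positivity, fun x => ?_⟩
  rw [norm_mul, mul_assoc, mul_assoc]
  gcongr
  refine (H _).trans ?_
  gcongr
  exact HC x

theorem VorB_D_supp {g : ℂ → ℂ} {B R : ℝ} (hB : 0 ≤ B) (hR : 0 ≤ R) (h1 : ∀ x, ‖g x‖ ≤ B)
    (h2 : ∀ x, g x ≠ 0 → ‖x‖ ≤ R) : VorB_D g := by
  refine ⟨B * (1 + R) ^ (3 : ℝ), by positivity, fun x => ?_⟩
  by_cases hx : g x = 0
  · rw [hx, norm_zero]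
    positivity
  have h3 : (1 + R) ^ (-3 : ℝ) ≤ (1 + ‖x‖) ^ (-3 : ℝ) :=
    Real.rpow_le_rpow_of_nonpos (by positivity) (by linarith [h2 x hx]) (by norm_num)
  calc ‖g x‖ ≤ B * ((1 + R) ^ (3 : ℝ) * (1 + R) ^ (-3 : ℝ)) := by
        rw [← Real.rpow_add (by positivity)]
        simpa using h1 x
    _ ≤ B * ((1 + R) ^ (3 : ℝ) * (1 + ‖x‖) ^ (-3 : ℝ)) := by gcongr
    _ = _ := by ring

theorem VorB_D_ftw {w : ℂ → ℂ} (h : Adm w) : VorB_D (ft w) := by
  obtain ⟨M, hM, H⟩ := h.ft_decay 3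
  exact ⟨M, hM.le, fun x => by simpa using H x⟩

theorem VorB_D_ftb : VorB_D (ft b0) := by
  obtain ⟨M, hM, H⟩ := QRH.ft_b0_decay 3
  exact ⟨M, hM.le, fun x => by simpa using H x⟩

theorem VorB_unif {ι : Type} [Fintype ι] {g : ι → ℂ → ℂ} (h : ∀ v, VorB_D (g v)) :
    ∃ M : ℝ, 0 ≤ M ∧ ∀ v x, ‖g v x‖ ≤ M * (1 + ‖x‖) ^ (-3 : ℝ) := by
  choose M hM H using h
  refine ⟨∑ v, M v, Finset.sum_nonneg fun v _ => hM v, fun v x => (H v x).trans ?_⟩
  gcongr
  exact Finset.single_le_sum (fun v _ => hM v) (Finset.mem_univ v)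

theorem VorB_sq {z : ℂ} {S R : ℝ} (hS : 0 < S) (h2 : ‖z / (S : ℂ)‖ ≤ R) :
    ‖z‖ ^ 2 ≤ R ^ 2 * S ^ 2 := by
  rw [norm_div, Complex.norm_real, Real.norm_of_nonneg hS.le, div_le_iff₀ hS] at h2
  rw [← mul_pow]
  gcongr

variable [σ : St]

theorem VorB_ps (h1 : PS2) {m : E} (hm : m ≠ 0) {A : E → E → ℂ} (hA : Per2 m A)
    {g1 g2 : FF → ℂ} (hg1 : HSB g1) (hg2 : HSB g2) {f g : Pl → ℂ → ℂ}
    (cf : ∀ v, Continuous (f v)) (cg : ∀ v, Continuous (g v)) (d1 : ∀ v, VorB_D (f v))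
    (d2 : ∀ v, VorB_D (g v)) (d3 : ∀ v, VorB_D (ft (f v))) (d4 : ∀ v, VorB_D (ft (g v))) :
    ∑' x : E × E, A x.1 x.2 * (g1 x.1 * g2 x.2) * ∏ v, f v (em v x.1) * g v (em v x.2)
      = ((nm m : ℂ) ^ 2)⁻¹ * ∑' ξ : E × E, rsum2 m (fun y z => A y z * psf (y * ξ.1 + z * ξ.2) m)
        * (fts g1 (ξ.1 / m) * fts g2 (ξ.2 / m))
        * ∏ v, ft (f v) (em v (ξ.1 / m)) * ft (g v) (em v (ξ.2 / m)) := by
  obtain ⟨M1, p1, H1⟩ := VorB_unif d1
  obtain ⟨M2, p2, H2⟩ := VorB_unif d2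
  obtain ⟨M3, p3, H3⟩ := VorB_unif d3
  obtain ⟨M4, p4, H4⟩ := VorB_unif d4
  obtain ⟨k, hk⟩ := hg1.prod2 hg2
  have aux : ∀ {s t M M' K : ℝ} {x y : ℂ}, 0 ≤ M → 0 ≤ t → s ≤ M * (1 + ‖x‖) ^ (-3 : ℝ) →
      t ≤ M' * (1 + ‖y‖) ^ (-3 : ℝ) → M * M' ≤ K →
      s * t ≤ K * (1 + ‖x‖) ^ (-3 : ℝ) * (1 + ‖y‖) ^ (-3 : ℝ) := by
    intro s t M M' K x y hM ht a1 a2 a3
    calc s * t ≤ M * (1 + ‖x‖) ^ (-3 : ℝ) * (M' * (1 + ‖y‖) ^ (-3 : ℝ)) :=
          mul_le_mul a1 a2 ht (by positivity)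
      _ = M * M' * (1 + ‖x‖) ^ (-3 : ℝ) * (1 + ‖y‖) ^ (-3 : ℝ) := by ring
      _ ≤ _ := by gcongr
  have key := h1 m A k _ (fun v z => f v z.1 * g v z.2) (max (M1 * M2) (M3 * M4)) hm hA hk
    (fun v => ((cf v).comp continuous_fst).mul ((cg v).comp continuous_snd))
    (fun v z => by
      rw [norm_mul]
      exact aux p1 (norm_nonneg _) (H1 _ _) (H2 _ _) (le_max_left _ _))
    (fun v z => by
      dsimp only
      rw [QRH.ft2_prod, norm_mul]
      exact aux p3 (norm_nonneg _) (H3 _ _) (H4 _ _) (le_max_right _ _))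
  simpa only [QRH.ft2_prod, fts2_prod] using key

variable {a b : FF} {q u η β : E} {w : Pl → ℂ → ℂ} {Y : Pl → ℝ} {X : ℝ}

theorem VorB_ic {a x : FF} (h : ic a x ≠ 0) : Cl a x := by
  by_contra h0
  exact h (if_neg h0)

theorem VorB_ne {d : E} (hd : Cl 1 d) : d ≠ 0 := fun h => hd.ne_zero (by simp [h])

theorem VorB_inv {d : FF} (hd : Cl 1 d) : 1 / d ∈ OS := hd.symm.div_mem

theorem VorB_mem {d : FF} (hd : Cl 1 d) : d ∈ OS := by simpa using hd.div_mem

theorem VorB_a0 {d : E} {S : Pl → ℝ} (hS : ∀ v, 0 < S v) (h : d ∉ box 1 fun v => 2 ^ 2 * S v ^ 2) :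
    ic 1 d = 0 ∨ ∃ v, a0 (em v d / (S v : ℂ)) = 0 := by
  by_contra h0
  push Not at h0
  have hd := VorB_ic h0.1
  exact h ((mem_box one_ne_zero).2 ⟨VorB_ne hd, hd.div_mem,
    fun v => VorB_sq (hS v) (QRH.a0_supp (h0.2 v)).2.le⟩)

theorem VorB_w (h : VP a b q u η β w Y) {c : E} (hc : c ∉ box a fun v => 4 * Y v ^ 2) :
    ic a c = 0 ∨ ∃ v, w v (em v c / (Y v : ℂ)) = 0 := by
  by_contra h0
  push Not at h0
  have hd := VorB_ic h0.1
  refine hc ((mem_box h.ha).2 ⟨fun h1 => hd.ne_zero (by simp [h1]), hd.div_mem, fun v => ?_⟩)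
  have := VorB_sq (h.hY v) ((h.adm v).supp _ (h0.2 v)).2
  rwa [show (2 : ℝ) ^ 2 = 4 by norm_num] at this

theorem VorB_b0 (hb : b ≠ 0) {x : E} (hX : 0 < X)
    (h : x ∉ insert 0 (box b fun _ => 1 ^ 2 * X ^ 2)) :
    il b x = 0 ∨ ∃ v, b0 (em v x / (X : ℂ)) = 0 := by
  by_contra h0
  push Not at h0
  rw [Finset.mem_insert, not_or] at h
  exact h.2 ((mem_box hb).2 ⟨h.1, SInt_il_ne h0.1,
    fun v => VorB_sq hX (by linarith [QRH.b0_supp (h0.2 v)])⟩)

theorem VorB_arg (hq : q ≠ 0) {d : E} (hd : d ≠ 0) (δ : E) :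
    ((u * d + q * δ : E) : FF) / (d * q : FF) = δ / d + u / q := by
  have hd' := cnt_coe_ne hd
  have hq' := cnt_coe_ne hq
  push_cast
  field_simp
  ring

theorem VorB_lat (ha : a ≠ 0) (t : FF) : ∃ c : FF, c ≠ 0 ∧ ∀ y : FF,
    fts (ic a) (-(y + t)) ≠ 0 → y / c ∈ OS := by
  obtain ⟨c, hc, H⟩ := exists_lat_sup {1 / (a * ss ^ 2 * del), t}
  refine ⟨c, hc, fun y hy => ?_⟩
  have h1 := fts_ic_supp ha hy
  have h2 := H (1 / (a * ss ^ 2 * del)) (by simp)
  have h3 := H t (by simp)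
  have h4 := OS.sub_mem (OS.neg_mem (OS.mul_mem h1 h2)) h3
  have n1 := ss_ne_zero
  have n2 := del_ne_zero
  have e : -(-(y + t) * (a * ss ^ 2 * del) * (1 / (a * ss ^ 2 * del) / c)) - t / c = y / c := by
    field_simp
    ring
  rwa [e] at h4

theorem VorB_summable (h : VP a b q u η β w Y) (hX : 0 < X) :
    Summable fun x : E × E × E => ‖G1 a b q u w Y X x.1 x.2.1 x.2.2‖ := by
  have hY := h.hY
  rw [summable_prod_of_nonneg fun _ => norm_nonneg _]
  constructor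
  · intro d
    by_cases hd : Cl 1 (d : FF)
    swap
    · simp only [G1, ic, if_neg hd, zero_mul, norm_zero, summable_zero]
    have hd0 := VorB_ne hd
    have hd' := cnt_coe_ne hd0
    obtain ⟨c, hc, Hc⟩ := VorB_lat h.ha ((u : FF) / q)
    obtain ⟨M1, p1, H1⟩ := VorB_unif fun v => VorB_D_ftw (h.adm v)
    obtain ⟨M2, p2, H2⟩ := VorB_D_ftb
    have s1 := summable_shift_decay (β := 3) (by norm_num) (mul_ne_zero hd' hc)
      (fun v => -((Y v : ℂ) / em v d)) (fun v => -(Y v * em v ((u : FF) / q)))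
      (fun v => neg_ne_zero.2 (div_ne_zero (ofReal_ne_zero.2 (hY v).ne') (em_ne_zero v hd')))
    have s2 := summable_shift_decay (β := 3) (by norm_num) (Bd_ne_zero h.hb)
      (fun v => 3 * (X : ℂ) / em v d) (fun _ => 0)
      (fun v => div_ne_zero (mul_ne_zero three_ne_zero (ofReal_ne_zero.2 hX.ne'))
        (em_ne_zero v hd'))
    have s3 := (s1.mul_of_nonneg s2
      (fun _ => by
        dsimp only
        split_ifs
        · exact Finset.prod_nonneg fun _ _ => by positivity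
        · exact le_rfl)
      (fun _ => by
        dsimp only
        split_ifs
        · exact Finset.prod_nonneg fun _ _ => by positivity
        · exact le_rfl)).mul_left
      (‖(nm d : ℂ)⁻¹‖ * (nm d : ℝ) ^ (2 / 3 : ℝ) * (kap * sS (a * ss ^ 2))
        * ∏ _v : Pl, M1 * M2)
    refine s3.of_nonneg_of_le (fun _ => norm_nonneg _) fun x => ?_
    dsimp only
    have k0 := kap_pos
    have k1 := sS_pos (a * ss ^ 2)
    have k2 : 0 ≤ ∏ _v : Pl, M1 * M2 := Finset.prod_nonneg fun _ _ => by positivity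
    unfold G1
    rw [VorB_arg h.hq hd0]
    by_cases z1 : fts (ic a) (-((x.1 : FF) / d + u / q)) = 0
    · rw [z1]
      simp only [mul_zero, zero_mul, norm_zero]
      refine mul_nonneg (by positivity) (mul_nonneg ?_ ?_) <;> split_ifs
      · exact Finset.prod_nonneg fun _ _ => by positivity
      · exact le_rfl
      · exact Finset.prod_nonneg fun _ _ => by positivity
      · exact le_rfl
    have m1 : (x.1 : FF) / (d * c) ∈ OS := by
      rw [← div_div]
      exact Hc _ z1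
    rw [if_pos m1]
    by_cases m2 : (x.2 : FF) / Bd b ∈ OS
    swap
    · rw [il, if_neg m2, if_neg m2]
      simp only [mul_zero, zero_mul, norm_zero, le_refl]
    rw [if_pos m2, il, if_pos m2, ic, if_pos hd, one_mul, mul_one, norm_mul, norm_mul, norm_mul,
      mul_assoc _ (∏ _v : Pl, M1 * M2), ← Finset.prod_mul_distrib, ← Finset.prod_mul_distrib,
      norm_prod]
    have b1 := norm_fts_ic_le h.ha (-((x.1 : FF) / d + u / q))
    have b2 := norm_phig_le hd0 x.1 x.2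
    refine mul_le_mul (by gcongr) (Finset.prod_le_prod (fun _ _ => norm_nonneg _) fun v _ => ?_)
      (Finset.prod_nonneg fun _ _ => norm_nonneg _) (by positivity)
    have e1 : -((Y v : ℂ) * em v ((x.1 : FF) / d + u / q))
        = -((Y v : ℂ) / em v d) * em v x.1 + -(Y v * em v ((u : FF) / q)) := by
      rw [map_add, map_div₀ (em v) (x.1 : FF)]
      ring
    have e2 : 3 * (X : ℂ) * em v ((x.2 : FF) / d) = 3 * (X : ℂ) / em v d * em v x.2 + 0 := by
      rw [map_div₀]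
      ring
    rw [norm_mul, norm_mul, e1, e2]
    have b3 := QRH.norm_a0_le (em v d / ((X ^ 3 / Y v : ℝ) : ℂ))
    calc _ ≤ 1 * (M1 * _) * (M2 * _) :=
          mul_le_mul (mul_le_mul b3 (H1 v _) (norm_nonneg _) zero_le_one) (H2 _) (norm_nonneg _)
            (by positivity)
      _ = _ := by ring
  · apply summable_of_ne_finset_zero (s := box 1 fun v => 2 ^ 2 * (X ^ 3 / Y v) ^ 2)
    intro d hd
    rcases VorB_a0 (fun v => by have := hY v; positivity) hd with h0 | ⟨v, h0⟩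
    · simp only [G1, h0, zero_mul, norm_zero, tsum_zero]
    · have : ∀ δ ξ, G1 a b q u w Y X d δ ξ = 0 := fun δ ξ => by
        unfold G1
        rw [Finset.prod_eq_zero (Finset.mem_univ v) (by rw [h0, zero_mul, zero_mul]), mul_zero]
      simp only [this, norm_zero, tsum_zero]

/-- The summand of `Sig`. -/
def VorB_S (a b : FF) (q u : E) (w : Pl → ℂ → ℂ) (Y : Pl → ℝ) (X : ℝ) (c d x : E) : ℂ :=
  ic a c * psf (c * u) q * (∏ v, w v (em v c / Y v)) *
    (phig c d x * (ic 1 d * il b x) *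
      ∏ v, a0 (em v d / ((X ^ 3 / Y v : ℝ) : ℂ)) * b0 (em v x / X)
        * psi (-(em v x ^ 3 / (em v c * em v d))))

theorem VorB_S_c (h : VP a b q u η β w Y) {c : E} (hc : c ∉ box a fun v => 4 * Y v ^ 2)
    (d x : E) : VorB_S a b q u w Y X c d x = 0 := by
  unfold VorB_S
  rcases VorB_w h hc with h0 | ⟨v, h0⟩
  · rw [h0, zero_mul, zero_mul, zero_mul]
  · rw [Finset.prod_eq_zero (Finset.mem_univ v) h0, mul_zero, zero_mul]

theorem VorB_S_summable (h : VP a b q u η β w Y) (hX : 0 < X) :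
    Summable fun x : E × E × E => VorB_S a b q u w Y X x.1 x.2.1 x.2.2 := by
  have hY := h.hY
  apply summable_of_ne_finset_zero (s := (box a fun v => 4 * Y v ^ 2) ×ˢ
    (box 1 fun v => 2 ^ 2 * (X ^ 3 / Y v) ^ 2) ×ˢ insert 0 (box b fun _ => 1 ^ 2 * X ^ 2))
  intro x hx
  rw [Finset.mem_product, Finset.mem_product, not_and_or, not_and_or] at hx
  rcases hx with hx | hx | hx
  · exact VorB_S_c h hx _ _
  · unfold VorB_S
    rcases VorB_a0 (fun v => by have := hY v; positivity) hx with h0 | ⟨v, h0⟩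
    · rw [h0, zero_mul, mul_zero, zero_mul, mul_zero]
    · rw [Finset.prod_eq_zero (f := fun v => a0 _ * b0 _ * psi _) (Finset.mem_univ v)
        (by rw [h0, zero_mul, zero_mul]), mul_zero, mul_zero]
  · unfold VorB_S
    rcases VorB_b0 h.hb hX hx with h0 | ⟨v, h0⟩
    · rw [h0, mul_zero, mul_zero, zero_mul, mul_zero]
    · rw [Finset.prod_eq_zero (f := fun v => a0 _ * b0 _ * psi _) (Finset.mem_univ v)
        (by rw [h0, mul_zero, zero_mul]), mul_zero, mul_zero]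

theorem VorB_S_eq (h3 : Asw) (h4 : HOne) (h : VP a b q u η β w Y) {d : E} (hd : Cl 1 (d : FF))
    (c x : E) : VorB_S a b q u w Y X c d x = (∏ v, a0 (em v d / ((X ^ 3 / Y v : ℝ) : ℂ)))
      * (phig d (-c) x * ((ic a c * psiS (c * ((u : FF) / q))) * il b x)
        * ∏ v, psi (em v c * em v ((u : FF) / q)) * w v (em v c / Y v) * b0 (em v x / X)) := by
  unfold VorB_S
  by_cases hc : Cl a (c : FF)
  swap
  · rw [ic, if_neg hc]
    ring
  by_cases hx : (x : FF) / b ∈ OS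
  swap
  · rw [il, if_neg hx]
    ring
  have hc' := hc.ne_zero
  have hc0 : c ≠ 0 := fun h0 => hc' (by simp [h0])
  have hd0 := VorB_ne hd
  have hd' := hd.ne_zero
  have e1 : psf (c * u) q = (∏ v, psi (em v c * em v ((u : FF) / q)))
      * psiS (c * ((u : FF) / q)) := by
    rw [psf_eq, psiV]
    push_cast
    simp only [mul_div_assoc, map_mul]
  have m1 : ((x ^ 3 : E) : FF) / ((c * d : E) : FF) ∈ OS := by
    have h5 := OS.mul_mem (OS.mul_mem (OS.mul_mem (OS.pow_mem hx 3) h.hab) hc.symm.div_mem)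
      (VorB_inv hd)
    have n1 := h.ha
    have n2 := h.hb
    have e : ((x : FF) / b) ^ 3 * (b ^ 3 / a) * (a / c) * (1 / d)
        = ((x ^ 3 : E) : FF) / ((c * d : E) : FF) := by
      push_cast
      field_simp
    rwa [e] at h5
  have e2 : psf (x ^ 3) (c * d) * ∏ v, psi (-(em v x ^ 3 / (em v c * em v d))) = 1 := by
    rw [psf_eq, psiS_of_mem m1, mul_one, psiV, ← Finset.prod_mul_distrib]
    refine Finset.prod_eq_one fun v _ => ?_
    push_cast
    rw [map_div₀, map_mul, map_pow, ← QRH.psi_add, add_neg_cancel, QRH.psi_zero]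
  rw [h3 c d x hc0 hd0, H_swap d c, h4 d c hd hc0, map_one, e1, ic, ic, if_pos hc, if_pos hd]
  simp only [Finset.prod_mul_distrib]
  generalize psf _ _ = t1 at e2 ⊢
  generalize (∏ v : Pl, psi (-(em v x ^ 3 / (em v c * em v d)))) = t2 at e2 ⊢
  generalize (∏ v : Pl, psi (em v c * em v ((u : FF) / q))) = t3
  generalize (∏ v : Pl, a0 (em v d / ((X ^ 3 / Y v : ℝ) : ℂ))) = t4
  generalize (∏ v : Pl, b0 (em v x / X)) = t5
  generalize (∏ v : Pl, w v (em v c / Y v)) = t6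
  generalize phig _ _ _ = t7
  generalize psiS _ = t8
  generalize il _ _ = t9
  linear_combination (t3 * t4 * t5 * t6 * t7 * t8 * t9) * e2

theorem VorB_coef (h2 : GlS) {d : E} (hd : d ≠ 0) (δ ξ : E) :
    rsum2 d (fun y z => phig d (-y) z * psf (y * -δ + z * (3 * ξ)) d) = nm d * phig d δ ξ := by
  rw [← h2 d δ ξ hd]
  have hp : Per2 d fun y x => phig d y x * psf (y * δ + 3 * x * ξ) d :=
    (phig_per hd).mul fun y y' z z' hy hz => psf_congr (by
      have e : y * δ + 3 * z * ξ - (y' * δ + 3 * z' * ξ) = (y - y') * δ + (z - z') * (3 * ξ) := by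
        ring
      rw [e]
      exact dvd_add (hy.mul_right _) (hz.mul_right _))
  rw [← rsum2_bij hd hp (fun y _ => -y) (fun _ z => z) fun x y x' y' h1 h2 =>
    ⟨by rwa [neg_sub_neg, dvd_sub_comm] at h1, h2⟩]
  congr 1
  funext y z
  congr 2
  ring

theorem VorB_il (hb : b ≠ 0) {d : FF} (hd : Cl 1 d) (ξ : FF) :
    il (1 / (b * del)) (3 * ξ / d) = il (Bd b) ξ := by
  have hd' := hd.ne_zero
  have e : 3 * ξ / d * (b * del) = ξ * (3 * b * del) * (1 / d) := by ring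
  have e' : ξ * (3 * b * del) = 3 * ξ / d * (b * del) * d := by field_simp
  have : 3 * ξ / d / (1 / (b * del)) ∈ OS ↔ ξ / Bd b ∈ OS := by
    rw [Bd, sft_div_inv, sft_div_inv]
    constructor
    · intro h
      rw [e']
      exact OS.mul_mem h (VorB_mem hd)
    · intro h
      rw [e]
      exact OS.mul_mem h (VorB_inv hd)
  simp only [il, this]

omit σ in
theorem VorB_f1 (w : ℂ → ℂ) {Y : ℝ} (hY : 0 < Y) (t ξ : ℂ) :
    ft (fun z => psi (z * t) * w (z / Y)) ξ = (Y : ℂ) ^ 2 * ft w (Y * ξ + -(Y * t)) := by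
  rw [QRH.ft_mod (fun z => w (z / Y)), QRH.ft_scale w (ofReal_ne_zero.2 hY.ne'), Complex.norm_real,
    Real.norm_eq_abs, sq_abs, ofReal_pow, mul_sub, sub_eq_add_neg]

omit σ in
theorem VorB_f2 (hX : 0 < X) (ξ : ℂ) :
    ft (fun z => b0 (z / X)) ξ = (X : ℂ) ^ 2 * ft b0 (X * ξ + 0) := by
  rw [QRH.ft_scale b0 (ofReal_ne_zero.2 hX.ne'), Complex.norm_real, Real.norm_eq_abs, sq_abs,
    ofReal_pow, add_zero]

theorem VorB_key (h1 : PS2) (h : VP a b q u η β w Y) (hX : 0 < X) {d : E} (hd0 : d ≠ 0) :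
    ∑' x : E × E, phig d (-x.1) x.2 * ((ic a x.1 * psiS (x.1 * ((u : FF) / q))) * il b x.2)
        * ∏ v, psi (em v x.1 * em v ((u : FF) / q)) * w v (em v x.1 / Y v) * b0 (em v x.2 / X)
      = ((nm d : ℂ) ^ 2)⁻¹ * ∑' ξ : E × E,
        rsum2 d (fun y z => phig d (-y) z * psf (y * ξ.1 + z * ξ.2) d)
        * (fts (fun y => ic a y * psiS (y * ((u : FF) / q))) (ξ.1 / d) * fts (il b) (ξ.2 / d))
        * ∏ v, ft (fun z => psi (z * em v ((u : FF) / q)) * w v (z / Y v)) (em v (ξ.1 / d))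
          * ft (fun z => b0 (z / X)) (em v (ξ.2 / d)) := by
  have hY := h.hY
  have hXc : (X : ℂ) ≠ 0 := ofReal_ne_zero.2 hX.ne'
  have hYc : ∀ v, (Y v : ℂ) ≠ 0 := fun v => ofReal_ne_zero.2 (hY v).ne'
  have hper : Per2 d fun c x => phig d (-c) x := by
    intro x x' y y' hx hy
    exact phig_per hd0 (-x) (-x') y y' (by rw [neg_sub_neg, dvd_sub_comm]; exact hx) hy
  have cb := QRH.contDiff_b0.continuous
  have cp := QRH.continuous_psi
  have hg : HSB fun y => ic a y * psiS (y * ((u : FF) / q)) := by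
    have := (hSB_ic a).mul_lcb (lcb_psiS ((u : FF) / q) 1)
    simpa only [pow_one, mul_comm ((u : FF) / q)] using this
  exact VorB_ps h1 hd0 hper hg (hSB_il h.hb)
    (f := fun v z => psi (z * em v ((u : FF) / q)) * w v (z / Y v)) (g := fun _ z => b0 (z / X))
    (fun v => by
      have cw := (h.adm v).smooth.continuous
      fun_prop) (fun _ => by fun_prop)
    (fun v => by
      obtain ⟨W, hW, HW⟩ := (h.adm v).exists_DB 0
      have := hY v
      exact VorB_D_supp hW.le (R := 2 * Y v) (by positivity)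
        (fun z => by
          rw [norm_mul, QRH.norm_psi, one_mul]
          simpa using HW 0 le_rfl (z / Y v))
        (fun z hz => by
          have := ((h.adm v).supp _ (right_ne_zero_of_mul hz)).2
          rwa [norm_div, Complex.norm_real, Real.norm_of_nonneg (hY v).le,
            div_le_iff₀ (hY v)] at this))
    (fun _ => VorB_D_supp zero_le_one (R := 1 / 4 * X) (by positivity)
      (fun z => QRH.norm_b0_le _)
      (fun z hz => by
        have := (QRH.b0_supp hz).le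
        rwa [norm_div, Complex.norm_real, Real.norm_of_nonneg hX.le, div_le_iff₀ hX] at this))
    (fun v => by
      rw [funext (VorB_f1 (w v) (hY v) _)]
      exact (VorB_D_ftw (h.adm v)).aff (hYc v) _ _)
    (fun _ => by
      rw [funext (VorB_f2 hX)]
      exact VorB_D_ftb.aff hXc _ _)

theorem VorB_term (h2 : GlS) (h : VP a b q u η β w Y) (hX : 0 < X) {d : E} (hd : Cl 1 (d : FF))
    (δ ξ : E) :
    (∏ v, a0 (em v d / ((X ^ 3 / Y v : ℝ) : ℂ))) * (((nm d : ℂ) ^ 2)⁻¹ *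
      (rsum2 d (fun y z => phig d (-y) z * psf (y * -δ + z * (3 * ξ)) d)
        * (fts (fun y => ic a y * psiS (y * ((u : FF) / q))) ((-δ : E) / d)
          * fts (il b) ((3 * ξ : E) / d))
        * ∏ v, ft (fun z => psi (z * em v ((u : FF) / q)) * w v (z / Y v)) (em v ((-δ : E) / d))
          * ft (fun z => b0 (z / X)) (em v ((3 * ξ : E) / d))))
      = ((kap * sS b * ∏ v, X ^ 2 * Y v ^ 2 : ℝ) : ℂ) * G1 a b q u w Y X d δ ξ := by
  have hd0 := VorB_ne hd
  have c3 : ((-δ : E) : FF) / d = -((δ : FF) / d) := by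
    push_cast
    ring
  have c1 : -((δ : FF) / d) - u / q = -((δ : FF) / d + u / q) := by ring
  have c2 : ((3 * ξ : E) : FF) = 3 * ξ := rfl
  have e1 : ∀ v, ft (fun z => psi (z * em v ((u : FF) / q)) * w v (z / Y v)) (em v (-((δ : FF) / d)))
      * ft (fun z => b0 (z / X)) (em v (3 * (ξ : FF) / d)) = ((X ^ 2 * Y v ^ 2 : ℝ) : ℂ) *
        (ft (w v) (-(Y v * em v ((δ : FF) / d + u / q))) * ft b0 (3 * X * em v ((ξ : FF) / d))) := by
    intro v
    have a1 : (Y v : ℂ) * em v (-((δ : FF) / d)) + -(Y v * em v ((u : FF) / q))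
        = -(Y v * em v ((δ : FF) / d + u / q)) := by
      rw [map_neg, map_add]
      ring
    have a2 : (X : ℂ) * em v (3 * (ξ : FF) / d) + 0 = 3 * X * em v ((ξ : FF) / d) := by
      rw [mul_div_assoc, map_mul, map_ofNat]
      ring
    rw [VorB_f1 _ (h.hY v), VorB_f2 hX, a1, a2]
    push_cast
    ring
  rw [VorB_coef h2 hd0, fts_mod, fts_il h.hb, c3, c1, c2, VorB_il h.hb hd,
    Finset.prod_congr rfl fun v _ => e1 v, Finset.prod_mul_distrib]
  unfold G1
  rw [VorB_arg h.hq hd0, ic, if_pos hd, ofReal_mul _ (∏ v, X ^ 2 * Y v ^ 2), ofReal_prod,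
    ofReal_mul]
  have n2 : (nm d : ℂ) ≠ 0 := Nat.cast_ne_zero.2 (mt nm_eq_zero.1 hd0)
  simp only [mul_assoc (a0 _)]
  rw [Finset.prod_mul_distrib (f := fun v => a0 (em v d / ((X ^ 3 / Y v : ℝ) : ℂ)))]
  generalize (∏ v : Pl, a0 (em v d / ((X ^ 3 / Y v : ℝ) : ℂ))) = t1
  generalize (∏ v : Pl, ((X ^ 2 * Y v ^ 2 : ℝ) : ℂ)) = t2
  generalize (∏ v : Pl, ft (w v) (-(Y v * em v ((δ : FF) / d + u / q)))
    * ft b0 (3 * X * em v ((ξ : FF) / d))) = t3
  generalize fts _ _ = t4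
  generalize phig _ _ _ = t5
  generalize il _ _ = t6
  generalize (nm d : ℂ) = n at n2 ⊢
  field_simp

theorem VorB_inner (h1 : PS2) (h2 : GlS) (h3 : Asw) (h4 : HOne) (h : VP a b q u η β w Y)
    (hX : 0 < X) (d : E) :
    ∑' x : E × E, VorB_S a b q u w Y X x.1 d x.2 = ((kap * sS b * ∏ v, X ^ 2 * Y v ^ 2 : ℝ) : ℂ)
      * ∑' x : E × E, G1 a b q u w Y X d x.1 x.2 := by
  by_cases hd : Cl 1 (d : FF)
  swap
  · simp only [VorB_S, G1, ic, if_neg hd, zero_mul, mul_zero, tsum_zero]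
  simp only [VorB_S_eq h3 h4 h hd]
  rw [tsum_mul_left, VorB_key h1 h hX (VorB_ne hd),
    ← ((Equiv.neg E).prodCongr isUnit_three.unit.mulLeft).tsum_eq,
    ← tsum_mul_left, ← tsum_mul_left, ← tsum_mul_left]
  exact tsum_congr fun x => VorB_term h2 h hX hd x.1 x.2

/-- Exchange of the first two variables. -/
def VorB_swap : (E × E × E) ≃ (E × E × E) where
  toFun x := (x.2.1, x.1, x.2.2)
  invFun x := (x.2.1, x.1, x.2.2)
  left_inv _ := rfl
  right_inv _ := rfl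

theorem vorB (h1 : PS2) (h2 : GlS) (h3 : Asw) (h4 : HOne) : VorB := by
  intro a b q u η β w Y h X hX
  have s1 := (VorB_summable h hX).of_norm
  have s2 := VorB_S_summable h hX
  refine ⟨s1, ?_⟩
  have e0 : Sig a b q u w Y X = ∑' c, ∑' x : E × E, VorB_S a b q u w Y X c x.1 x.2 := by
    rw [tsum_eq_sum (s := box a fun v => 4 * Y v ^ 2)]
    · unfold Sig VorB_S
      exact Finset.sum_congr rfl fun c _ => tsum_mul_left.symm
    · intro c hc
      simp only [VorB_S_c h hc, tsum_zero]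
  have e1 := VorB_swap.tsum_eq (fun x : E × E × E => VorB_S a b q u w Y X x.1 x.2.1 x.2.2)
  have e2 := (VorB_swap.summable_iff.2 s2).tsum_prod
  rw [e0, s1.tsum_prod, ← tsum_mul_left]
  refine s2.tsum_prod.symm.trans (e1.symm.trans (e2.trans ?_))
  exact tsum_congr fun d => VorB_inner h1 h2 h3 h4 h hX d

end NQ
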