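import Vale.Agent.NQ.VorL
import Vale.Agent.NQ.Lat
import Vale.Agent.P026.Arch

noncomputable section
namespace NQ
open Complex MeasureTheory NumberField Filter
open scoped ComplexConjugate Classical ContDiff Topology

theorem vc_decay {G : ℂ → ℂ → ℂ} {M : ℝ} (hM : 0 ≤ M)
    (h : ∀ x y, ‖G x y‖ ≤ M * (1 + ‖x‖) ^ (-3 : ℝ) * (1 + ‖y‖) ^ (-3 : ℝ)) {s t : ℂ} (hs : s ≠ 0)
    (ht : t ≠ 0) (c : ℂ) : ∃ M' : ℝ, 0 ≤ M' ∧ ∀ x y,
      ‖G (s * x + c) (t * y)‖ ≤ M' * (1 + ‖x‖) ^ (-3 : ℝ) * (1 + ‖y‖) ^ (-3 : ℝ) := by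
  obtain ⟨C1, h1, H1⟩ := QRH.decay_affine hs c (σ := 3) (by norm_num)
  obtain ⟨C2, h2, H2⟩ := QRH.decay_affine ht 0 (σ := 3) (by norm_num)
  refine ⟨M * C1 * C2, by positivity, fun x y => (h _ _).trans ?_⟩
  have a1 := H1 x
  have a2 := H2 y
  rw [add_zero] at a2
  calc M * (1 + ‖s * x + c‖) ^ (-3 : ℝ) * (1 + ‖t * y‖) ^ (-3 : ℝ)
      ≤ M * (C1 * (1 + ‖x‖) ^ (-3 : ℝ)) * (C2 * (1 + ‖y‖) ^ (-3 : ℝ)) := by gcongr
    _ = _ := by ring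

/-- The archimedean factor at one place. -/
def vc_F (w : ℂ → ℂ) (c s b t : ℂ) (z : ℂ × ℂ) : ℂ := Fint w c (s * z.1 + b, t * z.2)

theorem vc_bounds (h5 : IBd) {w : ℂ → ℂ} (hw : Adm w) {c s t : ℂ} (hc : c ≠ 0) (hs : s ≠ 0)
    (ht : t ≠ 0) (b : ℂ) : ∃ M : ℝ, 0 ≤ M ∧ (∀ z : ℂ × ℂ, ‖vc_F w c s b t z‖
      ≤ M * (1 + ‖z.1‖) ^ (-3 : ℝ) * (1 + ‖z.2‖) ^ (-3 : ℝ)) ∧
      ∀ x y, ‖ft2 (vc_F w c s b t) x y‖ ≤ M * (1 + ‖x‖) ^ (-3 : ℝ) * (1 + ‖y‖) ^ (-3 : ℝ) := by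
  have key := QRH.ft2_affine (Fint w c) hs ht b
  unfold vc_F
  obtain ⟨M0, hM0, H0⟩ := QRH.norm_Fint_le hw
  obtain ⟨M1, hM1, H1⟩ := vc_decay (G := fun x y => Fint w c (x, y)) hM0.le
    (fun x y => H0 c (x, y)) hs ht b
  obtain ⟨n, K, hK, HK⟩ := h5 3
  obtain ⟨W, hW, HW⟩ := hw.exists_DB n
  obtain ⟨M2, hM2, H2⟩ := vc_decay (G := fun x y => Ia w c x y)
    (M := K * W * ‖c‖ * (1 + ‖c‖) ^ (-3 : ℝ)) (by positivity)
    (fun x y => by simpa using HK w W hw HW c x y hc) (div_ne_zero (neg_ne_zero.2 hc) hs)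
    (div_ne_zero hc ht) 0
  refine ⟨max M1 ((‖s‖ ^ 2 * ‖t‖ ^ 2)⁻¹ * M2), hM1.trans (le_max_left _ _),
    fun z => (H1 z.1 z.2).trans ?_, fun x y => ?_⟩
  · gcongr
    exact le_max_left _ _
  · have h3 := H2 x y
    have e1 : -((-c / s * x + 0) / c) = x / s := by field_simp; ring
    have e2 : c / t * y / c = y / t := by field_simp
    unfold QRH.Ia at h3
    rw [e1, e2] at h3
    rw [key, norm_mul, norm_mul, QRH.norm_psi, mul_one, norm_inv, Complex.norm_real,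
      Real.norm_of_nonneg (by positivity)]
    calc _ ≤ (‖s‖ ^ 2 * ‖t‖ ^ 2)⁻¹ * (M2 * (1 + ‖x‖) ^ (-3 : ℝ) * (1 + ‖y‖) ^ (-3 : ℝ)) := by
          gcongr
      _ = (‖s‖ ^ 2 * ‖t‖ ^ 2)⁻¹ * M2 * (1 + ‖x‖) ^ (-3 : ℝ) * (1 + ‖y‖) ^ (-3 : ℝ) := by ring
      _ ≤ _ := by
          gcongr
          exact le_max_right _ _

theorem vc_cont {w : ℂ → ℂ} (hw : Adm w) (c s b t : ℂ) : Continuous (vc_F w c s b t) := by
  unfold vc_F
  exact (QRH.contDiff_Fint hw _).continuous.comp (by fun_prop)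

theorem vc_Fint (w : ℂ → ℂ) {X Y : ℝ} (hX : 0 < X) (hY : 0 < Y) {q C d : ℂ} (hq : q ≠ 0)
    (hC : C ≠ 0) (hd : d ≠ 0) (ξ : ℂ) :
    Fint w (C / (q * ((X ^ 3 / Y ^ 2 : ℝ) : ℂ))) (d / ((X ^ 3 / Y : ℝ) : ℂ),
        3 * X / ((X ^ 3 / Y : ℝ) : ℂ) * ξ)
      = ((X ^ 3 / Y : ℝ) : ℂ) ^ 2 * ((‖d‖ ^ 2 : ℝ) : ℂ)⁻¹ * (a0 (d / ((X ^ 3 / Y : ℝ) : ℂ))
        * ft w (-(Y * (C / (d * q)))) * ft b0 (3 * X * (ξ / d))) * psi (ξ ^ 3 * q / (d * C)) := by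
  have hXc : (X : ℂ) ≠ 0 := ofReal_ne_zero.2 hX.ne'
  have hYc : (Y : ℂ) ≠ 0 := ofReal_ne_zero.2 hY.ne'
  have e1 : C / (q * ((X ^ 3 / Y ^ 2 : ℝ) : ℂ)) / (d / ((X ^ 3 / Y : ℝ) : ℂ))
      = Y * (C / (d * q)) := by
    push_cast
    field_simp
  have e2 : 3 * X / ((X ^ 3 / Y : ℝ) : ℂ) * ξ / (d / ((X ^ 3 / Y : ℝ) : ℂ)) = 3 * X * (ξ / d) := by
    push_cast
    field_simp
  have e3 : (3 * X / ((X ^ 3 / Y : ℝ) : ℂ) * ξ) ^ 3
      / (27 * (d / ((X ^ 3 / Y : ℝ) : ℂ)) * (C / (q * ((X ^ 3 / Y ^ 2 : ℝ) : ℂ))))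
      = ξ ^ 3 * q / (d * C) := by
    push_cast
    field_simp
    ring
  have e4 : ((‖d / ((X ^ 3 / Y : ℝ) : ℂ)‖ ^ 2 : ℝ) : ℂ)⁻¹
      = ((X ^ 3 / Y : ℝ) : ℂ) ^ 2 * ((‖d‖ ^ 2 : ℝ) : ℂ)⁻¹ := by
    rw [norm_div, div_pow, Complex.norm_real, Real.norm_eq_abs, sq_abs, ofReal_div,
      inv_div, ofReal_pow, div_eq_mul_inv]
  unfold QRH.Fint
  dsimp only
  rw [e1, e2, e3, e4]
  ring

theorem vc_ft2 (w : ℂ → ℂ) {X Y : ℝ} (hX : 0 < X) (hY : 0 < Y) {q C : ℂ} (hq : q ≠ 0)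
    (hC : C ≠ 0) (η δ ζ : ℂ) :
    ft2 (vc_F w (C / (q * ((X ^ 3 / Y ^ 2 : ℝ) : ℂ))) (-q / ((X ^ 3 / Y : ℝ) : ℂ))
        (η * C / ((X ^ 3 / Y : ℝ) : ℂ)) (3 * X / ((X ^ 3 / Y : ℝ) : ℂ))) (δ / C) (3 * ζ / C)
      = ((X ^ 3 / Y : ℝ) : ℂ) ^ 2 * (((X ^ 3 / Y) ^ 2 / (9 * X ^ 2) : ℝ) : ℂ)
        * ((‖q‖ ^ 2 : ℝ) : ℂ)⁻¹ * psi (-(η * δ) / q)
        * Ia w (C / (q * ((X ^ 3 / Y ^ 2 : ℝ) : ℂ))) (δ * Y / q ^ 2)
          (ζ / (q * ((X / Y : ℝ) : ℂ))) := by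
  have hXc : (X : ℂ) ≠ 0 := ofReal_ne_zero.2 hX.ne'
  have hYc : (Y : ℂ) ≠ 0 := ofReal_ne_zero.2 hY.ne'
  have hD : ((X ^ 3 / Y : ℝ) : ℂ) ≠ 0 := ofReal_ne_zero.2 (by positivity)
  have key := QRH.ft2_affine (Fint w (C / (q * ((X ^ 3 / Y ^ 2 : ℝ) : ℂ))))
    (div_ne_zero (neg_ne_zero.2 hq) hD) (div_ne_zero (mul_ne_zero three_ne_zero hXc) hD)
    (η * C / ((X ^ 3 / Y : ℝ) : ℂ)) (δ / C) (3 * ζ / C)
  have e1 : ((‖-q / ((X ^ 3 / Y : ℝ) : ℂ)‖ ^ 2 * ‖3 * X / ((X ^ 3 / Y : ℝ) : ℂ)‖ ^ 2 : ℝ) : ℂ)⁻¹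
      = ((X ^ 3 / Y : ℝ) : ℂ) ^ 2 * (((X ^ 3 / Y) ^ 2 / (9 * X ^ 2) : ℝ) : ℂ)
        * ((‖q‖ ^ 2 : ℝ) : ℂ)⁻¹ := by
    have hn : (‖q‖ : ℂ) ≠ 0 := ofReal_ne_zero.2 (norm_ne_zero_iff.2 hq)
    rw [norm_div, norm_div, div_pow, div_pow, norm_neg, norm_mul, mul_pow, Complex.norm_real,
      Complex.norm_real, Real.norm_eq_abs, Real.norm_eq_abs, sq_abs, sq_abs, Complex.norm_ofNat]
    push_cast
    generalize (‖q‖ : ℂ) = n at hn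
    field_simp
    ring
  have e2 : η * C / ((X ^ 3 / Y : ℝ) : ℂ) * (δ / C) / (-q / ((X ^ 3 / Y : ℝ) : ℂ))
      = -(η * δ) / q := by
    generalize ((X ^ 3 / Y : ℝ) : ℂ) = D at hD
    field_simp
  have e3 : δ / C / (-q / ((X ^ 3 / Y : ℝ) : ℂ))
      = -(δ * Y / q ^ 2 / (C / (q * ((X ^ 3 / Y ^ 2 : ℝ) : ℂ)))) := by
    push_cast
    field_simp
  have e4 : 3 * ζ / C / (3 * X / ((X ^ 3 / Y : ℝ) : ℂ))
      = ζ / (q * ((X / Y : ℝ) : ℂ)) / (C / (q * ((X ^ 3 / Y ^ 2 : ℝ) : ℂ))) := by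
    push_cast
    field_simp
  rw [e1, e2, e3, e4] at key
  exact key

variable [σ : St]

/-- The unimodular change of variables. -/
def vc_eqv (α β κ η : E) (h : α * η - β * κ = 1) : (E × E × E) ≃ (E × E × E) where
  toFun x := (η * x.1 - κ * x.2.1, -β * x.1 + α * x.2.1, x.2.2)
  invFun x := (α * x.1 + κ * x.2.1, β * x.1 + η * x.2.1, x.2.2)
  left_inv x := Prod.ext (by dsimp only; linear_combination x.1 * h)
    (Prod.ext (by dsimp only; linear_combination x.2.1 * h) rfl)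
  right_inv x := Prod.ext (by dsimp only; linear_combination x.1 * h)
    (Prod.ext (by dsimp only; linear_combination x.2.1 * h) rfl)

/-- Exchange of the first two variables. -/
def vc_swap : (E × E × E) ≃ (E × E × E) where
  toFun x := (x.2.1, x.1, x.2.2)
  invFun x := (x.2.1, x.1, x.2.2)
  left_inv _ := rfl
  right_inv _ := rfl

/-- Multiplication of the second variable by three. -/
def vc_three : (E × E) ≃ (E × E) :=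
  (Equiv.refl E).prodCongr (isUnit_three.unit.mulLeft)

theorem vc_three_apply (x : E × E) : vc_three x = (x.1, 3 * x.2) := rfl

/-- The `S`-adic factor. -/
def vc_g (b q η C y ξ : FF) : ℂ :=
  ic 1 (-q * y + η * C) * il (Bd b) ξ * psiS (ξ ^ 3 * q / ((-q * y + η * C) * C))

/-- The archimedean factor. -/
def vc_FF (q η C : E) (w : Pl → ℂ → ℂ) (Y : Pl → ℝ) (X : ℝ) (v : Pl) : ℂ × ℂ → ℂ :=
  vc_F (w v) (em v C / (em v q * ((X ^ 3 / Y v ^ 2 : ℝ) : ℂ))) (-em v q / ((X ^ 3 / Y v : ℝ) : ℂ))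
    (em v η * em v C / ((X ^ 3 / Y v : ℝ) : ℂ)) (3 * X / ((X ^ 3 / Y v : ℝ) : ℂ))

variable {a b : FF} {q u η β : E} {w : Pl → ℂ → ℂ} {Y : Pl → ℝ} {X : ℝ}

theorem vc_coe_ne {x : E} (hx : x ≠ 0) : (x : FF) ≠ 0 := fun h => hx (Subtype.ext h)

theorem vc_G1_zero (h : VP a b q u η β w Y) (d ξ : E) :
    G1 a b q u w Y X (η * 0 - q * d) (-β * 0 + u * d) ξ = 0 := by
  obtain ⟨v⟩ : Nonempty Pl := inferInstance
  have e : u * (η * 0 - q * d) + q * (-β * 0 + u * d) = 0 := by ring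
  have h0 : ft (w v) 0 = 0 := by
    have h1 := (h.adm v).ft_rot (u := -1) (by simp) 0
    rw [mul_zero, map_neg, map_one] at h1
    linear_combination h1 / 2
  unfold G1
  rw [e, Finset.prod_eq_zero (Finset.mem_univ v), mul_zero]
  simp [h0]

theorem vc_G1 (h3 : Eqv) (h4 : HOne) (h : VP a b q u η β w Y) (hX : 0 < X) {C : E}
    (hC : C ≠ 0) (d ξ : E) :
    G1 a b q u w Y X (η * C - q * d) (-β * C + u * d) ξ
      = xv c3 q u * H C q * fts (ic a) (-(C / q)) * (∏ v, ((X ^ 3 / Y v : ℝ) : ℂ) ^ 2)⁻¹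
        * (phig C d ξ * vc_g b q η C d ξ * ∏ v, vc_FF q η C w Y X v (em v d, em v ξ)) := by
  have hq := h.hq
  have hdet := h.det
  have eC : u * (η * C - q * d) + q * (-β * C + u * d) = C := by linear_combination C * hdet
  have ed : β * (η * C - q * d) + η * (-β * C + u * d) = d := by linear_combination d * hdet
  have e0 : (-(q : FF) * d + η * C) = ((η * C - q * d : E) : FF) := by
    push_cast
    ring
  have ez : ∀ v, -em v q / ((X ^ 3 / Y v : ℝ) : ℂ) * em v d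
      + em v η * em v C / ((X ^ 3 / Y v : ℝ) : ℂ)
      = em v ((η * C - q * d : E) : FF) / ((X ^ 3 / Y v : ℝ) : ℂ) := by
    intro v
    rw [← e0, map_add, map_mul, map_mul, map_neg]
    ring
  unfold G1 vc_g vc_FF vc_F
  simp only [ez]
  rw [e0]
  generalize η * C - q * d = d0 at eC ed ⊢
  generalize -β * C + u * d = δ at eC ed ⊢
  by_cases hd : Cl 1 (d0 : FF)
  swap
  · have : ic 1 (d0 : FF) = 0 := if_neg hd
    simp only [this, zero_mul, mul_zero]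
  have hd0' : (d0 : FF) ≠ 0 := hd.ne_zero
  have hd0 : d0 ≠ 0 := fun h0 => hd0' (by rw [h0]; rfl)
  have hq' := vc_coe_ne hq
  have hC' := vc_coe_ne hC
  have hE := h3 u β q η d0 δ ξ hdet hq hd0 (by rw [eC]; exact hC)
  rw [eC, ed, h4 d0 C hd hC, H_swap d0 q, h4 d0 q hd hq, map_one, psf_eq] at hE
  have e1 : fts (ic a) (-((C : FF) / (d0 * q))) = fts (ic a) (-(C / q)) := by
    have hi : Cl 1 (d0 : FF)⁻¹ := by simpa using hd.inv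
    rw [← fts_ic_cl h.ha hi (-(C / q))]
    congr 1
    field_simp
  have e2 : (nm d0 : ℂ) = ∏ v, ((‖em v d0‖ ^ 2 : ℝ) : ℂ) := by
    have := nm_eq hd0
    rw [hd.sS_eq, sS_one, mul_one, Ninf] at this
    rw [← ofReal_prod, ← this, ofReal_natCast]
  have e3 : ∀ v, Fint (w v) (em v C / (em v q * ((X ^ 3 / Y v ^ 2 : ℝ) : ℂ)))
      (em v d0 / ((X ^ 3 / Y v : ℝ) : ℂ), 3 * X / ((X ^ 3 / Y v : ℝ) : ℂ) * em v ξ)
      = ((X ^ 3 / Y v : ℝ) : ℂ) ^ 2 * ((‖em v d0‖ ^ 2 : ℝ) : ℂ)⁻¹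
        * (a0 (em v d0 / ((X ^ 3 / Y v : ℝ) : ℂ)) * ft (w v) (-(Y v * em v (C / (d0 * q : FF))))
          * ft b0 (3 * X * em v (ξ / d0))) * psi (em v (ξ ^ 3 * q / (d0 * C))) := by
    intro v
    rw [vc_Fint (w v) hX (h.hY v) (em_ne_zero v hq') (em_ne_zero v hC') (em_ne_zero v hd0')]
    simp only [map_div₀, map_mul, map_pow]
  have hD : (∏ v, ((X ^ 3 / Y v : ℝ) : ℂ) ^ 2) ≠ 0 := Finset.prod_ne_zero_iff.2 fun v _ =>
    pow_ne_zero _ (ofReal_ne_zero.2 (by have := h.hY v; positivity))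
  have hD2 := inv_mul_cancel₀ hD
  have e5 : ((ξ ^ 3 * q : E) : FF) / ((d0 * C : E) : FF) = ξ ^ 3 * q / (d0 * C) := by
    push_cast
    rfl
  rw [eC, hE, e1, e2, e5]
  simp only [e3, Finset.prod_mul_distrib, Finset.prod_inv_distrib]
  unfold psiV
  generalize (∏ v, ((X ^ 3 / Y v : ℝ) : ℂ) ^ 2)⁻¹ = D' at hD2 ⊢
  generalize (∏ v, ((X ^ 3 / Y v : ℝ) : ℂ) ^ 2) = D at hD2 ⊢
  generalize (∏ v, ((‖em v d0‖ ^ 2 : ℝ) : ℂ))⁻¹ = t1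
  generalize (∏ v, a0 (em v d0 / ((X ^ 3 / Y v : ℝ) : ℂ))) = t2
  generalize (∏ v, ft (w v) (-(Y v * em v (C / (d0 * q : FF))))) = t3
  generalize (∏ v, ft b0 (3 * X * em v (ξ / d0))) = t4
  generalize (∏ v, psi (em v (ξ ^ 3 * q / (d0 * C)))) = t5
  generalize psiS _ = t6
  generalize phig _ _ _ = t7
  generalize fts _ _ = t8
  generalize il _ _ = t9
  generalize ic _ _ = t10
  generalize xv c3 q u = t11
  generalize H C q = t12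
  linear_combination (-(t1 * t2 * t3 * t4 * t5 * t6 * t7 * t8 * t9 * t10 * t11 * t12)) * hD2

omit σ in
theorem vc_common {ι : Type} [Fintype ι] {F G : ι → ℂ × ℂ → ℂ}
    (h : ∀ i, ∃ M : ℝ, 0 ≤ M ∧ Dec2 M (F i) ∧ Dec2 M (G i)) :
    ∃ M : ℝ, (∀ i, Dec2 M (F i)) ∧ ∀ i, Dec2 M (G i) := by
  choose M h0 h1 h2 using h
  have hle : ∀ i, M i ≤ ∑ j, M j := fun i =>
    Finset.single_le_sum (fun j _ => h0 j) (Finset.mem_univ i)
  refine ⟨∑ j, M j, fun i z => (h1 i z).trans ?_, fun i z => (h2 i z).trans ?_⟩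
  · gcongr
    exact hle i
  · gcongr
    exact hle i

theorem vc_inner (h1 : PS2) (h2 : GlS) (h3 : Eqv) (h4 : HOne) (h5 : IBd)
    (h : VP a b q u η β w Y) (hX : 0 < X) (C : E) :
    ∑' x : E × E, G1 a b q u w Y X (η * C - q * x.1) (-β * C + u * x.1) x.2
      = xv c3 q u * (((kap ^ 2 * ∏ v, (X ^ 3 / Y v) ^ 2 / (9 * X ^ 2) : ℝ) : ℂ) / (nm q : ℂ))
        * ∑' x : E × E, psf (-(η * x.1)) q * G2 a b q w Y X x.1 C x.2 := by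
  by_cases hC : C = 0
  · subst hC
    simp only [vc_G1_zero h]
    simp only [G2, if_true, mul_zero, tsum_zero]
  have hq := h.hq
  have hY := h.hY
  have hq' := vc_coe_ne hq
  have hC' := vc_coe_ne hC
  have hXc : (X : ℂ) ≠ 0 := ofReal_ne_zero.2 hX.ne'
  have hD1 : ∀ v, ((X ^ 3 / Y v : ℝ) : ℂ) ≠ 0 := fun v =>
    ofReal_ne_zero.2 (by have := hY v; positivity)
  obtain ⟨M, B1, B2⟩ := vc_common (F := vc_FF q η C w Y X)
    (G := fun v ξ => ft2 (vc_FF q η C w Y X v) ξ.1 ξ.2) fun v => by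
      obtain ⟨M, hM, B1, B2⟩ := vc_bounds h5 (h.adm v)
        (c := em v C / (em v q * ((X ^ 3 / Y v ^ 2 : ℝ) : ℂ)))
        (div_ne_zero (em_ne_zero v hC') (mul_ne_zero (em_ne_zero v hq')
          (ofReal_ne_zero.2 (by have := hY v; positivity))))
        (div_ne_zero (neg_ne_zero.2 (em_ne_zero v hq')) (hD1 v))
        (div_ne_zero (mul_ne_zero three_ne_zero hXc) (hD1 v))
        (em v η * em v C / ((X ^ 3 / Y v : ℝ) : ℂ))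
      exact ⟨M, hM, B1, fun ξ => B2 ξ.1 ξ.2⟩
  obtain ⟨k, hk⟩ := (hSB2_g0 (Bd_ne_zero h.hb) q C).affine (neg_ne_zero.2 hq') ((η : FF) * C)
  have key := h1 C (phig C) k (vc_g b q η C) (vc_FF q η C w Y X) M hC (phig_per hC) hk
    (fun v => vc_cont (h.adm v) _ _ _ _) B1 B2
  simp only [vc_G1 h3 h4 h hX hC]
  rw [tsum_mul_left, key, ← vc_three.tsum_eq, ← tsum_mul_left, ← tsum_mul_left, ← tsum_mul_left]
  refine tsum_congr fun x => ?_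
  obtain ⟨δ, ζ⟩ := x
  rw [vc_three_apply]
  dsimp only
  have e1 : rsum2 C (fun y z => phig C y z * psf (y * δ + z * (3 * ζ)) C) = nm C * phig C δ ζ := by
    rw [← h2 C δ ζ hC]
    congr 1
    funext y z
    congr 2
    ring
  have e3 : ((3 * ζ : E) : FF) = 3 * ζ := by
    push_cast
    rfl
  have e2 : fts2 (vc_g b q η C) (δ / C) ((3 * ζ : E) / C)
      = ((sS q)⁻¹ : ℝ) * psiS (-(η * δ) / q) * (((kap ^ 2 : ℝ) : ℂ) * Lt (Bd b) q C δ ζ) := by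
    have k1 := fts2_affine (fun d ξ => ic 1 d * il (Bd b) ξ * psiS (ξ ^ 3 * q / (d * C)))
      (neg_ne_zero.2 hq') ((η : FF) * C) (δ / C) (3 * ζ / C)
    have k2 : (η : FF) * C * (δ / C) / -q = -(η * δ) / q := by field_simp
    have k3 : (δ : FF) / C / -q = -(δ / (C * q)) := by field_simp
    rw [k2, k3, fts2_g0, sS_neg] at k1
    rw [e3]
    exact k1
  have e4 : ∀ v, ft2 (vc_FF q η C w Y X v) (em v (δ / C)) (em v ((3 * ζ : E) / C))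
      = ((X ^ 3 / Y v : ℝ) : ℂ) ^ 2 * (((X ^ 3 / Y v) ^ 2 / (9 * X ^ 2) : ℝ) : ℂ)
        * ((‖em v q‖ ^ 2 : ℝ) : ℂ)⁻¹ * psi (em v (-(η * δ) / q))
        * Ia (w v) (em v C / (em v q * ((X ^ 3 / Y v ^ 2 : ℝ) : ℂ))) (zd q Y δ v)
          (em v ζ / (em v q * ((X / Y v : ℝ) : ℂ))) := by
    intro v
    have := vc_ft2 (w v) hX (hY v) (em_ne_zero v hq') (em_ne_zero v hC') (em v η) (em v δ) (em v ζ)
    rw [e3]
    simp only [map_div₀, map_mul, map_neg, map_ofNat]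
    exact this
  have e5 : (nm q : ℂ) = (∏ v, ((‖em v q‖ ^ 2 : ℝ) : ℂ)) * (sS q : ℝ) := by
    rw [← ofReal_prod, ← ofReal_mul, ← Ninf, ← nm_eq hq, ofReal_natCast]
  have e6 : ((-(η * δ) : E) : FF) / q = -(η * δ) / q := by
    push_cast
    rfl
  have hD : (∏ v, ((X ^ 3 / Y v : ℝ) : ℂ) ^ 2) ≠ 0 := Finset.prod_ne_zero_iff.2 fun v _ =>
    pow_ne_zero _ (hD1 v)
  have hD2 := inv_mul_cancel₀ hD
  have hn : (nm C : ℂ) ≠ 0 := Nat.cast_ne_zero.2 (mt nm_eq_zero.1 hC)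
  have hn2 : ((nm C : ℂ) ^ 2)⁻¹ * (nm C : ℂ) = (nm C : ℂ)⁻¹ := by field_simp
  rw [e1, e2, e5, psf_eq, e6]
  unfold G2
  rw [if_neg hC]
  simp only [e4, Finset.prod_mul_distrib, Finset.prod_inv_distrib]
  rw [ofReal_mul (kap ^ 2), ofReal_prod, ofReal_inv, div_eq_mul_inv _ (_ * _), mul_inv,
    div_eq_mul_inv _ (nm C : ℂ), ← hn2]
  unfold psiV
  generalize (∏ v, ((X ^ 3 / Y v : ℝ) : ℂ) ^ 2)⁻¹ = D' at hD2 ⊢
  generalize (∏ v, ((X ^ 3 / Y v : ℝ) : ℂ) ^ 2) = D at hD2 ⊢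
  generalize (∏ v, ((‖em v q‖ ^ 2 : ℝ) : ℂ))⁻¹ = t1
  generalize (∏ v, (((X ^ 3 / Y v) ^ 2 / (9 * X ^ 2) : ℝ) : ℂ)) = t2
  generalize (∏ v, Ia (w v) (em v C / (em v q * ((X ^ 3 / Y v ^ 2 : ℝ) : ℂ))) (zd q Y δ v)
          (em v ζ / (em v q * ((X / Y v : ℝ) : ℂ)))) = t3
  generalize (∏ v, psi (em v (-(η * δ) / q))) = t4
  generalize psiS _ = t5
  generalize phig _ _ _ = t6
  generalize fts _ _ = t7
  generalize Lt _ _ _ _ _ = t8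
  generalize ((sS q : ℝ) : ℂ)⁻¹ = t9
  generalize ((kap ^ 2 : ℝ) : ℂ) = t10
  generalize xv c3 q u = t11
  generalize H C q = t12
  generalize ((nm C : ℂ) ^ 2)⁻¹ = t13
  generalize (nm C : ℂ) = t14
  linear_combination (t1 * t2 * t3 * t4 * t5 * t6 * t7 * t8 * t9 * t10 * t11 * t12 * t13 * t14) * hD2

theorem vorC (h1 : PS2) (h2 : GlS) (h3 : Eqv) (h4 : HOne) (h5 : IBd) : VorC := by
  intro a b q u η β w Y h X hX hS s2
  have s3 : Summable fun x : E × E × E =>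
      psf (-(η * x.1)) q * G2 a b q w Y X x.1 x.2.1 x.2.2 := by
    apply Summable.of_norm
    simpa only [norm_mul, psf, norm_Psi, one_mul] using s2.norm
  have e1 := (vc_eqv _ _ _ _ h.det).tsum_eq
    (fun x : E × E × E => G1 a b q u w Y X x.1 x.2.1 x.2.2)
  have e2 := vc_swap.tsum_eq
    (fun x : E × E × E => psf (-(η * x.1)) q * G2 a b q w Y X x.1 x.2.1 x.2.2)
  have e3 := ((vc_eqv _ _ _ _ h.det).summable_iff.2 hS).tsum_prod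
  have e4 := (vc_swap.summable_iff.2 s3).tsum_prod
  rw [← e1, ← e2]
  refine e3.trans ?_
  refine Eq.trans ?_ (congrArg _ e4.symm)
  rw [← tsum_mul_left]
  exact tsum_congr fun C => vc_inner h1 h2 h3 h4 h5 h hX C

end NQ
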