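import Vale.Agent.NQ.VorL
import Vale.Agent.NQ.Lat
import Vale.Agent.P026.Arch

noncomputable section
namespace NQ
open Complex MeasureTheory NumberField Filter
open scoped ComplexConjugate Classical ContDiff Topology

/-- The archimedean weight after the last swap. -/
def VorD_Phi (w : ℂ → ℂ) (z : ℂ) (y : ℂ × ℂ) : ℂ :=
  ((‖y.1‖ ^ 2 : ℝ) : ℂ)⁻¹ * psi (y.2 ^ 3 / (y.1 * z)) * Ia w y.1 z y.2

theorem VorD_cont {w : ℂ → ℂ} (hw : Adm w) {z : ℂ} (hz : z ≠ 0) :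
    ContinuousOn (VorD_Phi w z) {y | y.1 ≠ 0} := by
  unfold VorD_Phi
  refine ContinuousOn.mul (ContinuousOn.mul (ContinuousOn.inv₀ (by fun_prop) ?_)
    (QRH.continuous_psi.comp_continuousOn (ContinuousOn.div (by fun_prop) (by fun_prop) ?_))) ?_
  · intro y hy
    exact_mod_cast pow_ne_zero 2 (norm_ne_zero_iff.2 hy)
  · exact fun y hy => mul_ne_zero hy hz
  · exact (QRH.continuousOn_Ia hw).comp (f := fun y : ℂ × ℂ => (y.1, z, y.2))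
      (by fun_prop) fun y hy => hy

theorem VorD_bd {w : ℂ → ℂ} {M : ℝ} (hM : 0 < M) (z : ℂ) (y : ℂ × ℂ) (hy : y.1 ≠ 0)
    (hb : ‖Ia w y.1 z y.2‖ ≤ M * ‖y.1‖ * (1 + ‖y.1‖) ^ (-((3 : ℕ) : ℝ)) *
      (1 + ‖z‖) ^ (-((3 : ℕ) : ℝ)) * (1 + ‖y.2‖) ^ (-((3 : ℕ) : ℝ))) :
    ‖VorD_Phi w z y‖ ≤ M * (‖y.1‖⁻¹ * (1 + ‖y.1‖) ^ (-3 : ℝ)) * (1 + ‖y.2‖) ^ (-3 : ℝ) := by
  have hy0 : 0 < ‖y.1‖ := norm_pos_iff.2 hy
  have e3 : (-((3 : ℕ) : ℝ)) = -3 := by norm_num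
  rw [e3] at hb
  have hz1 : (1 + ‖z‖) ^ (-3 : ℝ) ≤ 1 :=
    Real.rpow_le_one_of_one_le_of_nonpos (by linarith [norm_nonneg z]) (by norm_num)
  unfold VorD_Phi
  rw [norm_mul, norm_mul, QRH.norm_psi, norm_inv, Complex.norm_real, Real.norm_eq_abs,
    abs_of_nonneg (by positivity), mul_one]
  calc _ ≤ (‖y.1‖ ^ 2)⁻¹ * (M * ‖y.1‖ * (1 + ‖y.1‖) ^ (-3 : ℝ) * 1
        * (1 + ‖y.2‖) ^ (-3 : ℝ)) := by
        gcongr
        refine hb.trans ?_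
        gcongr
    _ = _ := by field_simp

theorem VorD_Ka (w : ℂ → ℂ) (z : ℂ) : ((4 / 3 : ℝ) : ℂ) * ∫ u, VorD_Phi w z u = Ka w z := rfl

theorem VorD_tend {x : ℂ} (hx : x ≠ 0) {f : ℝ → ℝ} (hf : Tendsto f atTop atTop) :
    Tendsto (fun X => ‖x * ((f X : ℝ) : ℂ)‖) atTop atTop := by
  simp only [norm_mul, Complex.norm_real, Real.norm_eq_abs]
  exact (tendsto_abs_atTop_atTop.comp hf).const_mul_atTop (norm_pos_iff.2 hx)

variable [σ : St]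

theorem VorD_per {δ : E} (hδ : δ ≠ 0) : Per2 δ fun C ζ => phig δ (-C) ζ :=
  fun _ _ _ _ hx hy => phig_per hδ _ _ _ _ (by rw [neg_sub_neg]; exact dvd_sub_comm.1 hx) hy

theorem VorD_rsum (h2 : GlS) {δ : E} (hδ : δ ≠ 0) :
    rsum2 δ (fun C ζ => phig δ (-C) ζ) / (nm δ : ℂ) ^ 2 = Tg δ / nm δ := by
  rw [rsum2_bij hδ (phig_per hδ) (fun C _ => -C) (fun _ ζ => ζ)
    fun x y x' y' hx hy => ⟨by rw [neg_sub_neg] at hx; exact dvd_sub_comm.1 hx, hy⟩,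
    rsum2_phig h2 hδ]
  have h0 : (nm δ : ℂ) ≠ 0 := by exact_mod_cast mt nm_eq_zero.1 hδ
  field_simp

/-- The weight, cut off at the origin. -/
def VorD_g (a b : FF) (q δ : E) (C ζ : FF) : ℂ := if C = 0 then 0 else Al a b q δ C ζ

theorem VorD_tr (a b : FF) (q δ : E) (k : ℕ) : tr k (VorD_g a b q δ) = tr k (Al a b q δ) := by
  funext C ζ
  unfold tr VorD_g
  split_ifs with h1 h2
  · exact absurd h2 h1.1
  · rfl
  · rfl

theorem VorD_norm {a b : FF} {q δ : E} (hq : q ≠ 0) (hδ : δ ≠ 0) {C : FF} (hC : C ≠ 0) (ζ : FF)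
    {K : ℝ} (h : ‖fts (ic a) (-(C / q)) * Lt (Bd b) q C δ ζ‖ ≤ K * sS C ^ (1 / 4 : ℝ)) :
    ‖VorD_g a b q δ C ζ‖ ≤ K * sS C ^ (-(3 / 4) : ℝ) := by
  have hs := sS_pos C
  unfold VorD_g Al
  rw [if_neg hC, mul_assoc (H _ _), norm_div, norm_mul, norm_mul,
    norm_H (ce_ne_zero hC) (mul_ne_zero hq hδ), norm_psiS, one_mul, mul_one, Complex.norm_real,
    Real.norm_eq_abs, abs_of_pos hs, div_le_iff₀ hs, mul_assoc, ← Real.rpow_add_one hs.ne']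
  norm_num
  norm_num at h
  exact h

theorem VorD_supp {a b : FF} {q δ : E} {C ζ : FF} (h : VorD_g a b q δ C ζ ≠ 0) :
    C ≠ 0 ∧ fts (ic a) (-(C / q)) * Lt (Bd b) q C δ ζ ≠ 0 := by
  unfold VorD_g at h
  by_cases hC : C = 0
  · exact absurd (if_pos hC) h
  · refine ⟨hC, fun h0 => h ?_⟩
    rw [if_neg hC]
    unfold Al
    rw [mul_assoc (H _ _), h0]
    simp

theorem VorD_zero {a b : FF} {q δ C ζ : E} (w : Pl → ℂ → ℂ) (Y : Pl → ℝ) (X : ℝ)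
    (h : (C : FF) ≠ 0 → fts (ic a) (-((C : FF) / q)) * Lt (Bd b) q C δ ζ = 0) :
    G2 a b q w Y X δ C ζ = 0 := by
  unfold G2
  split_ifs with hC
  · rfl
  · rw [mul_assoc (H _ _), h (by simpa using hC)]
    simp

theorem VorD_scal {q : E} (hq : q ≠ 0) {Y : Pl → ℝ} (hY : ∀ v, 0 < Y v) {X : ℝ} (hX : 0 < X)
    (S : Pl → ℂ) :
    ((∏ v, Y v ^ 2 / X ^ 2 : ℝ) : ℂ) / (nm q : ℂ) * ∏ v, ((‖S v‖ ^ 2 : ℝ) : ℂ)⁻¹ =
      ((sS q : ℝ) : ℂ)⁻¹ *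
        (((∏ v, ‖S v‖ ^ 2 * ‖em v q * ((X / Y v : ℝ) : ℂ)‖ ^ 2)⁻¹ : ℝ) : ℂ) := by
  have hq' : (q : FF) ≠ 0 := by simpa using hq
  have e : (∏ v, Y v ^ 2 / X ^ 2) / (nm q : ℝ) * ∏ v, (‖S v‖ ^ 2)⁻¹ =
      (sS q)⁻¹ * (∏ v, ‖S v‖ ^ 2 * ‖em v q * ((X / Y v : ℝ) : ℂ)‖ ^ 2)⁻¹ := by
    rw [nm_eq hq, Ninf, div_mul_eq_div_div, div_eq_mul_inv _ (sS _), mul_comm _ (sS _)⁻¹, mul_assoc,
      ← Finset.prod_div_distrib, ← Finset.prod_mul_distrib, ← Finset.prod_inv_distrib]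
    congr 1
    refine Finset.prod_congr rfl fun v _ => ?_
    have h1 := norm_pos_iff.2 (em_ne_zero v hq')
    have h2 := hY v
    rw [norm_mul, Complex.norm_real, Real.norm_eq_abs, mul_pow, sq_abs]
    field_simp
  have e2 := congrArg (fun t : ℝ => (t : ℂ)) e
  beta_reduce at e2
  rw [Complex.ofReal_mul, Complex.ofReal_mul, Complex.ofReal_div, Complex.ofReal_natCast,
    Complex.ofReal_inv (sS _), Complex.ofReal_prod _ (fun v => (‖S v‖ ^ 2)⁻¹)] at e2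
  simp only [Complex.ofReal_inv (‖S _‖ ^ 2)] at e2
  exact e2

theorem VorD_pt (h3 : Asw) (h4 : HCongr) {a b : FF} {q q1 u η β : E} {w : Pl → ℂ → ℂ}
    {Y : Pl → ℝ} (h : VP a b q u η β w Y) (hq1 : Cl q1 q) {X : ℝ} (hX : 0 < X) {δ : E}
    (hδ : δ ≠ 0) (C ζ : E) :
    G2 a b q w Y X δ C ζ = (∏ v, ((‖em v q * ((X ^ 3 / Y v ^ 2 : ℝ) : ℂ)‖ ^ 2 : ℝ) : ℂ)⁻¹) *
      if C = 0 then 0 else phig δ (-C) ζ * VorD_g a b q1 δ C ζ *
        ∏ v, VorD_Phi (w v) (zd q Y δ v) (em v C / (em v q * ((X ^ 3 / Y v ^ 2 : ℝ) : ℂ)),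
          em v ζ / (em v q * ((X / Y v : ℝ) : ℂ))) := by
  by_cases hC : C = 0
  · rw [if_pos hC, mul_zero]
    unfold G2
    exact if_pos hC
  · have hC' : (C : FF) ≠ 0 := by simpa using hC
    rw [if_neg hC, G2_eq h3 h4 h hX hδ hC ζ, Finset.prod_mul_distrib,
      Al_cl h4 h.ha b hq1 hδ hC', mul_left_comm]
    unfold VorD_g
    rw [if_neg hC']
    rfl

theorem vorD (h1 : RiemL) (h2 : GlS) (h3 : Asw) (h4 : HCongr) (h5 : IBd) (hL : LtB) : VorD := by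
  intro a b q0 ha hb hq0
  obtain ⟨K, c0, z0, δ1, hK, hc0, hz0, hδ1, hS⟩ := G2_supp hL ha hb hq0
  obtain ⟨K1, hK1, hR⟩ := h1 c0 z0 hc0 hz0
  have hq1 : Cl q0 (ce q0) := ce_cl hq0
  have hq1' : ce q0 ≠ 0 := ce_ne_zero hq0
  have hl := fun (δ : E) (hδ : δ ≠ 0) => hR (VorD_g a b (ce q0) δ) K hK.le
    (fun C ζ h => by
      obtain ⟨hC, h0⟩ := VorD_supp h
      obtain ⟨a1, a2, -⟩ := (hS _ C δ ζ hq1 hC).2 h0
      exact ⟨a1, a2⟩)
    (fun C ζ hC => VorD_norm hq1' hδ hC ζ (hS _ C δ ζ hq1 hC).1)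
    (fun k => by
      rw [VorD_tr]
      exact Al_sb h4 hL ha hb hq1' hδ k)
  choose l hl1 hl2 using hl
  have hs0 := sS_pos q0
  refine ⟨K1 * K / sS q0, δ1, fun δ => if h : δ ≠ 0 ∧ (δ : FF) / δ1 ∈ OS then
    ((sS q0 : ℝ) : ℂ)⁻¹ * (Tg δ / nm δ * l δ h.1) else 0, by positivity, hδ1, fun δ => ?_,
    fun δ h => ?_, ?_⟩
  · beta_reduce
    split_ifs with h
    · rw [norm_mul, norm_mul, norm_inv, norm_div, Complex.norm_real, Real.norm_eq_abs,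
        abs_of_pos hs0, Complex.norm_natCast]
      calc _ ≤ (sS q0)⁻¹ * (‖Tg δ‖ / nm δ * (K1 * K)) := by
            gcongr
            exact hl1 δ h.1
        _ = _ := by ring
    · rw [norm_zero]
      positivity
  · by_contra h0
    exact h (dif_neg fun hh => h0 hh.2)
  · intro q u η β w Y hp hq δ hδ
    beta_reduce
    by_cases hd : (δ : FF) / δ1 ∈ OS
    · rw [dif_pos ⟨hδ, hd⟩]
      have hq' : (q : FF) ≠ 0 := hq.ne_zero
      have hδ' : (δ : FF) ≠ 0 := by simpa using hδ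
      have hY := hp.hY
      obtain ⟨M, hM, hI⟩ := Ia_le h5 hp.adm 3
      have hz : ∀ v, zd q Y δ v ≠ 0 := fun v => by
        unfold zd
        exact div_ne_zero (mul_ne_zero (em_ne_zero v hδ') (by exact_mod_cast (hY v).ne'))
          (pow_ne_zero _ (em_ne_zero v hq'))
      have key := hl2 δ hδ δ (fun C ζ => phig δ (-C) ζ) (fun v => VorD_Phi (w v) (zd q Y δ v)) M
        (fun X v => em v q * ((X ^ 3 / Y v ^ 2 : ℝ) : ℂ))
        (fun X v => em v q * ((X / Y v : ℝ) : ℂ)) hδ (VorD_per hδ)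
        (fun v => VorD_cont (hp.adm v) (hz v))
        (fun v y hy => VorD_bd hM _ y hy (hI v _ _ _ hy))
        (fun v => VorD_tend (em_ne_zero v hq') (f := fun X => X ^ 3 / Y v ^ 2)
          ((tendsto_pow_atTop (by norm_num)).atTop_div_const (pow_pos (hY v) 2)))
        (fun v => VorD_tend (em_ne_zero v hq') (f := fun X => X / Y v)
          (tendsto_id.atTop_div_const (hY v)))
      rw [VorD_rsum h2 hδ] at key
      simp only [VorD_Ka] at key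
      have key2 := key.const_mul ((sS q0 : ℝ) : ℂ)⁻¹
      rw [← mul_assoc] at key2
      refine key2.congr' ?_
      filter_upwards [eventually_gt_atTop 0] with X hX
      rw [tsum_congr fun x : E × E => VorD_pt h3 h4 hp (hq1.symm.trans hq) hX hδ x.1 x.2,
        tsum_mul_left, ← mul_assoc, ← mul_assoc, VorD_scal hp.hq hY hX, hq.sS_eq]
    · rw [dif_neg fun hh => hd hh.2, zero_mul]
      have e : ∀ X : ℝ, ∑' x : E × E, G2 a b q w Y X δ x.1 x.2 = 0 := fun X => by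
        rw [tsum_congr fun x : E × E => VorD_zero w Y X fun hC => by
          by_contra h0
          exact hd ((hS _ _ δ _ hq hC).2 h0).2.2, tsum_zero]
      simp only [e, mul_zero]
      exact tendsto_const_nhds

end NQ
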