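import Vale.Agent.NQ.VorL
import Vale.Agent.NQ.Lat
import Vale.Agent.P026.Arch
import Vale.Agent.NQ.UCt
import Vale.Agent.NQ.Dvs

noncomputable section
namespace NQ
open Complex MeasureTheory NumberField Filter
open scoped ComplexConjugate Classical ContDiff Topology

theorem vorE0_pt {c R : ℝ} (hc : 0 < c) (hR : 0 < R) :
    (c ^ 2) ^ (-(1 / 8) : ℝ) * (c / R * (1 + c / R) ^ (-4 : ℝ))
      ≤ R ^ (-(1 / 4) : ℝ) * ((c / R) ^ (1 / 8 : ℝ) * (1 + c / R) ^ (-(2 * (1 / 8)) : ℝ)) := by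
  obtain ⟨t, rfl⟩ : ∃ t, c = t * R := ⟨c / R, by field_simp⟩
  have ht : 0 < t := (mul_pos_iff_of_pos_right hR).1 hc
  rw [mul_div_cancel_right₀ _ hR.ne', ← Real.rpow_natCast, ← Real.rpow_mul hc.le,
    Real.mul_rpow ht.le hR.le]
  have e1 : ((2 : ℕ) : ℝ) * (-(1 / 8)) = -(1 / 4) := by norm_num
  rw [e1]
  have e2 : t ^ (-(1 / 4) : ℝ) * t = t ^ (1 / 8 : ℝ) * t ^ (5 / 8 : ℝ) := by
    rw [← Real.rpow_add ht, ← Real.rpow_add_one ht.ne']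
    norm_num
  have h3 : t ^ (5 / 8 : ℝ) * (1 + t) ^ (-4 : ℝ) ≤ (1 + t) ^ (-(2 * (1 / 8)) : ℝ) := by
    refine (mul_le_mul_of_nonneg_right
      (Real.rpow_le_rpow ht.le (show t ≤ 1 + t by linarith) (by norm_num)) (by positivity)).trans ?_
    rw [← Real.rpow_add (by linarith)]
    exact Real.rpow_le_rpow_of_exponent_le (by linarith) (by norm_num)
  calc t ^ (-(1 / 4) : ℝ) * R ^ (-(1 / 4) : ℝ) * (t * (1 + t) ^ (-4 : ℝ))
      = R ^ (-(1 / 4) : ℝ) * (t ^ (-(1 / 4) : ℝ) * t * (1 + t) ^ (-4 : ℝ)) := by ring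
    _ = R ^ (-(1 / 4) : ℝ) * (t ^ (1 / 8 : ℝ) * (t ^ (5 / 8 : ℝ) * (1 + t) ^ (-4 : ℝ))) := by
      rw [e2]; ring
    _ ≤ _ := by gcongr

theorem vorE0_pt2 {c R : ℝ} (hc : 0 ≤ c) (hR : 0 < R) :
    (c ^ 2) ^ (1 / 4 : ℝ) * (1 + c / R) ^ (-4 : ℝ)
      ≤ R ^ (1 / 2 : ℝ) * (1 + c / R) ^ (-(7 / 2) : ℝ) := by
  have ht : 0 ≤ c / R := by positivity
  have h1 : c ≤ R * (1 + c / R) := by
    rw [mul_add, mul_div_cancel₀ _ hR.ne']
    linarith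
  rw [← Real.rpow_natCast, ← Real.rpow_mul hc]
  have e1 : ((2 : ℕ) : ℝ) * (1 / 4) = 1 / 2 := by norm_num
  rw [e1]
  refine (mul_le_mul_of_nonneg_right (Real.rpow_le_rpow hc h1 (by norm_num))
    (by positivity)).trans (le_of_eq ?_)
  rw [Real.mul_rpow hR.le (by positivity), mul_assoc, ← Real.rpow_add (by positivity)]
  norm_num

theorem vorE0_sc {n Y X : ℝ} (hn : 0 < n) (hY : 0 < Y) (hX : 0 < X) :
    Y ^ 2 / X ^ 2 * ((n * (X ^ 3 / Y ^ 2)) ^ (-(1 / 4) : ℝ) * (n * (X / Y)) ^ (1 / 2 : ℝ)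
      * (n * (X / Y)) ^ 2)
      = (n / Y ^ 2) ^ (-(1 / 4) : ℝ) * (n / Y) ^ (1 / 2 : ℝ) * n ^ 2 * X ^ (-(1 / 4) : ℝ) := by
  have e1 : n * (X ^ 3 / Y ^ 2) = n / Y ^ 2 * X ^ 3 := by ring
  have e2 : n * (X / Y) = n / Y * X := by ring
  have e3 : (X ^ 3) ^ (-(1 / 4) : ℝ) * X ^ (1 / 2 : ℝ) = X ^ (-(1 / 4) : ℝ) := by
    rw [← Real.rpow_natCast, ← Real.rpow_mul hX.le, ← Real.rpow_add hX]
    norm_num
  rw [e1, e2, Real.mul_rpow (by positivity) (by positivity),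
    Real.mul_rpow (by positivity) (by positivity), ← e3]
  field_simp

variable [σ : St]

/-- The weight that is summable over the associates of an element. -/
def vorE0U (b : FF) (R : Pl → ℝ) (x : E) : ℝ :=
  (sS x / sS b) ^ (1 / 8 : ℝ) *
    ∏ w, (‖em w x‖ / R w) ^ (1 / 8 : ℝ) * (1 + ‖em w x‖ / R w) ^ (-(2 * (1 / 8)) : ℝ)

theorem vorE0U_nonneg (b : FF) {R : Pl → ℝ} (hR : ∀ w, 0 < R w) (x : E) : 0 ≤ vorE0U b R x := by
  have h1 := sS_pos (x : FF)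
  have h2 := sS_pos b
  unfold vorE0U
  refine mul_nonneg (by positivity) (Finset.prod_nonneg fun w _ => ?_)
  have := hR w
  positivity

theorem vorE0_div : ∃ C : ℝ, 0 < C ∧ ∀ (b : FF) (R : Pl → ℝ) (ζ : E) (J : Finset E), b ≠ 0 →
    (∀ w, 0 < R w) → ζ ≠ 0 → (∀ x ∈ J, x ≠ 0 ∧ (x : FF) / b ∈ OS ∧ x ∣ ζ ^ 2) →
    ∑ x ∈ J, vorE0U b R x ≤ C * (nm ζ : ℝ) ^ (1 / 4 : ℝ) := by
  obtain ⟨C1, h1, H1⟩ := unit_sum (θ := 1 / 8) (by norm_num)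
  obtain ⟨C2, h2, H2⟩ := card_dvd_le (ε := 1 / 8) (by norm_num)
  refine ⟨C2 * C1, by positivity, fun b R ζ J hb hR hζ hJ => ?_⟩
  have hζ2 : ζ ^ 2 ≠ 0 := pow_ne_zero _ hζ
  set T := (ball (nm (ζ ^ 2))).filter fun y => y ∣ ζ ^ 2 with hT
  have hm : ∀ x ∈ J, pm x ∈ T := by
    intro x hx
    obtain ⟨h3, -, h4⟩ := hJ x hx
    have h5 : pm x ∣ ζ ^ 2 := (assoc_pm h3).symm.dvd.trans h4
    refine Finset.mem_filter.2 ⟨prim_subset_ball _ (mem_prim.2 ⟨prim_pm x, ?_⟩), h5⟩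
    exact_mod_cast nm_le_of_dvd h5 hζ2
  rw [← Finset.sum_fiberwise_of_maps_to hm]
  refine (Finset.sum_le_card_nsmul _ _ C1 fun y _ => ?_).trans ?_
  · refine H1 b R y _ hb hR fun x hx => ?_
    obtain ⟨h3, h4⟩ := Finset.mem_filter.1 hx
    exact ⟨(hJ x h3).1, h4 ▸ assoc_pm (hJ x h3).1, (hJ x h3).2.1⟩
  · have h3 := H2 (ζ ^ 2) (nm (ζ ^ 2)) hζ2
    have e : (nm (ζ ^ 2) : ℝ) ^ (1 / 8 : ℝ) = (nm ζ : ℝ) ^ (1 / 4 : ℝ) := by
      rw [nm_pow, Nat.cast_pow, ← Real.rpow_natCast, ← Real.rpow_mul (Nat.cast_nonneg _)]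
      norm_num
    rw [e] at h3
    rw [nsmul_eq_mul]
    refine (mul_le_mul_of_nonneg_right h3 h1.le).trans (le_of_eq ?_)
    ring

theorem vorE0_nm {z0 : FF} (hz : z0 ≠ 0) {R : Pl → ℝ} (hR : ∀ w, 0 < R w) {ζ : E} (hζ : ζ ≠ 0)
    (h : (ζ : FF) / z0 ∈ OS) :
    (nm ζ : ℝ) ^ (1 / 4 : ℝ) * ∏ w, (1 + ‖em w ζ‖ / R w) ^ (-4 : ℝ)
      ≤ sS z0 ^ (1 / 4 : ℝ) * (∏ w, R w ^ (1 / 2 : ℝ))
        * ∏ w, (1 + ‖em w ζ‖ / R w) ^ (-(7 / 2) : ℝ) := by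
  have h0 : ∀ w, 0 ≤ (1 + ‖em w (ζ : FF)‖ / R w) ^ (-4 : ℝ) := fun w => by
    have := hR w
    positivity
  have h1 := Real.rpow_le_rpow (Nat.cast_nonneg _) (nm_le_box hz hζ h)
    (show (0 : ℝ) ≤ 1 / 4 by norm_num)
  refine (mul_le_mul_of_nonneg_right h1 (Finset.prod_nonneg fun w _ => h0 w)).trans ?_
  rw [Real.mul_rpow (sS_pos _).le (Ninf_nonneg _), mul_assoc, mul_assoc]
  refine mul_le_mul_of_nonneg_left ?_ (Real.rpow_nonneg (sS_pos _).le _)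
  unfold Ninf
  rw [← Real.finsetProd_rpow _ _ fun w _ => by positivity, ← Finset.prod_mul_distrib,
    ← Finset.prod_mul_distrib]
  exact Finset.prod_le_prod (fun w _ => mul_nonneg (by positivity) (h0 w))
    fun w _ => vorE0_pt2 (norm_nonneg _) (hR w)

theorem vorE0_C {c0 : FF} {R : Pl → ℝ} (hR : ∀ w, 0 < R w) {C : E} (hC : C ≠ 0) :
    sS C ^ (1 / 4 : ℝ) * ((nm C : ℝ) ^ (2 / 3 : ℝ) / nm C)
        * ∏ w, ‖em w C‖ / R w * (1 + ‖em w C‖ / R w) ^ (-4 : ℝ)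
      ≤ sS c0 ^ (1 / 8 : ℝ) * (∏ w, R w ^ (-(1 / 4) : ℝ)) * vorE0U c0 R C := by
  have hC' : (C : FF) ≠ 0 := cnt_coe_ne hC
  have h1 := one_le_nmR hC
  have hs := sS_pos (C : FF)
  have hs0 := sS_pos c0
  have h0 : ∀ w, 0 ≤ ‖em w (C : FF)‖ / R w * (1 + ‖em w (C : FF)‖ / R w) ^ (-4 : ℝ) := fun w => by
    have := hR w
    positivity
  have h2 : (nm C : ℝ) ^ (2 / 3 : ℝ) / nm C ≤ (nm C : ℝ) ^ (-(1 / 8) : ℝ) := by
    rw [← Real.rpow_sub_one (by linarith)]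
    exact Real.rpow_le_rpow_of_exponent_le h1 (by norm_num)
  refine (mul_le_mul_of_nonneg_right (mul_le_mul_of_nonneg_left h2 (by positivity))
    (Finset.prod_nonneg fun w _ => h0 w)).trans ?_
  have h3 : Ninf (C : FF) ^ (-(1 / 8) : ℝ)
        * ∏ w, ‖em w (C : FF)‖ / R w * (1 + ‖em w (C : FF)‖ / R w) ^ (-4 : ℝ)
      ≤ (∏ w, R w ^ (-(1 / 4) : ℝ)) * ∏ w, (‖em w (C : FF)‖ / R w) ^ (1 / 8 : ℝ)
        * (1 + ‖em w (C : FF)‖ / R w) ^ (-(2 * (1 / 8)) : ℝ) := by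
    unfold Ninf
    rw [← Real.finsetProd_rpow _ _ fun w _ => by positivity, ← Finset.prod_mul_distrib,
      ← Finset.prod_mul_distrib]
    exact Finset.prod_le_prod (fun w _ => mul_nonneg (by positivity) (h0 w))
      fun w _ => vorE0_pt (norm_pos_iff.2 (em_ne_zero w hC')) (hR w)
  have e1 : sS (C : FF) ^ (1 / 4 : ℝ) * sS (C : FF) ^ (-(1 / 8) : ℝ)
      = sS c0 ^ (1 / 8 : ℝ) * (sS (C : FF) / sS c0) ^ (1 / 8 : ℝ) := by
    rw [← Real.rpow_add hs, ← Real.mul_rpow hs0.le (by positivity), mul_div_cancel₀ _ hs0.ne']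
    norm_num
  rw [nm_eq hC, Real.mul_rpow (Ninf_nonneg _) hs.le]
  unfold vorE0U
  calc _ = (sS (C : FF) ^ (1 / 4 : ℝ) * sS (C : FF) ^ (-(1 / 8) : ℝ)) *
        (Ninf (C : FF) ^ (-(1 / 8) : ℝ)
        * ∏ w, ‖em w (C : FF)‖ / R w * (1 + ‖em w (C : FF)‖ / R w) ^ (-4 : ℝ)) := by ring
    _ ≤ _ := mul_le_mul_of_nonneg_left h3 (by positivity)
    _ = _ := by rw [e1]; ring

/-- The double sum of the majorant. -/
theorem vorE0_sum : ∃ K : ℝ, 0 < K ∧ ∀ (c0 z0 : FF) (R1 R2 : Pl → ℝ) (T : Finset (E × E)), c0 ≠ 0 →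
    z0 ≠ 0 → (∀ w, 0 < R1 w) → (∀ w, 0 < R2 w) →
    ∑ x ∈ T, (if (x.2 ≠ 0 ∧ (x.2 : FF) / z0 ∈ OS) ∧ x.1 ≠ 0 ∧ (x.1 : FF) / c0 ∈ OS ∧ x.1 ∣ x.2 ^ 2
      then vorE0U c0 R1 x.1 * ∏ w, (1 + ‖em w x.2‖ / R2 w) ^ (-4 : ℝ) else 0)
      ≤ K * (sS z0 ^ (1 / 4 : ℝ) * sS z0) * ((∏ w, R2 w ^ (1 / 2 : ℝ)) * ∏ w, R2 w ^ 2) := by
  obtain ⟨C1, h1, H1⟩ := vorE0_div
  obtain ⟨C2, h2, H2⟩ := Lat_nz (β := 7 / 2) (by norm_num)
  refine ⟨C1 * C2, by positivity, fun c0 z0 R1 R2 T hc hz hR1 hR2 => ?_⟩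
  obtain ⟨h3, h4⟩ := H2 z0 R2 hz hR2
  have h0 : ∀ (ζ : E) (β : ℝ), 0 ≤ ∏ w, (1 + ‖em w (ζ : FF)‖ / R2 w) ^ β := fun ζ β =>
    Finset.prod_nonneg fun w _ => by
      have := hR2 w
      positivity
  have hp : 0 ≤ ∏ w, R2 w ^ (1 / 2 : ℝ) :=
    Finset.prod_nonneg fun w _ => Real.rpow_nonneg (hR2 w).le _
  have hs : 0 ≤ sS z0 ^ (1 / 4 : ℝ) := Real.rpow_nonneg (sS_pos _).le _
  refine (Finset.sum_le_sum_of_subset_of_nonneg Finset.subset_product fun x _ _ => ?_).trans ?_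
  · split_ifs
    · exact mul_nonneg (vorE0U_nonneg _ hR1 _) (h0 _ _)
    · exact le_rfl
  rw [Finset.sum_product_right]
  refine (Finset.sum_le_sum (g := fun ζ : E => C1 * (sS z0 ^ (1 / 4 : ℝ) * ∏ w, R2 w ^ (1 / 2 : ℝ))
    * if ζ ≠ 0 ∧ (ζ : FF) / z0 ∈ OS then ∏ w, (1 + ‖em w ζ‖ / R2 w) ^ (-(7 / 2) : ℝ) else 0)
    fun ζ _ => ?_).trans ?_
  · by_cases hζ : ζ ≠ 0 ∧ (ζ : FF) / z0 ∈ OS
    · simp only [hζ, ne_eq, not_false_eq_true, and_self, true_and, if_true]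
      rw [← Finset.sum_filter, ← Finset.sum_mul]
      refine (mul_le_mul_of_nonneg_right (H1 c0 R1 ζ _ hc hR1 hζ.1 fun x hx =>
        (Finset.mem_filter.1 hx).2) (h0 _ _)).trans ?_
      rw [mul_assoc, mul_assoc]
      exact mul_le_mul_of_nonneg_left (vorE0_nm hz hR2 hζ.1 hζ.2) h1.le
    · simp only [hζ, false_and, if_false, Finset.sum_const_zero, mul_zero, le_refl]
  · rw [← Finset.mul_sum]
    refine (mul_le_mul_of_nonneg_left ((h3.sum_le_tsum _ fun ζ _ => ?_).trans h4)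
      (by positivity)).trans (le_of_eq (by ring))
    split_ifs
    · exact h0 _ _
    · exact le_rfl

theorem vorE0 (hL : LtB) (h5 : IBd) : VorE0 := by
  intro a b q u η β w Y hV
  have hq' : (q : FF) ≠ 0 := cnt_coe_ne hV.hq
  obtain ⟨K, c0, z0, δ1, hK, hc, hz, -, HK⟩ := G2_supp hL hV.ha hV.hb hq'
  obtain ⟨M, hM, HM⟩ := Ia_le h5 hV.adm 4
  obtain ⟨K1, hK1, H1⟩ := vorE0_sum
  have hn : ∀ v, 0 < ‖em v (q : FF)‖ := fun v => norm_pos_iff.2 (em_ne_zero v hq')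
  have hY := hV.hY
  have hs0 := sS_pos c0
  have hs1 := sS_pos z0
  set A : ℝ := K * M ^ rk * sS c0 ^ (1 / 8 : ℝ) with hA
  have hA0 : 0 ≤ A := by positivity
  set B : ℝ := A * (K1 * (sS z0 ^ (1 / 4 : ℝ) * sS z0)) / nm q with hB
  have key : ∀ X : ℝ, 0 < X → ‖((∏ v, Y v ^ 2 / X ^ 2 : ℝ) : ℂ) / (nm q : ℂ)
      * ∑' x : E × E, G2 a b q w Y X 0 x.1 x.2‖ ≤ B * ∏ v, (‖em v (q : FF)‖ / Y v ^ 2) ^ (-(1 / 4) : ℝ)
        * (‖em v (q : FF)‖ / Y v) ^ (1 / 2 : ℝ) * ‖em v (q : FF)‖ ^ 2 * X ^ (-(1 / 4) : ℝ) := by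
    intro X hX
    set R1 : Pl → ℝ := fun v => ‖em v (q : FF)‖ * (X ^ 3 / Y v ^ 2) with hR1
    set R2 : Pl → ℝ := fun v => ‖em v (q : FF)‖ * (X / Y v) with hR2
    have p1 : ∀ v, 0 < R1 v := fun v => by
      have := hn v
      have := hY v
      positivity
    have p2 : ∀ v, 0 < R2 v := fun v => by
      have := hn v
      have := hY v
      positivity
    have hp : 0 ≤ ∏ v, R1 v ^ (-(1 / 4) : ℝ) :=
      Finset.prod_nonneg fun v _ => Real.rpow_nonneg (p1 v).le _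
    have h0 : ∀ ζ : E, 0 ≤ ∏ v, (1 + ‖em v (ζ : FF)‖ / R2 v) ^ (-4 : ℝ) := fun ζ =>
      Finset.prod_nonneg fun v _ => by
        have := p2 v
        positivity
    have hpt : ∀ C ζ : E, ‖G2 a b q w Y X 0 C ζ‖ ≤ A * (∏ v, R1 v ^ (-(1 / 4) : ℝ)) *
        (if (ζ ≠ 0 ∧ (ζ : FF) / z0 ∈ OS) ∧ C ≠ 0 ∧ (C : FF) / c0 ∈ OS ∧ C ∣ ζ ^ 2
          then vorE0U c0 R1 C * ∏ v, (1 + ‖em v ζ‖ / R2 v) ^ (-4 : ℝ) else 0) := by
      intro C ζ
      have hz0 : ∀ v, zd q Y 0 v = 0 := fun v => by simp [zd]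
      by_cases hG : G2 a b q w Y X 0 C ζ = 0
      · rw [hG, norm_zero]
        refine mul_nonneg (mul_nonneg hA0 hp) ?_
        split_ifs
        · exact mul_nonneg (vorE0U_nonneg _ p1 _) (h0 _)
        · exact le_rfl
      have hC : C ≠ 0 := fun h => hG (by simp [G2, h])
      have hC' : (C : FF) ≠ 0 := cnt_coe_ne hC
      obtain ⟨k1, k2⟩ := HK q C ((0 : E) : FF) ζ (Cl.refl hq') hC'
      have e : G2 a b q w Y X 0 C ζ = H C q * (fts (ic a) (-(C / q)) * Lt (Bd b) q C (0 : E) ζ)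
          * (phig C 0 ζ / (nm C : ℂ)) * ∏ v, Ia (w v)
            (em v C / (em v q * ((X ^ 3 / Y v ^ 2 : ℝ) : ℂ))) 0
            (em v ζ / (em v q * ((X / Y v : ℝ) : ℂ))) := by
        unfold G2
        simp only [hz0]
        rw [if_neg hC]
        ring
      rw [e] at hG ⊢
      have g1 := right_ne_zero_of_mul (left_ne_zero_of_mul (left_ne_zero_of_mul hG))
      have g2 := (div_ne_zero_iff.1 (right_ne_zero_of_mul (left_ne_zero_of_mul hG))).1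
      have g3 := right_ne_zero_of_mul hG
      have hζ : ζ ≠ 0 := by
        rintro rfl
        obtain ⟨v⟩ : Nonempty Pl := Fintype.card_pos_iff.1 rk_pos
        refine g3 (Finset.prod_eq_zero (Finset.mem_univ v) ?_)
        simp only [ZeroMemClass.coe_zero, map_zero, zero_div]
        exact QRH.Ia_zero (hV.adm v) _
      rw [if_pos ⟨⟨hζ, (k2 g1).2.1⟩, hC, (k2 g1).1, phig_zero_supp hC g2⟩]
      have i1 : ‖∏ v, Ia (w v) (em v C / (em v q * ((X ^ 3 / Y v ^ 2 : ℝ) : ℂ))) 0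
            (em v ζ / (em v q * ((X / Y v : ℝ) : ℂ)))‖
          ≤ M ^ rk * (∏ v, ‖em v C‖ / R1 v * (1 + ‖em v C‖ / R1 v) ^ (-4 : ℝ))
            * ∏ v, (1 + ‖em v ζ‖ / R2 v) ^ (-4 : ℝ) := by
        rw [norm_prod, ← prod_const_Pl, ← Finset.prod_mul_distrib, ← Finset.prod_mul_distrib]
        refine Finset.prod_le_prod (fun v _ => norm_nonneg _) fun v _ => ?_
        have y0 := hY v
        have n1 : ‖em v (C : FF) / (em v q * ((X ^ 3 / Y v ^ 2 : ℝ) : ℂ))‖ = ‖em v C‖ / R1 v := by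
          rw [norm_div, norm_mul, Complex.norm_real, Real.norm_of_nonneg (by positivity)]
        have n2 : ‖em v (ζ : FF) / (em v q * ((X / Y v : ℝ) : ℂ))‖ = ‖em v ζ‖ / R2 v := by
          rw [norm_div, norm_mul, Complex.norm_real, Real.norm_of_nonneg (by positivity)]
        have hne : em v (C : FF) / (em v q * ((X ^ 3 / Y v ^ 2 : ℝ) : ℂ)) ≠ 0 := by
          rw [← norm_pos_iff, n1]
          exact div_pos (norm_pos_iff.2 (em_ne_zero v hC')) (p1 v)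
        refine (HM v _ 0 _ hne).trans (le_of_eq ?_)
        rw [n1, n2, norm_zero, add_zero, Real.one_rpow, Nat.cast_ofNat]
        ring
      have i2 : ‖phig C 0 ζ / (nm C : ℂ)‖ ≤ (nm C : ℝ) ^ (2 / 3 : ℝ) / nm C := by
        rw [norm_div, Complex.norm_natCast]
        exact div_le_div_of_nonneg_right (norm_phig_le hC _ _) (Nat.cast_nonneg _)
      have i3 := vorE0_C (c0 := c0) p1 hC
      have hsC := sS_pos (C : FF)
      rw [norm_mul, norm_mul, norm_mul, norm_H hC hV.hq, one_mul]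
      refine (mul_le_mul (mul_le_mul k1 i2 (norm_nonneg _) (by positivity)) i1 (norm_nonneg _)
        (by positivity)).trans ?_
      calc _ = K * M ^ rk * (sS C ^ (1 / 4 : ℝ) * ((nm C : ℝ) ^ (2 / 3 : ℝ) / nm C)
            * ∏ v, ‖em v C‖ / R1 v * (1 + ‖em v C‖ / R1 v) ^ (-4 : ℝ))
            * ∏ v, (1 + ‖em v ζ‖ / R2 v) ^ (-4 : ℝ) := by ring
        _ ≤ _ := mul_le_mul_of_nonneg_right (mul_le_mul_of_nonneg_left i3 (by positivity)) (h0 ζ)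
        _ = _ := by rw [hA]; ring
    have hfin : ∀ T : Finset (E × E), ∑ x ∈ T, ‖G2 a b q w Y X 0 x.1 x.2‖
        ≤ A * (∏ v, R1 v ^ (-(1 / 4) : ℝ)) * (K1 * (sS z0 ^ (1 / 4 : ℝ) * sS z0)
          * ((∏ v, R2 v ^ (1 / 2 : ℝ)) * ∏ v, R2 v ^ 2)) := by
      intro T
      refine (Finset.sum_le_sum fun x _ => hpt x.1 x.2).trans ?_
      rw [← Finset.mul_sum]
      exact mul_le_mul_of_nonneg_left (H1 c0 z0 R1 R2 T hc hz p1 p2) (mul_nonneg hA0 hp)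
    have hsm := summable_of_sum_le (fun x => norm_nonneg _) hfin
    have hts := (norm_tsum_le_tsum_norm hsm).trans (hsm.tsum_le_of_sum_le hfin)
    have hY0 : 0 ≤ ∏ v, Y v ^ 2 / X ^ 2 := Finset.prod_nonneg fun v _ => by positivity
    rw [norm_mul, norm_div, Complex.norm_real, Complex.norm_natCast, Real.norm_of_nonneg hY0]
    refine (mul_le_mul_of_nonneg_left hts (by positivity)).trans (le_of_eq ?_)
    rw [← Finset.prod_congr rfl fun v _ => vorE0_sc (hn v) (hY v) hX, Finset.prod_mul_distrib,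
      Finset.prod_mul_distrib, Finset.prod_mul_distrib, hB]
    ring
  refine squeeze_zero_norm' ((eventually_gt_atTop 0).mono key) ?_
  have hl : Tendsto (fun X : ℝ => X ^ (-(1 / 4) : ℝ)) atTop (𝓝 0) :=
    tendsto_rpow_neg_atTop (by norm_num)
  have h2 := (tendsto_finsetProd (Finset.univ : Finset Pl) fun v _ =>
    hl.const_mul ((‖em v (q : FF)‖ / Y v ^ 2) ^ (-(1 / 4) : ℝ)
        * (‖em v (q : FF)‖ / Y v) ^ (1 / 2 : ℝ) * ‖em v (q : FF)‖ ^ 2)).const_mul B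
  simp only [mul_zero] at h2
  rwa [prod_const_Pl, zero_pow rk_pos.ne', mul_zero] at h2

end NQ
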