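import Vale.Agent.NQ.VorL
import Vale.Agent.NQ.Lat
import Vale.Agent.P026.Arch

noncomputable section
namespace NQ
open Complex MeasureTheory NumberField Filter
open scoped ComplexConjugate Classical ContDiff Topology

theorem VorS_sq {r S : ℝ} (hr : 0 ≤ r) (hS : 0 < S) :
    r ^ 2 * (1 + r / S) ^ (-6 : ℝ) ≤ S ^ 2 * (1 + r / S) ^ (-4 : ℝ) := by
  have ht : 0 ≤ r / S := by positivity
  have h1 : (1 + r / S) ^ (-4 : ℝ) = (1 + r / S) ^ 2 * (1 + r / S) ^ (-6 : ℝ) := by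
    rw [← Real.rpow_two, ← Real.rpow_add (by linarith)]
    norm_num
  have h2 : r ≤ S * (1 + r / S) := by
    rw [mul_add, mul_div_cancel₀ _ hS.ne']
    linarith
  rw [h1, ← mul_assoc, ← mul_pow]
  exact mul_le_mul_of_nonneg_right (pow_le_pow_left₀ hr h2 2) (by positivity)

theorem VorS_lin {t : ℝ} (ht : 0 ≤ t) : t * (1 + t) ^ (-6 : ℝ) ≤ (1 + t) ^ (-5 : ℝ) := by
  have h1 : (1 + t) ^ (-5 : ℝ) = (1 + t) * (1 + t) ^ (-6 : ℝ) := by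
    rw [← Real.rpow_one_add' (by linarith) (by norm_num)]
    norm_num
  rw [h1]
  exact mul_le_mul_of_nonneg_right (by linarith) (by positivity)

theorem VorS_pt {M c R x y z : ℝ} (hc : 0 < c) (hR : 0 < R) :
    (c ^ 2)⁻¹ * (M * (c / R) * x * y * z) = M * y / R ^ 2 * ((c / R) ^ (-1 : ℝ) * x * z) := by
  rw [Real.rpow_neg_one]
  field_simp

variable [σ : St]

theorem VorS_norm (a b : FF) {q : E} {w : Pl → ℂ → ℂ} {Y : Pl → ℝ} {X M : ℝ} (hq : q ≠ 0)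
    (hY : ∀ v, 0 < Y v) (hX : 0 < X)
    (hM : ∀ (v : Pl) (c z ζ : ℂ), c ≠ 0 → ‖Ia (w v) c z ζ‖
      ≤ M * ‖c‖ * (1 + ‖c‖) ^ (-6 : ℝ) * (1 + ‖z‖) ^ (-6 : ℝ) * (1 + ‖ζ‖) ^ (-6 : ℝ))
    {R1 R2 R3 : Pl → ℝ} (h1 : ∀ v, R1 v = ‖em v q‖ * (X ^ 3 / Y v ^ 2))
    (h2 : ∀ v, R2 v = ‖em v q‖ * (X / Y v)) (h3 : ∀ v, R3 v = ‖em v q‖ ^ 2 / Y v)
    (δ : E) {C : E} (hC : C ≠ 0) (ζ : E) :
    ‖G2 a b q w Y X δ C ζ‖ ≤ ‖fts (ic a) (-(C / q)) * Lt (Bd b) q C δ ζ‖ * (‖phig C δ ζ‖ / nm C) *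
      ∏ v, M * (‖em v C‖ / R1 v) * (1 + ‖em v C‖ / R1 v) ^ (-6 : ℝ)
        * (1 + ‖em v δ‖ / R3 v) ^ (-6 : ℝ) * (1 + ‖em v ζ‖ / R2 v) ^ (-6 : ℝ) := by
  rw [G2, if_neg hC, norm_mul, norm_prod]
  refine mul_le_mul (le_of_eq ?_) (Finset.prod_le_prod (fun _ _ => norm_nonneg _) fun v _ => ?_)
    (Finset.prod_nonneg fun _ _ => norm_nonneg _) (by positivity)
  · rw [norm_div, norm_mul, mul_assoc (H C q), norm_mul (H C q), norm_H hC hq, one_mul,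
      Complex.norm_natCast, mul_div_assoc]
  · have hy := hY v
    have e1 : ‖em v C / (em v q * ((X ^ 3 / Y v ^ 2 : ℝ) : ℂ))‖ = ‖em v C‖ / R1 v := by
      rw [norm_div, norm_mul, Complex.norm_real, Real.norm_of_nonneg (by positivity), h1]
    have e2 : ‖em v ζ / (em v q * ((X / Y v : ℝ) : ℂ))‖ = ‖em v ζ‖ / R2 v := by
      rw [norm_div, norm_mul, Complex.norm_real, Real.norm_of_nonneg (by positivity), h2]
    have e3 : ‖zd q Y δ v‖ = ‖em v δ‖ / R3 v := by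
      rw [zd, norm_div, norm_mul, norm_pow, Complex.norm_real, Real.norm_of_nonneg hy.le, h3,
        div_div_eq_mul_div]
    have h4 := hM v (em v C / (em v q * ((X ^ 3 / Y v ^ 2 : ℝ) : ℂ))) (zd q Y δ v)
      (em v ζ / (em v q * ((X / Y v : ℝ) : ℂ)))
      (div_ne_zero (em_ne_zero v (cnt_coe_ne hC)) (mul_ne_zero (em_ne_zero v (cnt_coe_ne hq))
        (Complex.ofReal_ne_zero.2 (by positivity))))
    rwa [e1, e2, e3] at h4

theorem VorS_Ia (h5 : IBd) {w : Pl → ℂ → ℂ} (hw : ∀ v, Adm (w v)) : ∃ M : ℝ, 0 < M ∧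
    ∀ (v : Pl) (c z ζ : ℂ), c ≠ 0 → ‖Ia (w v) c z ζ‖
      ≤ M * ‖c‖ * (1 + ‖c‖) ^ (-6 : ℝ) * (1 + ‖z‖) ^ (-6 : ℝ) * (1 + ‖ζ‖) ^ (-6 : ℝ) := by
  obtain ⟨M, hM, h⟩ := Ia_le h5 hw 6
  exact ⟨M, hM, fun v c z ζ hc => by simpa only [Nat.cast_ofNat] using h v c z ζ hc⟩

theorem VorS_ite {p : Prop} {R : Pl → ℝ} (hR : ∀ v, 0 < R v) (x : FF) (β : ℝ) :
    0 ≤ if p then ∏ v, (1 + ‖em v x‖ / R v) ^ β else 0 := by
  split_ifs
  · exact Finset.prod_nonneg fun v _ => by have := hR v; positivity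
  · exact le_rfl

theorem vorS (hL : LtB) (h5 : IBd) : VorS := by
  intro a b q u η β w Y hV X hX
  have hY := hV.hY
  have hq := hV.hq
  have hq' := cnt_coe_ne hq
  have hn : ∀ v, 0 < ‖em v (q : FF)‖ := fun v => norm_pos_iff.2 (em_ne_zero v hq')
  obtain ⟨K, c0, z0, δ1, hK, hc0, hz0, hδ1, hS⟩ := G2_supp hL hV.ha hV.hb hq'
  obtain ⟨M, hM0, hM⟩ := VorS_Ia h5 hV.adm
  obtain ⟨R1, h1⟩ : ∃ R : Pl → ℝ, ∀ v, R v = ‖em v q‖ * (X ^ 3 / Y v ^ 2) := ⟨_, fun _ => rfl⟩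
  obtain ⟨R2, h2⟩ : ∃ R : Pl → ℝ, ∀ v, R v = ‖em v q‖ * (X / Y v) := ⟨_, fun _ => rfl⟩
  obtain ⟨R3, h3⟩ : ∃ R : Pl → ℝ, ∀ v, R v = ‖em v q‖ ^ 2 / Y v := ⟨_, fun _ => rfl⟩
  have p1 : ∀ v, 0 < R1 v := fun v => by rw [h1]; have := hY v; have := hn v; positivity
  have p2 : ∀ v, 0 < R2 v := fun v => by rw [h2]; have := hY v; have := hn v; positivity
  have p3 : ∀ v, 0 < R3 v := fun v => by rw [h3]; have := hY v; have := hn v; positivity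
  obtain ⟨C5, -, s5⟩ := lat_decay (β := 5) (by norm_num)
  obtain ⟨C6, -, s6⟩ := lat_decay (β := 6) (by norm_num)
  have t1 := (s5 c0 R1 hc0 p1).1
  have t2 := (s6 z0 R2 hz0 p2).1
  have t3 := (s6 δ1 R3 hδ1 p3).1
  have t4 := t1.mul_of_nonneg t2 (fun x => VorS_ite p1 _ _) (fun x => VorS_ite p2 _ _)
  have t5 := (t3.mul_of_nonneg t4 (fun x => VorS_ite p3 _ _)
    (fun x => mul_nonneg (VorS_ite p1 _ _) (VorS_ite p2 _ _))).mul_left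
      (K * sS c0 ^ (1 / 4 : ℝ) * ∏ _v : Pl, M)
  refine Summable.of_norm_bounded t5 ?_
  rintro ⟨δ, C, ζ⟩
  have hs0 := sS_pos c0
  have hP : 0 ≤ ∏ _v : Pl, M := Finset.prod_nonneg fun _ _ => hM0.le
  have hK' : 0 ≤ K * sS c0 ^ (1 / 4 : ℝ) * ∏ _v : Pl, M := by positivity
  have hpos := mul_nonneg hK' (mul_nonneg (VorS_ite (p := (δ : FF) / δ1 ∈ OS) p3 δ (-6))
    (mul_nonneg (VorS_ite (p := (C : FF) / c0 ∈ OS) p1 C (-5))
      (VorS_ite (p := (ζ : FF) / z0 ∈ OS) p2 ζ (-6))))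
  by_cases hC : C = 0
  · simp only [G2, if_pos hC, norm_zero]
    exact hpos
  have hC' := cnt_coe_ne hC
  have b1 := VorS_norm a b hq hY hX hM h1 h2 h3 δ hC ζ
  obtain ⟨b2, b3⟩ := hS q C δ ζ (Cl.refl hq') hC'
  by_cases h0 : fts (ic a) (-(C / q)) * Lt (Bd b) q C δ ζ = 0
  · rw [h0, norm_zero, zero_mul, zero_mul] at b1
    exact b1.trans hpos
  obtain ⟨m1, m2, m3⟩ := b3 h0
  simp only [if_pos m1, if_pos m2, if_pos m3]
  refine b1.trans ?_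
  have b4 : ‖phig C δ ζ‖ / nm C ≤ 1 := by
    have := one_le_nmR hC
    rw [div_le_one (by linarith)]
    exact (norm_phig_le hC δ ζ).trans (Real.rpow_le_self_of_one_le this (by norm_num))
  have b5 : ‖fts (ic a) (-(C / q)) * Lt (Bd b) q C δ ζ‖ ≤ K * sS c0 ^ (1 / 4 : ℝ) :=
    b2.trans (mul_le_mul_of_nonneg_left
      (Real.rpow_le_rpow (sS_pos _).le (sS_mono hC' hc0 m1) (by norm_num)) hK.le)
  rw [← Finset.prod_mul_distrib, ← Finset.prod_mul_distrib, mul_assoc (K * _),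
    ← Finset.prod_mul_distrib]
  refine mul_le_mul ((mul_le_of_le_one_right (norm_nonneg _) b4).trans b5)
    (Finset.prod_le_prod (fun v _ => ?_) fun v _ => ?_)
    (Finset.prod_nonneg fun v _ => ?_) (by positivity)
  · have := p1 v; have := p2 v; have := p3 v; positivity
  · have := p1 v; have := p2 v; have := p3 v
    have b6 := mul_le_mul_of_nonneg_left (VorS_lin (t := ‖em v C‖ / R1 v) (by positivity))
      (by positivity :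
        0 ≤ M * (1 + ‖em v δ‖ / R3 v) ^ (-6 : ℝ) * (1 + ‖em v ζ‖ / R2 v) ^ (-6 : ℝ))
    linarith
  · have := p1 v; have := p2 v; have := p3 v; positivity

theorem vorE (hL : LtB) (h3 : Asw) (h4 : HCongr) (h5 : IBd) : VorE := by
  intro a b q u η β w Y hV
  have _h4 := h4
  have hY := hV.hY
  have hq := hV.hq
  have hq' := cnt_coe_ne hq
  have hn : ∀ v, 0 < ‖em v (q : FF)‖ := fun v => norm_pos_iff.2 (em_ne_zero v hq')
  obtain ⟨K, c0, z0, δ1, hK, hc0, hz0, hδ1, hS⟩ := G2_supp hL hV.ha hV.hb hq'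
  obtain ⟨M, hM0, hM⟩ := VorS_Ia h5 hV.adm
  obtain ⟨R3, e3⟩ : ∃ R : Pl → ℝ, ∀ v, R v = ‖em v q‖ ^ 2 / Y v := ⟨_, fun _ => rfl⟩
  have p3 : ∀ v, 0 < R3 v := fun v => by rw [e3]; have := hY v; have := hn v; positivity
  obtain ⟨C1, hC1, s1⟩ := lat_sum (θ := 3 / 4) (α := 1) (β := 6) (by norm_num) (by norm_num)
    (by norm_num) (by norm_num) (by norm_num)
  obtain ⟨C4, -, s4⟩ := lat_decay (β := 4) (by norm_num)
  obtain ⟨C6, hC6, s6⟩ := lat_decay (β := 6) (by norm_num)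
  have hs0 := sS_pos c0
  have hs1 := sS_pos δ1
  have hs2 := sS_pos z0
  have hNq := Ninf_pos hq'
  have hYp : 0 < ∏ v, Y v ^ 2 := Finset.prod_pos fun v _ => pow_pos (hY v) 2
  have hMp : 0 < ∏ v, M * R3 v ^ 2 := Finset.prod_pos fun v _ => mul_pos hM0 (pow_pos (p3 v) 2)
  refine ⟨_, (s4 δ1 R3 hδ1 p3).1.mul_left (K * sS δ1 * (∏ v, M * R3 v ^ 2)
    * (C1 * sS c0 ^ (1 - 3 / 4 : ℝ)) * (∏ v, Y v ^ 2 + C6 * sS z0 * Ninf q)), ?_⟩
  intro X hX1 δ hδ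
  have hX : 0 < X := by linarith
  obtain ⟨R1, h1⟩ : ∃ R : Pl → ℝ, ∀ v, R v = ‖em v q‖ * (X ^ 3 / Y v ^ 2) := ⟨_, fun _ => rfl⟩
  obtain ⟨R2, h2⟩ : ∃ R : Pl → ℝ, ∀ v, R v = ‖em v q‖ * (X / Y v) := ⟨_, fun _ => rfl⟩
  have p1 : ∀ v, 0 < R1 v := fun v => by rw [h1]; have := hY v; have := hn v; positivity
  have p2 : ∀ v, 0 < R2 v := fun v => by rw [h2]; have := hY v; have := hn v; positivity
  obtain ⟨t1, u1⟩ := s1 c0 R1 hc0 p1
  obtain ⟨t2, u2⟩ := s6 z0 R2 hz0 p2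
  obtain ⟨f1, hf1⟩ : ∃ f : E → ℝ, f = fun x : E => if x ≠ 0 ∧ (x : FF) / c0 ∈ OS then
      sS x ^ (-(3 / 4) : ℝ) * ∏ w, (‖em w x‖ / R1 w) ^ (-1 : ℝ) * (1 + ‖em w x‖ / R1 w) ^ (-6 : ℝ)
      else 0 := ⟨_, rfl⟩
  obtain ⟨f2, hf2⟩ : ∃ f : E → ℝ, f = fun x : E => if (x : FF) / z0 ∈ OS then
      ∏ w, (1 + ‖em w x‖ / R2 w) ^ (-6 : ℝ) else 0 := ⟨_, rfl⟩
  rw [← hf1] at t1 u1
  rw [← hf2] at t2 u2
  have n1 : ∀ x, 0 ≤ f1 x := fun x => by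
    rw [hf1]
    simp only
    split_ifs
    · exact mul_nonneg (Real.rpow_nonneg (sS_pos _).le _)
        (Finset.prod_nonneg fun v _ => by have := p1 v; positivity)
    · exact le_rfl
  have n2 : ∀ x, 0 ≤ f2 x := fun x => hf2 ▸ VorS_ite p2 _ _
  obtain ⟨D, hD⟩ : ∃ D : ℝ, D = if (δ : FF) / δ1 ∈ OS then
    ∏ w, (1 + ‖em w δ‖ / R3 w) ^ (-4 : ℝ) else 0 := ⟨_, rfl⟩
  have hD0 : 0 ≤ D := hD ▸ VorS_ite p3 _ _
  have hRp : 0 < ∏ v, R1 v ^ 2 := Finset.prod_pos fun v _ => pow_pos (p1 v) 2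
  obtain ⟨L, hLd⟩ : ∃ L : ℝ, L = K * sS δ1 * (∏ v, M * R3 v ^ 2) * D / ∏ v, R1 v ^ 2 := ⟨_, rfl⟩
  have hL0 : 0 ≤ L := by rw [hLd]; positivity
  have t4 := t1.mul_of_nonneg t2 n1 n2
  have key : ∀ x : E × E, ‖G2 a b q w Y X δ x.1 x.2‖ ≤ L * (f1 x.1 * f2 x.2) := by
    rintro ⟨C, ζ⟩
    have hpos := mul_nonneg hL0 (mul_nonneg (n1 C) (n2 ζ))
    by_cases hC : C = 0
    · simp only [G2, if_pos hC, norm_zero]
      exact hpos
    have hC' := cnt_coe_ne hC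
    have b1 := VorS_norm a b hq hY hX hM h1 h2 e3 δ hC ζ
    obtain ⟨b2, b3⟩ := hS q C δ ζ (Cl.refl hq') hC'
    by_cases h0 : fts (ic a) (-(C / q)) * Lt (Bd b) q C δ ζ = 0
    · rw [h0, norm_zero, zero_mul, zero_mul] at b1
      exact b1.trans hpos
    obtain ⟨m1, m2, m3⟩ := b3 h0
    have b4 : ‖phig C δ ζ‖ ≤ sS δ1 * Ninf δ := by
      rw [h3 C δ ζ hC hδ, norm_mul, norm_mul, norm_H hC hδ, psf, norm_Psi, one_mul, one_mul]
      exact (norm_phig_le hδ _ _).trans ((Real.rpow_le_self_of_one_le (one_le_nmR hδ)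
        (by norm_num)).trans (nm_le_box hδ1 hδ m3))
    have hsC := sS_pos (C : FF)
    have hNC := Ninf_pos hC'
    have hNδ := Ninf_pos (cnt_coe_ne hδ)
    have b5 : sS (C : FF) ^ (1 / 4 : ℝ) = sS (C : FF) * sS (C : FF) ^ (-(3 / 4) : ℝ) := by
      rw [← Real.rpow_one_add' hsC.le (by norm_num)]
      norm_num
    have b6 : ‖fts (ic a) (-(C / q)) * Lt (Bd b) q C δ ζ‖ * (‖phig C δ ζ‖ / nm C)
        ≤ K * sS δ1 * sS (C : FF) ^ (-(3 / 4) : ℝ) * (Ninf δ * (Ninf C)⁻¹) := by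
      refine (mul_le_mul b2 (div_le_div_of_nonneg_right b4 (Nat.cast_nonneg _)) (by positivity)
        (by positivity)).trans (le_of_eq ?_)
      rw [nm_eq hC, b5]
      field_simp
    refine b1.trans ((mul_le_mul_of_nonneg_right b6 (Finset.prod_nonneg fun v _ => ?_)).trans ?_)
    · have := p1 v; have := p2 v; have := p3 v; positivity
    have b7 : L * (f1 C * f2 ζ) = K * sS δ1 * sS (C : FF) ^ (-(3 / 4) : ℝ) *
        ∏ v, M * (R3 v ^ 2 * (1 + ‖em v δ‖ / R3 v) ^ (-4 : ℝ)) / R1 v ^ 2 *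
          ((‖em v C‖ / R1 v) ^ (-1 : ℝ) * (1 + ‖em v C‖ / R1 v) ^ (-6 : ℝ)
            * (1 + ‖em v ζ‖ / R2 v) ^ (-6 : ℝ)) := by
      rw [hLd, hD, hf1, hf2]
      simp only [if_pos m2, if_pos m3, if_pos (And.intro hC m1), Finset.prod_mul_distrib,
        Finset.prod_div_distrib]
      ring
    rw [b7, mul_assoc (K * _ * _), Ninf, Ninf, ← Finset.prod_inv_distrib,
      ← Finset.prod_mul_distrib, ← Finset.prod_mul_distrib]
    refine mul_le_mul_of_nonneg_left (Finset.prod_le_prod (fun v _ => ?_) fun v _ => ?_)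
      (by positivity)
    · have := p1 v; have := p2 v; have := p3 v; positivity
    · have := p1 v; have := p2 v; have := p3 v
      rw [mul_assoc (‖em v (δ : FF)‖ ^ 2), VorS_pt (norm_pos_iff.2 (em_ne_zero v hC')) (p1 v)]
      have b8 := mul_le_mul_of_nonneg_left (VorS_sq (norm_nonneg (em v (δ : FF))) (p3 v))
        (by positivity : 0 ≤ M / R1 v ^ 2 * ((‖em v C‖ / R1 v) ^ (-1 : ℝ)
          * (1 + ‖em v C‖ / R1 v) ^ (-6 : ℝ) * (1 + ‖em v ζ‖ / R2 v) ^ (-6 : ℝ)))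
      refine le_trans (le_of_eq ?_) (b8.trans (le_of_eq ?_)) <;> ring
  have c1 := tsum_of_norm_bounded (t4.mul_left L).hasSum key
  rw [tsum_mul_left, ← t1.tsum_mul_tsum t2 t4] at c1
  have c2 := c1.trans (mul_le_mul_of_nonneg_left (mul_le_mul u1 u2 (tsum_nonneg n2)
    (by positivity)) hL0)
  have hP : 0 ≤ ∏ v, Y v ^ 2 / X ^ 2 := Finset.prod_nonneg fun v _ => by positivity
  have c3 : ‖((∏ v, Y v ^ 2 / X ^ 2 : ℝ) : ℂ) / (nm q : ℂ)‖ ≤ ∏ v, Y v ^ 2 / X ^ 2 := by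
    rw [norm_div, Complex.norm_real, Real.norm_of_nonneg hP, Complex.norm_natCast]
    exact div_le_self hP (one_le_nmR hq)
  have c4 : (∏ v, Y v ^ 2 / X ^ 2) * (1 + C6 * sS z0 * ∏ v, R2 v ^ 2)
      ≤ ∏ v, Y v ^ 2 + C6 * sS z0 * Ninf q := by
    have d1 : (∏ v, Y v ^ 2 / X ^ 2) * ∏ v, R2 v ^ 2 = Ninf q := by
      rw [← Finset.prod_mul_distrib, Ninf]
      refine Finset.prod_congr rfl fun v _ => ?_
      have := hY v
      rw [h2]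
      field_simp
    have d2 : ∏ v, Y v ^ 2 / X ^ 2 ≤ ∏ v, Y v ^ 2 :=
      Finset.prod_le_prod (fun v _ => by positivity) fun v _ =>
        div_le_self (sq_nonneg _) (one_le_pow₀ hX1)
    rw [← d1]
    linarith
  rw [norm_mul, ← hD]
  refine (mul_le_mul c3 c2 (norm_nonneg _) hP).trans ?_
  have c5 := mul_le_mul_of_nonneg_left c4 (by positivity :
    0 ≤ K * sS δ1 * (∏ v, M * R3 v ^ 2) * (C1 * sS c0 ^ (1 - 3 / 4 : ℝ)) * D)
  refine le_trans (le_of_eq ?_) (c5.trans (le_of_eq ?_))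
  · rw [hLd]
    field_simp
  · ring

end NQ
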