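import Vale.Agent.NQ.Dual
import Vale.Agent.NQ.Cnt

noncomputable section
namespace NQ
open Complex MeasureTheory NumberField Filter
open scoped ComplexConjugate Classical ContDiff Topology

variable [σ : St]

theorem vorT_VL_sum {ι : Type} (a : FF) (J : Finset ι) (e : ι → ℂ) (F : ι → E → ℂ) (f : E → ℂ)
    (h : ∀ c : E, Cl a c → f c = ∑ j ∈ J, e j * F j c) (w : Pl → ℂ → ℂ) (Y : Pl → ℝ) :
    VL a f w Y = ∑ j ∈ J, e j * VL a (F j) w Y := by
  simp only [VL, Finset.mul_sum]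
  rw [Finset.sum_comm]
  refine Finset.sum_congr rfl fun c _ => ?_
  by_cases hc : Cl a c
  · rw [h c hc, Finset.mul_sum, Finset.sum_mul]
    exact Finset.sum_congr rfl fun j _ => by ring
  · simp [ic, hc]

theorem vorT_dual {t r : Finset P} (hd : Disjoint t r) (f : P → E → ℂ)
    (hf : ∀ p ∈ r, Mc p (f p)) {q : E} (hq : Associated q (pr (t ∪ r))) :
    Good q (fun c => (∏ p ∈ t, conj (c6 p c)) * ∏ p ∈ r, (f p c - mv p (f p))) ∧
    ∃ e : ℂ, ‖e‖ ≤ 1 ∧ ∀ δ,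
      Dq q (fun c => (∏ p ∈ t, conj (c6 p c)) * ∏ p ∈ r, (f p c - mv p (f p))) δ
      = e * (xs c2 t δ * ∏ p ∈ r, Dq p.1 (fun c => f p c - mv p (f p)) δ) := by
  let F : P → E → ℂ := fun p => if p ∈ t then fun c => conj (c6 p c) else f p
  have F1 : ∀ p ∈ t, F p = fun c => conj (c6 p c) := fun p hp => if_pos hp
  have F2 : ∀ p ∈ r, F p = f p := fun p hp => if_neg (Finset.disjoint_right.1 hd hp)
  have hF : ∀ p ∈ t ∪ r, Mc p (F p) := fun p hp => by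
    rcases Finset.mem_union.1 hp with h | h
    · rw [F1 p h]
      exact (c6_mc p).conj
    · rw [F2 p h]
      exact hf p h
  obtain ⟨h1, e, he, h2⟩ := Dq_prod (t ∪ r) F hF hq
  have e1 : (fun c => ∏ p ∈ t ∪ r, (F p c - mv p (F p))) =
      fun c => (∏ p ∈ t, conj (c6 p c)) * ∏ p ∈ r, (f p c - mv p (f p)) := by
    funext c
    rw [Finset.prod_union hd]
    congr 1
    · exact Finset.prod_congr rfl fun p hp => by rw [F1 p hp, mv_c6, sub_zero]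
    · exact Finset.prod_congr rfl fun p hp => by rw [F2 p hp]
  rw [e1] at h1 h2
  refine ⟨h1, e * ∏ p ∈ t, Dq p.1 (fun c => conj (c6 p c) - mv p fun c => conj (c6 p c)) 1, ?_,
    fun δ => ?_⟩
  · rw [norm_mul, norm_prod]
    refine mul_le_one₀ he (by positivity) (Finset.prod_le_one (fun _ _ => norm_nonneg _)
      fun p _ => ?_)
    have := norm_Dq_prime (c6_mc p).conj 1
    rwa [if_neg (p.not_dvd_unit isUnit_one)] at this
  · rw [h2 δ, Finset.prod_union hd,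
      Finset.prod_congr rfl (g := fun p => c2 p δ *
        Dq p.1 (fun c => conj (c6 p c) - mv p fun c => conj (c6 p c)) 1)
        fun p hp => by rw [F1 p hp, Dq_c6],
      Finset.prod_congr rfl (s₂ := r) (g := fun p => Dq p.1 (fun c => f p c - mv p (f p)) δ)
        fun p hp => by rw [F2 p hp], Finset.prod_mul_distrib, xs]
    ring

theorem vorT_norm_prod {r s : Finset P} (hs : r ⊆ s) (f : P → E → ℂ)
    (hf : ∀ p ∈ r, Mc p (f p)) {δ : E} (hδ : δ ≠ 0) :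
    ‖∏ p ∈ r, Dq p.1 (fun c => f p c - mv p (f p)) δ‖ ≤ √(Ns (fac δ ∩ s)) := by
  rw [norm_prod]
  refine (Finset.prod_le_prod (fun _ _ => norm_nonneg _)
    fun p hp => norm_Dq_prime (hf p hp) δ).trans ?_
  rw [← Finset.prod_filter, ← Real.sqrt_prod _ fun _ _ => Nat.cast_nonneg _, ← Ns_eq_prod]
  refine Real.sqrt_le_sqrt (Ns_mono fun p hp => ?_)
  rw [Finset.mem_filter] at hp
  exact Finset.mem_inter.2 ⟨(mem_fac hδ).2 hp.2, hs hp.1⟩

theorem vorT_split (h2 : XR c6) {a : FF} (ha : a ≠ 0) {ρ : E} (hρ : ρ ≠ 0) (t : Finset P) :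
    ∃ κ : ℂ, ‖κ‖ = 1 ∧ ∀ c : E, Cl a c → conj (xv c6 c (pr t * ρ)) =
      κ * ((∏ p ∈ t, conj (c6 p c)) * ∏ p ∈ fac ρ, conj (c6 p c) ^ vp p.1 ρ) := by
  obtain ⟨κ, hκ, h⟩ := h2 a (pr t * ρ) ha (mul_ne_zero (pr_ne_zero t) hρ)
  refine ⟨conj κ, by rw [RCLike.norm_conj, hκ], fun c hc => ?_⟩
  rw [h c hc, xv_mul_left (pr_ne_zero t) hρ, xv_pr, xs, xv, map_mul, map_mul, map_prod, map_prod]
  simp only [map_pow]

theorem vorT (h1 : Vor2) (h2 : XR c6) : VorT := by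
  intro a T ha hT
  have hb : ∀ q0 : FF, ∃ (C : ℝ) (δ1 : FF) (bb : E → ℂ), 0 < C ∧ δ1 ≠ 0 ∧
      (∀ δ, ‖bb δ‖ ≤ C * ‖Tg δ‖ / nm δ) ∧ (∀ δ, bb δ ≠ 0 → (δ : FF) / δ1 ∈ OS) ∧ (q0 ≠ 0 →
      ∀ (q : E) (f : E → ℂ) (w : Pl → ℂ → ℂ) (Y : Pl → ℝ), Cl q0 q → Good q f →
        (∀ v, Adm (w v)) → (∀ v, 0 < Y v) →
        VL a f w Y = ∑' δ : E, bb δ * Dq q f δ * ∏ v, Ka (w v) (zd q Y δ v)) := fun q0 => by
    by_cases h : q0 = 0
    · exact ⟨1, 1, fun _ => 0, one_pos, one_ne_zero, fun δ => by rw [norm_zero]; positivity,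
        fun δ h' => (h' rfl).elim, fun h' => (h' h).elim⟩
    · obtain ⟨C, δ1, bb, b0, b1, b2, b3, b4⟩ := h1 a q0 ha h
      exact ⟨C, δ1, bb, b0, b1, b2, b3, fun _ => b4⟩
  choose C d bb b0 b1 b2 b3 b4 using hb
  obtain ⟨δ1, hδ1, hδ⟩ := exists_lat_sup (T.image d)
  have hS : 0 ≤ ∑ q0 ∈ T, C q0 := Finset.sum_nonneg fun q0 _ => (b0 q0).le
  refine ⟨1 + ∑ q0 ∈ T, C q0, δ1, by linarith, hδ1, fun ρ hρ => ?_⟩
  let f : P → E → ℂ := fun p c => conj (c6 p c) ^ vp p.1 ρ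
  have hf : ∀ p ∈ fac ρ, Mc p (f p) := fun p hp =>
    (c6_mc p).conj.pow ((dvd_iff_vp p.2.1 hρ).1 ((mem_fac hρ).1 hp))
  refine ⟨fun r q0 δ => bb q0 δ * ∏ p ∈ r, Dq p.1 (fun c => f p c - mv p (f p)) δ,
    fun r hr q0 hq0 δ => ⟨?_, fun h => ?_⟩, fun t q q0 ht hq => ?_⟩
  · rw [norm_mul]
    by_cases h0 : δ = 0
    · have h3 := b2 q0 δ
      rw [h0, nm_zero, Nat.cast_zero, div_zero] at h3
      rw [h0, nm_zero, Nat.cast_zero, div_zero, zero_mul, le_antisymm h3 (norm_nonneg _), zero_mul]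
    · refine mul_le_mul ((b2 q0 δ).trans ?_) (vorT_norm_prod hr f (fun p hp => hf p (hr hp)) h0)
        (norm_nonneg _) (by positivity)
      have h3 : C q0 ≤ ∑ q0 ∈ T, C q0 := Finset.single_le_sum (fun q0 _ => (b0 q0).le) hq0
      gcongr
      linarith
  · have h3 := OS.mul_mem (b3 q0 δ (left_ne_zero_of_mul h))
      (hδ _ (Finset.mem_image_of_mem d hq0))
    rwa [div_mul_div_cancel₀ (b1 q0)] at h3
  · obtain ⟨κ, hκ, hx⟩ := vorT_split h2 ha hρ t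
    have key : ∀ r : Finset P, ∃ e : ℂ, ‖e‖ ≤ 1 ∧ (r ⊆ fac ρ →
        ∀ (w : Pl → ℂ → ℂ) (Y : Pl → ℝ), (∀ v, Adm (w v)) → (∀ v, 0 < Y v) →
          VL a (fun c => (∏ p ∈ t, conj (c6 p c)) * ∏ p ∈ r, (f p c - mv p (f p))) w Y =
          e * ∑' δ : E, (bb (q0 r) δ * ∏ p ∈ r, Dq p.1 (fun c => f p c - mv p (f p)) δ) *
            xs c2 t δ * ∏ v, Ka (w v) (zd (q r) Y δ v)) := fun r => by
      by_cases hr : r ⊆ fac ρ
      swap
      · exact ⟨0, by simp, fun h => (hr h).elim⟩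
      obtain ⟨k1, k2, k3⟩ := hq r hr
      obtain ⟨g1, e, he, g2⟩ := vorT_dual (ht.mono_right hr) f (fun p hp => hf p (hr hp)) k1
      refine ⟨e, he, fun _ w Y hw hY => ?_⟩
      rw [b4 (q0 r) (hT _ k2) _ _ w Y k3 g1 hw hY, ← tsum_mul_left]
      refine tsum_congr fun δ => ?_
      rw [g2 δ]
      ring
    choose e he key using key
    refine ⟨fun r => κ * (∏ p ∈ fac ρ \ r, mv p (f p)) * e r, fun r => ?_, fun w Y hw hY => ?_⟩
    · rw [norm_mul, norm_mul, hκ, one_mul, norm_prod]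
      exact mul_le_one₀ (Finset.prod_le_one (fun _ _ => norm_nonneg _)
        fun p hp => norm_mv_le (hf p (Finset.mem_sdiff.1 hp).1)) (norm_nonneg _) (he r)
    · rw [Finset.sum_congr rfl fun r hr => by
        rw [mul_assoc _ (e r), ← key r (Finset.mem_powerset.1 hr) w Y hw hY]]
      refine vorT_VL_sum a _ _ _ _ (fun c hc => ?_) w Y
      have e1 : ∏ p ∈ fac ρ, conj (c6 p c) ^ vp p.1 ρ =
          ∏ p ∈ fac ρ, (f p c - mv p (f p) + mv p (f p)) := by simp only [sub_add_cancel, f]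
      rw [hx c hc, e1, Finset.prod_add, Finset.mul_sum, Finset.mul_sum]
      exact Finset.sum_congr rfl fun r _ => by ring

end NQ
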