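import Vale.Agent.NQ.G3
import Vale.Agent.NQ.G6
import Vale.Agent.NQ.QG
import Vale.Agent.NQ.Quad
import Vale.Agent.NQ.Card
import Vale.Agent.NQ.SPh
import Vale.Agent.NQ.LocS
import Vale.Agent.NQ.Phi2
import Vale.Agent.NQ.PoisO
import Vale.Agent.NQ.Pois
import Vale.Agent.NQ.Pois2
import Vale.Agent.NQ.PoisG
import Vale.Agent.NQ.RiemO
import Vale.Agent.NQ.Riem0
import Vale.Agent.NQ.RiemL
import Vale.Agent.NQ.HOne
import Vale.Agent.NQ.LB
import Vale.Agent.NQ.Lch
import Vale.Agent.NQ.Vert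
import Vale.Agent.NQ.ExCh
import Vale.Agent.NQ.Mono
import Vale.Agent.NQ.Move
import Vale.Agent.NQ.StepP
import Vale.Agent.NQ.StepT
import Vale.Agent.NQ.Glue
import Vale.Agent.NQ.RecB
import Vale.Agent.NQ.Sep2
import Vale.Agent.NQ.Resc
import Vale.Agent.NQ.VorA
import Vale.Agent.NQ.VorB
import Vale.Agent.NQ.VorC
import Vale.Agent.NQ.VorS
import Vale.Agent.NQ.VorD
import Vale.Agent.NQ.VorE0
import Vale.Agent.NQ.VorT
import Vale.Agent.NQ.VBk
import Vale.Agent.NQ.VB0
import Vale.Agent.NQ.VB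
import Vale.Agent.NQ.QL0
import Vale.Agent.NQ.QL1
import Vale.Agent.NQ.Del
import Vale.Agent.NQ.QPair
import Vale.Agent.NQ.QE1
import Vale.Agent.NQ.QE2
import Vale.Agent.NQ.QStep
import Vale.Agent.NQ.PLa
import Vale.Agent.NQ.PLb
import Vale.Agent.NQ.StarA
import Vale.Agent.NQ.StarB
import Vale.Agent.NQ.StepA
import Vale.Agent.NQ.StepB
import Vale.Agent.NQ.StepH
import Vale.Agent.NQ.MoB
import Vale.Agent.NQ.MuC
import Vale.Agent.NQ.Euler
import Vale.Agent.NQ.Unf
import Vale.Agent.NQ.Hecke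
import Vale.Agent.NQ.BC
import Vale.Agent.NQ.Cheb
import Vale.Agent.NQ.Kum
import Vale.Agent.NQ.PIT
import Vale.Agent.NQ.AuxP
import Vale.Agent.P026.IBd

/-! Assembly. -/

noncomputable section
namespace NQ
open Complex MeasureTheory NumberField Filter
open scoped ComplexConjugate Classical Topology

theorem recAllT : RecAll :=
  recAll (stepT (stepP (lch lB) vert exCh dzAdd) move) mono recB

section
variable [σ : St]

theorem ps1 : PS1 := pS1 pO1
theorem ps2 : PS2 := pS2 pO2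
theorem psl : PSL := pSL ps1
theorem psg : PSG := pSG psl
theorem hone : HOne := hOne recAllT
theorem hcongr : HCongr := hCongr hone
theorem qg : QG := qG ps1 psg
theorem gls : GlS := glS (locS card1 sPh)
theorem xr6 : XR c6 := xR6 hcongr (xR2 qg)
theorem un6 : Uni c6 := uni_c6 hcongr (uni_c2 qg)
theorem vort : VorT :=
  vorT (vor2 (vor0 (vorA (riem0 riemO) gls) (vorB ps2 gls asw hone)
    (vorC ps2 gls eqv hone QRH.iBd) (vorS ltB QRH.iBd)
    (vorD (riemL (riem0 riemO)) gls asw hcongr QRH.iBd ltB) (vorE0 ltB QRH.iBd)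
    (vorE ltB asw hcongr QRH.iBd)) (QRH.kFacts QRH.iBd)) xr6
theorem qls : QLS := by
  refine qLS (qRec qg) fun ξ hξ => qS_all (qS_two psg) (fun ξ h1 h2 h => ?_) hξ
  have hD := qD (qRec qg) (by linarith) h
  have h3 : 1 / ξ ≤ 1 := by rw [div_le_one (by linarith)]; exact h1
  have h4 : 0 < 1 / ξ := by positivity
  exact qS_of_QSd (by linarith) (by linarith)
    (qStep (delB psl) (qPair psg (qGam qg) (rec_c2 qg)) (kapSq psg) h1 h2 hD
      (qE1 (delB psl) sepW h1 h2 hD) (qE2 (delB psl) h1 h2 hD))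
theorem mob (θ : ℝ) (hθ : 11 / 12 < θ) : MoB θ := by
  have r6 : Rec c6 := rec_c6 hcongr (rec_c2 qg)
  have p1 : PL c6 := pL sepW ch_c6 six_c6 (pLa psg ch_c6 r6 un6 six_c6)
  have p2 : PL (cj c6) :=
    pL sepW ch_c6.cj six_c6.cj (pLa psg ch_c6.cj r6.cj un6.cj six_c6.cj)
  have hV : VB := vB (vB0 vort (vBc (vBk qls) sepM) (QRH.kFacts QRH.iBd))
  refine moB (fun η hη => hAs resc hη.le (hA_all (hA_one p1) (fun η h0 h1 h => ?_) hη)) hθ
  have hB : HBs η := hBs resc un6 h0.le (stepB p2 xr6 un6 h0 (hAs resc h0.le h))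
  exact stepA p1 xr6 h0 h1 hB
    (hHs resc un6 h0.le (stepH (muGam hcongr g3N (qGam qg)) un6 h0 hV hB))
/-- The zero free half plane. -/
theorem zf : ZF := zF euler fun θ hθ => muC pushF (mob θ hθ)
theorem heckeB : Hecke := hecke psg (kapSq psg) (kap_le_one (kapSq psg)) pushF (unf idB)
end

/-- The prime ideal theorem with a power saving, uniformly in the field. -/
theorem pitAll : PIT := pit heckeB zf (lDer bC) cont

theorem auxAll : ∃ c : ℕ, ∀ p n : ℕ, p.Prime → 3 < p →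
    Vale.Agent.P319.AuxPrimes p n (((n + 1) * Nat.size p) ^ c) := aux pitAll cheb1 cheb2 kum

end NQ
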