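import Vale.Agent.NQ.Gauss
import Vale.Agent.NQ.Lat
import Vale.Agent.NQ.SInt

noncomputable section
namespace NQ
open Complex MeasureTheory NumberField Filter
open scoped ComplexConjugate Classical ContDiff Topology

variable [σ : St]

theorem PairP_norm (b : FF) (t : Pl → ℝ) (m : E) :
    ‖Gw b t m‖ = if (m : FF) / b ∈ OS then ∏ w, Vg (‖em w m‖ ^ 2 / t w) else 0 := by
  unfold Gw il
  split_ifs
  · rw [one_mul, norm_prod]
    refine Finset.prod_congr rfl fun w _ => ?_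
    rw [Complex.norm_real, Real.norm_eq_abs]
    exact abs_of_pos (Real.exp_pos _)
  · simp

theorem summable_Gw {b : FF} (hb : b ≠ 0) {t : Pl → ℝ} (ht : ∀ w, 0 < t w) {F : E → ℂ} {M : ℝ}
    (hF : ∀ m, ‖F m‖ ≤ M) : Summable fun m : E => Gw b t m * F m := by
  obtain ⟨C, -, hC⟩ := gauss_tail (B := 0) le_rfl
  have h1 := (hC b t 1 hb ht one_pos).1
  refine Summable.of_norm_bounded (h1.mul_right M) fun m => ?_
  rw [norm_mul, ← PairP_norm]
  exact mul_le_mul_of_nonneg_left (hF m) (norm_nonneg _)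

theorem PairP_coe {x : E} (hx : x ≠ 0) : (x : FF) ≠ 0 := by simpa using hx

theorem PairP_scale (b : FF) (t : Pl → ℝ) {a : E} (ha : a ≠ 0) (y : E) :
    Gw b t (a * y) = Gw (b / a) (fun w => t w / ‖em w a‖ ^ 2) y := by
  have h0 := PairP_coe ha
  have e : ((a * y : E) : FF) = (a : FF) * y := rfl
  unfold Gw il
  rw [e, show (a : FF) * y / b = y / (b / a) by rw [div_div_eq_mul_div, mul_comm]]
  congr 1
  refine Finset.prod_congr rfl fun w _ => ?_
  rw [map_mul, norm_mul, mul_pow, div_div_eq_mul_div, mul_comm]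

/-- Restriction of a lattice sum to the multiples of `a`. -/
theorem PairP_dvd (b : FF) (t : Pl → ℝ) {a : E} (ha : a ≠ 0) (z : ℂ) (F : E → ℂ) :
    ∑' n : E, Gw b t n * ((if a ∣ n then z else 0) * F n)
      = z * ∑' y : E, Gw (b / a) (fun w => t w / ‖em w a‖ ^ 2) y * F (a * y) := by
  rw [← tsum_mul_left, ← (mul_right_injective₀ ha).tsum_eq]
  · refine tsum_congr fun y => ?_
    simp only [if_pos (dvd_mul_right a y)]
    rw [PairP_scale b t ha]
    ring
  · intro n hn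
    by_contra h
    refine hn ?_
    have h1 : ¬ a ∣ n := fun ⟨y, hy⟩ => h ⟨y, hy.symm⟩
    simp only [if_neg h1, zero_mul, mul_zero]

/-- Poisson summation without the coprimality condition. -/
theorem PairP_one (h : PSG) {χ : P → E → ℂ} (hc : Ch χ) (hr : Rec χ) {b : FF} (hb : b ≠ 0)
    {t : Pl → ℝ} (ht : ∀ w, 0 < t w) {c c' : Finset P}
    (h3 : Disjoint c c') {x x' : E} (hx : Associated x (pr c)) (hx' : Associated x' (pr c'))
    (hcl : Cl x x') :
    ∑' y : E, Gw b t y * (xs χ c y * conj (xs χ c' y))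
      = ((kap * sS b * (∏ w, t w) / √(Ns c * Ns c') : ℝ) : ℂ)
        * (gamE χ c x * conj (gamE χ c' x'))
        * ∑' m : E, Gw (x * x' / (b * del))
            (fun w => (‖em w x‖ ^ 2 * ‖em w x'‖ ^ 2) / t w) m
          * (conj (xs χ c m) * xs χ c' m) := by
  have hx0 := ga_ne hx
  have hx0' := ga_ne hx'
  have hper : Per (x * x') fun y => xs χ c y * conj (xs χ c' y) := by
    intro y z hyz
    simp only
    rw [ga_per hc hx y z ((dvd_mul_right _ _).trans hyz),
      ga_per hc hx' y z ((dvd_mul_left _ _).trans hyz)]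
  have h1 := h (x * x') _ b t (mul_ne_zero hx0 hx0') hper hb ht
  have e0 : ((x * x' : E) : FF) = (x : FF) * x' := rfl
  have e1 : ∀ y : E, Gw b t y * (xs χ c y * conj (xs χ c' y)) =
      xs χ c y * conj (xs χ c' y) * il b y * ∏ w, ((Vg (‖em w y‖ ^ 2 / t w) : ℝ) : ℂ) := by
    intro y
    unfold Gw
    ring
  have e2 : ∀ m : E, rsum (x * x') (fun y => xs χ c y * conj (xs χ c' y) * psf (y * m) (x * x'))
      * il (((x * x' : E) : FF) / (b * del)) m
      * ∏ w, ((Vg (‖em w m‖ ^ 2 * t w / ‖em w ((x * x' : E) : FF)‖ ^ 2) : ℝ) : ℂ) =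
      (gsE χ c x * conj (gsE χ c' x')) * (Gw (x * x' / (b * del))
            (fun w => (‖em w x‖ ^ 2 * ‖em w x'‖ ^ 2) / t w) m
          * (conj (xs χ c m) * xs χ c' m)) := by
    intro m
    rw [gs_pair hc hr h3 hx hx' hcl, e0, map_mul, Complex.conj_conj]
    unfold Gw
    have e3 : ∀ w, ‖em w m‖ ^ 2 * t w / ‖em w ((x : FF) * x')‖ ^ 2 =
        ‖em w m‖ ^ 2 / (‖em w x‖ ^ 2 * ‖em w x'‖ ^ 2 / t w) := by
      intro w
      rw [map_mul, norm_mul, mul_pow, div_div_eq_mul_div]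
    simp only [e3]
    ring
  simp only [e1]
  rw [h1]
  simp only [e2]
  rw [tsum_mul_left, ← mul_assoc]
  congr 1
  have e4 : ((nm (x * x') : ℕ) : ℝ) = Ns c * Ns c' := by
    rw [nm_mul, nm_assoc hx, nm_assoc hx', Nat.cast_mul]
    rfl
  have p1 := Ns_pos c
  have p2 := Ns_pos c'
  have q1 : ((√(Ns c) : ℝ) : ℂ) ≠ 0 := by exact_mod_cast ga_sqrt_ne c
  have q2 : ((√(Ns c') : ℝ) : ℂ) ≠ 0 := by exact_mod_cast ga_sqrt_ne c'
  have r1 : ((Ns c : ℝ) : ℂ) = ((√(Ns c) : ℝ) : ℂ) * (√(Ns c) : ℝ) := by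
    rw [← Complex.ofReal_mul, Real.mul_self_sqrt p1.le]
  have r2 : ((Ns c' : ℝ) : ℂ) = ((√(Ns c') : ℝ) : ℂ) * (√(Ns c') : ℝ) := by
    rw [← Complex.ofReal_mul, Real.mul_self_sqrt p2.le]
  rw [e4, Real.sqrt_mul p1.le, gamE, gamE, map_div₀, Complex.conj_ofReal, Complex.ofReal_div,
    Complex.ofReal_div, Complex.ofReal_mul (Ns c), Complex.ofReal_mul (√(Ns c)), r1, r2]
  field_simp

/-- Poisson summation for a coprime pair. -/
theorem pair_poisson (h : PSG) {χ : P → E → ℂ} (hc : Ch χ) (hr : Rec χ) {b : FF} (hb : b ≠ 0)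
    {t : Pl → ℝ} (ht : ∀ w, 0 < t w) {d c c' : Finset P} (h1 : Disjoint d c) (h2 : Disjoint d c')
    (h3 : Disjoint c c') {x x' : E} (hx : Associated x (pr c)) (hx' : Associated x' (pr c'))
    (hcl : Cl x x') :
    ∑' n : E, Gw b t n * (cop d n * xs χ c n * conj (xs χ c' n))
      = ∑ f ∈ d.powerset, mu f * xs χ c (pr f) * conj (xs χ c' (pr f))
        * ((kap * sS b * (∏ w, t w) / (Ns f * √(Ns c * Ns c')) : ℝ) : ℂ)
        * (gamE χ c x * conj (gamE χ c' x'))
        * ∑' m : E, Gw (x * x' * pr f / (b * del))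
            (fun w => ‖em w (pr f)‖ ^ 2 * (‖em w x‖ ^ 2 * ‖em w x'‖ ^ 2) / t w) m
          * (conj (xs χ c m) * xs χ c' m) := by
  have _ := h1
  have _ := h2
  have e1 : ∀ n : E, Gw b t n * (cop d n * xs χ c n * conj (xs χ c' n)) =
      ∑ f ∈ d.powerset, Gw b t n * ((if pr f ∣ n then mu f else 0)
        * (xs χ c n * conj (xs χ c' n))) := by
    intro n
    rw [← Finset.mul_sum, ← Finset.sum_mul, sum_mu_dvd, cop, mul_assoc]
  simp only [e1]
  rw [Summable.tsum_finsetSum]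
  · refine Finset.sum_congr rfl fun f _ => ?_
    have hf := pr_ne_zero f
    have hf' := PairP_coe hf
    rw [PairP_dvd b t hf]
    have e2 : ∀ y : E, Gw (b / pr f) (fun w => t w / ‖em w (pr f)‖ ^ 2) y
        * (xs χ c (pr f * y) * conj (xs χ c' (pr f * y))) =
        xs χ c (pr f) * conj (xs χ c' (pr f)) * (Gw (b / pr f) (fun w => t w / ‖em w (pr f)‖ ^ 2) y
          * (xs χ c y * conj (xs χ c' y))) := by
      intro y
      rw [xs_mul hc, xs_mul hc, map_mul]
      ring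
    simp only [e2]
    rw [tsum_mul_left, PairP_one h hc hr (div_ne_zero hb hf')
      (fun w => div_pos (ht w) (em_sq_pos w hf')) h3 hx hx' hcl]
    have e3 : (x : FF) * x' / (b / pr f * del) = x * x' * pr f / (b * del) := by
      rw [div_mul_eq_mul_div, div_div_eq_mul_div]
    have e4 : (fun w => ‖em w x‖ ^ 2 * ‖em w x'‖ ^ 2 / (t w / ‖em w (pr f)‖ ^ 2)) =
        fun w => ‖em w (pr f)‖ ^ 2 * (‖em w x‖ ^ 2 * ‖em w x'‖ ^ 2) / t w := by
      funext w
      rw [div_div_eq_mul_div, mul_comm]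
    have e5 : kap * sS (b / pr f) * (∏ w, t w / ‖em w (pr f)‖ ^ 2) / √(Ns c * Ns c') =
        kap * sS b * (∏ w, t w) / (Ns f * √(Ns c * Ns c')) := by
      rw [sS_div hb hf', Finset.prod_div_distrib, Ns_eq f]
      have p1 := Ninf_pos hf'
      have p2 := sS_pos (pr f : FF)
      change kap * (sS b / sS (pr f)) * ((∏ w, t w) / Ninf (pr f)) / _ = _
      rw [← div_div]
      congr 1
      field_simp
    rw [e3, e4, e5]
    ring
  · intro f _
    refine summable_Gw hb ht (M := 1) fun n => ?_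
    rw [norm_mul, norm_mul, Complex.norm_conj]
    have a1 : ‖(if pr f ∣ n then mu f else 0 : ℂ)‖ ≤ 1 := by
      split_ifs
      · simp [mu]
      · simp
    exact mul_le_one₀ a1 (by positivity)
      (mul_le_one₀ (norm_xs_le hc c n) (norm_nonneg _) (norm_xs_le hc c' n))

end NQ
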