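import Vale.Agent.NQ.Unit

noncomputable section
namespace NQ
open Complex MeasureTheory NumberField Filter
open scoped ComplexConjugate Classical ContDiff Topology

variable [σ : St]

theorem Phi0_inj : Function.Injective fun e : (𝓞 FF)ˣ => ((e : 𝓞 FF) : FF) :=
  fun _ _ h => Units.ext (Subtype.ext h)

theorem Phi0_countable : Countable (𝓞 FF)ˣ := Phi0_inj.countable

theorem Phi0_mean {u : Pl → ℝ} {K : ℝ} (h : ∀ w w', |u w - u w'| ≤ K) (w : Pl) :
    |rk * u w - ∑ w', u w'| ≤ rk * K := by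
  have e1 : rk * u w - ∑ w', u w' = ∑ w', (u w - u w') := by
    rw [Finset.sum_sub_distrib, Finset.sum_const, Finset.card_univ, nsmul_eq_mul, rk]
  have e2 : rk * K = ∑ _w' : Pl, K := by
    rw [Finset.sum_const, Finset.card_univ, nsmul_eq_mul, rk]
  rw [e1, e2]
  exact (Finset.abs_sum_le_sum_abs _ _).trans (Finset.sum_le_sum fun w' _ => h w w')

theorem Phi0_finite (K : ℝ) (u : Pl → ℝ) : {e : (𝓞 FF)ˣ | ∀ w w',
    |(u + lg ((e : 𝓞 FF) : FF)) w - (u + lg ((e : 𝓞 FF) : FF)) w'| ≤ K}.Finite := by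
  refine ((finite_int_box (√(Real.exp (K + 2 * ‖u‖)))).preimage Phi0_inj.injOn).subset
    fun e he => ⟨(e : 𝓞 FF).isIntegral_coe, fun w => ?_⟩
  have hr : (0 : ℝ) < rk := Nat.cast_pos.2 rk_pos
  have h1 : ∀ w w', |lg ((e : 𝓞 FF) : FF) w - lg ((e : 𝓞 FF) : FF) w'| ≤ K + 2 * ‖u‖ := by
    intro w w'
    have h2 := abs_le.1 (he w w')
    have h3 := abs_le.1 (norm_le_pi_norm u w)
    have h4 := abs_le.1 (norm_le_pi_norm u w')
    simp only [Pi.add_apply] at h2
    rw [abs_le]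
    constructor <;> linarith [h2.1, h2.2, h3.1, h3.2, h4.1, h4.2]
  have h2 := (abs_le.1 (Phi0_mean h1 w)).2
  rw [sum_lg_unit, sub_zero] at h2
  have h3 : lg ((e : 𝓞 FF) : FF) w ≤ K + 2 * ‖u‖ := le_of_mul_le_mul_left h2 hr
  refine Real.le_sqrt_of_sq_le ?_
  exact (Real.log_le_iff_le_exp (em_sq_pos w (Units.coe_ne_zero e))).1 h3

theorem Phi0_lg_mul (e e' : (𝓞 FF)ˣ) :
    lg (((e * e' : (𝓞 FF)ˣ) : 𝓞 FF) : FF) = lg ((e : 𝓞 FF) : FF) + lg ((e' : 𝓞 FF) : FF) := by
  rw [← lg_mul (Units.coe_ne_zero e) (Units.coe_ne_zero e')]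
  simp

theorem Phi0_lg_one : lg (((1 : (𝓞 FF)ˣ) : 𝓞 FF) : FF) = 0 := by
  funext w
  simp [lg]

theorem Phi0_lg_inv (e : (𝓞 FF)ˣ) :
    lg (((e⁻¹ : (𝓞 FF)ˣ) : 𝓞 FF) : FF) = -lg ((e : 𝓞 FF) : FF) := by
  have := Phi0_lg_mul e⁻¹ e
  rw [inv_mul_cancel, Phi0_lg_one] at this
  exact eq_neg_of_add_eq_zero_left this.symm

theorem exists_phi : ∃ φ : (Pl → ℝ) → ℝ, IsPhi φ := by
  obtain ⟨K, hK⟩ := exists_unit_close
  have := Phi0_countable
  have hr : (0 : ℝ) < rk := Nat.cast_pos.2 rk_pos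
  obtain ⟨g, hg⟩ : ∃ g : (Pl → ℝ) → NNReal, ∀ u,
      g u = if ∀ w w', |u w - u w'| ≤ 2 * K then 1 else 0 := ⟨_, fun _ => rfl⟩
  have hgm : Measurable g := by
    rw [funext hg]
    refine Measurable.ite ?_ measurable_const measurable_const
    simp only [Set.ofPred_forall]
    exact MeasurableSet.iInter fun w => MeasurableSet.iInter fun w' =>
      measurableSet_le (by fun_prop) measurable_const
  have hgt : ∀ u (t : ℝ), g (fun w => u w + t) = g u := by
    intro u t
    simp only [hg, add_sub_add_right_eq_sub]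
  have hs : ∀ u, Summable fun e : (𝓞 FF)ˣ => g (u + lg ((e : 𝓞 FF) : FF)) := by
    intro u
    refine summable_of_hasFiniteSupport ((Phi0_finite (2 * K) u).subset fun e he => ?_)
    by_contra h
    exact he ((hg _).trans (if_neg h))
  obtain ⟨G, hG⟩ : ∃ G : (Pl → ℝ) → NNReal, ∀ u,
      G u = ∑' e : (𝓞 FF)ˣ, g (u + lg ((e : 𝓞 FF) : FF)) := ⟨_, fun _ => rfl⟩
  have hGm : Measurable G := by
    rw [funext hG]
    exact Measurable.tsum fun e => hgm.comp (measurable_add_const _)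
  have hle : ∀ u (e : (𝓞 FF)ˣ), g (u + lg ((e : 𝓞 FF) : FF)) ≤ G u := by
    intro u e
    rw [hG]
    exact (hs u).le_tsum e fun _ _ => zero_le
  have hG1 : ∀ u, 1 ≤ G u := by
    intro u
    obtain ⟨e, he⟩ := hK (fun w => u w - (∑ w', u w') / rk) (by
      rw [Finset.sum_sub_distrib, Finset.sum_const, Finset.card_univ, nsmul_eq_mul, ← rk,
        mul_div_cancel₀ _ hr.ne', sub_self])
    refine le_trans (le_of_eq ?_) (hle u e)
    rw [hg, if_pos]
    intro w w'
    have h1 := abs_le.1 (he w)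
    have h2 := abs_le.1 (he w')
    simp only [Pi.add_apply]
    rw [abs_le]
    constructor <;> linarith [h1.1, h1.2, h2.1, h2.2]
  have hG0 : ∀ u, (0 : ℝ) < G u := fun u => NNReal.coe_pos.2 (one_pos.trans_le (hG1 u))
  have hGe : ∀ u (e : (𝓞 FF)ˣ), G (u + lg ((e : 𝓞 FF) : FF)) = G u := by
    intro u e
    rw [hG u, ← (Equiv.mulLeft e).tsum_eq, hG]
    refine tsum_congr fun e' => ?_
    rw [Equiv.coe_mulLeft, Phi0_lg_mul, add_assoc]
  have hGt : ∀ u (t : ℝ), G (fun w => u w + t) = G u := by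
    intro u t
    rw [hG, hG]
    refine tsum_congr fun e => ?_
    rw [← hgt (u + lg ((e : 𝓞 FF) : FF)) t]
    congr 1
    funext w
    simp only [Pi.add_apply]
    ring
  refine ⟨fun u => (g u : ℝ) / G u, hgm.coe_nnreal_real.div hGm.coe_nnreal_real,
    fun u => ⟨by positivity, ?_⟩, fun u t => by simp only [hgt, hGt], ⟨2 * K, fun u hu => ?_⟩,
    fun u => ?_⟩
  · rw [div_le_one (hG0 u)]
    have := hle u 1
    rw [Phi0_lg_one, add_zero] at this
    exact this
  · by_contra h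
    apply hu
    simp only [hg, if_neg h, NNReal.coe_zero, zero_div]
  · simp only [hGe]
    have h1 := (NNReal.hasSum_coe.2 (hs u).hasSum).div_const (G u : ℝ)
    rwa [← hG, div_self (hG0 u).ne'] at h1

theorem IsPhi.neg {φ : (Pl → ℝ) → ℝ} (h : IsPhi φ) : IsPhi fun u => φ (-u) := by
  obtain ⟨h1, h2, h3, ⟨K, h4⟩, h5⟩ := h
  refine ⟨h1.comp measurable_neg, fun u => h2 _, fun u t => ?_, ⟨K, fun u hu w w' => ?_⟩,
    fun u => ?_⟩
  · refine Eq.trans ?_ (h3 (-u) (-t))
    show φ _ = φ _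
    congr 1
    funext w
    simp only [Pi.neg_apply]
    ring
  · have := h4 _ hu w' w
    simp only [Pi.neg_apply] at this
    rwa [neg_sub_neg] at this
  · have := (Equiv.inv (𝓞 FF)ˣ).hasSum_iff.2 (h5 (-u))
    have e1 : (fun e : (𝓞 FF)ˣ => φ (-(u + lg ((e : 𝓞 FF) : FF)))) =
        (fun e : (𝓞 FF)ˣ => φ (-u + lg ((e : 𝓞 FF) : FF))) ∘ Equiv.inv (𝓞 FF)ˣ := by
      funext e
      simp only [Function.comp_apply, Equiv.inv_apply]
      rw [Phi0_lg_inv, neg_add]
    exact e1 ▸ this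

theorem pushF : PushF := by
  intro φ ⟨h1, h2, h3, ⟨K, h4⟩, h5⟩
  have := Phi0_countable
  have hr : (0 : ℝ) < rk := Nat.cast_pos.2 rk_pos
  have hr1 : (1 : ℝ) ≤ rk := Nat.one_le_cast.2 rk_pos
  have hsm : Measurable fun u : Pl → ℝ => ∑ w, u w := by fun_prop
  have hfm : Measurable fun u => ENNReal.ofReal (φ u) := h1.ennreal_ofReal
  obtain ⟨μ, hμ⟩ : ∃ μ : Measure ℝ, μ = (volume.withDensity fun u => ENNReal.ofReal (φ u)).map
      fun u : Pl → ℝ => ∑ w, u w := ⟨_, rfl⟩
  have hap : ∀ s, MeasurableSet s → μ s =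
      ∫⁻ u : Pl → ℝ, s.indicator (fun _ => ENNReal.ofReal (φ u)) (∑ w, u w) := by
    intro s hs
    rw [hμ, Measure.map_apply hsm hs, withDensity_apply _ (hsm hs), ← lintegral_indicator (hsm hs)]
    rfl
  have hinv : μ.IsAddLeftInvariant := by
    refine ⟨fun t => Measure.ext fun s hs => ?_⟩
    rw [Measure.map_apply (measurable_const_add t) hs, hap _ (measurable_const_add t hs), hap s hs,
      ← lintegral_add_right_eq_self (μ := volume) (fun u : Pl → ℝ =>
        s.indicator (fun _ => ENNReal.ofReal (φ u)) (∑ w, u w)) fun _ => t / rk]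
    refine lintegral_congr fun u => ?_
    have e1 : φ (u + fun _ => t / rk) = φ u := h3 u (t / rk)
    have e2 : ∑ w, (u + fun _ => t / rk : Pl → ℝ) w = t + ∑ w, u w := by
      simp only [Pi.add_apply]
      rw [Finset.sum_add_distrib, Finset.sum_const, Finset.card_univ, nsmul_eq_mul, ← rk,
        mul_div_cancel₀ _ hr.ne', add_comm]
    rw [e1, e2]
    rfl
  have hfin : IsFiniteMeasureOnCompacts μ := by
    refine ⟨fun s hs => ?_⟩
    obtain ⟨R, hR⟩ := hs.isBounded.exists_norm_le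
    rw [hap s hs.measurableSet]
    refine lt_of_le_of_lt ?_ (measure_closedBall_lt_top (μ := volume) (x := (0 : Pl → ℝ))
      (r := |R| + |K|))
    rw [← lintegral_indicator_one measurableSet_closedBall]
    refine lintegral_mono fun u => ?_
    by_cases hu : ∑ w, u w ∈ s
    · by_cases h0 : φ u = 0
      · simp [hu, h0]
      · have hb : u ∈ Metric.closedBall (0 : Pl → ℝ) (|R| + |K|) := by
          rw [mem_closedBall_zero_iff, pi_norm_le_iff_of_nonneg (by positivity)]
          intro w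
          have a1 := abs_le.1 (Phi0_mean (h4 u h0) w)
          have a2 := abs_le.1 (hR _ hu)
          have a3 : R ≤ rk * |R| := (le_abs_self R).trans (le_mul_of_one_le_left (abs_nonneg R) hr1)
          have a4 : rk * K ≤ rk * |K| := mul_le_mul_of_nonneg_left (le_abs_self K) hr.le
          rw [Real.norm_eq_abs, abs_le]
          constructor
          · refine le_of_mul_le_mul_left ?_ hr
            linarith [a1.1, a2.1]
          · refine le_of_mul_le_mul_left ?_ hr
            linarith [a1.2, a2.2]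
        rw [Set.indicator_of_mem hu, Set.indicator_of_mem hb]
        exact ENNReal.ofReal_le_one.2 (h2 u).2
    · simp [hu]
  obtain ⟨V, hV⟩ : ∃ V : NNReal, μ = V • (volume : Measure ℝ) :=
    ⟨_, Measure.isAddLeftInvariant_eq_smul μ volume⟩
  have hre : ∀ (u : Pl → ℝ) (z : ℂ), (ENNReal.ofReal (φ u)).toReal • z = (φ u : ℂ) * z := by
    intro u z
    rw [ENNReal.toReal_ofReal (h2 u).1, real_smul]
  have hlt : ∀ᵐ u : Pl → ℝ, ENNReal.ofReal (φ u) < ⊤ :=
    Eventually.of_forall fun _ => ENNReal.ofReal_lt_top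
  refine ⟨V, ?_, fun h hh => ?_⟩
  · refine NNReal.coe_pos.2 (pos_iff_ne_zero.2 fun h0 => ?_)
    have a1 := hap _ MeasurableSet.univ
    rw [hV, h0, zero_smul] at a1
    simp only [Set.indicator_univ, Measure.coe_zero, Pi.zero_apply] at a1
    have a2 : ∀ᵐ u : Pl → ℝ, φ u = 0 := by
      filter_upwards [(lintegral_eq_zero_iff hfm).1 a1.symm] with u hu
      exact le_antisymm (ENNReal.ofReal_eq_zero.1 hu) (h2 u).1
    have a3 : ∀ᵐ u : Pl → ℝ, ∀ e : (𝓞 FF)ˣ, φ (u + lg ((e : 𝓞 FF) : FF)) = 0 :=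
      ae_all_iff.2 fun e => (measurePreserving_add_right volume
        (lg ((e : 𝓞 FF) : FF))).quasiMeasurePreserving.ae a2
    obtain ⟨u, hu⟩ := a3.exists
    have a4 := h5 u
    simp only [hu] at a4
    exact zero_ne_one (hasSum_zero.unique a4)
  · have a1 : Integrable h μ := by
      rw [hV]
      exact hh.smul_measure_nnreal
    have a2 : ∫ t, h t ∂μ = V * ∫ t, h t := by
      rw [hV, integral_smul_nnreal_measure]
      rfl
    have a3 := a1.aestronglyMeasurable
    rw [hμ] at a1 a2 a3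
    rw [integrable_map_measure a3 hsm.aemeasurable,
      integrable_withDensity_iff_integrable_smul' hfm hlt] at a1
    rw [integral_map hsm.aemeasurable a3,
      integral_withDensity_eq_integral_toReal_smul hfm hlt] at a2
    simp only [hre, Function.comp_apply] at a1 a2
    exact ⟨a1, a2⟩

end NQ
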