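import Vale.Agent.NQ.Defs
import Vale.Agent.P026.Eis1

/-! Definitions for the proof of cubic reciprocity in number fields. -/

noncomputable section
namespace NQ
open NumberField IsDedekindDomain Polynomial
open scoped Classical

/-- The cubic sign of a map `G` that commutes with the order three map `W`. -/
def Zs {M : Type} [Zero M] (W G : M → M) : ZMod 3 :=
  if h : ∃ o : M → ZMod 3, ∀ x, x ≠ 0 → o (W x) = o x + 1 then
    ∑ᶠ x, if x ≠ 0 ∧ h.choose x = 0 then h.choose (G x) else 0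
  else 0
/-- The hypotheses under which the cubic sign behaves well. -/
structure ZOK {M : Type} [AddCommGroup M] (W G : M →+ M) : Prop where
  fin : Finite M
  rel : ∀ x, W (W x) + W x + x = 0
  three : ∀ x : M, 3 • x = 0 → x = 0
  comm : ∀ x, W (G x) = G (W x)
  bij : Function.Bijective G
/-- The cubic sign of multiplication by `g` in a finite ring. -/
def zr {T : Type} [CommRing T] (w g : T) : ZMod 3 := Zs (fun x => w * x) (fun x => g * x)
/-- The cubic sign of multiplication by `g` modulo an ideal. -/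
def zq {B : Type} [CommRing B] (w g : B) (J : Ideal B) : ZMod 3 :=
  zr (Ideal.Quotient.mk J w) (Ideal.Quotient.mk J g)

section
variable {F : Type} [Field F] [NumberField F]

/-- The cubic residue symbol of a `v`-adic unit, in additive form. -/
def zv (w : 𝓞 F) (v : HS F) (y : F) : ZMod 3 :=
  if h : ∃ c : 𝓞 F × 𝓞 F, c.1 ∉ v.asIdeal ∧ c.2 ∉ v.asIdeal ∧ y * c.2 = c.1 then
    zq w h.choose.1 v.asIdeal - zq w h.choose.2 v.asIdeal
  else 0
/-- The tame symbol. -/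
def hv (w : 𝓞 F) (v : HS F) (a b : F) : ZMod 3 := zv w v (b ^ ord v a / a ^ ord v b)
/-- The sum of the tame symbols at the places prime to `s`. -/
def HF (s : ℕ) (w : 𝓞 F) (a b : F) : ZMod 3 :=
  ∑ᶠ v : HS F, if (s : 𝓞 F) ∈ v.asIdeal then 0 else hv w v a b
/-- `a = 1` modulo `s ^ 2`. -/
def Close (s : ℕ) (a : F) : Prop := (a - 1) / (s : F) ^ 2 ∈ OO F s
/-- At each place prime to `s` one of the valuations is a multiple of three. -/
def D3 (s : ℕ) (a b : F) : Prop :=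
  ∀ v : HS F, (s : 𝓞 F) ∉ v.asIdeal → 3 ∣ ord v a ∨ 3 ∣ ord v b
/-- The reciprocity law. -/
def RecF (F : Type) [Field F] [NumberField F] (s : ℕ) (w : 𝓞 F) : Prop :=
  ∀ a b : F, a ≠ 0 → b ≠ 0 → Close s a → D3 s a b → HF s w a b = 0
/-- The map from the Eisenstein integers. -/
def eis (w : 𝓞 F) (hw : w ^ 2 + w + 1 = 0) : QRH.E →+* F :=
  (QuadraticAlgebra.lift (R := ℤ) (a := -1) (b := -1) ⟨(w : F), by
    have h : ((w ^ 2 + w + 1 : 𝓞 F) : F) = 0 := by rw [hw]; rfl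
    push_cast at h
    simp only [neg_smul, one_smul]
    linear_combination h⟩).toRingHom
end

/-- The Eisenstein integers with `s` inverted. -/
abbrev AS (s : ℕ) : Type := Localization.Away (s : QRH.E)
/-- The cube root of unity in the polynomial ring. -/
def wP (s : ℕ) : (AS s)[X] := C (algebraMap QRH.E (AS s) QRH.om)
/-- The difference of signs on the curve `h`. -/
def Dz (s : ℕ) (h u1 u2 : (AS s)[X]) : ZMod 3 :=
  zq (wP s) u2 (Ideal.span {h, u1}) - zq (wP s) u1 (Ideal.span {h, u2})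
/-- The number field `F` is the function field of the horizontal curve `h`. -/
structure Chart (s : ℕ) (h : (AS s)[X]) (F : Type) [Field F] [NumberField F] (w : 𝓞 F)
    (ev : (AS s)[X] →+* F) : Prop where
  ker : ∀ u, ev u = 0 ↔ h ∣ u
  om : ev (wP s) = w
  gen : ∀ y : F, ∃ c : ℕ, c ≠ 0 ∧ (c : F) * y ∈ ev.range
/-- The elements that are integral at the places prime to `s` where `θ` is integral. -/
def InB {F : Type} [Field F] [NumberField F] (s : ℕ) (θ y : F) : Prop :=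
  ∀ v : HS F, (s : 𝓞 F) ∉ v.asIdeal → OG v 0 θ → OG v 0 y
/-- Monic of degree a multiple of three. -/
def M3 {R : Type} [CommRing R] (u : R[X]) : Prop := u.Monic ∧ 3 ∣ u.natDegree
/-- The hypothesis on `s`. -/
def SOK (s N : ℕ) : Prop := 0 < s ∧ 3 ∣ s ∧ ∀ p : ℕ, p.Prime → p ≤ N → p ∣ s
/-- The integers lie in `t⁻¹ A[θ]`. -/
def Gen {F : Type} [Field F] [NumberField F] (w : 𝓞 F) (hw : w ^ 2 + w + 1 = 0) (θ : F)
    (t : QRH.E) : Prop :=
  IsIntegral ℤ θ ∧ t ≠ 0 ∧ ∀ y : F, IsIntegral ℤ y → ∃ p : QRH.E[X], eis w hw t * y = p.eval₂ (eis w hw) θ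

/-- The sum of the tame symbols on a horizontal curve. -/
def Lch : Prop := ∀ (s : ℕ) (h : (AS s)[X]) (F : Type) [Field F] [NumberField F] (w : 𝓞 F)
  (ev : (AS s)[X] →+* F) (u1 u2 : (AS s)[X]), 0 < s → 3 ∣ s → Prime h → 0 < h.natDegree →
  Chart s h F w ev → ¬ h ∣ u1 → ¬ h ∣ u2 → Ideal.span {h, u1, u2} = ⊤ → (h.Monic ∨ M3 u1 ∨ M3 u2) →
  HF s w (ev u1) (ev u2) = Dz s h u1 u2
/-- Vertical curves. -/
def Vert : Prop := ∀ (s : ℕ) (π : AS s) (m g : (AS s)[X]), 0 < s → 3 ∣ s → Prime π → M3 m →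
  Ideal.span {C π, m, g} = ⊤ → Dz s (C π) m g = 0
/-- Every horizontal curve has a chart. -/
def ExCh : Prop := ∀ (s : ℕ) (h : (AS s)[X]), 0 < s → Prime h → 0 < h.natDegree →
  ∃ (F : Type) (_ : Field F) (_ : NumberField F) (w : 𝓞 F) (ev : (AS s)[X] →+* F),
    w ^ 2 + w + 1 = 0 ∧ Chart s h F w ev ∧ Module.finrank ℚ F = 2 * h.natDegree
/-- Additivity over the components. -/
def DzAdd : Prop := ∀ (s : ℕ) (f u1 u2 : (AS s)[X]), 0 < s → 3 ∣ s → f ≠ 0 →
  (∀ h, Prime h → h ∣ f → ¬ h ∣ u1 ∧ ¬ h ∣ u2) → Ideal.span {f, u1, u2} = ⊤ →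
  (∀ f1 f2, f = f1 * f2 → Dz s f u1 u2 = Dz s f1 u1 u2 + Dz s f2 u1 u2) ∧
  ((∀ h, Prime h → h ∣ f → Dz s h u1 u2 = 0) → Dz s f u1 u2 = 0)
/-- Local monogenicity. -/
def Mono : Prop := ∀ (s : ℕ) (F : Type) [Field F] [NumberField F] (w : 𝓞 F) (hw : w ^ 2 + w + 1 = 0)
  (v : HS F), SOK s (Module.finrank ℚ F) → (s : 𝓞 F) ∉ v.asIdeal →
  ∃ (θ : F) (t : QRH.E), Gen w hw θ t ∧ ord v (eis w hw t) = 0
/-- The polynomial form of the induction step. -/
def StepP : Prop := ∀ (s N : ℕ) (m g : QRH.E[X]) (F : Type) [Field F] [NumberField F] (w : 𝓞 F)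
  (ev : (AS s)[X] →+* F), SOK s N →
  (∀ (F' : Type) [Field F'] [NumberField F'] (w' : 𝓞 F'), w' ^ 2 + w' + 1 = 0 →
    Module.finrank ℚ F' < 2 * m.natDegree → RecF F' s w') →
  m.Monic → 2 ≤ m.natDegree → m.natDegree ≤ N → Chart s (m.map (algebraMap _ _)) F w ev →
  g ≠ 0 → g.natDegree < m.natDegree →
  ∃ k : ℕ, ∀ f0 : QRH.E[X], f0.natDegree < m.natDegree →
    (∀ h : (AS s)[X], Prime h → h ∣ (1 + C ((s : QRH.E) ^ k) * f0).map (algebraMap _ _) →
      ¬ h ∣ g.map (algebraMap _ _)) →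
    Ideal.span {m.map (algebraMap _ (AS s)), (1 + C ((s : QRH.E) ^ k) * f0).map (algebraMap _ _),
      g.map (algebraMap _ _)} = ⊤ →
    HF s w (ev ((1 + C ((s : QRH.E) ^ k) * f0).map (algebraMap _ _))) (ev (g.map (algebraMap _ _)))
      = 0
/-- Moving the two entries into general position. -/
def Move : Prop := ∀ (s : ℕ) (F : Type) [Field F] [NumberField F] (w : 𝓞 F) (τ a b : F), 0 < s →
  3 ∣ s → w ^ 2 + w + 1 = 0 → τ ≠ 0 → IsIntegral ℤ τ → a ≠ 0 → b ≠ 0 → Close s a → D3 s a b →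
  (∀ v : HS F, (s : 𝓞 F) ∉ v.asIdeal → 0 < ord v τ → OG v 1 (a - 1)) →
  ∃ b1 : F, b1 ≠ 0 ∧ IsIntegral ℤ (b1 / τ) ∧ ∀ k : ℕ, ∃ a1 : F, a1 ≠ 0 ∧
    IsIntegral ℤ ((a1 - 1) / ((s : F) ^ k * τ ^ 2)) ∧
    (∀ v : HS F, (s : 𝓞 F) ∉ v.asIdeal → ord v a1 = 0 ∨ ord v b1 = 0) ∧ HF s w a b = HF s w a1 b1
/-- The sign modulo `m` in the ring `InB`, as a sum over places. The ring is given as a subring. -/
def LB : Prop := ∀ (s : ℕ) (F : Type) [Field F] [NumberField F] (w : 𝓞 F) (θ : F) (B : Subring F)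
  (wB m g : B), 0 < s → 3 ∣ s → w ^ 2 + w + 1 = 0 → (∀ y, y ∈ B ↔ InB s θ y) → (wB : F) = w →
  m ≠ 0 → IsCoprime g m → Finite (B ⧸ Ideal.span {m}) ∧
    zq wB g (Ideal.span {m}) = ∑ᶠ v : HS F,
      if (s : 𝓞 F) ∉ v.asIdeal ∧ OG v 0 θ then (ord v (m : F) : ZMod 3) * zv w v g else 0
/-- The induction step, for elements close to one at the primes dividing the index. -/
def StepT : Prop := ∀ (s : ℕ) (F : Type) [Field F] [NumberField F] (w : 𝓞 F)
  (hw : w ^ 2 + w + 1 = 0) (θ : F) (t : QRH.E), SOK s (Module.finrank ℚ F) →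
  2 < Module.finrank ℚ F →
  (∀ (F' : Type) [Field F'] [NumberField F'] (w' : 𝓞 F'), w' ^ 2 + w' + 1 = 0 →
    Module.finrank ℚ F' < Module.finrank ℚ F → RecF F' s w') → Gen w hw θ t →
  ∀ a b : F, a ≠ 0 → b ≠ 0 → Close s a → D3 s a b →
    (∀ v : HS F, (s : 𝓞 F) ∉ v.asIdeal → 0 < ord v (eis w hw t) → OG v 1 (a - 1)) →
    HF s w a b = 0
/-- The case of the field of cube roots of unity. -/
def RecB : Prop := ∀ (s : ℕ) (F : Type) [Field F] [NumberField F] (w : 𝓞 F), 0 < s → 3 ∣ s →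
  w ^ 2 + w + 1 = 0 → Module.finrank ℚ F ≤ 2 → RecF F s w
/-- The reciprocity law for all fields. -/
def RecAll : Prop := ∀ (s : ℕ) (F : Type) [Field F] [NumberField F] (w : 𝓞 F),
  w ^ 2 + w + 1 = 0 → SOK s (Module.finrank ℚ F) → RecF F s w

end NQ
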