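import Vale.Agent.NQ.SInt
import Vale.Agent.NQ.Chr
import Vale.Agent.NQ.Lat0

noncomputable section
namespace NQ
open Complex MeasureTheory NumberField Filter
open scoped ComplexConjugate Classical ContDiff Topology

variable [σ : St]

theorem sft_shift (g : FF → ℂ) (c : FF) : sint (fun x => g (x + c)) = sint g := by
  have h := sint_affine g (one_ne_zero : (1 : FF) ≠ 0) c
  simpa [sS_one] using h

theorem sft_zero {g : FF → ℂ} {c : FF} {w : ℂ} (hw : w ≠ 1) (h : ∀ x, g (x + c) = w * g x) :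
    sint g = 0 := by
  have h1 := sft_shift g c
  simp only [h, sint_mul_left] at h1
  have h2 : (w - 1) * sint g = 0 := by rw [sub_mul, h1, one_mul, sub_self]
  exact (mul_eq_zero.1 h2).resolve_left (sub_ne_zero.2 hw)

theorem sft_div_inv (ξ b : FF) : ξ / (1 / b) = ξ * b := by
  rw [one_div, div_inv_eq_mul]

theorem lcb_psiS (a : FF) (n : ℕ) : LCb fun x => psiS (a * x ^ n) := by
  intro j
  obtain ⟨m, hm⟩ := exists_pow_mem_OS a
  refine ⟨m + j * n, fun x y hx hy hxy => ?_⟩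
  obtain ⟨q, hq⟩ := sub_dvd_pow_sub_pow (⟨_, hx⟩ : OS) ⟨_, hy⟩ n
  have hq' : (ss ^ j * x) ^ n - (ss ^ j * y) ^ n = (ss ^ j * x - ss ^ j * y) * (q : FF) := by
    simpa using congrArg Subtype.val hq
  apply psiS_congr
  have hs := ss_ne_zero
  have e : a * x ^ n - a * y ^ n
      = (ss ^ m * a) * ss ^ j * ((x - y) / ss ^ (m + j * n)) * (q : FF) := by
    have e1 : a * x ^ n - a * y ^ n
        = a * ((ss ^ j * x) ^ n - (ss ^ j * y) ^ n) / ss ^ (j * n) := by
      rw [mul_pow, mul_pow, ← pow_mul]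
      field_simp
    rw [e1, hq', pow_add]
    field_simp
  rw [e]
  exact OS.mul_mem (OS.mul_mem (OS.mul_mem hm (OS.pow_mem ss_mem_OS j)) hxy) q.2

theorem fts_il {b : FF} (hb : b ≠ 0) (ξ : FF) :
    fts (il b) ξ = (kap * sS b : ℝ) * il (1 / (b * del)) ξ := by
  unfold fts
  by_cases h : ξ * (b * del) ∈ OS
  · have h1 : il (1 / (b * del)) ξ = 1 := by
      unfold il; rw [sft_div_inv, if_pos h]
    have h2 : (fun y => il b y * psiS (-(y * ξ))) = il b := by
      funext y
      by_cases hy : y / b ∈ OS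
      · have : psiS (-(y * ξ)) = 1 := by
          apply psiS_of_del
          have e : -(y * ξ) * del = -((y / b) * (ξ * (b * del))) := by field_simp
          rw [e]
          exact OS.neg_mem (OS.mul_mem hy h)
        rw [this, mul_one]
      · simp [il, hy]
    rw [h1, h2, sint_il hb]
    push_cast
    ring
  · have h1 : il (1 / (b * del)) ξ = 0 := by
      unfold il; rw [sft_div_inv, if_neg h]
    obtain ⟨y, hy, hne⟩ := exists_psiS_ne (x := ξ * b) (by rwa [mul_assoc])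
    rw [h1, sft_zero (c := -(b * y)) hne, mul_zero, mul_zero]
    intro x
    have e1 : il b (x + -(b * y)) = il b x := by
      unfold il
      have e : (x + -(b * y)) / b = x / b - y := by field_simp; ring
      have : (x + -(b * y)) / b ∈ OS ↔ x / b ∈ OS := by
        rw [e]
        refine ⟨fun h => ?_, fun h => OS.sub_mem h hy⟩
        simpa using OS.add_mem h hy
      simp only [this]
    have e2 : -((x + -(b * y)) * ξ) = ξ * b * y + -(x * ξ) := by ring
    rw [e1, e2, psiS_add]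
    ring

theorem fts_shift (f : FF → ℂ) (c ξ : FF) :
    fts (fun x => f (x - c)) ξ = psiS (-(c * ξ)) * fts f ξ := by
  unfold fts
  have h1 := sft_shift (fun y => f (y - c) * psiS (-(y * ξ))) c
  have h2 : (fun x => f (x + c - c) * psiS (-((x + c) * ξ)))
      = fun x => psiS (-(c * ξ)) * (f x * psiS (-(x * ξ))) := by
    funext x
    have e : -((x + c) * ξ) = -(c * ξ) + -(x * ξ) := by ring
    rw [add_sub_cancel_right, e, psiS_add]
    ring
  rw [← h1, h2, sint_mul_left]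
  ring

theorem fts_mod (f : FF → ℂ) (t ξ : FF) : fts (fun x => f x * psiS (x * t)) ξ = fts f (ξ - t) := by
  unfold fts
  have h : (fun y => f y * psiS (y * t) * psiS (-(y * ξ)))
      = fun y => f y * psiS (-(y * (ξ - t))) := by
    funext y
    have e : -(y * (ξ - t)) = y * t + -(y * ξ) := by ring
    rw [e, psiS_add, mul_assoc]
  rw [h]

theorem fts_ic {a : FF} (ha : a ≠ 0) (ξ : FF) : fts (ic a) ξ
    = (kap * sS (a * ss ^ 2) : ℝ) * psiS (-(a * ξ)) * il (1 / (a * ss ^ 2 * del)) ξ := by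
  have h : ic a = fun x => il (a * ss ^ 2) (x - a) := funext (ic_eq_il ha)
  rw [h, fts_shift, fts_il (mul_ne_zero ha (pow_ne_zero 2 ss_ne_zero))]
  ring

theorem fts_ic_cl {a u : FF} (ha : a ≠ 0) (hu : Cl 1 u) (ξ : FF) :
    fts (ic a) (ξ * u) = fts (ic a) ξ := by
  rw [fts_ic ha, fts_ic ha]
  have hu1 : u ∈ OS := by simpa using hu.div_mem
  have hu2 : 1 / u ∈ OS := hu.symm.div_mem
  have hu3 : (u - 1) / ss ^ 2 ∈ OS := by simpa using hu.2
  have hu0 := hu.ne_zero
  have hs := ss_ne_zero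
  unfold il
  rw [sft_div_inv, sft_div_inv]
  by_cases h : ξ * (a * ss ^ 2 * del) ∈ OS
  · have h' : ξ * u * (a * ss ^ 2 * del) ∈ OS := by
      rw [mul_right_comm]
      exact OS.mul_mem h hu1
    rw [if_pos h, if_pos h']
    have : psiS (-(a * (ξ * u))) = psiS (-(a * ξ)) := by
      apply psiS_congr_del
      have e : (-(a * (ξ * u)) - -(a * ξ)) * del
          = -((ξ * (a * ss ^ 2 * del)) * ((u - 1) / ss ^ 2)) := by
        field_simp
        ring
      rw [e]
      exact OS.neg_mem (OS.mul_mem h hu3)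
    rw [this]
  · have h' : ξ * u * (a * ss ^ 2 * del) ∉ OS := by
      intro h'
      apply h
      have e : ξ * (a * ss ^ 2 * del) = ξ * u * (a * ss ^ 2 * del) * (1 / u) := by field_simp
      rw [e]
      exact OS.mul_mem h' hu2
    rw [if_neg h, if_neg h', mul_zero, mul_zero]

theorem norm_fts_ic_le {a : FF} (ha : a ≠ 0) (ξ : FF) :
    ‖fts (ic a) ξ‖ ≤ kap * sS (a * ss ^ 2) := by
  have h0 : 0 ≤ kap * sS (a * ss ^ 2) := (mul_pos kap_pos (sS_pos _)).le
  rw [fts_ic ha, norm_mul, norm_mul, norm_psiS, mul_one, Complex.norm_real, Real.norm_of_nonneg h0]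
  exact mul_le_of_le_one_right h0 (norm_il_le _ _)

theorem fts_ic_supp {a ξ : FF} (ha : a ≠ 0) (h : fts (ic a) ξ ≠ 0) :
    ξ * (a * ss ^ 2 * del) ∈ OS := by
  by_contra hn
  apply h
  rw [fts_ic ha]
  unfold il
  rw [sft_div_inv, if_neg hn, mul_zero]

theorem sft_lev (k : ℕ) {y : FF} (hy : y ∈ OS) (x : FF) :
    (x + -(ss ^ k * y) - x) / ss ^ k ∈ OS := by
  have hs := ss_ne_zero
  have e : (x + -(ss ^ k * y) - x) / ss ^ k = -y := by field_simp; ring
  rw [e]
  exact OS.neg_mem hy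

theorem sft_self (k : ℕ) (x : FF) : (x - x) / ss ^ k ∈ OS := by
  rw [sub_self, zero_div]
  exact OS.zero_mem

theorem SB.fts_supp {k : ℕ} {f : FF → ℂ} (h : SB k f) {ξ : FF} (hξ : fts f ξ ≠ 0) :
    ξ * ss ^ k * del ∈ OS := by
  by_contra hn
  obtain ⟨y, hy, hne⟩ := exists_psiS_ne hn
  apply hξ
  unfold fts
  rw [sft_zero (c := -(ss ^ k * y)) hne, mul_zero]
  intro x
  have e : -((x + -(ss ^ k * y)) * ξ) = ξ * ss ^ k * y + -(x * ξ) := by ring
  rw [h.2 _ _ (sft_lev k hy x), e, psiS_add]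
  ring

theorem SB2.fts2_supp {k : ℕ} {f : FF → FF → ℂ} (h : SB2 k f) {ξ η : FF} (hξ : fts2 f ξ η ≠ 0) :
    ξ * ss ^ k * del ∈ OS ∧ η * ss ^ k * del ∈ OS := by
  constructor
  · by_contra hn
    obtain ⟨y, hy, hne⟩ := exists_psiS_ne hn
    apply hξ
    unfold fts2 sint2
    rw [sft_zero (c := -(ss ^ k * y)) hne, mul_zero]
    intro x
    rw [← sint_mul_left]
    congr 1
    funext z
    have e : -((x + -(ss ^ k * y)) * ξ + z * η) = ξ * ss ^ k * y + -(x * ξ + z * η) := by ring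
    beta_reduce
    rw [h.2 _ _ _ _ (sft_lev k hy x) (sft_self k z), e, psiS_add]
    ring
  · by_contra hn
    obtain ⟨y, hy, hne⟩ := exists_psiS_ne hn
    apply hξ
    unfold fts2 sint2
    have h1 : (fun x => NQ.sint fun z => f x z * psiS (-(x * ξ + z * η))) = fun _ => 0 := by
      funext x
      refine sft_zero (c := -(ss ^ k * y)) hne fun z => ?_
      have e : -(x * ξ + (z + -(ss ^ k * y)) * η) = η * ss ^ k * y + -(x * ξ + z * η) := by ring
      rw [h.2 _ _ _ _ (sft_self k x) (sft_lev k hy z), e, psiS_add]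
      ring
    rw [h1, sint_zero, mul_zero]

theorem sft_b (k : ℕ) : (1 / ss ^ k : FF) ≠ 0 := one_div_ne_zero (pow_ne_zero k ss_ne_zero)

theorem sft_mem {k : ℕ} {x : FF} (h : ss ^ k * x ∈ OS) : x / (1 / ss ^ k) ∈ OS := by
  rwa [sft_div_inv, mul_comm]

theorem HSB.fts_bdd {f : FF → ℂ} (h : HSB f) : ∃ M : ℝ, ∀ ξ, ‖fts f ξ‖ ≤ M := by
  obtain ⟨M, hM⟩ := h.bdd
  obtain ⟨k, hk⟩ := h
  have hM0 : 0 ≤ M := (norm_nonneg _).trans (hM 0)
  refine ⟨kap * (M * sS (1 / ss ^ k)), fun ξ => ?_⟩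
  unfold fts
  rw [norm_mul, Complex.norm_real, Real.norm_of_nonneg kap_pos.le]
  refine mul_le_mul_of_nonneg_left ?_ kap_pos.le
  refine norm_sint_le hM0 (fun x => ?_) (sft_b k) fun x hx => sft_mem (hk.1 x ?_)
  · rw [norm_mul, norm_psiS, mul_one]
    exact hM x
  · exact left_ne_zero_of_mul hx

theorem HSB2.fts2_bdd {f : FF → FF → ℂ} (h : HSB2 f) : ∃ M : ℝ, ∀ ξ η, ‖fts2 f ξ η‖ ≤ M := by
  obtain ⟨M, hM⟩ := h.bdd
  obtain ⟨k, hk⟩ := h
  have hM0 : 0 ≤ M := (norm_nonneg _).trans (hM 0 0)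
  refine ⟨kap ^ 2 * (M * sS (1 / ss ^ k) * sS (1 / ss ^ k)), fun ξ η => ?_⟩
  unfold fts2 sint2
  rw [norm_mul, Complex.norm_real, Real.norm_of_nonneg (sq_nonneg kap)]
  refine mul_le_mul_of_nonneg_left ?_ (sq_nonneg kap)
  refine norm_sint_le (mul_nonneg hM0 (sS_pos _).le) (fun x => ?_) (sft_b k) fun x hx => ?_
  · refine norm_sint_le hM0 (fun z => ?_) (sft_b k) fun z hz => sft_mem (hk.1 x z ?_).2
    · rw [norm_mul, norm_psiS, mul_one]
      exact hM x z
    · exact left_ne_zero_of_mul hz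
  · obtain ⟨z, hz⟩ := exists_ne_of_sint hx
    exact sft_mem (hk.1 x z (left_ne_zero_of_mul hz)).1

theorem HSB2.mul_psi {f : FF → FF → ℂ} (h : HSB2 f) (ξ η : FF) :
    HSB2 fun y z => f y z * psiS (-(y * ξ + z * η)) := by
  obtain ⟨k, hk⟩ := h
  obtain ⟨m, hm⟩ := exists_pow_mem_OS ξ
  obtain ⟨n, hn⟩ := exists_pow_mem_OS η
  have hl : SB2 (k + m + n) f := hk.mono (by omega)
  have hm' : ss ^ (k + m + n) * ξ ∈ OS := pow_mul_mem_OS hm (by omega)
  have hn' : ss ^ (k + m + n) * η ∈ OS := pow_mul_mem_OS hn (by omega)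
  refine ⟨k + m + n, fun x y hxy => hl.1 x y (left_ne_zero_of_mul hxy), ?_⟩
  intro x x' y y' hx hy
  have hs := ss_ne_zero
  have h1 : psiS (-(x * ξ + y * η)) = psiS (-(x' * ξ + y' * η)) := by
    apply psiS_congr
    have e : -(x * ξ + y * η) - -(x' * ξ + y' * η)
        = -((x - x') / ss ^ (k + m + n) * (ss ^ (k + m + n) * ξ)
          + (y - y') / ss ^ (k + m + n) * (ss ^ (k + m + n) * η)) := by
      field_simp
      ring
    rw [e]
    exact OS.neg_mem (OS.add_mem (OS.mul_mem hx hm') (OS.mul_mem hy hn'))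
  show f x y * psiS (-(x * ξ + y * η)) = f x' y' * psiS (-(x' * ξ + y' * η))
  rw [hl.2 x x' y y' hx hy, h1]

theorem fts2_prod (f g : FF → ℂ) (ξ η : FF) :
    fts2 (fun x y => f x * g y) ξ η = fts f ξ * fts g η := by
  unfold fts2 fts
  have h : (fun y z => f y * g z * psiS (-(y * ξ + z * η)))
      = fun y z => (f y * psiS (-(y * ξ))) * (g z * psiS (-(z * η))) := by
    funext y z
    rw [neg_add, psiS_add]
    ring
  rw [h, sint2_prod (fun y => f y * psiS (-(y * ξ))) fun z => g z * psiS (-(z * η))]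
  push_cast
  ring

theorem fts2_affine (f : FF → FF → ℂ) {a : FF} (ha : a ≠ 0) (c ξ η : FF) :
    fts2 (fun x y => f (a * x + c) y) ξ η
      = ((sS a)⁻¹ : ℝ) * psiS (c * ξ / a) * fts2 f (ξ / a) η := by
  unfold fts2 sint2
  have h1 := sint_affine (fun u => sint fun z => f u z * psiS (-(u * (ξ / a) + z * η))) ha c
  have h2 : (fun x => sint fun z => f (a * x + c) z * psiS (-(x * ξ + z * η)))
      = fun x => psiS (c * ξ / a) *
        sint fun z => f (a * x + c) z * psiS (-((a * x + c) * (ξ / a) + z * η)) := by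
    funext x
    rw [← sint_mul_left]
    congr 1
    funext z
    have e : -(x * ξ + z * η) = c * ξ / a + -((a * x + c) * (ξ / a) + z * η) := by
      field_simp
      ring
    rw [e, psiS_add]
    ring
  rw [h2, sint_mul_left, h1]
  ring

end NQ
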