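import Vale.Agent.NQ.ExCh

noncomputable section
namespace NQ
open NumberField IsDedekindDomain Polynomial
open scoped Classical

variable {s : ℕ}

theorem StepPa_res {A : Type} [CommRing A] {π : A} (hπ : Prime π) {N l : ℕ} (hN : N ≤ l)
    (hl : ∀ n : ℤ, π ∣ (n : A) → (l : ℤ) ∣ n) {u : A[X]} (hu : ¬ C π ∣ u)
    (hd : u.natDegree < N) : ∃ x : A, ¬ π ∣ u.eval x := by
  have : (Ideal.span {π}).IsPrime := (Ideal.span_singleton_prime hπ.ne_zero).2 hπ
  by_contra h
  push Not at h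
  apply hu
  have hinj : Function.Injective fun i : Fin N => ((i : ℕ) : A ⧸ Ideal.span {π}) := by
    intro i j hij
    have h1 : Ideal.Quotient.mk (Ideal.span {π}) ((i : ℕ) : A) =
        Ideal.Quotient.mk (Ideal.span {π}) ((j : ℕ) : A) := by simpa using hij
    rw [Ideal.Quotient.eq, Ideal.mem_span_singleton] at h1
    have h2 := hl ((i : ℕ) - (j : ℕ)) (by simpa using h1)
    have h3 := Int.eq_zero_of_abs_lt_dvd h2 (by
      have := i.2
      have := j.2
      rw [abs_lt]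
      constructor <;> omega)
    exact Fin.ext (by omega)
  have h0 : u.map (Ideal.Quotient.mk (Ideal.span {π})) = 0 := by
    refine eq_zero_of_natDegree_lt_card_of_eval_eq_zero _ hinj (fun i => ?_) ?_
    · have h1 : ((i : ℕ) : A ⧸ Ideal.span {π}) =
          Ideal.Quotient.mk (Ideal.span {π}) ((i : ℕ) : A) := by simp
      rw [h1, eval_map, eval₂_at_apply, Ideal.Quotient.eq_zero_iff_mem, Ideal.mem_span_singleton]
      exact h _
    · rw [Fintype.card_fin]
      exact natDegree_map_le.trans_lt hd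
  rw [C_dvd_iff_dvd_coeff]
  intro i
  have h1 := congrArg (fun p => coeff p i) h0
  simp only [coeff_map, coeff_zero] at h1
  rwa [Ideal.Quotient.eq_zero_iff_mem, Ideal.mem_span_singleton] at h1

theorem StepPa_congr {A : Type} [CommRing A] {π x y : A} (h : π ∣ x - y) (u : A[X])
    (hu : π ∣ u.eval x) : π ∣ u.eval y := by
  have h1 := dvd_sub hu (h.trans (sub_dvd_eval_sub x y u))
  rwa [sub_sub_cancel] at h1

theorem StepPa_crt {A : Type} [CommRing A] [IsDomain A] [IsPrincipalIdealRing A] (f g : A[X])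
    (h : ∀ π : A, Prime π → ∃ x, ¬ (π ∣ f.eval x ∧ π ∣ g.eval x)) (c : A) (hc : c ≠ 0) :
    ∃ x, ∀ π : A, Prime π → π ∣ c → ¬ (π ∣ f.eval x ∧ π ∣ g.eval x) := by
  induction c using UniqueFactorizationMonoid.induction_on_prime with
  | h₁ => exact absurd rfl hc
  | h₂ c hu => exact ⟨0, fun π hπ hd => absurd (isUnit_of_dvd_unit hd hu) hπ.not_isUnit⟩
  | h₃ c q hc0 hq ih =>
    obtain ⟨x, hx⟩ := ih hc0
    by_cases hqc : q ∣ c
    · refine ⟨x, fun π hπ hd => hx π hπ ?_⟩
      exact (hπ.dvd_or_dvd hd).elim (fun h1 => h1.trans hqc) id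
    · obtain ⟨a, b, hab⟩ := (hq.irreducible.coprime_iff_not_dvd).2 hqc
      obtain ⟨y, hy⟩ := h q hq
      refine ⟨x + b * c * (y - x), fun π hπ hd hh => ?_⟩
      rcases hπ.dvd_or_dvd hd with h1 | h1
      · have h2 : q ∣ π := (hπ.irreducible.associated_of_dvd hq.irreducible h1).symm.dvd
        have h3 : q ∣ x + b * c * (y - x) - y :=
          ⟨a * (x - y), by linear_combination (y - x) * hab⟩
        exact hy ⟨StepPa_congr h3 f (h2.trans hh.1), StepPa_congr h3 g (h2.trans hh.2)⟩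
      · have h3 : π ∣ x + b * c * (y - x) - x := h1.trans ⟨b * (y - x), by ring⟩
        exact hx π hπ h1 ⟨StepPa_congr h3 f hh.1, StepPa_congr h3 g hh.2⟩

/-- A horizontal line that avoids the intersection of two curves. -/
theorem exists_line {N : ℕ} (hs : SOK s N) {f g : (AS s)[X]} (hf : f ≠ 0) (hg : g ≠ 0)
    (hfd : f.natDegree < N) (hgd : g.natDegree < N) (h : ∀ h, Prime h → h ∣ f → ¬ h ∣ g) :
    ∃ c : QRH.E, Ideal.span {X - C (algebraMap _ (AS s) c), f, g} = ⊤ ∧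
      ¬ X - C (algebraMap _ (AS s) c) ∣ f ∧ ¬ X - C (algebraMap _ (AS s) c) ∣ g := by
  have := AS_dom hs.1
  have := AS_pid hs.1
  have := AS_char hs.1
  obtain ⟨c, hc, hm⟩ := exists_const hs.1 hf h
  obtain ⟨x, hx⟩ := StepPa_crt f g (fun π hπ => by
    obtain ⟨l, hl, hls, hl'⟩ := AS_prime_below hs.1 hπ
    have hN : N ≤ l := by
      by_contra h1
      exact hls (hs.2.2 l hl (by omega))
    by_cases h1 : C π ∣ f
    · obtain ⟨x, hx⟩ := StepPa_res hπ hN (fun n hn => (hl' n).1 hn)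
        (h _ (prime_C_iff.2 hπ) h1) hgd
      exact ⟨x, fun hh => hx hh.2⟩
    · obtain ⟨x, hx⟩ := StepPa_res hπ hN (fun n hn => (hl' n).1 hn) h1 hfd
      exact ⟨x, fun hh => hx hh.1⟩) c hc
  obtain ⟨y, hy⟩ := AS_surj_mod hs.1 hc x
  obtain ⟨n, hn0, hn⟩ := AS_dvd_nat hs.1 hc
  have hinj : Function.Injective fun j : ℕ => algebraMap QRH.E (AS s) (y + j * n) := by
    intro i j hij
    simp only [map_add, map_mul, map_natCast, add_right_inj] at hij
    exact_mod_cast mul_right_cancel₀ (Nat.cast_ne_zero.2 hn0) hij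
  obtain ⟨j, hj⟩ := ((finite_setOfPred_isRoot (mul_ne_zero hf hg)).preimage
    hinj.injOn).exists_notMem
  simp only [Set.mem_preimage, Set.mem_ofPred_eq, IsRoot.def, eval_mul, mul_eq_zero, not_or] at hj
  refine ⟨y + j * n, ?_, fun hd => hj.1 (dvd_iff_isRoot.1 hd),
    fun hd => hj.2 (dvd_iff_isRoot.1 hd)⟩
  have hcx : c ∣ algebraMap QRH.E (AS s) (y + j * n) - x := by
    have h1 : algebraMap QRH.E (AS s) (y + j * n) - x =
        (j : AS s) * n - (x - algebraMap QRH.E (AS s) y) := by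
      simp only [map_add, map_mul, map_natCast]
      ring
    rw [h1]
    exact dvd_sub (hn.mul_left _) hy
  generalize algebraMap QRH.E (AS s) (y + j * n) = z at hj hcx ⊢
  obtain ⟨a, b, hab⟩ := Ideal.mem_span_pair.1 hm
  obtain ⟨p, q, hpq⟩ : IsCoprime (f.eval z) (g.eval z) := by
    refine isCoprime_of_prime_dvd (fun hh => hj.1 hh.1) fun π hπ h1 h2 => ?_
    have h3 : π ∣ c := by
      have h4 := congrArg (eval z) hab
      simp only [eval_add, eval_mul, eval_C] at h4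
      rw [← h4]
      exact dvd_add (h1.mul_left _) (h2.mul_left _)
    exact hx π hπ h3 ⟨StepPa_congr (h3.trans hcx) f h1, StepPa_congr (h3.trans hcx) g h2⟩
  obtain ⟨f1, hf1⟩ := X_sub_C_dvd_sub_C_eval (p := f) (a := z)
  obtain ⟨g1, hg1⟩ := X_sub_C_dvd_sub_C_eval (p := g) (a := z)
  have h5 : C p * C (f.eval z) + C q * C (g.eval z) = 1 := by
    rw [← C_mul, ← C_mul, ← C_add, hpq, C_1]
  exact span_top_iff.2 ⟨-(C p * f1 + C q * g1), C p, C q, by
    linear_combination h5 + C p * hf1 + C q * hg1⟩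

theorem StepPa_fin {A : Type} [CommRing A] [IsDomain A] [CharZero A] {q : A[X]} (hq : Prime q)
    (hd : 0 < q.natDegree) (p0 p2 p3 : A[X]) {c : A} (hc : c ≠ 0) :
    {j : ℕ | q ∣ p0 + (j : A[X]) * C c + (j : A[X]) ^ 2 * p2 + (j : A[X]) ^ 3 * p3}.Finite := by
  have : (Ideal.span {q}).IsPrime := (Ideal.span_singleton_prime hq.ne_zero).2 hq
  have hC : ∀ a : A, q ∣ C a → a = 0 := fun a ha => by
    by_contra h0
    have := natDegree_le_of_dvd ha (C_ne_zero.2 h0)
    rw [natDegree_C] at this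
    omega
  set φ := Ideal.Quotient.mk (Ideal.span {q}) with hφ
  have hinj : Function.Injective fun j : ℕ => (j : A[X] ⧸ Ideal.span {q}) := by
    intro i j hij
    have h1 : φ (C (i : A)) = φ (C (j : A)) := by simpa using hij
    rw [Ideal.Quotient.eq, Ideal.mem_span_singleton, ← C_sub] at h1
    exact_mod_cast sub_eq_zero.1 (hC _ h1)
  have hQ : C (φ p0) + C (φ (C c)) * X + C (φ p2) * X ^ 2 + C (φ p3) * X ^ 3 ≠ 0 := by
    intro h0
    have h1 := congrArg (fun p => coeff p 1) h0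
    simp only [coeff_add, coeff_C_mul, coeff_X_one, coeff_X_pow, coeff_C_succ, coeff_zero] at h1
    norm_num at h1
    rw [Ideal.Quotient.eq_zero_iff_mem, Ideal.mem_span_singleton] at h1
    exact hc (hC c h1)
  refine ((finite_setOfPred_isRoot hQ).preimage hinj.injOn).subset fun j hj => ?_
  have h1 : φ (p0 + (j : A[X]) * C c + (j : A[X]) ^ 2 * p2 + (j : A[X]) ^ 3 * p3) = 0 := by
    rw [Ideal.Quotient.eq_zero_iff_mem, Ideal.mem_span_singleton]
    exact hj
  simp only [map_add, map_mul, map_pow, map_natCast] at h1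
  simp only [Set.mem_preimage, Set.mem_ofPred_eq, IsRoot.def, eval_add, eval_mul, eval_C, eval_X,
    eval_pow]
  linear_combination h1

/-- A generic member of a cubic family has no horizontal component in common with `g`. -/
theorem exists_generic (hs : 0 < s) {g : (AS s)[X]} (hg : g ≠ 0) (p0 p2 p3 : (AS s)[X]) {c : AS s}
    (hc : c ≠ 0) : ∃ j : ℕ, ∀ h : (AS s)[X], Prime h → 0 < h.natDegree → h ∣ g →
      ¬ h ∣ p0 + (j : (AS s)[X]) * C c + (j : (AS s)[X]) ^ 2 * p2 + (j : (AS s)[X]) ^ 3 * p3 := by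
  have := AS_dom hs
  have := AS_pid hs
  have := AS_char hs
  have hfin : {j : ℕ | ∃ h : (AS s)[X], Prime h ∧ 0 < h.natDegree ∧ h ∣ g ∧
      h ∣ p0 + (j : (AS s)[X]) * C c + (j : (AS s)[X]) ^ 2 * p2 +
        (j : (AS s)[X]) ^ 3 * p3}.Finite := by
    induction g using UniqueFactorizationMonoid.induction_on_prime with
    | h₁ => exact absurd rfl hg
    | h₂ g hu =>
      refine Set.finite_empty.subset ?_
      rintro j ⟨h, hh, -, hd, -⟩
      exact hh.not_isUnit (isUnit_of_dvd_unit hd hu)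
    | h₃ g q hg0 hq ih =>
      by_cases hd : 0 < q.natDegree
      · refine ((ih hg0).union (StepPa_fin hq hd p0 p2 p3 hc)).subset ?_
        rintro j ⟨h, hh, h1, h2, h3⟩
        rcases hh.dvd_or_dvd h2 with h4 | h4
        · exact Or.inr ((hh.irreducible.associated_of_dvd hq.irreducible h4).symm.dvd.trans h3)
        · exact Or.inl ⟨h, hh, h1, h4, h3⟩
      · refine (ih hg0).subset ?_
        rintro j ⟨h, hh, h1, h2, h3⟩
        rcases hh.dvd_or_dvd h2 with h4 | h4
        · exact absurd (h1.trans_le (natDegree_le_of_dvd h4 hq.ne_zero)) hd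
        · exact ⟨h, hh, h1, h4, h3⟩
  obtain ⟨j, hj⟩ := hfin.exists_notMem
  exact ⟨j, fun h hh h1 h2 h3 => hj ⟨h, hh, h1, h2, h3⟩⟩

/-- Elements of `O[1/s]` without common zero are coprime. -/
theorem exists_bezout {F : Type} [Field F] [NumberField F] (hs : 0 < s) {a b : F} (ha : a ≠ 0)
    (hb : b ≠ 0) (ha' : a ∈ RR F s) (hb' : b ∈ RR F s)
    (h : ∀ v : HS F, (s : 𝓞 F) ∉ v.asIdeal → ord v a = 0 ∨ ord v b = 0) :
    ∃ (k : ℕ) (x y : F), IsIntegral ℤ x ∧ IsIntegral ℤ y ∧ x * a + y * b = (s : F) ^ k := by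
  obtain ⟨k, hk⟩ := ha'
  obtain ⟨l, hl⟩ := hb'
  have hsF : (s : F) ≠ 0 := Nat.cast_ne_zero.2 hs.ne'
  have hc : (((s : 𝓞 F)) : F) = (s : F) := by simp
  obtain ⟨a', ha'⟩ : ∃ a' : 𝓞 F, (a' : F) = (s : F) ^ k * a := ⟨⟨_, hk⟩, rfl⟩
  obtain ⟨b', hb'⟩ : ∃ b' : 𝓞 F, (b' : F) = (s : F) ^ l * b := ⟨⟨_, hl⟩, rfl⟩
  have key : ∀ (v : HS F) (k : ℕ) (a : F) (a' : 𝓞 F), (a' : F) = (s : F) ^ k * a → a ≠ 0 →
      (s : 𝓞 F) ∉ v.asIdeal → a' ∈ v.asIdeal → ord v a ≠ 0 := by
    intro v k a a' ha' ha hv hm h0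
    have h1 := (ord_eq_zero_of_not_mem hv).2
    rw [hc] at h1
    have h2 := (mem_iff_OG v _).1 hm
    rw [ha'] at h2
    have h3 := h2.le (mul_ne_zero (pow_ne_zero _ hsF) ha)
    rw [ord_mul v (pow_ne_zero _ hsF) ha, ord_pow, h1, h0] at h3
    omega
  have hrad : (s : 𝓞 F) ∈ (Ideal.span {a', b'}).radical := by
    rw [Ideal.radical_eq_sInf, Submodule.mem_sInf]
    rintro J ⟨hJ, hp⟩
    have h1 := hJ (Ideal.subset_span (Set.mem_insert _ _))
    have h2 := hJ (Ideal.subset_span (Set.mem_insert_of_mem _ (Set.mem_singleton _)))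
    have hne : J ≠ ⊥ := by
      rintro rfl
      rw [Ideal.mem_bot.1 h1] at ha'
      exact mul_ne_zero (pow_ne_zero k hsF) ha (by rw [← ha']; simp)
    by_contra hv
    exact (h ⟨J, hp, hne⟩ hv).elim (key ⟨J, hp, hne⟩ k a a' ha' ha hv h1)
      (key ⟨J, hp, hne⟩ l b b' hb' hb hv h2)
  obtain ⟨n, hn⟩ := hrad
  obtain ⟨x, y, hxy⟩ := Ideal.mem_span_pair.1 hn
  refine ⟨n, ((x * (s : 𝓞 F) ^ k : 𝓞 F) : F), ((y * (s : 𝓞 F) ^ l : 𝓞 F) : F),
    RingOfIntegers.isIntegral_coe _, RingOfIntegers.isIntegral_coe _, ?_⟩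
  have h3 := congrArg (algebraMap (𝓞 F) F) hxy
  simp only [map_add, map_mul, map_pow, map_natCast] at h3 ⊢
  change _ * (a' : F) + _ * (b' : F) = _ at h3
  rw [ha', hb'] at h3
  linear_combination h3

/-- The chart attached to an integral generator. -/
theorem exists_chart (hs : 0 < s) {F : Type} [Field F] [NumberField F] {w : 𝓞 F}
    (hw : w ^ 2 + w + 1 = 0) {θ : F} {t : QRH.E} (h : Gen w hw θ t) :
    ∃ (m : QRH.E[X]) (ev : (AS s)[X] →+* F), m.Monic ∧ Module.finrank ℚ F = 2 * m.natDegree ∧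
      ev X = θ ∧ Chart s (m.map (algebraMap _ _)) F w ev := by
  have := AS_dom hs
  let _ : Algebra QRH.E F := (eis w hw).toAlgebra
  have : Module.IsTorsionFree QRH.E F :=
    Module.isTorsionFree_iff_algebraMap_injective.2 (eis_inj hw)
  have hθ : IsIntegral QRH.E θ := h.1.tower_top
  have hu : IsUnit (eis w hw (s : QRH.E)) := by
    rw [map_natCast]
    exact (Nat.cast_ne_zero.2 hs.ne' : (s : F) ≠ 0).isUnit
  set ev : (AS s)[X] →+* F := eval₂RingHom (IsLocalization.Away.lift (s : QRH.E) hu) θ with hev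
  have hmap : ∀ p : QRH.E[X], ev (p.map (algebraMap _ (AS s))) = p.eval₂ (eis w hw) θ := by
    intro p
    rw [hev, coe_eval₂RingHom, eval₂_map, IsLocalization.Away.lift_comp]
  have hC : ∀ x : QRH.E, ev (C (algebraMap _ (AS s) x)) = eis w hw x := by
    intro x
    rw [hev, coe_eval₂RingHom, eval₂_C, IsLocalization.Away.lift_eq]
  have hm := minpoly.monic hθ
  have hch : Chart s ((minpoly QRH.E θ).map (algebraMap _ _)) F w ev := by
    refine ⟨fun u => ⟨fun h0 => ?_, ?_⟩, (hC _).trans (eis_om hw), fun y => ?_⟩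
    · obtain ⟨k, p, hp⟩ := AS_surj_poly u
      have h1 : aeval θ p = 0 := by
        have h2 := hmap p
        rw [← hp, map_mul, h0, mul_zero] at h2
        exact h2.symm
      have h2 := Polynomial.map_dvd (algebraMap _ (AS s)) (minpoly.isIntegrallyClosed_dvd hθ h1)
      rw [← hp] at h2
      have h3 : IsUnit ((s : (AS s)[X]) ^ k) := by
        have h4 := (AS_unit (s := s)).map (C : AS s →+* (AS s)[X])
        rw [map_natCast] at h4
        exact h4.pow k
      exact h3.dvd_mul_left.1 h2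
    · rintro ⟨q, rfl⟩
      rw [map_mul, hmap]
      exact mul_eq_zero_of_left (minpoly.aeval QRH.E θ) _
    · obtain ⟨n, hn0, hn⟩ := exists_nat_mul_integral y
      obtain ⟨p, hp⟩ := h.2.2 _ hn
      obtain ⟨n', hn0', d, hd⟩ := AS_dvd_nat hs
        ((map_ne_zero_iff _ (AS_inj hs)).2 h.2.1)
      refine ⟨n' * n, mul_ne_zero hn0' hn0, C d * p.map (algebraMap _ (AS s)), ?_⟩
      have h1 : (n' : F) = eis w hw t * ev (C d) := by
        rw [← hC, ← map_mul, ← C_mul, ← hd, map_natCast, map_natCast]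
      rw [map_mul, hmap, ← hp, Nat.cast_mul, h1]
      ring
  refine ⟨minpoly QRH.E θ, ev, hm, ?_, by rw [hev, coe_eval₂RingHom, eval₂_X], hch⟩
  rw [hch.finrank hs (hm.map _).ne_zero, hm.natDegree_map]

end NQ
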