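import Vale.Agent.NQ.Phi0
import Vale.Agent.NQ.Chr

noncomputable section
namespace NQ
open Complex MeasureTheory NumberField Filter
open scoped ComplexConjugate Classical ContDiff Topology

theorem UnfL_gen {ι α V : Type} [Countable ι] [MeasurableSpace α] {μ : Measure α}
    [NormedAddCommGroup V] [NormedSpace ℝ V] [CompleteSpace V] {ψ : ι → α → ℝ}
    (h1 : ∀ i, Measurable (ψ i)) (h2 : ∀ i y, 0 ≤ ψ i y) (h3 : ∀ y, HasSum (fun i => ψ i y) 1)
    {g : α → V} (hg : Integrable g μ) :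
    HasSum (fun i => ∫ y, ψ i y • g y ∂μ) (∫ y, g y ∂μ) := by
  have h4 : ∀ i y, ‖ψ i y‖ ≤ 1 := fun i y => by
    rw [Real.norm_of_nonneg (h2 i y)]
    exact le_hasSum (h3 y) i fun j _ => h2 j y
  have h5 : ∀ i, Integrable (fun y => ψ i y • g y) μ := fun i =>
    hg.bdd_smul 1 (h1 i).aestronglyMeasurable (Eventually.of_forall (h4 i))
  have h6 : Summable fun i => ∫ y, ‖ψ i y • g y‖ ∂μ := by
    refine summable_of_sum_le (c := ∫ y, ‖g y‖ ∂μ)
      (fun i => integral_nonneg fun _ => norm_nonneg _) fun s => ?_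
    rw [← integral_finsetSum _ fun i _ => (h5 i).norm]
    refine integral_mono (integrable_finsetSum _ fun i _ => (h5 i).norm) hg.norm fun y => ?_
    simp only [norm_smul, Real.norm_of_nonneg (h2 _ y)]
    rw [← Finset.sum_mul]
    exact mul_le_of_le_one_left (norm_nonneg _) (sum_le_hasSum s (fun i _ => h2 i y) (h3 y))
  have h7 := hasSum_integral_of_summable_integral_norm h5 h6
  have h8 : ∀ y, ∑' i, ψ i y • g y = g y := fun y => by
    rw [((h3 y).smul_const (g y)).tsum_eq, one_smul]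
  simpa only [h8] using h7

section Idl
variable {F : Type} [Field F] [NumberField F]

/-- The ideal with prescribed valuations. -/
def UnfLI (n : HS F → ℤ) : Ideal (𝓞 F) where
  carrier := {y | ∀ v, OG v (n v) (y : F)}
  add_mem' := fun ha hb v => by
    have := (ha v).add (hb v)
    simpa using this
  zero_mem' := fun v => by simpa using OG.zero v (n v)
  smul_mem' := fun c x hx v => by
    have := (OG_coe v c).mul (hx v)
    simpa using this

theorem UnfL_mem {n : HS F → ℤ} {y : 𝓞 F} : y ∈ UnfLI n ↔ ∀ v, OG v (n v) (y : F) := Iff.rfl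

theorem UnfL_eq_prod {n : HS F → ℤ} (h0 : ∀ v, 0 ≤ n v) (T : Finset (HS F))
    (hT : ∀ v, n v ≠ 0 → v ∈ T) : UnfLI n = ∏ v ∈ T, v.asIdeal ^ (n v).toNat := by
  ext y
  rw [mem_prod_pow_iff, UnfL_mem]
  simp only [Int.toNat_of_nonneg (h0 _)]
  refine ⟨fun h v _ => h v, fun h v => ?_⟩
  by_cases hv : n v = 0
  · rw [hv]
    exact OG_coe v y
  · exact h v (hT v hv)

theorem UnfL_le {n m : HS F → ℤ} (h0 : ∀ v, 0 ≤ n v) (T : Finset (HS F))
    (hT : ∀ v, n v ≠ 0 → v ∈ T) (h : UnfLI n = UnfLI m) (v0 : HS F) : m v0 ≤ n v0 := by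
  obtain ⟨x, hx, h1, h2⟩ := exists_ord (insert v0 T) n
  have h3 : ∀ v, OG v (n v) x := fun v => by
    by_cases hv : v ∈ insert v0 T
    · exact Or.inr (h1 v hv).ge
    · have : n v = 0 := by
        by_contra h
        exact hv (Finset.mem_insert_of_mem (hT v h))
      exact Or.inr (this ▸ h2 v hv)
  obtain ⟨y, rfl⟩ : ∃ y : 𝓞 F, (y : F) = x :=
    ⟨⟨x, isIntegral_iff_OG.2 fun v => (h3 v).mono (h0 v)⟩, rfl⟩
  have h4 : y ∈ UnfLI m := h ▸ UnfL_mem.2 h3
  rw [← h1 v0 (Finset.mem_insert_self _ _)]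
  exact (h4 v0).le hx

theorem UnfL_surj {I : Ideal (𝓞 F)} (hI : I ≠ ⊥) : ∃ (n : HS F → ℕ) (T : Finset (HS F)),
    (∀ v, n v ≠ 0 → v ∈ T) ∧ UnfLI (fun v => n v) = I := by
  have h1 := Ideal.finprod_heightOneSpectrum_factorization hI
  have h2 := Associates.finite_factors hI
  rw [Filter.eventually_cofinite] at h2
  refine ⟨fun v => (Associates.mk v.asIdeal).count (Associates.mk I).factors, h2.toFinset,
    fun v hv => h2.mem_toFinset.2 (by simpa using hv), ?_⟩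
  rw [UnfL_eq_prod (fun v => Int.natCast_nonneg _) h2.toFinset fun v hv => h2.mem_toFinset.2 hv]
  conv_rhs => rw [← h1]
  rw [finprod_eq_prod_of_mulSupport_subset]
  · rfl
  · intro v hv
    rw [Finset.mem_coe, h2.mem_toFinset]
    intro h0
    refine hv ?_
    rw [Nat.cast_eq_zero] at h0
    change v.asIdeal ^ (Associates.mk v.asIdeal).count (Associates.mk I).factors = 1
    rw [h0, pow_zero]

end Idl

variable [σ : St]

theorem UnfL_inv (e : (𝓞 FF)ˣ) :
    (((e⁻¹ : (𝓞 FF)ˣ) : 𝓞 FF) : FF) = ((e : 𝓞 FF) : FF)⁻¹ :=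
  eq_inv_of_mul_eq_one_left (by
    rw [RingOfIntegers.coe_eq_algebraMap, RingOfIntegers.coe_eq_algebraMap, ← map_mul, e.inv_mul,
      map_one])

/-- Unfolding of the action of the units. -/
theorem unfold {φ : (Pl → ℝ) → ℝ} (h : IsPhi φ) {g : (Pl → ℝ) → ℂ} (hg : Integrable g)
    (c : Pl → ℝ) :
    (∀ e : (𝓞 FF)ˣ, Integrable fun u => (φ u : ℂ) * g (u + c + lg ((e : 𝓞 FF) : FF))) ∧
    HasSum (fun e : (𝓞 FF)ˣ => ∫ u, (φ u : ℂ) * g (u + c + lg ((e : 𝓞 FF) : FF))) (∫ u, g u) ∧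
    HasSum (fun e : (𝓞 FF)ˣ => ∫ u, ‖(φ u : ℂ) * g (u + c + lg ((e : 𝓞 FF) : FF))‖)
      (∫ u, ‖g u‖) := by
  obtain ⟨h1, h2, -, -, h3⟩ := h
  have : Countable (𝓞 FF)ˣ := Function.Injective.countable
    (f := fun e : (𝓞 FF)ˣ => ((e : 𝓞 FF) : FF))
    fun _ _ h => Units.ext (RingOfIntegers.coe_injective h)
  have e1 : ∀ e : (𝓞 FF)ˣ, lg (((e⁻¹ : (𝓞 FF)ˣ) : 𝓞 FF) : FF) = -lg ((e : 𝓞 FF) : FF) := fun e => by
    rw [← lg_inv, UnfL_inv]
  have h4 : ∀ y, HasSum (fun e : (𝓞 FF)ˣ => φ (y - (c + lg ((e : 𝓞 FF) : FF)))) 1 := fun y => by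
    have := (Equiv.inv (𝓞 FF)ˣ).hasSum_iff.2 (h3 (y - c))
    refine this.congr_fun ?_
    intro e
    simp only [Function.comp_apply, Equiv.inv_apply, e1]
    congr 1
    abel
  have h5 : ∀ e : (𝓞 FF)ˣ, Measurable fun y : Pl → ℝ => φ (y - (c + lg ((e : 𝓞 FF) : FF))) :=
    fun e => h1.comp (measurable_id.sub_const _)
  refine ⟨fun e => ?_, ?_, ?_⟩
  · simp only [add_assoc]
    refine (hg.comp_add_right _).bdd_mul (c := 1)
      (measurable_ofReal.comp h1).aestronglyMeasurable (Eventually.of_forall fun u => ?_)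
    rw [norm_real, Real.norm_of_nonneg (h2 u).1]
    exact (h2 u).2
  · refine (UnfL_gen h5 (fun _ _ => (h2 _).1) h4 hg).congr_fun fun e => ?_
    symm
    rw [← integral_add_right_eq_self _ (c + lg ((e : 𝓞 FF) : FF))]
    simp only [add_sub_cancel_right, add_assoc, real_smul]
  · refine (UnfL_gen h5 (fun _ _ => (h2 _).1) h4 hg.norm).congr_fun fun e => ?_
    symm
    rw [← integral_add_right_eq_self _ (c + lg ((e : 𝓞 FF) : FF))]
    simp only [add_sub_cancel_right, add_assoc, smul_eq_mul, norm_mul, norm_real,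
      Real.norm_of_nonneg (h2 _).1]

theorem UnfL_unit (e : (𝓞 FF)ˣ) : ((e : 𝓞 FF) : FF) ≠ 0 ∧ ((e : 𝓞 FF) : FF) ∈ OS ∧
    ((e : 𝓞 FF) : FF)⁻¹ ∈ OS := by
  refine ⟨Units.coe_ne_zero e, mem_OS_of_integral (RingOfIntegers.isIntegral_coe _), ?_⟩
  rw [← UnfL_inv]
  exact mem_OS_of_integral (RingOfIntegers.isIntegral_coe _)

/-- The generators whose type is a chosen representative form one orbit of the units. -/
theorem gen_orbit {A : Finset FF} (hA : IsA0 A) {x : E} (hx : x ≠ 0) : ∃ c0 : E, Associated c0 x ∧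
    ∀ c : E, (Associated c x ∧ ∃ b ∈ A, (c : FF) / b ∈ OS ∧ b / c ∈ OS) ↔
      ∃ e : (𝓞 FF)ˣ, (c : FF) = (e : 𝓞 FF) * c0 := by
  have hx' : (x : FF) ≠ 0 := by exact_mod_cast hx
  obtain ⟨b, hb, e, h1, h2⟩ := hA.2.1 x hx'
  have hb0 := hA.1 b hb
  have h0 : Associated ((e : E) * x) x := associated_unit_mul_left _ _ e.isUnit
  have hc0 : ((e : E) : FF) * x ≠ 0 := mul_ne_zero (Unit_coe_ne e) hx'
  refine ⟨e * x, h0, fun c => ⟨?_, ?_⟩⟩
  · rintro ⟨hc, b', hb', h3, h4⟩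
    obtain ⟨u, rfl⟩ := h0.trans hc.symm
    have hu := Unit_coe_ne u
    have hb0' := hA.1 b' hb'
    push_cast at h3 h4 ⊢
    generalize ((e : E) : FF) * x = y at *
    obtain rfl : b = b' := by
      refine hA.2.2 b hb b' hb' u ?_ ?_
      · convert OS.mul_mem h3 h2 using 1
        field_simp
      · convert OS.mul_mem h4 h1 using 1
        field_simp
    obtain ⟨e', he'⟩ := exists_unitO u.isUnit
      (by convert OS.mul_mem h3 h2 using 1; field_simp)
      (by convert OS.mul_mem h4 h1 using 1; field_simp)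
    exact ⟨e', by rw [he', mul_comm]⟩
  · rintro ⟨e', he'⟩
    obtain ⟨a1, a2, a3⟩ := UnfL_unit e'
    have h3 : c = toE e' * (e * x) := Subtype.ext he'
    refine ⟨?_, b, hb, ?_, ?_⟩
    · rw [h3]
      exact (associated_unit_mul_left _ _ (e'.isUnit.map toE)).trans h0
    · rw [he', mul_div_assoc]
      exact OS.mul_mem a2 h1
    · rw [he']
      convert OS.mul_mem a3 h2 using 1
      push_cast
      field_simp

theorem IsA0.unique {A : Finset FF} (hA : IsA0 A) {x b b' : FF} (hx : x ≠ 0) (hb : b ∈ A)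
    (hb' : b' ∈ A) (h1 : x / b ∈ OS) (h2 : b / x ∈ OS) (h3 : x / b' ∈ OS) (h4 : b' / x ∈ OS) :
    b = b' :=
  hA.2.2 b hb b' hb' 1 (by simpa using div_mem_OS_trans hx h2 h3)
    (by simpa using div_mem_OS_trans hx h4 h1)

theorem IsA0.dual {A : Finset FF} (hA : IsA0 A) : IsA0 (A.image fun b => 1 / (b * del)) := by
  have hd := del_ne_zero
  refine ⟨fun b hb => ?_, fun a ha => ?_, fun b hb b' hb' e h1 h2 => ?_⟩
  · obtain ⟨b, hb1, rfl⟩ := Finset.mem_image.1 hb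
    exact one_div_ne_zero (mul_ne_zero (hA.1 b hb1) hd)
  · obtain ⟨b, hb, e, h1, h2⟩ := hA.2.1 (1 / (a * del)) (one_div_ne_zero (mul_ne_zero ha hd))
    have hb0 := hA.1 b hb
    have he := Unit_coe_ne e
    have hi : (((e⁻¹ : Eˣ) : E) : FF) = ((e : E) : FF)⁻¹ :=
      eq_inv_of_mul_eq_one_left (congrArg Subtype.val e.inv_mul)
    refine ⟨_, Finset.mem_image_of_mem _ hb, e⁻¹, ?_, ?_⟩
    · convert h2 using 1
      rw [hi]
      field_simp
    · convert h1 using 1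
      rw [hi]
      field_simp
  · obtain ⟨b, hb1, rfl⟩ := Finset.mem_image.1 hb
    obtain ⟨b', hb2, rfl⟩ := Finset.mem_image.1 hb'
    have hb0 := hA.1 b hb1
    have hb0' := hA.1 b' hb2
    have he := Unit_coe_ne e
    rw [hA.2.2 b' hb2 b hb1 e (by convert h1 using 1; field_simp)
      (by convert h2 using 1; field_simp)]

/-- The valuations of the ideal attached to `(b, x)`. -/
def UnfLn (b x : FF) (v : HS FF) : ℤ :=
  if (σ.s : 𝓞 FF) ∈ v.asIdeal then ord v x - ord v b else ord v x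

theorem UnfL_n {b : FF} {x : E} (hb : b ≠ 0) (hx : x ≠ 0) (h : x / b ∈ OS) :
    (∀ v, 0 ≤ UnfLn b x v) ∧ ∃ T : Finset (HS FF), (∀ v, UnfLn b x v ≠ 0 → v ∈ T) ∧
      (∀ v, ord v (x : FF) ≠ 0 → v ∈ T) ∧ ∀ v, (σ.s : 𝓞 FF) ∈ v.asIdeal → v ∈ T := by
  have hx' : (x : FF) ≠ 0 := by exact_mod_cast hx
  refine ⟨fun v => ?_, (finite_ord (x : FF)).toFinset ∪ Finset.univ.image fun v : SP => v.1,
    fun v hv => ?_, fun v hv => ?_, fun v hv => ?_⟩
  · unfold UnfLn
    split_ifs with hv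
    · exact sub_nonneg.2 (((div_mem_OS_iff hb).1 h ⟨v, hv⟩).le hx')
    · exact ((mem_RR σ.s_pos.ne').1 x.2 v hv).le hx'
  · unfold UnfLn at hv
    split_ifs at hv with h
    · exact Finset.mem_union_right _ (Finset.mem_image.2 ⟨⟨v, h⟩, Finset.mem_univ _, rfl⟩)
    · exact Finset.mem_union_left _ ((Set.Finite.mem_toFinset _).2 hv)
  · exact Finset.mem_union_left _ ((Set.Finite.mem_toFinset _).2 hv)
  · exact Finset.mem_union_right _ (Finset.mem_image.2 ⟨⟨v, hv⟩, Finset.mem_univ _, rfl⟩)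

theorem UnfL_OS {x : FF} (h : ∀ v : SP, ord v.1 x = 0) : x ∈ OS :=
  mem_OS_iff.2 fun v => Or.inr (h v).ge

theorem UnfL_ord {x : FF} (hx : x ≠ 0) (h1 : x ∈ OS) (h2 : x⁻¹ ∈ OS) (v : SP) : ord v.1 x = 0 := by
  have a1 := (mem_OS_iff.1 h1 v).le hx
  have a2 := (mem_OS_iff.1 h2 v).le (inv_ne_zero hx)
  rw [ord_inv] at a2
  omega

theorem idB : IdB := by
  intro A hA
  refine ⟨fun b x => UnfLI (UnfLn b x), fun b x hb hx h => ?_,
    fun b hb b' hb' x x' hx h hx' h' => ⟨fun hJ => ?_, ?_⟩, fun I hI => ?_⟩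
  · have hx' : (x : FF) ≠ 0 := by exact_mod_cast hx
    obtain ⟨h0, T, h1, h2, h3⟩ := UnfL_n hb hx h
    simp only [UnfL_eq_prod h0 T h1]
    refine ⟨Finset.prod_ne_zero_iff.2 fun v _ => pow_ne_zero _ v.ne_bot, ?_⟩
    have e1 : sS b = ∏ v ∈ T, if (σ.s : 𝓞 FF) ∈ v.asIdeal then (qv v : ℝ) ^ (-ord v b) else 1 := by
      rw [← Finset.prod_filter]
      exact (Finset.prod_subtype _ (fun v => by
        rw [Finset.mem_filter]
        exact ⟨fun h => h.2, fun h => ⟨h3 v h, h⟩⟩) fun v => (qv v : ℝ) ^ (-ord v b)).symm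
    rw [Ninf_eq_norm, abs_norm_eq hx' T h2, e1, ← Finset.prod_mul_distrib, map_prod]
    push_cast
    refine Finset.prod_congr rfl fun v _ => ?_
    have hq : (qv v : ℝ) ≠ 0 := by
      have := two_le_qv v
      positivity
    rw [map_pow]
    push_cast
    change (qv v : ℝ) ^ (UnfLn b x v).toNat = _
    rw [← zpow_natCast, Int.toNat_of_nonneg (h0 v)]
    unfold UnfLn
    split_ifs
    · rw [← zpow_add₀ hq, sub_eq_add_neg]
    · rw [mul_one]
  · have hx0 : (x : FF) ≠ 0 := by exact_mod_cast hx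
    have hx0' : (x' : FF) ≠ 0 := by exact_mod_cast hx'
    have hb0 := hA.1 b hb
    have hb0' := hA.1 b' hb'
    obtain ⟨h0, T, h1, -⟩ := UnfL_n hb0 hx h
    obtain ⟨h0', T', h1', -⟩ := UnfL_n hb0' hx' h'
    have h2 : ∀ v, UnfLn b x v = UnfLn b' x' v := fun v =>
      le_antisymm (UnfL_le h0' T' h1' hJ.symm v) (UnfL_le h0 T h1 hJ v)
    have h3 : ∀ v : HS FF, (σ.s : 𝓞 FF) ∉ v.asIdeal → ord v (x : FF) = ord v (x' : FF) :=
      fun v hv => by simpa only [UnfLn, if_neg hv] using h2 v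
    have h4 : ∀ v : SP, ord v.1 (x : FF) - ord v.1 b = ord v.1 (x' : FF) - ord v.1 b' :=
      fun v => by simpa only [UnfLn, if_pos v.2] using h2 v.1
    have hu0 : (x' : FF) / x ≠ 0 := div_ne_zero hx0' hx0
    have h5 : ∀ v : HS FF, (σ.s : 𝓞 FF) ∉ v.asIdeal → ord v ((x' : FF) / x) = 0 := fun v hv => by
      rw [ord_div v hx0' hx0, h3 v hv, sub_self]
    obtain ⟨u, hu⟩ : ∃ u : E, (u : FF) = x' / x :=
      ⟨⟨_, (mem_RR σ.s_pos.ne').2 fun v hv => Or.inr (h5 v hv).ge⟩, rfl⟩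
    have hu1 : IsUnit u := (isUnit_iff_ord fun h => hu0 (by rw [← hu, h]; rfl)).2 (hu ▸ h5)
    have h6 : ∀ v : SP, ord v.1 ((u : FF) * b / b') = 0 := fun v => by
      have := h4 v
      rw [hu, ord_div _ (mul_ne_zero hu0 hb0) hb0', ord_mul _ hu0 hb0, ord_div _ hx0' hx0]
      omega
    obtain rfl : b = b' := hA.2.2 b hb b' hb' hu1.unit (UnfL_OS h6)
      (UnfL_OS fun v => by
        have := h6 v
        rw [← inv_div, ord_inv] at this
        exact neg_eq_zero.1 this)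
    rw [mul_div_cancel_right₀ _ hb0] at h6
    obtain ⟨e, he⟩ := exists_unitO hu1 (UnfL_OS h6)
      (UnfL_OS fun v => by rw [ord_inv, h6 v, neg_zero])
    exact ⟨rfl, e, by rw [he, hu, div_mul_cancel₀ _ hx0]⟩
  · rintro ⟨rfl, e, he⟩
    have hx0 : (x : FF) ≠ 0 := by exact_mod_cast hx
    have h1 : ∀ v : HS FF, ord v (x' : FF) = ord v (x : FF) := fun v => by
      rw [he, ord_mul v (UnfL_unit e).1 hx0,
        (ord_eq_zero_of_not_mem fun h => v.isPrime.ne_top
          (Ideal.eq_top_of_isUnit_mem _ h e.isUnit)).2, zero_add]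
    refine congrArg UnfLI (funext fun v => ?_)
    simp only [UnfLn, h1]
  · obtain ⟨n, T, hT, rfl⟩ := UnfL_surj hI
    set x0 : E := ∏ p ∈ T.preimage pv pv_inj.injOn, p.1 ^ n (pv p) with hx0
    have hx : x0 ≠ 0 := Finset.prod_ne_zero_iff.2 fun p _ => pow_ne_zero _ p.ne_zero
    have hx' : (x0 : FF) ≠ 0 := by exact_mod_cast hx
    have h1 : ∀ v : HS FF, (σ.s : 𝓞 FF) ∉ v.asIdeal → ord v (x0 : FF) = n v := fun v hv => by
      obtain ⟨p, rfl⟩ := exists_pv hv
      rw [ord_pv p hx, hx0, vp_prod_pow]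
      split_ifs with h
      · rfl
      · rw [Finset.mem_preimage] at h
        by_contra h'
        exact h (hT _ fun h0 => h' (by rw [h0]))
    obtain ⟨a, ha, h2⟩ := exists_ord_S fun v => ord v.1 (x0 : FF) - n v.1
    have ha' : (a : FF) ≠ 0 := by exact_mod_cast ha
    obtain ⟨b, hb, e, h3, h4⟩ := hA.2.1 a ha'
    have hb0 := hA.1 b hb
    have he := Unit_coe_ne e
    have h5 : ∀ v : SP, ord v.1 (((e : E) * x0 : E) : FF) - ord v.1 b = n v.1 := fun v => by
      have := UnfL_ord (div_ne_zero (mul_ne_zero he ha') hb0) h3 (by rwa [inv_div]) v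
      rw [ord_div _ (mul_ne_zero he ha') hb0, ord_mul _ he ha', h2 v] at this
      push_cast
      rw [ord_mul _ he hx']
      omega
    refine ⟨b, hb, e * x0, mul_ne_zero e.ne_zero hx, (div_mem_OS_iff hb0).2 fun v => Or.inr ?_, ?_⟩
    · have := h5 v
      omega
    · refine congrArg UnfLI (funext fun v => ?_)
      unfold UnfLn
      split_ifs with hv
      · exact h5 ⟨v, hv⟩
      · push_cast
        rw [ord_mul _ he hx', (isUnit_iff_ord e.ne_zero).1 e.isUnit v hv, h1 v hv, zero_add]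

end NQ
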