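import Vale.Agent.NQ.Rearr

noncomputable section
namespace NQ
open Complex MeasureTheory NumberField Filter
open scoped ComplexConjugate Classical ContDiff Topology

variable [σ : St]

/-- Splitting off the simple primes outside `K`. -/
theorem vb_split (K : Finset P) {m : E} (hm : m ≠ 0) : ∃ (k : E) (t : Finset P), k ≠ 0 ∧
    m = pr t * k ∧ (∀ p : P, p ∉ K → vp p.1 k ≠ 1) ∧ Disjoint t K ∧ Disjoint t (fac k) := by
  set t := (fac m).filter fun p => vp p.1 m = 1 ∧ p ∉ K with ht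
  obtain ⟨k, hk⟩ : pr t ∣ m :=
    pr_dvd_iff.2 fun p hp => (mem_fac hm).1 (Finset.mem_filter.1 hp).1
  have hk0 : k ≠ 0 := fun h => hm (by rw [hk, h, mul_zero])
  have hv : ∀ p : P, vp p.1 m = (if p ∈ t then 1 else 0) + vp p.1 k := fun p => by
    rw [← vp_pr, ← vp_mul p.2.1 (pr_ne_zero t) hk0, ← hk]
  refine ⟨k, t, hk0, hk, fun p hp h1 => ?_, Finset.disjoint_left.2 fun p hp =>
    (Finset.mem_filter.1 hp).2.2, Finset.disjoint_left.2 fun p hp h1 => ?_⟩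
  · have h2 := hv p
    by_cases h3 : p ∈ t
    · have h4 := (Finset.mem_filter.1 h3).2.1
      rw [if_pos h3] at h2
      omega
    · rw [if_neg h3] at h2
      exact h3 (Finset.mem_filter.2
        ⟨(mem_fac hm).2 ((dvd_iff_vp p.2.1 hm).2 (by omega)), by omega, hp⟩)
  · have h2 := hv p
    have h4 := (Finset.mem_filter.1 hp).2.1
    have h5 := (dvd_iff_vp p.2.1 hk0).1 ((mem_fac hk0).1 h1)
    rw [if_pos hp] at h2
    omega

theorem vb_sum (K : Finset P) (M : ℝ) (f : E → ℝ) (hf : ∀ m, 0 ≤ f m) :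
    ∑ m ∈ ball M, f m ≤ ∑ k ∈ (ball M).filter (fun k => ∀ p : P, p ∉ K → vp p.1 k ≠ 1),
      ∑ t ∈ sqf (M / nm k) with Disjoint t (K ∪ fac k), f (pr t * k) := by
  rw [Finset.sum_sigma']
  refine le_trans (Finset.sum_le_sum_of_subset_of_nonneg (fun m hm => ?_) fun m _ _ => hf m)
    (Finset.sum_image_le_of_nonneg (g := fun x : (_ : E) × Finset P => pr x.2 * x.1)
      fun m _ => hf m)
  obtain ⟨hm0, hM, hU⟩ := mem_ball.1 hm
  obtain ⟨k, t, hk0, hk, h1, h2, h3⟩ := vb_split K hm0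
  have h4 : Ns t * nm k ≤ M := by
    rw [hk, nm_mul, Nat.cast_mul] at hM
    exact hM
  have h5 := one_le_nmR hk0
  have h6 : IsU 6 (un k) := by
    rwa [hk, un_mul (pr_ne_zero t) hk0, (prim_pr t).un_eq, one_mul] at hU
  refine Finset.mem_image.2 ⟨⟨k, t⟩, Finset.mem_sigma.2 ⟨Finset.mem_filter.2
    ⟨mem_ball.2 ⟨hk0, ?_, h6⟩, h1⟩, Finset.mem_filter.2 ⟨mem_sqf.2 ?_,
      Finset.disjoint_union_right.2 ⟨h2, h3⟩⟩⟩, hk.symm⟩
  · exact (le_mul_of_one_le_left (by linarith) (one_le_Ns t)).trans h4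
  · exact (le_div_iff₀ (by linarith)).2 h4

theorem vb_rad (K : Finset P) {k : E} (hk : k ≠ 0) (h : ∀ p : P, p ∉ K → vp p.1 k ≠ 1) :
    Ns (fac k \ K) ^ 2 ≤ nm k := by
  have h1 : ∏ p ∈ fac k \ K, p.1 ^ 2 ∣ k := b2_e_prod_dvd fun p hp => by
    obtain ⟨h2, h3⟩ := Finset.mem_sdiff.1 hp
    have h4 := (dvd_iff_vp p.2.1 hk).1 ((mem_fac hk).1 h2)
    have h5 := h p h3
    exact (pow_dvd_iff p.2.1 hk 2).2 (by omega)
  have h2 := nm_le_of_dvd h1 hk
  rw [Finset.prod_pow, nm_pow] at h2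
  unfold Ns pr
  exact_mod_cast h2

theorem vB (h : VB0) : VB := by
  intro ε hε
  have hε3 : 0 < ε / 3 := by linarith
  obtain ⟨B, C, hC, h⟩ := h (ε / 3) hε3
  obtain ⟨C2, hC2, h2⟩ := sqfull_sum_le hε3
  refine ⟨B, C * C2, by positivity, ?_⟩
  intro Z M X τ ρ hOK hX hXZ hM hMZ hρ hρZ
  have hZ : 1 ≤ Z := hX.trans hXZ
  have hZ2 : Z ≤ Z ^ 2 := by nlinarith
  have hTb : 0 ≤ Tb (iT τ) := Finset.prod_nonneg fun w _ => by positivity
  set K := fac ρ with hK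
  have hR1 := one_le_Rr ρ
  have hKle : Ns K = Rr ρ := rfl
  refine (vb_sum K M (fun m => ‖Th (m * ρ) X (iT τ)‖ ^ 2) fun m => sq_nonneg _).trans ?_
  set T := (ball M).filter fun k => ∀ p : P, p ∉ K → vp p.1 k ≠ 1 with hT
  set D := C * (Z ^ 2) ^ (ε / 3) * Tb (iT τ) ^ B with hD
  have hD0 : 0 ≤ D := by positivity
  set Y := X.sz * M + (M * Rr ρ) ^ 2 with hY
  have hY0 : 0 ≤ Y := by positivity
  have key : ∀ k ∈ T, ∑ t ∈ sqf (M / nm k) with Disjoint t (K ∪ fac k),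
      ‖Th (pr t * k * ρ) X (iT τ)‖ ^ 2 ≤ D * Y * (nm k : ℝ)⁻¹ := by
    intro k hk
    obtain ⟨hk1, hk2⟩ := Finset.mem_filter.1 hk
    obtain ⟨hk0, hkM, -⟩ := mem_ball.1 hk1
    have n1 := one_le_nmR hk0
    have n0 : (0 : ℝ) < nm k := by linarith
    have r1 : Rr (k * ρ) ≤ Z ^ 2 := by
      refine (Rr_mul_le hk0 hρ).trans ?_
      rw [sq]
      exact mul_le_mul ((Ns_fac_le hk0).trans (hkM.trans hMZ)) hρZ (by linarith) (by linarith)
    have e : fac (k * ρ) = K ∪ fac k := by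
      rw [mul_comm k, fac_mul hρ hk0]
    have h3 := h (Z ^ 2) (M / nm k) X τ (k * ρ) hOK hX (hXZ.trans hZ2) ((one_le_div n0).2 hkM)
      ((div_le_self (by linarith) n1).trans (hMZ.trans hZ2)) (mul_ne_zero hk0 hρ) r1
    rw [e] at h3
    simp only [mul_assoc (pr _) k ρ]
    refine h3.trans ?_
    rw [mul_assoc D]
    refine mul_le_mul_of_nonneg_left ?_ hD0
    have r2 : Rr (k * ρ) ≤ Rr ρ * Ns (fac k \ K) := by
      refine le_trans (le_of_eq ?_) (Ns_union_le K (fac k \ K))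
      rw [Finset.union_sdiff_self_eq_union, ← e]
      rfl
    have r3 : Rr (k * ρ) ^ 2 ≤ Rr ρ ^ 2 * nm k := by
      refine (pow_le_pow_left₀ (by linarith [one_le_Rr (k * ρ)]) r2 2).trans ?_
      rw [mul_pow]
      exact mul_le_mul_of_nonneg_left (vb_rad K hk0 hk2) (by positivity)
    have r4 : (M / nm k * Rr (k * ρ)) ^ 2 ≤ (M * Rr ρ) ^ 2 * (nm k : ℝ)⁻¹ := by
      rw [mul_pow]
      refine (mul_le_mul_of_nonneg_left r3 (by positivity)).trans (le_of_eq ?_)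
      field_simp
    have r5 : X.sz * (M / nm k) = (X.sz * M) * (nm k : ℝ)⁻¹ := by
      rw [div_eq_mul_inv, ← mul_assoc]
    rw [hY, add_mul, r5]
    exact add_le_add le_rfl r4
  refine (Finset.sum_le_sum key).trans ?_
  rw [← Finset.mul_sum]
  have h4 := h2 K Z T hZ (hKle.trans_le hρZ) fun k hk =>
      ⟨ball_mono hMZ (Finset.mem_filter.1 hk).1, (Finset.mem_filter.1 hk).2⟩
  refine (mul_le_mul_of_nonneg_left h4 (by positivity)).trans (le_of_eq ?_)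
  have hZ0 : 0 < Z := by linarith
  have e : Z ^ ε = (Z ^ 2) ^ (ε / 3) * Z ^ (ε / 3) := by
    rw [← Real.mul_rpow (by positivity) hZ0.le, ← pow_succ, ← Real.rpow_natCast,
      ← Real.rpow_mul hZ0.le]
    congr 1
    push_cast
    ring
  rw [e, hD]
  ring

end NQ
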