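import Vale.Agent.NQ.Rearr
import Vale.Agent.NQ.WtS
import Vale.Agent.P026.VB0b

noncomputable section
namespace NQ
open Complex MeasureTheory NumberField Filter
open scoped ComplexConjugate Classical ContDiff Topology

variable [σ : St]

/-- The estimate for all blocks together. -/
def VBc : Prop := ∀ (δ1 : FF) (ε : ℝ), δ1 ≠ 0 → 0 < ε → ∃ C : ℝ, 0 < C ∧
  ∀ (Z M Δ : ℝ) (r : Finset P) (x : E → ℂ) (J : Finset (Finset P)) (b : Finset P → Pl → ℝ)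
    (G : Pl → ℝ → ℂ) (W : Pl → ℝ) (s : Pl → ℂ), 1 ≤ M → M ≤ Z → Ns r ≤ Z → 1 ≤ Δ → Δ ≤ Z →
    J ⊆ sqf M → (∀ δ, ‖x δ‖ ≤ ‖Tg δ‖ / nm δ * √(Ns (fac δ ∩ r))) →
    (∀ δ, x δ ≠ 0 → (δ : FF) / δ1 ∈ OS) → (∀ t ∈ J, ∀ w, Δ⁻¹ ≤ b t w) → (∀ w, (s w).re = 1 / 2) →
    (∀ w, Continuous (G w)) → (∀ w v, ‖G w v‖ ≤ W w * (1 + Real.exp (v / 2)) ^ (-6 : ℝ)) →
    ∀ T : Finset E, ∑ t ∈ J, ‖∑ δ ∈ T, x δ * xs c2 t δ
        * ∏ w, sm (s w) (G w) (Real.log (‖em w δ‖ ^ 2 * b t w))‖ ^ 2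
      ≤ C * Z ^ ε * (∏ w, W w) ^ 2 * (M + Δ ^ rk)

theorem vbc_low {δ1 : FF} (h1 : δ1 ≠ 0) {T : Pl → ℝ} (hT : ∀ w, 1 ≤ T w) {δ : E}
    (hδ : δ ∈ box δ1 T) (w : Pl) : (max 1 (sS δ1) * ∏ w, T w)⁻¹ ≤ ‖em w δ‖ ^ 2 := by
  obtain ⟨h0, h2, h3⟩ := (mem_box h1).1 hδ
  have h4 : δ ∈ box δ1 (Function.update T w (‖em w δ‖ ^ 2)) := by
    refine (mem_box h1).2 ⟨h0, h2, fun w1 => ?_⟩
    rcases eq_or_ne w1 w with rfl | hw
    · rw [Function.update_self]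
    · rw [Function.update_of_ne hw]
      exact h3 w1
  have h5 := (one_le_nmR h0).trans (nm_le_of_mem_box h1 h4)
  rw [Finset.prod_update_of_mem (Finset.mem_univ w)] at h5
  have h6 : ∏ w1 ∈ Finset.univ \ {w}, T w1 ≤ ∏ w1, T w1 :=
    Finset.prod_le_prod_of_subset_of_one_le (Finset.subset_univ _)
      (fun w1 _ => zero_le_one.trans (hT w1)) fun w1 _ _ => hT w1
  have h7 : 0 < ∏ w1, T w1 := Finset.prod_pos fun w1 _ => zero_lt_one.trans_le (hT w1)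
  have h8 : 0 ≤ ∏ w1 ∈ Finset.univ \ {w}, T w1 :=
    Finset.prod_nonneg fun w1 _ => zero_le_one.trans (hT w1)
  have h9 : 0 < max 1 (sS δ1) := zero_lt_one.trans_le (le_max_left _ _)
  rw [inv_le_iff_one_le_mul₀ (by positivity)]
  refine h5.trans ?_
  rw [mul_left_comm]
  exact mul_le_mul_of_nonneg_left (mul_le_mul (le_max_right _ _) h6 h8 h9.le) (by positivity)

theorem vbc_norm {B S : Finset E} (hB : B ⊆ S) {c : ℝ} (hc : 0 < c) (f g h : E → ℂ) :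
    ‖∑ δ ∈ B, f δ * h δ * g δ‖ ^ 2
      = c ^ 2 * ‖∑ δ ∈ S, (if δ ∈ B then (c : ℂ)⁻¹ * (f δ * g δ) else 0) * h δ‖ ^ 2 := by
  have e : ∑ δ ∈ S, (if δ ∈ B then (c : ℂ)⁻¹ * (f δ * g δ) else 0) * h δ
      = (c : ℂ)⁻¹ * ∑ δ ∈ B, f δ * h δ * g δ := by
    rw [← Finset.sum_subset hB fun δ _ hδ => by rw [if_neg hδ, zero_mul], Finset.mul_sum]
    refine Finset.sum_congr rfl fun δ hδ => ?_
    rw [if_pos hδ]
    ring
  rw [e, norm_mul, norm_inv, Complex.norm_real, Real.norm_of_nonneg hc.le]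
  field_simp

theorem vbc_sep (h1 : VBk) (h2 : SepM) {δ1 : FF} (hδ1 : δ1 ≠ 0) {e : ℝ} (he : 0 < e)
    (he1 : e ≤ 1) : ∃ C : ℝ, 0 < C ∧
    ∀ (Z M Δ : ℝ) (r : Finset P) (x : E → ℂ) (J : Finset (Finset P)) (b : Finset P → Pl → ℝ)
      (G : Pl → ℝ → ℂ) (W : Pl → ℝ) (s : Pl → ℂ) (T θ L : Pl → ℝ) (B : Finset E), 1 ≤ M → M ≤ Z →
      Ns r ≤ Z → 0 < Δ → J ⊆ sqf M → (∀ δ, ‖x δ‖ ≤ ‖Tg δ‖ / nm δ * √(Ns (fac δ ∩ r))) →
      (∀ t ∈ J, ∀ w, Δ⁻¹ ≤ b t w) → (∀ w, (s w).re = 1 / 2) → (∀ w, Continuous (G w)) →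
      (∀ w v, ‖G w v‖ ≤ W w * (1 + Real.exp (v / 2)) ^ (-6 : ℝ)) → (∀ w, 0 < T w) →
      B ⊆ box δ1 T → (∀ w, θ w = e ∨ θ w = 2) → (∀ w, 0 < L w) →
      (∀ δ ∈ B, ∀ w, L w ≤ ‖em w δ‖ ^ 2) →
      ∑ t ∈ J, ‖∑ δ ∈ B, x δ * xs c2 t δ
          * ∏ w, sm (s w) (G w) (Real.log (‖em w δ‖ ^ 2 * b t w))‖ ^ 2
        ≤ C * (∏ w, W w) ^ 2 * (∏ w, (Δ / L w) ^ (2 * θ w)) * (Z * (1 + ∏ w, T w)) ^ e *
          (M + ∏ w, T w) := by
  obtain ⟨C1, hC1, hk⟩ := h1 δ1 e hδ1 he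
  obtain ⟨C2, hC2, hs⟩ := h2 2
  obtain ⟨γ, hγ0, hγ⟩ : ∃ γ : ℝ, 0 < γ ∧ ∀ θ : ℝ, θ = e ∨ θ = 2 →
      ∫ v : ℝ, (1 + Real.exp (v / 2)) ^ (-6 : ℝ) * Real.exp (θ * v) ≤ γ := by
    refine ⟨max 1 (max (∫ v : ℝ, (1 + Real.exp (v / 2)) ^ (-6 : ℝ) * Real.exp (e * v))
      (∫ v : ℝ, (1 + Real.exp (v / 2)) ^ (-6 : ℝ) * Real.exp (2 * v))),
      zero_lt_one.trans_le (le_max_left _ _), ?_⟩
    rintro θ (rfl | rfl)
    · exact (le_max_left _ _).trans (le_max_right _ _)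
    · exact (le_max_right _ _).trans (le_max_right _ _)
  refine ⟨C2 * (γ ^ rk) ^ 2 * C1, by positivity, ?_⟩
  intro Z M Δ r x J b G W s T θ L B hM hMZ hr hΔ hJ hx hb hsre hG hGb hT hB hθ hL hLB
  have hθ0 : ∀ w, 0 < θ w := fun w => by rcases hθ w with h | h <;> rw [h] <;> positivity
  have hθ2 : ∀ w, θ w ≤ 2 := fun w => by rcases hθ w with h | h <;> rw [h] <;> linarith
  have hW : ∀ w, 0 ≤ W w := fun w =>
    nonneg_of_mul_nonneg_left ((norm_nonneg _).trans (hGb w 0)) (by positivity)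
  have hint : ∀ w, Integrable fun v : ℝ =>
      (1 + Real.exp (v / 2)) ^ (-6 : ℝ) * Real.exp (θ w * v) := fun w =>
    QRH.vb_int (hθ0 w) (by linarith [hθ2 w])
  have hle : ∀ w v, ‖G w v‖ * Real.exp (θ w * v) ≤
      W w * ((1 + Real.exp (v / 2)) ^ (-6 : ℝ) * Real.exp (θ w * v)) := fun w v => by
    rw [← mul_assoc]
    exact mul_le_mul_of_nonneg_right (hGb w v) (Real.exp_pos _).le
  have hi1 : ∀ w, Integrable fun v => G w v * (Real.exp (θ w * v) : ℝ) := fun w => by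
    have := hG w
    refine ((hint w).const_mul (W w)).mono' (Continuous.aestronglyMeasurable (by fun_prop))
      (Eventually.of_forall fun v => ?_)
    rw [norm_mul, Complex.norm_real, Real.norm_of_nonneg (Real.exp_pos _).le]
    exact hle w v
  have hi2 : ∀ w, ∫ v, ‖G w v‖ * Real.exp (θ w * v) ≤ W w * γ := fun w => by
    refine le_trans ?_ (mul_le_mul_of_nonneg_left (hγ _ (hθ w)) (hW w))
    rw [← integral_const_mul]
    exact integral_mono_of_nonneg (Eventually.of_forall fun v => by positivity)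
      ((hint w).const_mul (W w)) (Eventually.of_forall (hle w))
  have hpos : ∀ δ ∈ B, ∀ w, 0 < ‖em w δ‖ ^ 2 := fun δ hδ w => (hL w).trans_le (hLB δ hδ w)
  obtain ⟨c, hc⟩ : ∃ c : ℝ, c = ∏ w, L w ^ (-θ w) := ⟨_, rfl⟩
  have hc0 : 0 < c := hc ▸ Finset.prod_pos fun w _ => Real.rpow_pos_of_pos (hL w) _
  have hP : 0 < ∏ w, T w := Finset.prod_pos fun w _ => hT w
  have hD : 0 < ∏ w, Δ ^ (2 * θ w) := Finset.prod_pos fun w _ => Real.rpow_pos_of_pos hΔ _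
  have key := hs (Finset P) E J B G θ (fun w => W w * γ)
    ((∏ w, Δ ^ (2 * θ w)) * (c ^ 2 * (C1 * (Z * (1 + ∏ w, T w)) ^ e * (M + ∏ w, T w)))) s
    (fun t δ => x δ * xs c2 t δ) (fun δ w => ‖em w δ‖ ^ 2) b
    (fun w => by
      rw [hsre, abs_le]
      constructor <;> linarith [hθ0 w, hθ2 w]) hi1 hi2 hpos
    (fun t ht w => (inv_pos.2 hΔ).trans_le (hb t ht w)) (fun τ => by
      have k1 := hk Z M T r (fun δ => if δ ∈ B then (c : ℂ)⁻¹ * (x δ *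
        ∏ w, ((‖em w δ‖ ^ 2 : ℝ) : ℂ) ^ (-(θ w + τ w * Complex.I))) else 0) (hM.trans hMZ) hM hMZ
        hr hT (fun δ => by
          split_ifs with hδ
          · rw [norm_mul, norm_mul, norm_inv, Complex.norm_real, Real.norm_of_nonneg hc0.le,
              inv_mul_le_iff₀ hc0, mul_comm c, norm_prod]
            refine mul_le_mul (hx δ) ?_ (Finset.prod_nonneg fun w _ => norm_nonneg _)
              (by positivity)
            rw [hc]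
            refine Finset.prod_le_prod (fun w _ => norm_nonneg _) fun w _ => ?_
            rw [Complex.norm_cpow_eq_rpow_re_of_pos (hpos δ hδ w)]
            have e : (-(θ w + τ w * Complex.I : ℂ)).re = -θ w := by simp
            rw [e]
            exact Real.rpow_le_rpow_of_nonpos (hL w) (hLB δ hδ w) (by linarith [hθ0 w])
          · rw [norm_zero]
            positivity)
      refine le_trans ?_ (mul_le_mul_of_nonneg_left (mul_le_mul_of_nonneg_left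
        ((Finset.sum_le_sum_of_subset_of_nonneg hJ fun _ _ _ => sq_nonneg _).trans k1)
        (sq_nonneg c)) hD.le)
      rw [Finset.mul_sum, Finset.mul_sum]
      refine Finset.sum_le_sum fun t ht => mul_le_mul ?_ (le_of_eq ?_) (sq_nonneg _) hD.le
      · refine Finset.prod_le_prod (fun w _ => Real.rpow_nonneg
          ((inv_pos.2 hΔ).trans_le (hb t ht w)).le _) fun w _ => ?_
        refine (Real.rpow_le_rpow_of_nonpos (inv_pos.2 hΔ) (hb t ht w)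
          (by linarith [hθ0 w])).trans (le_of_eq ?_)
        rw [Real.inv_rpow hΔ.le, Real.rpow_neg hΔ.le, inv_inv]
      · exact vbc_norm hB hc0 _ _ _)
  refine key.trans (le_of_eq ?_)
  have e1 : ∏ w, (Δ / L w) ^ (2 * θ w) = (∏ w, Δ ^ (2 * θ w)) * c ^ 2 := by
    rw [hc, ← Finset.prod_pow, ← Finset.prod_mul_distrib]
    refine Finset.prod_congr rfl fun w _ => ?_
    rw [Real.div_rpow hΔ.le (hL w).le, ← Real.rpow_natCast, ← Real.rpow_mul (hL w).le,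
      div_eq_mul_inv, ← Real.rpow_neg (hL w).le]
    congr 2
    push_cast
    ring
  rw [e1, Finset.prod_mul_distrib, prod_const_Pl]
  ring

theorem vbc_num {κ Z Δ e η ε M : ℝ} (hκ : 1 ≤ κ) (hΔ : 1 ≤ Δ) (hZ : Δ ≤ Z) (hM : 0 ≤ M)
    (he : 0 < e) (hη : e * (2 * rk + 1) = η) (hη1 : η ≤ 1) (hηε : η * (rk + 1) ≤ ε) (j : Pl → ℕ) :
    (∏ w, (Δ / (if j w = 0 then (κ * ∏ w, 2 ^ j w * Δ)⁻¹ else 2 ^ j w * Δ / 2)) ^
        (2 * if j w = 0 then e else 2)) * (Z * (1 + ∏ w, 2 ^ j w * Δ)) ^ e *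
      (M + ∏ w, 2 ^ j w * Δ) ≤
      16 ^ rk * (2 * κ) * Z ^ ε * (M + Δ ^ rk) * ((1 / 2) ^ (∑ w, j w)) ^ 2 := by
  have hZ1 : 1 ≤ Z := hΔ.trans hZ
  have hΔ0 : 0 < Δ := by linarith
  have hP : ∏ w, 2 ^ j w * Δ = 2 ^ (∑ w, j w) * Δ ^ rk := by
    rw [Finset.prod_mul_distrib, Finset.prod_pow_eq_pow_sum, prod_const_Pl]
  rw [hP]
  obtain ⟨N, hN⟩ : ∃ N : ℝ, N = 2 ^ (∑ w, j w) := ⟨_, rfl⟩
  have hN1 : 1 ≤ N := hN ▸ one_le_pow₀ one_le_two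
  have hr1 : 1 ≤ Δ ^ rk := one_le_pow₀ hΔ
  have hr2 : Δ ^ rk ≤ Z ^ rk := pow_le_pow_left₀ hΔ0.le hZ _
  have hZr : 1 ≤ Z ^ (rk + 1) := one_le_pow₀ hZ1
  obtain ⟨V, hV⟩ : ∃ V : ℝ, V = 2 * κ * N * Z ^ (rk + 1) := ⟨_, rfl⟩
  have hκN : 1 ≤ 2 * κ * N := by nlinarith
  have hV1 : 1 ≤ V := hV ▸ one_le_mul_of_one_le_of_one_le hκN hZr
  have hNr : 1 ≤ N * Δ ^ rk := one_le_mul_of_one_le_of_one_le hN1 hr1
  have h1 : Δ * (κ * (N * Δ ^ rk)) ≤ V := by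
    calc Δ * (κ * (N * Δ ^ rk)) ≤ Z * (2 * κ * (N * Z ^ rk)) := by
          gcongr
          linarith
      _ = V := by rw [hV]; ring
  have h2 : Z * (1 + N * Δ ^ rk) ≤ V := by
    calc Z * (1 + N * Δ ^ rk) ≤ Z * (2 * 1 * (N * Δ ^ rk)) := by
          gcongr
          linarith
      _ ≤ Z * (2 * κ * (N * Z ^ rk)) := by gcongr
      _ = V := by rw [hV]; ring
  have hVe : 1 ≤ V ^ (2 * e) := Real.one_le_rpow hV1 (by linarith)
  rw [← hN]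
  have h3 : ∏ w, (Δ / (if j w = 0 then (κ * (N * Δ ^ rk))⁻¹ else 2 ^ j w * Δ / 2)) ^
      (2 * if j w = 0 then e else 2) ≤ ∏ w, (16 * V ^ (2 * e)) * (((2 : ℝ) ^ j w)⁻¹) ^ 4 := by
    refine Finset.prod_le_prod (fun w _ => Real.rpow_nonneg ?_ _) fun w _ => ?_
    · split_ifs <;> positivity
    · split_ifs with h
      · rw [h, div_inv_eq_mul, pow_zero, inv_one, one_pow, mul_one]
        refine (Real.rpow_le_rpow (by positivity) h1 (by linarith)).trans ?_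
        linarith
      · have e0 : Δ / (2 ^ j w * Δ / 2) = 2 * ((2 : ℝ) ^ j w)⁻¹ := by field_simp
        rw [e0, show (2 * 2 : ℝ) = (4 : ℕ) by norm_num, Real.rpow_natCast, mul_pow]
        refine mul_le_mul_of_nonneg_right ?_ (by positivity)
        linarith
  rw [Finset.prod_mul_distrib, prod_const_Pl, Finset.prod_pow, Finset.prod_inv_distrib,
    Finset.prod_pow_eq_pow_sum, ← hN] at h3
  have h4 : (Z * (1 + N * Δ ^ rk)) ^ e ≤ V ^ e := Real.rpow_le_rpow (by positivity) h2 he.le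
  have h5 : M + N * Δ ^ rk ≤ N * (M + Δ ^ rk) := by nlinarith
  have h6 : (V ^ (2 * e)) ^ rk * V ^ e ≤ 2 * κ * N * Z ^ ε := by
    rw [← Real.rpow_natCast, ← Real.rpow_mul (by linarith), ← Real.rpow_add (by linarith),
      show 2 * e * rk + e = η by rw [← hη]; ring, hV,
      Real.mul_rpow (by linarith) (by linarith)]
    refine mul_le_mul (Real.rpow_le_self_of_one_le hκN hη1) ?_ (by positivity) (by linarith)
    rw [← Real.rpow_natCast, ← Real.rpow_mul (by linarith)]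
    refine Real.rpow_le_rpow_of_exponent_le hZ1 ?_
    push_cast
    linarith
  have hN0 : 0 < N := by linarith
  calc _ ≤ (16 * V ^ (2 * e)) ^ rk * N⁻¹ ^ 4 * V ^ e * (N * (M + Δ ^ rk)) := by gcongr
    _ = 16 ^ rk * ((V ^ (2 * e)) ^ rk * V ^ e) * (N⁻¹ ^ 4 * N * (M + Δ ^ rk)) := by
      rw [mul_pow]
      ring
    _ ≤ 16 ^ rk * (2 * κ * N * Z ^ ε) * (N⁻¹ ^ 4 * N * (M + Δ ^ rk)) := by gcongr
    _ = _ := by
      rw [one_div_pow, ← hN]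
      field_simp

theorem vBc (h1 : VBk) (h2 : SepM) : VBc := by
  intro δ1 ε hδ1 hε
  obtain ⟨η, hη0, hη1, hηε⟩ : ∃ η : ℝ, 0 < η ∧ η ≤ 1 ∧ η * (rk + 1) ≤ ε :=
    ⟨min 1 (ε / (rk + 1)), lt_min one_pos (by positivity), min_le_left _ _,
      (le_div_iff₀ (by positivity)).1 (min_le_right _ _)⟩
  obtain ⟨e, he0, he1, heη⟩ : ∃ e : ℝ, 0 < e ∧ e ≤ 1 ∧ e * (2 * rk + 1) = η := by
    refine ⟨η / (2 * rk + 1), by positivity, ?_, by field_simp⟩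
    refine (div_le_self hη0.le ?_).trans hη1
    have : (0 : ℝ) ≤ rk := Nat.cast_nonneg _
    linarith
  obtain ⟨C, hC, hs⟩ := vbc_sep h1 h2 hδ1 he0 he1
  obtain ⟨κ, hκ⟩ : ∃ κ : ℝ, κ = max 1 (sS δ1) := ⟨_, rfl⟩
  have hκ1 : 1 ≤ κ := hκ ▸ le_max_left _ _
  refine ⟨C * (16 ^ rk * (2 * κ)) * (2 ^ rk) ^ 2, by positivity, ?_⟩
  intro Z M Δ r x J b G W s hM hMZ hr hΔ hΔZ hJ hx hx1 hb hsre hG hGb T
  have hΔ0 : 0 < Δ := by linarith
  choose blk hblk using fun δ : E =>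
    exists_blk (fun w => ‖em w δ‖ ^ 2) (fun _ => Δ) fun _ => hΔ0
  obtain ⟨A, hA⟩ : ∃ A, A = C * (16 ^ rk * (2 * κ)) * Z ^ ε * (∏ w, W w) ^ 2 * (M + Δ ^ rk) :=
    ⟨_, rfl⟩
  have hA0 : 0 ≤ A := by
    have : 0 < Z := by linarith
    rw [hA]
    positivity
  obtain ⟨T1, hT1⟩ : ∃ T1 : Finset E, T1 = T.filter fun δ => x δ ≠ 0 := ⟨_, rfl⟩
  have hmem : ∀ δ ∈ T1, δ ≠ 0 ∧ (δ : FF) / δ1 ∈ OS := fun δ hδ => by
    rw [hT1] at hδ
    have h3 := (Finset.mem_filter.1 hδ).2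
    refine ⟨?_, hx1 δ h3⟩
    rintro rfl
    have h4 := hx 0
    rw [nm_zero, Nat.cast_zero, div_zero, zero_mul] at h4
    exact h3 (norm_le_zero_iff.1 h4)
  have hblock : ∀ j : Pl → ℕ, √(∑ t ∈ J, ‖∑ δ ∈ T1 with blk δ = j, x δ * xs c2 t δ
      * ∏ w, sm (s w) (G w) (Real.log (‖em w δ‖ ^ 2 * b t w))‖ ^ 2)
      ≤ √A * (1 / 2) ^ (∑ w, j w) := by
    intro j
    refine Real.sqrt_le_iff.2 ⟨by positivity, ?_⟩
    rw [mul_pow, Real.sq_sqrt hA0]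
    have hT : ∀ w, 1 ≤ 2 ^ j w * Δ := fun w =>
      one_le_mul_of_one_le_of_one_le (one_le_pow₀ one_le_two) hΔ
    have hP : 0 < ∏ w, 2 ^ j w * Δ := Finset.prod_pos fun w _ => by positivity
    have hsub : (T1.filter fun δ => blk δ = j) ⊆ box δ1 fun w => 2 ^ j w * Δ := fun δ hδ => by
      obtain ⟨h3, rfl⟩ := Finset.mem_filter.1 hδ
      exact (mem_box hδ1).2 ⟨(hmem δ h3).1, (hmem δ h3).2, fun w => (hblk δ w).1⟩
    refine (hs Z M Δ r x J b G W s (fun w => 2 ^ j w * Δ) (fun w => if j w = 0 then e else 2)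
      (fun w => if j w = 0 then (κ * ∏ w, 2 ^ j w * Δ)⁻¹ else 2 ^ j w * Δ / 2) _ hM hMZ hr hΔ0 hJ
      hx hb hsre hG hGb (fun w => by positivity) hsub (fun w => ?_) (fun w => ?_)
      (fun δ hδ w => ?_)).trans ?_
    · split_ifs
      · exact Or.inl rfl
      · exact Or.inr rfl
    · split_ifs <;> positivity
    · split_ifs with h
      · rw [hκ]
        exact vbc_low hδ1 hT (hsub hδ) w
      · obtain ⟨-, rfl⟩ := Finset.mem_filter.1 hδ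
        have := (hblk δ w).2 h
        linarith
    · have h3 := mul_le_mul_of_nonneg_left
        (vbc_num hκ1 hΔ hΔZ (by linarith : 0 ≤ M) he0 heη hη1 hηε j)
        (by positivity : 0 ≤ C * (∏ w, W w) ^ 2)
      refine le_trans (le_of_eq ?_) (h3.trans (le_of_eq ?_))
      · ring
      · rw [hA]
        ring
  have hre : ∀ t ∈ J, ‖∑ δ ∈ T, x δ * xs c2 t δ
      * ∏ w, sm (s w) (G w) (Real.log (‖em w δ‖ ^ 2 * b t w))‖ ^ 2 =
      ‖∑ j ∈ T1.image blk, ∑ δ ∈ T1 with blk δ = j, x δ * xs c2 t δ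
        * ∏ w, sm (s w) (G w) (Real.log (‖em w δ‖ ^ 2 * b t w))‖ ^ 2 := fun t _ => by
    rw [Finset.sum_fiberwise_of_maps_to fun δ hδ => Finset.mem_image_of_mem blk hδ, hT1,
      Finset.sum_filter_of_ne (p := fun δ => x δ ≠ 0)]
    intro δ _ h3 h4
    exact h3 (by rw [h4, zero_mul, zero_mul])
  rw [Finset.sum_congr rfl hre]
  have hm := (QRH.minkowski J (T1.image blk) fun t j => ∑ δ ∈ T1 with blk δ = j,
    x δ * xs c2 t δ * ∏ w, sm (s w) (G w) (Real.log (‖em w δ‖ ^ 2 * b t w))).trans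
    (Finset.sum_le_sum fun j _ => hblock j)
  rw [← Finset.mul_sum] at hm
  have hm2 := hm.trans (mul_le_mul_of_nonneg_left
    (sum_geom_pi (r := 1 / 2) (by norm_num) (by norm_num) _) (Real.sqrt_nonneg _))
  refine (Real.sqrt_le_iff.1 hm2).2.trans (le_of_eq ?_)
  rw [mul_pow, Real.sq_sqrt hA0, hA, show (1 - 1 / 2 : ℝ)⁻¹ = 2 by norm_num]
  ring

end NQ
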