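import Vale.Agent.NQ.ASb

noncomputable section
namespace NQ
open NumberField IsDedekindDomain Polynomial
open scoped Classical

/-- The norm from `k[X] / m` is the resultant. -/
theorem vert_norm {k : Type} [Field k] [Finite k] {m : k[X]} (hm : m.Monic) [Fact (Irreducible m)]
    (g : k[X]) : Algebra.norm k (AdjoinRoot.mk m g) = Polynomial.resultant m g := by
  have hm0 : m ≠ 0 := hm.ne_zero
  have : Module.Finite k (AdjoinRoot m) := (AdjoinRoot.powerBasis hm0).finite
  let L := AlgebraicClosure k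
  apply (algebraMap k L).injective
  have hsep : m.Separable := PerfectField.separable_of_irreducible (Fact.out)
  rw [Algebra.norm_eq_prod_embeddings k L, ← resultant_map_map]
  have h1 := resultant_eq_prod_eval (m.map (algebraMap k L)) (g.map (algebraMap k L)) g.natDegree
    (natDegree_map_le) (IsAlgClosed.splits _)
  rw [natDegree_map, (hm.map _).leadingCoeff, one_pow, one_mul] at h1
  rw [h1]
  rw [Fintype.prod_equiv (AdjoinRoot.equiv L k m hm0) (fun σ => σ (AdjoinRoot.mk m g))
    (fun x => (g.map (algebraMap k L)).eval (x : L)) ?_]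
  · rw [Finset.prod_mem_multiset (m.aroots L) _ (fun x => (g.map (algebraMap k L)).eval x)
      (fun _ => rfl), Finset.prod_eq_multiset_prod, Multiset.toFinset_val,
      Multiset.dedup_eq_self.mpr (nodup_roots hsep.map)]
  · intro σ
    have h2 : (AdjoinRoot.equiv L k m hm0 σ).1 = σ (AdjoinRoot.root m) := rfl
    rw [h2, eval_map_algebraMap, aeval_algHom_apply, AdjoinRoot.aeval_eq]

theorem vert_fin {k : Type} [Field k] [Finite k] {m : k[X]} (hm : m ≠ 0) :
    Finite (k[X] ⧸ Ideal.span {m}) := by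
  have : Module.Finite k (AdjoinRoot m) := (AdjoinRoot.powerBasis hm).finite
  exact (Module.finite_of_finite k : Finite (AdjoinRoot m))

theorem vert_qok {k : Type} [Field k] [Finite k] {w : k} (hw : w ^ 2 + w + 1 = 0)
    (h3 : (3 : k) ≠ 0) {m g : k[X]} (hm : m ≠ 0) (hg : IsCoprime m g) :
    QOK (C w) g (Ideal.span {m}) where
  fin := vert_fin hm
  rel := by
    have : (C w : k[X]) ^ 2 + C w + 1 = 0 := by
      rw [← C_pow, ← C_1, ← C_add, ← C_add, hw, C_0]
    rw [this]; exact Ideal.zero_mem _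
  three := by
    have h : IsUnit (3 : k[X]) := by
      have := isUnit_C.2 (Ne.isUnit h3)
      rwa [map_ofNat] at this
    rw [Ideal.span_singleton_eq_top.2 h, sup_top_eq]
  unit := (Ideal.isCoprime_span_singleton_iff m g).2 hg |>.sup_eq

/-- The sign in an extension of finite fields is the sign of the norm. -/
theorem vert_zr_norm {k K : Type} [Field k] [Finite k] [Field K] [Finite K] [Algebra k K] {w : k}
    (hw : w ^ 2 + w + 1 = 0) (h3 : (3 : k) ≠ 0) {x : K} (hx : x ≠ 0) :
    zr (algebraMap k K w) x = zr w (Algebra.norm k x) := by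
  have hfin : Module.Finite k K := Module.Finite.of_finite
  have hinj := (algebraMap k K).injective
  have hw' : algebraMap k K w ^ 2 + algebraMap k K w + 1 = 0 := by
    have := congrArg (algebraMap k K) hw
    simpa using this
  have h3' : (3 : K) ≠ 0 := by
    intro h
    apply h3
    apply hinj
    rw [map_ofNat, map_zero, h]
  have hN : Algebra.norm k x ≠ 0 := Algebra.norm_ne_zero_iff.2 hx
  have h1 := zr_field hw' h3' hx
  have h2 := congrArg (algebraMap k K) (zr_field hw h3 hN)
  rw [map_pow, map_pow, FiniteField.algebraMap_norm_eq_pow, ← pow_mul] at h2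
  have hk : Nat.card k % 3 = 1 := (zok_mul hw (Ne.isUnit h3) isUnit_one).card_mod
  have hd : Nat.card k - 1 ∣ Nat.card K - 1 := by
    rw [Module.natCard_eq_pow_finrank (K := k) (V := K)]
    exact Nat.sub_one_dvd_pow_sub_one _ _
  have h1k : 1 < Nat.card k := Finite.one_lt_card
  have he : (Nat.card K - 1) / (Nat.card k - 1) * ((Nat.card k - 1) / 3) = (Nat.card K - 1) / 3 := by
    obtain ⟨c, hc⟩ := hd
    obtain ⟨d, hd⟩ : 3 ∣ Nat.card k - 1 := by omega
    have hd0 : 0 < Nat.card k - 1 := by omega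
    rw [hc, Nat.mul_div_cancel_left _ hd0, hd, Nat.mul_div_cancel_left _ (by norm_num : 0 < 3),
      mul_assoc, Nat.mul_div_cancel_left _ (by norm_num : 0 < 3), mul_comm]
  rw [he, h1] at h2
  have h4 := pow_inj_three hw' h3' h2
  simpa using h4

theorem vert_irr {k : Type} [Field k] [Finite k] {w : k} (hw : w ^ 2 + w + 1 = 0) (h3 : (3 : k) ≠ 0)
    {m g : k[X]} (hm : m.Monic) (hi : Irreducible m) (hg : IsCoprime m g) :
    zq (C w) g (Ideal.span {m}) = zr w (Polynomial.resultant m g) := by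
  have : Fact (Irreducible m) := ⟨hi⟩
  have : Finite (AdjoinRoot m) := vert_fin hm.ne_zero
  have hx : AdjoinRoot.mk m g ≠ 0 := by
    intro h
    exact hi.not_isUnit (hg.isUnit_of_dvd' dvd_rfl (AdjoinRoot.mk_eq_zero.1 h))
  have h1 := vert_zr_norm (K := AdjoinRoot m) hw h3 hx
  rw [vert_norm hm] at h1
  exact h1

/-- The sign modulo a monic polynomial over a finite field is the sign of the resultant. -/
theorem zq_res {k : Type} [Field k] [Finite k] {w : k} (hw : w ^ 2 + w + 1 = 0) (h3 : (3 : k) ≠ 0)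
    {m g : k[X]} (hm : m.Monic) (hg : IsCoprime m g) :
    zq (C w) g (Ideal.span {m}) = zr w (Polynomial.resultant m g) := by
  induction hn : m.natDegree using Nat.strong_induction_on generalizing m with
  | _ n ih =>
  by_cases hu : IsUnit m
  · obtain rfl := hm.eq_one_of_isUnit hu
    rw [Ideal.span_singleton_one, zq_top, ← hn]
    simp [zr_one]
  obtain ⟨p, hp, hpi, q, rfl⟩ := exists_monic_irreducible_factor m hu
  have hq : q.Monic := hp.of_mul_monic_left hm
  have hd : (p * q).natDegree = p.natDegree + q.natDegree := hp.natDegree_mul hq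
  have hp0 : 0 < p.natDegree := hpi.natDegree_pos
  have hgp : IsCoprime p g := hg.of_mul_left_left
  have hgq : IsCoprime q g := hg.of_mul_left_right
  have h1 := zq_mul (w := C w) (g := g) (f1 := p) (f2 := q) (J := ⊥)
    (by rw [bot_sup_eq]; exact vert_qok hw h3 hm.ne_zero hg)
    (by
      intro x hx
      rw [Ideal.mem_bot] at hx ⊢
      exact (mul_eq_zero.1 hx).resolve_left hp.ne_zero)
  simp only [bot_sup_eq] at h1
  rw [h1, vert_irr hw h3 hp hpi hgp, ih q.natDegree (by omega) hq hgq rfl, ← hn, hd,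
    resultant_mul_left _ _ _ _ le_rfl,
    zr_mul hw (Ne.isUnit h3) (Ne.isUnit (resultant_ne_zero _ _ hgp))
      (Ne.isUnit (resultant_ne_zero _ _ hgq))]

theorem zq_recip {k : Type} [Field k] [Finite k] {w : k} (hw : w ^ 2 + w + 1 = 0)
    (h3 : (3 : k) ≠ 0) {m g : k[X]} (hm : M3 m) (hg : IsCoprime m g) :
    zq (C w) g (Ideal.span {m}) = zq (C w) m (Ideal.span {g}) := by
  by_cases hg0 : g = 0
  · subst hg0
    obtain rfl := hm.1.eq_one_of_isUnit (isCoprime_zero_right.1 hg)
    rw [Ideal.span_singleton_one, zq_top, zq_one]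
  obtain ⟨c, n, hc, hn, rfl⟩ : ∃ (c : k) (n : k[X]), c ≠ 0 ∧ n.Monic ∧ g = C c * n := by
    refine ⟨g.leadingCoeff, g * C g.leadingCoeff⁻¹, leadingCoeff_ne_zero.2 hg0,
      monic_mul_leadingCoeff_inv hg0, ?_⟩
    rw [mul_left_comm, ← C_mul, mul_inv_cancel₀ (leadingCoeff_ne_zero.2 hg0), C_1, mul_one]
  have hcu : IsUnit (C c : k[X]) := isUnit_C.2 (Ne.isUnit hc)
  have hmn : IsCoprime m n := hg.of_mul_right_right
  have hr : IsUnit (Polynomial.resultant n m) := Ne.isUnit (resultant_ne_zero _ _ hmn.symm)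
  have h3u : IsUnit (3 : k) := Ne.isUnit h3
  rw [Ideal.span_singleton_mul_left_unit hcu, zq_res hw h3 hm.1 hg, zq_res hw h3 hn hmn.symm,
    resultant_C_mul_right, natDegree_C_mul hc, resultant_comm]
  obtain ⟨d, hd⟩ := hm.2
  have h5 : zr w (c ^ m.natDegree) = 0 := by
    rw [zr_pow hw h3u (Ne.isUnit hc), hd]
    push_cast
    have : (3 : ZMod 3) = 0 := rfl
    rw [this, zero_mul, zero_mul]
  rw [zr_mul hw h3u ((Ne.isUnit hc).pow _) ((isUnit_one.neg.pow _).mul hr), h5, zero_add]
  rcases neg_one_pow_eq_or k (m.natDegree * n.natDegree) with h | h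
  · rw [h, one_mul]
  · rw [h, neg_one_mul, zr_neg hw h3u hr]

/-- Reduction modulo a constant. -/
theorem vert_red {A k : Type} [CommRing A] [CommRing k] (ρ : A →+* k) (hρ : Function.Surjective ρ)
    {π : A} (hk : ∀ a, ρ a = 0 ↔ π ∣ a) (u x : A[X]) :
    mapRingHom ρ x ∈ Ideal.span {mapRingHom ρ u} ↔ x ∈ Ideal.span {C π, u} := by
  rw [Ideal.mem_span_singleton, Ideal.mem_span_pair]
  constructor
  · rintro ⟨y, hy⟩
    obtain ⟨z, rfl⟩ := Polynomial.map_surjective ρ hρ y
    have h1 : C π ∣ x - u * z := by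
      rw [C_dvd_iff_dvd_coeff]
      intro i
      rw [← hk, ← coeff_map, Polynomial.map_sub, Polynomial.map_mul]
      simp only [coe_mapRingHom] at hy
      rw [hy, sub_self, coeff_zero]
    obtain ⟨a, ha⟩ := h1
    exact ⟨a, z, by linear_combination -ha⟩
  · rintro ⟨a, b, rfl⟩
    have h1 : mapRingHom ρ (C π) = 0 := by
      simp [(hk π).2 dvd_rfl]
    rw [map_add, map_mul, map_mul, h1, mul_zero, zero_add]
    exact Dvd.intro_left _ rfl

theorem vert_zq {A k : Type} [CommRing A] [CommRing k] (ρ : A →+* k) (hρ : Function.Surjective ρ)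
    {π : A} (hk : ∀ a, ρ a = 0 ↔ π ∣ a) {w : A} {u g : A[X]}
    (h : QOK (C (ρ w)) (g.map ρ) (Ideal.span {u.map ρ})) :
    zq (C w) g (Ideal.span {C π, u}) = zq (C (ρ w)) (g.map ρ) (Ideal.span {u.map ρ}) := by
  have hs : ∀ y : k[X], ∃ x, y - mapRingHom ρ x ∈ Ideal.span {mapRingHom ρ u} := by
    intro y
    obtain ⟨z, rfl⟩ := Polynomial.map_surjective ρ hρ y
    exact ⟨z, by simp⟩
  have hw : mapRingHom ρ (C w) = C (ρ w) := by simp
  have h1 : QOK (C w) g (Ideal.span {C π, u}) :=
    QOK.comap (mapRingHom ρ) (vert_red ρ hρ hk u) hs (by rw [hw]; exact h)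
  have h2 := (zq_map (mapRingHom ρ) (vert_red ρ hρ hk u) hs h1).2
  rw [hw] at h2
  exact h2.symm

theorem vert_gen {A k : Type} [CommRing A] [Field k] [Finite k] (ρ : A →+* k)
    (hρ : Function.Surjective ρ) {π : A} (hk : ∀ a, ρ a = 0 ↔ π ∣ a) {w : A}
    (hw : w ^ 2 + w + 1 = 0) (h3 : IsUnit (3 : A)) {m g : A[X]} (hm : M3 m)
    (ht : Ideal.span {C π, m, g} = ⊤) :
    zq (C w) g (Ideal.span {C π, m}) = zq (C w) m (Ideal.span {C π, g}) := by
  have hw' : ρ w ^ 2 + ρ w + 1 = 0 := by
    have := congrArg ρ hw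
    simpa using this
  have h3' : (3 : k) ≠ 0 := by
    have := (h3.map ρ).ne_zero
    rwa [map_ofNat] at this
  have hm' : M3 (m.map ρ) := ⟨hm.1.map ρ, by rw [hm.1.natDegree_map]; exact hm.2⟩
  have hco : IsCoprime (m.map ρ) (g.map ρ) := by
    obtain ⟨x, y, z, h⟩ := span_top_iff.1 ht
    refine ⟨y.map ρ, z.map ρ, ?_⟩
    have := congrArg (Polynomial.map ρ) h
    simpa [(hk π).2 dvd_rfl] using this
  rw [vert_zq ρ hρ hk (vert_qok hw' h3' hm'.1.ne_zero hco), zq_recip hw' h3' hm' hco]
  by_cases hg0 : g.map ρ = 0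
  · have h1 : m.map ρ = 1 := hm'.1.eq_one_of_isUnit (isCoprime_zero_right.1 (hg0 ▸ hco))
    have h2 : m = 1 := by
      have := congrArg natDegree h1
      rw [hm.1.natDegree_map, natDegree_one] at this
      exact eq_one_of_monic_natDegree_zero hm.1 this
    rw [h1, h2, zq_one, zq_one]
  · exact (vert_zq ρ hρ hk (vert_qok hw' h3' hg0 hco.symm)).symm

theorem vert : Vert := by
  intro s π m g hs h3 hπ hm ht
  have := AS_dom hs
  have := AS_pid hs
  have := AS_fin hs hπ.ne_zero
  have hmax : (Ideal.span {π}).IsMaximal := PrincipalIdealRing.isMaximal_of_irreducible hπ.irreducible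
  let inst : Field (AS s ⧸ Ideal.span {π}) := Ideal.Quotient.field _
  have hw : algebraMap QRH.E (AS s) QRH.om ^ 2 + algebraMap QRH.E (AS s) QRH.om + 1 = 0 := by
    apply C_injective
    have := wP_rel (s := s)
    rw [wP] at this
    rw [C_add, C_add, C_pow, C_1, this, C_0]
  have h := vert_gen (k := AS s ⧸ Ideal.span {π}) (Ideal.Quotient.mk (Ideal.span {π}))
    Ideal.Quotient.mk_surjective (π := π)
    (fun a => by rw [Ideal.Quotient.eq_zero_iff_mem, Ideal.mem_span_singleton]) hw (AS_three h3) hm ht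
  rw [Dz, wP, h, sub_self]

end NQ
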