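import Vale.Agent.NQ.LtB
import Vale.Agent.NQ.Phi1
import Vale.Agent.P026.Wt

noncomputable section
namespace NQ
open Complex MeasureTheory NumberField Filter
open scoped ComplexConjugate Classical ContDiff Topology

variable [σ : St]

theorem ce_cl {a : FF} (ha : a ≠ 0) : Cl a (ce a) := by
  have h : ∃ c : E, Cl a c := (exists_Cl ha one_ne_zero 0).imp fun _ h => h.1
  rw [ce, dif_pos h]
  exact h.choose_spec
theorem ce_ne_zero {a : FF} (ha : a ≠ 0) : ce a ≠ 0 := fun h => (ce_cl ha).ne_zero (by rw [h]; rfl)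
theorem Bd_ne_zero {b : FF} (hb : b ≠ 0) : Bd b ≠ 0 :=
  one_div_ne_zero (mul_ne_zero (mul_ne_zero three_ne_zero hb) del_ne_zero)
theorem VP.coprime {a b : FF} {q u η β : E} {w : Pl → ℂ → ℂ} {Y : Pl → ℝ}
    (h : VP a b q u η β w Y) : IsCoprime u q := ⟨η, -β, by linear_combination h.det⟩
theorem VorL_ic {u : FF} (hu : Cl 1 u) (x : FF) : ic 1 (u * x) = ic 1 x := by
  unfold ic
  refine if_congr ⟨fun h => ?_, fun h => by simpa using hu.mul h⟩ rfl rfl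
  simpa [mul_div_cancel_left₀ x hu.ne_zero] using h.div hu
theorem VorL_fts {a C C' q q' : FF} (ha : a ≠ 0) (hC : Cl C C') (hq : Cl q q') :
    fts (ic a) (-(C' / q')) = fts (ic a) (-(C / q)) := by
  have h1 := hC.div hq
  rw [← fts_ic_cl ha ((Cl_iff_one h1.ne_left).1 h1) (-(C / q)), neg_mul, mul_div_cancel₀ _ h1.ne_left]
theorem Lt_cl (B : FF) {q q1 : FF} (h : Cl q1 q) (C δ ζ : FF) : Lt B q C δ ζ = Lt B q1 C δ ζ := by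
  have hu := (Cl_iff_one h.ne_left).1 h
  obtain ⟨u, rfl⟩ : ∃ u, q = q1 * u := ⟨q / q1, (mul_div_cancel₀ _ h.ne_left).symm⟩
  rw [mul_div_cancel_left₀ u h.ne_left] at hu
  have h1 := sint_affine (fun d => sint fun ξ => ic 1 d * il B ξ *
    psiS ((ξ ^ 3 * (q1 * u) / d + d * δ / (q1 * u) - 3 * ξ * ζ) / C)) hu.ne_zero 0
  rw [hu.sS_eq, sS_one, inv_one, ofReal_one, one_mul] at h1
  refine h1.symm.trans (congrArg sint (funext fun d => congrArg sint (funext fun ξ => ?_)))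
  rw [add_zero, VorL_ic hu, ← mul_assoc (ξ ^ 3), mul_comm u d, mul_div_mul_right _ _ hu.ne_zero,
    mul_right_comm d u, mul_div_mul_right _ _ hu.ne_zero]
theorem Al_cl (hH : HCongr) {a : FF} (ha : a ≠ 0) (b : FF) {q q1 δ : E} (h : Cl q1 q) (hδ : δ ≠ 0)
    {C : FF} (hC : C ≠ 0) (ζ : FF) : Al a b q δ C ζ = Al a b q1 δ C ζ := by
  have h1 : Cl ((q1 * δ : E) : FF) ((q * δ : E) : FF) :=
    h.mul (Cl.refl fun h0 => hδ (Subtype.ext h0))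
  rw [Al, Al, (hH _ _ _ h1 (ce_ne_zero hC)).2, VorL_fts ha (Cl.refl hC) h, Lt_cl _ h]
/-- Support and size of the factors of `G2` and of `Al`, uniformly in the class of `q`. -/
theorem G2_supp (hL : LtB) {a b q0 : FF} (ha : a ≠ 0) (hb : b ≠ 0) (hq : q0 ≠ 0) :
    ∃ (K : ℝ) (c0 z0 δ1 : FF), 0 < K ∧ c0 ≠ 0 ∧ z0 ≠ 0 ∧ δ1 ≠ 0 ∧ ∀ q C δ ζ : FF, Cl q0 q → C ≠ 0 →
      ‖fts (ic a) (-(C / q)) * Lt (Bd b) q C δ ζ‖ ≤ K * sS C ^ (1 / 4 : ℝ) ∧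
      (fts (ic a) (-(C / q)) * Lt (Bd b) q C δ ζ ≠ 0 →
        C / c0 ∈ OS ∧ ζ / z0 ∈ OS ∧ δ / δ1 ∈ OS) := by
  have h0 : a * ss ^ 2 * del ≠ 0 :=
    mul_ne_zero (mul_ne_zero ha (pow_ne_zero _ ss_ne_zero)) del_ne_zero
  have hc := div_ne_zero hq h0
  obtain ⟨K, z0, δ1, hK, hz, hδ, h⟩ := hL (Bd b) q0 _ (Bd_ne_zero hb) hq hc
  have hk := mul_pos kap_pos (sS_pos (a * ss ^ 2))
  refine ⟨kap * sS (a * ss ^ 2) * K, _, z0, δ1, mul_pos hk hK, hc, hz, hδ,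
    fun q C δ ζ hq0 hC => ?_⟩
  rw [VorL_fts ha (Cl.refl hC) hq0, Lt_cl _ hq0]
  have h1 : fts (ic a) (-(C / q0)) ≠ 0 → C / (q0 / (a * ss ^ 2 * del)) ∈ OS := fun h1 => by
    have := OS.neg_mem (fts_ic_supp ha h1)
    rwa [neg_mul, neg_neg, div_mul_eq_mul_div, ← div_div_eq_mul_div] at this
  refine ⟨?_, fun h2 => ⟨h1 (left_ne_zero_of_mul h2),
    (h C δ ζ hC (h1 (left_ne_zero_of_mul h2))).2 (right_ne_zero_of_mul h2)⟩⟩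
  by_cases h2 : fts (ic a) (-(C / q0)) = 0
  · rw [h2, zero_mul, norm_zero]
    exact mul_nonneg (mul_pos hk hK).le (Real.rpow_nonneg (sS_pos _).le _)
  · rw [norm_mul, mul_assoc _ K]
    exact mul_le_mul (norm_fts_ic_le ha _) (h C δ ζ hC (h1 h2)).1 (norm_nonneg _) hk.le
theorem VorL_Lt {B q δ z0 c S C C' ζ ζ' : FF} (hB : B ≠ 0) (hq : q ≠ 0) (hz : z0 ≠ 0) (hc : c ≠ 0)
    (hS : S ≠ 0) (hC : C ≠ 0) (hC' : C' ≠ 0) (h1 : B ^ 3 * q / S ^ 2 * c ∈ OS)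
    (h2 : δ / (q * S ^ 2) * c ∈ OS) (h3 : B * z0 / S ^ 2 * c ∈ OS) (h4 : B / S * c ∈ OS)
    (k1 : (C - C') / c ∈ OS) (k2 : (ζ - ζ') / c ∈ OS) (k3 : S / C ∈ OS) (k4 : S / C' ∈ OS)
    (k5 : ζ / z0 ∈ OS) : Lt B q C' δ ζ' = Lt B q C δ ζ := by
  refine congrArg sint2 (funext fun d => funext fun ξ => ?_)
  by_cases hd : Cl 1 d
  swap
  · simp [ic, hd]
  by_cases hξ : ξ / B ∈ OS
  swap
  · simp [il, hξ]
  have d0 := hd.ne_zero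
  have d1 : d ∈ OS := by simpa using hd.div_mem
  have d2 : 1 / d ∈ OS := hd.symm.div_mem
  have h3' : (3 : FF) ∈ OS := by simp
  rw [psiS_congr]
  have e : (ξ ^ 3 * q / d + d * δ / q - 3 * ξ * ζ') / C' - (ξ ^ 3 * q / d + d * δ / q - 3 * ξ * ζ) / C
      = (C - C') / c * (S / C) * (S / C') * ((ξ / B) ^ 3 * (1 / d) * (B ^ 3 * q / S ^ 2 * c)
        + d * (δ / (q * S ^ 2) * c) - 3 * (ξ / B) * (ζ / z0) * (B * z0 / S ^ 2 * c))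
        + 3 * (ξ / B) * ((ζ - ζ') / c) * (S / C') * (B / S * c) := by
    field_simp
    ring
  rw [e]
  exact add_mem (mul_mem (mul_mem (mul_mem k1 k3) k4) (sub_mem (add_mem
    (mul_mem (mul_mem (pow_mem hξ 3) d2) h1) (mul_mem d1 h2))
    (mul_mem (mul_mem (mul_mem h3' hξ) k5) h3)))
    (mul_mem (mul_mem (mul_mem (mul_mem h3' hξ) k2) k4) h4)
theorem VorL_ps {δ z0 c S C C' ζ ζ' : FF} (hδ : δ ≠ 0) (hz : z0 ≠ 0) (hc : c ≠ 0)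
    (hS : S ≠ 0) (hC : C ≠ 0) (hC' : C' ≠ 0) (h1 : z0 ^ 3 / (δ * S ^ 2) * c ∈ OS)
    (h2 : z0 ^ 2 / (δ * S) * c ∈ OS) (h3 : 1 / z0 * c ∈ OS)
    (k1 : (C - C') / c ∈ OS) (k2 : (ζ - ζ') / c ∈ OS) (k3 : S / C ∈ OS) (k4 : S / C' ∈ OS)
    (k5 : ζ / z0 ∈ OS) : psiS (ζ' ^ 3 / (C' * δ)) = psiS (ζ ^ 3 / (C * δ)) := by
  have k6 : ζ' / z0 ∈ OS := by
    have e : ζ' / z0 = ζ / z0 - (ζ - ζ') / c * (1 / z0 * c) := by
      field_simp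
      ring
    rw [e]
    exact sub_mem k5 (mul_mem k2 h3)
  apply psiS_congr
  have e : ζ' ^ 3 / (C' * δ) - ζ ^ 3 / (C * δ)
      = (C - C') / c * (S / C) * (S / C') * (ζ / z0) ^ 3 * (z0 ^ 3 / (δ * S ^ 2) * c)
        - (ζ - ζ') / c * (S / C') * ((ζ' / z0) ^ 2 + ζ / z0 * (ζ' / z0) + (ζ / z0) ^ 2)
          * (z0 ^ 2 / (δ * S) * c) := by
    field_simp
    ring
  rw [e]
  exact sub_mem (mul_mem (mul_mem (mul_mem (mul_mem k1 k3) k4) (pow_mem k5 3)) h1)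
    (mul_mem (mul_mem (mul_mem k2 k4)
      (add_mem (add_mem (pow_mem k6 2) (mul_mem k5 k6)) (pow_mem k5 2))) h2)
theorem Al_sb (hH : HCongr) (hL : LtB) {a b : FF} (ha : a ≠ 0) (hb : b ≠ 0) {q δ : E} (hq : q ≠ 0)
    (hδ : δ ≠ 0) (k : ℕ) : ∃ j, SB2 j (tr k (Al a b q δ)) := by
  have hq' : (q : FF) ≠ 0 := fun h => hq (Subtype.ext h)
  have hδ' : (δ : FF) ≠ 0 := fun h => hδ (Subtype.ext h)
  have hs := ss_ne_zero
  have hS : (ss : FF) ^ k ≠ 0 := pow_ne_zero _ hs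
  obtain ⟨K, c0, z0, δ1, -, hc0, hz, -, h⟩ := G2_supp hL ha hb hq'
  have hsup : ∀ C ζ, tr k (Al a b q δ) C ζ ≠ 0 →
      (C ≠ 0 ∧ ss ^ k / C ∈ OS) ∧ C / c0 ∈ OS ∧ ζ / z0 ∈ OS := by
    intro C ζ h1
    unfold tr at h1
    split_ifs at h1 with h2
    swap
    · exact (h1 rfl).elim
    have h3 := (h q C δ ζ (Cl.refl hq') h2.1).2 fun h0 => h1 (by
      rw [Al, mul_assoc (H _ _), h0, mul_zero, zero_mul, zero_div])
    exact ⟨h2, h3.1, h3.2.1⟩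
  obtain ⟨b1, hb1, t1⟩ := exists_lat_sup {c0, z0}
  obtain ⟨c, hc, t2⟩ := exists_lat_sup {Bd b ^ 3 * q / (ss ^ k) ^ 2, δ / (q * (ss ^ k) ^ 2),
    Bd b * z0 / (ss ^ k) ^ 2, Bd b / ss ^ k, z0 ^ 3 / (δ * (ss ^ k) ^ 2), z0 ^ 2 / (δ * ss ^ k),
    1 / z0, 1 / (ss ^ k * ss ^ 2)}
  simp only [Finset.mem_insert, Finset.mem_singleton, forall_eq_or_imp, forall_eq,
    div_eq_mul_inv _ c] at t1 t2
  obtain ⟨u1, u2, u3, u4, u5, u6, u7, u8⟩ := t2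
  have hc' := inv_ne_zero hc
  refine hSB2_of hb1 hc' (fun C ζ h1 => ⟨div_mem_OS_trans hc0 (hsup C ζ h1).2.1 t1.1,
    div_mem_OS_trans hz (hsup C ζ h1).2.2 t1.2⟩) fun C C' ζ ζ' k1 k2 h1 => ?_
  obtain ⟨⟨hC, k3⟩, -, k5⟩ := hsup C ζ h1
  have hcl : Cl C C' := by
    rw [Cl_iff_sub hC]
    have e : (C' - C) / (C * ss ^ 2)
        = -((C - C') / c⁻¹ * (ss ^ k / C) * (1 / (ss ^ k * ss ^ 2) * c⁻¹)) := by
      field_simp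
      ring
    rw [e]
    exact neg_mem (mul_mem (mul_mem k1 k3) u8)
  have hC' := hcl.ne_zero
  have k4 : ss ^ k / C' ∈ OS := div_mem_OS_trans hC k3 hcl.symm.div_mem
  have hce : Cl ((ce C : E) : FF) (ce C' : E) := ((ce_cl hC).symm.trans hcl).trans (ce_cl hC')
  rw [tr, tr, if_pos ⟨hC', k4⟩, if_pos ⟨hC, k3⟩, Al, Al, (hH _ _ _ hce (mul_ne_zero hq hδ)).1,
    VorL_fts ha hcl (Cl.refl hq'), hcl.sS_eq,
    VorL_Lt (Bd_ne_zero hb) hq' hz hc' hS hC hC' u1 u2 u3 u4 k1 k2 k3 k4 k5,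
    VorL_ps hδ' hz hc' hS hC hC' u5 u6 u7 k1 k2 k3 k4 k5]
/-- The summand after the last swap. -/
theorem G2_eq (hA : Asw) (hH : HCongr) {a b : FF} {q u η β : E} {w : Pl → ℂ → ℂ} {Y : Pl → ℝ}
    (h : VP a b q u η β w Y) {X : ℝ} (hX : 0 < X) {δ C : E} (hδ : δ ≠ 0) (hC : C ≠ 0) (ζ : E) :
    G2 a b q w Y X δ C ζ = phig δ (-C) ζ * Al a b q δ C ζ *
      ∏ v, ((‖em v q * ((X ^ 3 / Y v ^ 2 : ℝ) : ℂ)‖ ^ 2 : ℝ) : ℂ)⁻¹ *
        (fun y : ℂ × ℂ => ((‖y.1‖ ^ 2 : ℝ) : ℂ)⁻¹ * psi (y.2 ^ 3 / (y.1 * zd q Y δ v))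
          * Ia (w v) y.1 (zd q Y δ v) y.2)
          (em v C / (em v q * ((X ^ 3 / Y v ^ 2 : ℝ) : ℂ)),
            em v ζ / (em v q * ((X / Y v : ℝ) : ℂ))) := by
  have hq' : (q : FF) ≠ 0 := fun h0 => h.hq (Subtype.ext h0)
  have hδ' : (δ : FF) ≠ 0 := fun h0 => hδ (Subtype.ext h0)
  have hC' : (C : FF) ≠ 0 := fun h0 => hC (Subtype.ext h0)
  have h1 : ∀ v : Pl, ((‖em v q * ((X ^ 3 / Y v ^ 2 : ℝ) : ℂ)‖ ^ 2 : ℝ) : ℂ)⁻¹ *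
      (fun y : ℂ × ℂ => ((‖y.1‖ ^ 2 : ℝ) : ℂ)⁻¹ * psi (y.2 ^ 3 / (y.1 * zd q Y δ v))
        * Ia (w v) y.1 (zd q Y δ v) y.2)
        (em v C / (em v q * ((X ^ 3 / Y v ^ 2 : ℝ) : ℂ)),
          em v ζ / (em v q * ((X / Y v : ℝ) : ℂ)))
      = ((‖em v C‖ ^ 2 : ℝ) : ℂ)⁻¹ * psi (em v (((ζ ^ 3 : E) : FF) / (C * δ : E))) *
        Ia (w v) (em v C / (em v q * ((X ^ 3 / Y v ^ 2 : ℝ) : ℂ))) (zd q Y δ v)
          (em v ζ / (em v q * ((X / Y v : ℝ) : ℂ))) := by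
    intro v
    have n1 := em_ne_zero v hq'
    have n2 := em_ne_zero v hδ'
    have n3 := em_ne_zero v hC'
    have n4 : (X : ℂ) ≠ 0 := ofReal_ne_zero.2 hX.ne'
    have n5 : (Y v : ℂ) ≠ 0 := ofReal_ne_zero.2 (h.hY v).ne'
    have n6 : em v q * ((X ^ 3 / Y v ^ 2 : ℝ) : ℂ) ≠ 0 := by
      push_cast
      exact mul_ne_zero n1 (div_ne_zero (pow_ne_zero _ n4) (pow_ne_zero _ n5))
    have e1 : (em v ζ / (em v q * ((X / Y v : ℝ) : ℂ))) ^ 3 /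
        (em v C / (em v q * ((X ^ 3 / Y v ^ 2 : ℝ) : ℂ)) * zd q Y δ v)
        = em v (((ζ ^ 3 : E) : FF) / (C * δ : E)) := by
      rw [zd]
      push_cast
      rw [map_div₀, map_mul, map_pow]
      field_simp
    simp only
    rw [e1, ← mul_assoc, ← mul_assoc, ← mul_inv, ← ofReal_mul, ← mul_pow, ← norm_mul,
      mul_div_cancel₀ _ n6]
  have h2 : (nm C : ℂ) = (Ninf C : ℝ) * (sS C : ℝ) := by exact_mod_cast nm_eq hC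
  rw [Finset.prod_congr rfl fun v _ => h1 v, Finset.prod_mul_distrib, Finset.prod_mul_distrib,
    G2, if_neg hC, hA C δ ζ hC hδ, Al, (hH _ _ _ (ce_cl hC') (mul_ne_zero h.hq hδ)).1,
    H_mul_right hC h.hq hδ, psf_eq, h2, Finset.prod_inv_distrib, ← ofReal_prod, ← Ninf, ← psiV]
  push_cast
  ring
/-- A uniform bound for the archimedean factors. -/
theorem Ia_le (hI : IBd) {w : Pl → ℂ → ℂ} (hw : ∀ v, Adm (w v)) (A : ℕ) : ∃ M : ℝ, 0 < M ∧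
    ∀ (v : Pl) (c z ζ : ℂ), c ≠ 0 → ‖Ia (w v) c z ζ‖
      ≤ M * ‖c‖ * (1 + ‖c‖) ^ (-A : ℝ) * (1 + ‖z‖) ^ (-A : ℝ) * (1 + ‖ζ‖) ^ (-A : ℝ) := by
  obtain ⟨n, C, hC, h⟩ := hI A
  choose W hW hD using fun v => (hw v).exists_DB n
  have h0 : 0 ≤ ∑ v, W v := Finset.sum_nonneg fun v _ => (hW v).le
  refine ⟨C * (1 + ∑ v, W v), by positivity, fun v c z ζ hc =>
    (h _ _ (hw v) (hD v) c z ζ hc).trans ?_⟩
  have h1 : W v ≤ 1 + ∑ v, W v := by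
    linarith [Finset.single_le_sum (fun v _ => (hW v).le) (Finset.mem_univ v)]
  gcongr

end NQ
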