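import Vale.Agent.NQ.RDefs

noncomputable section
namespace NQ
open NumberField IsDedekindDomain Polynomial
open scoped Classical

variable {M M1 M2 : Type} [AddCommGroup M] [AddCommGroup M1] [AddCommGroup M2]

theorem ZOK.ne {W G : M →+ M} (h : ZOK W G) {x : M} (hx : x ≠ 0) : W x ≠ 0 ∧ W x ≠ x := by
  have hr := h.rel x
  refine ⟨fun h0 => hx ?_, fun h0 => hx (h.three x ?_)⟩
  · rwa [h0, map_zero, zero_add, zero_add] at hr
  · rw [h0, h0] at hr
    rw [← hr]; abel

theorem Zc_cube {W G : M →+ M} (h : ZOK W G) (x : M) : W (W (W x)) = x := by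
  have h1 := h.rel (W x)
  have h2 := h.rel x
  rw [← sub_eq_zero, ← sub_zero (0 : M)]
  nth_rw 1 [← h1]
  rw [← h2]; abel

theorem Zc_bij {W G : M →+ M} (h : ZOK W G) : Function.Bijective W :=
  Function.bijective_iff_has_inverse.2 ⟨fun x => W (W x), Zc_cube h, Zc_cube h⟩

theorem ZOK.exists_or {W G : M →+ M} (h : ZOK W G) :
    ∃ o : M → ZMod 3, ∀ x, x ≠ 0 → o (W x) = o x + 1 := by
  have := h.fin
  obtain ⟨n, hn⟩ := Countable.exists_injective_nat M
  refine ⟨fun x => if n x ≤ n (W x) ∧ n x ≤ n (W (W x)) then 0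
    else if n (W (W x)) ≤ n x ∧ n (W (W x)) ≤ n (W x) then 1 else 2, fun x hx => ?_⟩
  have h1 : n (W x) ≠ n x := fun e => (h.ne hx).2 (hn e)
  have h2 : n (W (W x)) ≠ n (W x) := fun e => (h.ne (h.ne hx).1).2 (hn e)
  have h3 : n x ≠ n (W (W x)) := fun e =>
    (h.ne (h.ne (h.ne hx).1).1).2 ((Zc_cube h x).trans (hn e))
  simp only [Zc_cube h]
  split_ifs <;> first | rfl | omega

/-- The sum over the transversal of an orientation. -/
def ZcS {A : Type} [AddCommMonoid A] [Fintype M] (o : M → ZMod 3) (f : M → A) : A :=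
  ∑ x, if x ≠ 0 ∧ o x = 0 then f x else 0

section
variable {A : Type} [AddCommMonoid A] [Fintype M] {W G : M →+ M}

theorem Zc_shift (h : ZOK W G) {f : M → A} (hf : ∀ x, x ≠ 0 → f (W x) = f x) {p q : M → Prop}
    [DecidablePred p] [DecidablePred q] (hpq : ∀ x, x ≠ 0 → (p x ↔ q (W x))) :
    (∑ x, if x ≠ 0 ∧ p x then f x else 0) = ∑ x, if x ≠ 0 ∧ q x then f x else 0 := by
  refine Fintype.sum_bijective W (Zc_bij h) _ _ fun x => ?_
  by_cases hx : x = 0
  · simp [hx]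
  · simp only [ne_eq, hx, not_false_eq_true, true_and, (h.ne hx).1, hf x hx, hpq x hx]

theorem Zc_split (o : M → ZMod 3) (f : M → A) (p : M → Prop) [DecidablePred p] :
    (∑ x, if x ≠ 0 ∧ p x then f x else 0) = (∑ x, if x ≠ 0 ∧ (p x ∧ o x = 0) then f x else 0) +
      (∑ x, if x ≠ 0 ∧ (p x ∧ o x = 1) then f x else 0) +
      ∑ x, if x ≠ 0 ∧ (p x ∧ o x = 2) then f x else 0 := by
  rw [← Finset.sum_add_distrib, ← Finset.sum_add_distrib]
  refine Finset.sum_congr rfl fun x _ => ?_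
  have : ∀ t : ZMod 3, (t = 0 ∧ t ≠ 1 ∧ t ≠ 2) ∨ (t ≠ 0 ∧ t = 1 ∧ t ≠ 2) ∨
    (t ≠ 0 ∧ t ≠ 1 ∧ t = 2) := by decide
  rcases this (o x) with ⟨a, b, c⟩ | ⟨a, b, c⟩ | ⟨a, b, c⟩
  · simp only [eq_true a, eq_false b, eq_false c]; simp
  · simp only [eq_false a, eq_true b, eq_false c]; simp
  · simp only [eq_false a, eq_false b, eq_true c]; simp

theorem ZcS_indep (h : ZOK W G) {f : M → A} (hf : ∀ x, x ≠ 0 → f (W x) = f x) {o o' : M → ZMod 3}
    (ho : ∀ x, x ≠ 0 → o (W x) = o x + 1) (ho' : ∀ x, x ≠ 0 → o' (W x) = o' x + 1) :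
    ZcS o f = ZcS o' f := by
  unfold ZcS
  rw [Zc_split o' f, Zc_split o f fun x => o' x = 0]
  have e0 : (∑ x, if x ≠ 0 ∧ (o x = 0 ∧ o' x = 0) then f x else 0) =
      ∑ x, if x ≠ 0 ∧ (o' x = 0 ∧ o x = 0) then f x else 0 := by simp only [and_comm]
  have e1 : (∑ x, if x ≠ 0 ∧ (o' x = 0 ∧ o x = 2) then f x else 0) =
      ∑ x, if x ≠ 0 ∧ (o x = 0 ∧ o' x = 1) then f x else 0 := by
    refine Zc_shift h hf fun x hx => ?_
    rw [ho x hx, ho' x hx]
    generalize o x = a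
    generalize o' x = b
    revert a b; decide
  have e2 : (∑ x, if x ≠ 0 ∧ (o x = 0 ∧ o' x = 2) then f x else 0) =
      ∑ x, if x ≠ 0 ∧ (o' x = 0 ∧ o x = 1) then f x else 0 := by
    refine Zc_shift h hf fun x hx => ?_
    rw [ho x hx, ho' x hx]
    generalize o x = a
    generalize o' x = b
    revert a b; decide
  rw [e0, e1, e2, add_right_comm]

omit [Fintype M] in
theorem Zc_G_ne (h : ZOK W G) {x : M} (hx : x ≠ 0) : G x ≠ 0 :=
  fun e => hx (h.bij.1 (e.trans (map_zero G).symm))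

theorem ZcS_comp (h : ZOK W G) {f : M → A} (hf : ∀ x, x ≠ 0 → f (W x) = f x) {o : M → ZMod 3}
    (ho : ∀ x, x ≠ 0 → o (W x) = o x + 1) : ZcS o (fun x => f (G x)) = ZcS o f := by
  rw [ZcS_indep h (f := fun x => f (G x)) (o' := fun x => o (G x))
    (fun x hx => by rw [← h.comm, hf _ (Zc_G_ne h hx)]) ho
    (fun x hx => by rw [← h.comm, ho _ (Zc_G_ne h hx)])]
  refine Fintype.sum_bijective G h.bij _ _ fun x => ?_
  by_cases hx : x = 0
  · simp [hx]
  · simp only [ne_eq, hx, not_false_eq_true, true_and, Zc_G_ne h hx]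

theorem ZcS_congr {o : M → ZMod 3} {f g : M → A} (hfg : ∀ x, x ≠ 0 → o x = 0 → f x = g x) :
    ZcS o f = ZcS o g := by
  refine Finset.sum_congr rfl fun x _ => ?_
  split_ifs with hx
  · exact hfg x hx.1 hx.2
  · rfl

theorem ZcS_add (o : M → ZMod 3) (f g : M → A) :
    ZcS o (fun x => f x + g x) = ZcS o f + ZcS o g := by
  unfold ZcS
  rw [← Finset.sum_add_distrib]
  refine Finset.sum_congr rfl fun x _ => ?_
  split_ifs <;> simp

theorem ZcS_or (h : ZOK W G) {o o' : M → ZMod 3} (ho : ∀ x, x ≠ 0 → o (W x) = o x + 1)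
    (ho' : ∀ x, x ≠ 0 → o' (W x) = o' x + 1) :
    ZcS o' (fun x => o' (G x)) = ZcS o fun x => o (G x) := by
  have hd : ∀ x, x ≠ 0 → o (G (W x)) - o (W x) = o (G x) - o x := fun x hx => by
    rw [← h.comm, ho _ (Zc_G_ne h hx), ho x hx]; ring
  have he : ∀ x, x ≠ 0 → o' (W x) - o (W x) = o' x - o x := fun x hx => by
    rw [ho x hx, ho' x hx]; ring
  have e1 : ZcS o (fun x => o (G x)) = ZcS o' fun x => o (G x) - o x := by
    rw [← ZcS_indep h (f := fun x => o (G x) - o x) hd ho ho']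
    exact ZcS_congr fun x _ h0 => by rw [h0, sub_zero]
  have e2 := ZcS_comp h (f := fun x => o' x - o x) he ho'
  have e3 : ZcS o' (fun x => o' (G x)) + ZcS o' (fun x => o' x - o x) =
      ZcS o' (fun x => o (G x) - o x) + ZcS o' fun x => o' (G x) - o (G x) := by
    rw [← ZcS_add, ← ZcS_add]
    exact ZcS_congr fun x _ h0 => by rw [h0]; ring
  rw [e2] at e3
  rw [e1]
  exact add_right_cancel e3

theorem Zc_eq (h : ZOK W G) {o : M → ZMod 3} (ho : ∀ x, x ≠ 0 → o (W x) = o x + 1) :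
    Zs W G = ZcS o fun x => o (G x) := by
  have hex : ∃ o : M → ZMod 3, ∀ x, x ≠ 0 → o (W x) = o x + 1 := ⟨o, ho⟩
  unfold Zs
  rw [dif_pos hex, finsum_eq_sum_of_fintype]
  exact ZcS_or h ho hex.choose_spec

theorem Zc_card (h : ZOK W G) {o : M → ZMod 3} (ho : ∀ x, x ≠ 0 → o (W x) = o x + 1) :
    Nat.card M = 3 * ZcS o (fun _ => 1) + 1 := by
  have e := Zc_split o (fun _ => (1 : ℕ)) fun _ => True
  have e1 : (∑ x, if x ≠ 0 ∧ o x = 0 then 1 else 0) =
      ∑ x, if x ≠ 0 ∧ o x = 1 then (1 : ℕ) else 0 := by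
    refine Zc_shift h (f := fun _ => 1) (fun _ _ => rfl) fun x hx => ?_
    rw [ho x hx]
    generalize o x = a
    revert a; decide
  have e2 : (∑ x, if x ≠ 0 ∧ o x = 1 then 1 else 0) =
      ∑ x, if x ≠ 0 ∧ o x = 2 then (1 : ℕ) else 0 := by
    refine Zc_shift h (f := fun _ => 1) (fun _ _ => rfl) fun x hx => ?_
    rw [ho x hx]
    generalize o x = a
    revert a; decide
  simp only [true_and, and_true] at e
  rw [← e2, ← e1] at e
  have e3 : Nat.card M = (∑ x : M, if x ≠ 0 then 1 else 0) + ∑ x : M, if x = 0 then 1 else 0 := by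
    rw [← Finset.sum_add_distrib, Nat.card_eq_fintype_card, Fintype.card_eq_sum_ones]
    refine Finset.sum_congr rfl fun x _ => ?_
    by_cases hx : x = 0 <;> simp [hx]
  rw [e3, e, Finset.sum_ite_eq' Finset.univ (0 : M) fun _ => 1]
  unfold ZcS
  simp only [Finset.mem_univ, if_true]
  ring

end

/-- The sign does not depend on the orientation. -/
theorem Zs_eq {W G : M →+ M} (h : ZOK W G) (o : M → ZMod 3)
    (ho : ∀ x, x ≠ 0 → o (W x) = o x + 1) :
    Zs W G = ∑ᶠ x, if x ≠ 0 ∧ o x = 0 then o (G x) else 0 := by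
  have := h.fin
  have := Fintype.ofFinite M
  rw [finsum_eq_sum_of_fintype]
  exact Zc_eq h ho
theorem ZOK.card_mod {W G : M →+ M} (h : ZOK W G) : Nat.card M % 3 = 1 := by
  have := h.fin
  have := Fintype.ofFinite M
  obtain ⟨o, ho⟩ := h.exists_or
  rw [Zc_card h ho]
  omega
theorem ZOK.comp {W G G' : M →+ M} (h : ZOK W G) (h' : ZOK W G') : ZOK W (G.comp G') :=
  ⟨h.fin, h.rel, h.three, fun x => by
    rw [AddMonoidHom.comp_apply, AddMonoidHom.comp_apply, h.comm, h'.comm], h.bij.comp h'.bij⟩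
theorem Zs_comp {W G G' : M →+ M} (h : ZOK W G) (h' : ZOK W G') :
    Zs W (G.comp G') = Zs W G + Zs W G' := by
  have := h.fin
  have := Fintype.ofFinite M
  obtain ⟨o, ho⟩ := h.exists_or
  have hd : ∀ x, x ≠ 0 → o (G (W x)) - o (W x) = o (G x) - o x := fun x hx => by
    rw [← h.comm, ho _ (Zc_G_ne h hx), ho x hx]; ring
  have e1 : ZcS o (fun x => o (G x)) = ZcS o fun x => o (G x) - o x :=
    ZcS_congr fun x _ h0 => by rw [h0, sub_zero]
  rw [Zc_eq (h.comp h') ho, Zc_eq h ho, Zc_eq h' ho, e1,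
    ← ZcS_comp h' (f := fun x => o (G x) - o x) hd ho, ← ZcS_add]
  exact ZcS_congr fun x _ _ => by rw [AddMonoidHom.comp_apply]; ring
theorem Zs_id {N : Type} [Zero N] (W G : N → N) (h : ∀ x, G x = x) : Zs W G = 0 := by
  unfold Zs
  split_ifs with hex
  · refine finsum_eq_zero_of_forall_eq_zero fun x => ?_
    split_ifs with hx
    · rw [h x, hx.2]
    · rfl
  · rfl
theorem Zs_subsingleton {N : Type} [Zero N] [Subsingleton N] (W G : N → N) : Zs W G = 0 :=
  Zs_id W G fun _ => Subsingleton.elim _ _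
theorem Zs_equiv {W G : M →+ M} {W1 G1 : M1 →+ M1} (h : ZOK W G) (e : M ≃+ M1)
    (hW : ∀ x, e (W x) = W1 (e x)) (hG : ∀ x, e (G x) = G1 (e x)) : Zs W1 G1 = Zs W G := by
  have := h.fin
  have h1 : ZOK W1 G1 := by
    refine ⟨Finite.of_equiv M e.toEquiv, fun y => ?_, fun y hy => ?_, fun y => ?_, ?_⟩
    · obtain ⟨x, rfl⟩ := e.surjective y
      rw [← hW, ← hW, ← map_add, ← map_add, h.rel, map_zero]
    · obtain ⟨x, rfl⟩ := e.surjective y
      rw [← map_nsmul, map_eq_zero_iff e e.injective] at hy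
      rw [h.three x hy, map_zero]
    · obtain ⟨x, rfl⟩ := e.surjective y
      rw [← hG, ← hW, ← hW, ← hG, h.comm]
    · have : G1 ∘ e = e ∘ G := funext fun x => (hG x).symm
      exact (e.bijective.of_comp_iff G1).1 (this ▸ e.bijective.comp h.bij)
  have := h1.fin
  have := Fintype.ofFinite M
  have := Fintype.ofFinite M1
  obtain ⟨o, ho⟩ := h1.exists_or
  rw [Zc_eq h1 ho, Zc_eq h (o := fun x => o (e x)) fun x hx => by
    rw [hW, ho _ ((map_ne_zero_iff e e.injective).2 hx)]]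
  refine (Fintype.sum_bijective e e.bijective _ _ fun x => ?_).symm
  simp only [hG, ne_eq, map_eq_zero_iff e e.injective]
/-- Additivity in exact sequences. -/
theorem Zs_exact {W G : M →+ M} {W1 G1 : M1 →+ M1} {W2 G2 : M2 →+ M2} (h : ZOK W G)
    (h1 : ZOK W1 G1) (h2 : ZOK W2 G2) (i : M1 →+ M) (π : M →+ M2) (hi : Function.Injective i)
    (hπ : Function.Surjective π) (hex : ∀ x, π x = 0 ↔ ∃ y, i y = x)
    (hW1 : ∀ x, i (W1 x) = W (i x)) (hG1 : ∀ x, i (G1 x) = G (i x))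
    (hW2 : ∀ x, π (W x) = W2 (π x)) (hG2 : ∀ x, π (G x) = G2 (π x)) :
    Zs W G = Zs W1 G1 + Zs W2 G2 := by
  have := h.fin
  have := h1.fin
  have := h2.fin
  have := Fintype.ofFinite M
  have := Fintype.ofFinite M1
  have := Fintype.ofFinite M2
  obtain ⟨o1, ho1⟩ := h1.exists_or
  obtain ⟨o2, ho2⟩ := h2.exists_or
  have hπi : ∀ y, π (i y) = 0 := fun y => (hex _).2 ⟨y, rfl⟩
  obtain ⟨o, hoa, hob⟩ : ∃ o : M → ZMod 3, (∀ y, o (i y) = o1 y) ∧
      ∀ x, π x ≠ 0 → o x = o2 (π x) :=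
    ⟨fun x => if π x = 0 then o1 (Function.invFun i x) else o2 (π x),
      fun y => by simp only [hπi, if_true, Function.leftInverse_invFun hi y],
      fun x hx => if_neg hx⟩
  have ho : ∀ x, x ≠ 0 → o (W x) = o x + 1 := by
    intro x hx
    by_cases h0 : π x = 0
    · obtain ⟨y, rfl⟩ := (hex x).1 h0
      rw [← hW1, hoa, hoa, ho1 y fun e => hx (by rw [e, map_zero])]
    · rw [hob x h0, hob _ (by rw [hW2]; exact (h2.ne h0).1), hW2, ho2 _ h0]
  rw [Zc_eq h ho, Zc_eq h1 ho1, Zc_eq h2 ho2]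
  obtain ⟨s, hs⟩ := hπ.hasRightInverse
  have hb : Function.Bijective fun p : M1 × M2 => i p.1 + s p.2 := by
    refine ⟨fun p q hpq => ?_, fun x => ?_⟩
    · have e2 : p.2 = q.2 := by
        have := congrArg π hpq
        simpa only [map_add, hπi, hs _, zero_add] using this
      dsimp only at hpq
      rw [e2] at hpq
      exact Prod.ext (hi (add_right_cancel hpq)) e2
    · obtain ⟨y, hy⟩ := (hex (x - s (π x))).1 (by rw [map_sub, hs, sub_self])
      exact ⟨(y, π x), by dsimp only; rw [hy, sub_add_cancel]⟩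
  have ea : ZcS o1 (fun y => o1 (G1 y)) =
      ∑ x, if π x = 0 then (if x ≠ 0 ∧ o x = 0 then o (G x) else 0) else 0 := by
    refine Fintype.sum_of_injective i hi _ _ (fun x hx => if_neg fun h0 => hx ((hex x).1 h0))
      fun y => ?_
    simp only [hπi, if_true, ← hG1, hoa, ne_eq, map_eq_zero_iff i hi]
  have eb : ZcS o2 (fun z => o2 (G2 z)) =
      ∑ x, if π x ≠ 0 ∧ o2 (π x) = 0 then o2 (G2 (π x)) else 0 := by
    rw [← Fintype.sum_bijective _ hb
      (fun p => if p.2 ≠ 0 ∧ o2 p.2 = 0 then o2 (G2 p.2) else 0) _ fun p => by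
        simp only [map_add, hπi, hs _, zero_add], Fintype.sum_prod_type]
    refine Eq.trans ?_ (Finset.sum_const (ZcS o2 fun z => o2 (G2 z))).symm
    rw [Finset.card_univ, nsmul_eq_mul, ← Nat.card_eq_fintype_card, ← ZMod.natCast_mod,
      h1.card_mod, Nat.cast_one, one_mul]
  rw [ea, eb, ← Finset.sum_add_distrib]
  refine Finset.sum_congr rfl fun x _ => ?_
  by_cases h0 : π x = 0
  · simp [h0]
  · have hx : x ≠ 0 := fun e => h0 (by rw [e, map_zero])
    dsimp only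
    rw [if_neg h0, zero_add, hob x h0, hob (G x) (by rw [hG2]; exact Zc_G_ne h2 h0), hG2]
    simp only [ne_eq, hx, h0]

theorem Zc_w_cube {T : Type} [CommRing T] {w : T} (hw : w ^ 2 + w + 1 = 0) : w ^ 3 = 1 := by
  linear_combination (w - 1) * hw

theorem Zc_pow_add {T : Type} [CommRing T] {w : T} (hw : w ^ 2 + w + 1 = 0) (a b : ZMod 3) :
    w ^ (a + b).val = w ^ a.val * w ^ b.val := by
  rw [ZMod.val_add, ← pow_add, ← pow_eq_pow_mod _ (Zc_w_cube hw)]

/-- The Gauss lemma. -/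
theorem zr_field {T : Type} [Field T] [Finite T] {w g : T} (hw : w ^ 2 + w + 1 = 0)
    (h3 : (3 : T) ≠ 0) (hg : g ≠ 0) : g ^ ((Nat.card T - 1) / 3) = w ^ (zr w g).val := by
  have := Fintype.ofFinite T
  have h : ZOK (AddMonoidHom.mulLeft w) (AddMonoidHom.mulLeft g) := by
    refine ⟨inferInstance, fun x => ?_, fun x hx => ?_, fun x => mul_left_comm _ _ _,
      mulLeft_bijective₀ g hg⟩
    · change w * (w * x) + w * x + x = 0
      linear_combination x * hw
    · rw [nsmul_eq_mul, Nat.cast_ofNat] at hx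
      exact (mul_eq_zero.1 hx).resolve_left h3
  obtain ⟨o, ho⟩ := h.exists_or
  have hz : zr w g = ZcS o fun x => o (g * x) := Zc_eq h ho
  have hc : (Nat.card T - 1) / 3 = ZcS o fun _ => 1 := by rw [Zc_card h ho]; omega
  have hf : ∀ x : T, x ≠ 0 → Additive.ofMul (w ^ (-o (w * x)).val * (w * x)) =
      Additive.ofMul (w ^ (-o x).val * x) := fun x hx => by
    have e : -o x = -o (w * x) + 1 := by
      rw [show o (w * x) = o x + 1 from ho x hx]; ring
    rw [e, Zc_pow_add hw, mul_assoc]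
    congr 3
    exact (pow_one w).symm
  have key := ZcS_comp h (f := fun x => Additive.ofMul (w ^ (-o x).val * x)) hf ho
  rw [hz, hc]
  unfold ZcS at key ⊢
  simp only [← Finset.sum_filter] at key ⊢
  set R := Finset.univ.filter fun x : T => x ≠ 0 ∧ o x = 0 with hR
  have hmem : ∀ x ∈ R, x ≠ 0 ∧ o x = 0 := fun x hx => (Finset.mem_filter.1 hx).2
  have k1 : ∏ x ∈ R, (w ^ (-o (g * x)).val * (g * x)) = ∏ x ∈ R, x := by
    have := congrArg Additive.toMul key
    rw [toMul_sum, toMul_sum] at this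
    refine this.trans (Finset.prod_congr rfl fun x hx => ?_)
    rw [toMul_ofMul, (hmem x hx).2, neg_zero, ZMod.val_zero, pow_zero, one_mul]
  have k2 : ∀ S : Finset T, w ^ (∑ x ∈ S, o (g * x)).val * ∏ x ∈ S, w ^ (-o (g * x)).val = 1 := by
    intro S
    induction S using Finset.induction_on with
    | empty => simp
    | insert a S ha ih =>
      rw [Finset.sum_insert ha, Finset.prod_insert ha, Zc_pow_add hw, mul_mul_mul_comm, ih,
        ← Zc_pow_add hw, add_neg_cancel, ZMod.val_zero, pow_zero, one_mul]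
  have k3 : ∏ x ∈ R, x ≠ 0 := Finset.prod_ne_zero_iff.2 fun x hx => (hmem x hx).1
  rw [Finset.prod_mul_distrib, Finset.prod_mul_distrib, Finset.prod_const] at k1
  rw [← Finset.card_eq_sum_ones]
  refine mul_right_cancel₀ k3 ?_
  linear_combination w ^ (∑ x ∈ R, o (g * x)).val * k1 - g ^ R.card * (∏ x ∈ R, x) * k2 R
theorem pow_inj_three {T : Type} [CommRing T] [IsDomain T] {w : T} (hw : w ^ 2 + w + 1 = 0)
    (h3 : (3 : T) ≠ 0) {i j : ℕ} (h : w ^ i = w ^ j) : (i : ZMod 3) = j := by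
  have : Fact (Nat.Prime 3) := ⟨Nat.prime_three⟩
  have h1 : w ≠ 1 := fun e => h3 (by rw [e] at hw; linear_combination hw)
  have ho : orderOf w = 3 := orderOf_eq_prime (Zc_w_cube hw) h1
  have hf : IsOfFinOrder w := orderOf_pos_iff.1 (by rw [ho]; norm_num)
  rw [hf.pow_eq_pow_iff_modEq, ho] at h
  exact (ZMod.natCast_eq_natCast_iff _ _ _).2 h

end NQ
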