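import Vale.Agent.NQ.Zc

noncomputable section
namespace NQ
open NumberField IsDedekindDomain Polynomial
open scoped Classical

variable {B B' : Type} [CommRing B] [CommRing B']

/-- The hypotheses under which `zq w g J` behaves well. -/
structure QOK (w g : B) (J : Ideal B) : Prop where
  fin : Finite (B ⧸ J)
  rel : w ^ 2 + w + 1 ∈ J
  three : J ⊔ Ideal.span {3} = ⊤
  unit : J ⊔ Ideal.span {g} = ⊤
theorem zr_mem_sup {J : Ideal B} {x y : B} :
    x ∈ J ⊔ Ideal.span {y} ↔ ∃ a, ∃ b ∈ J, a * y + b = x := by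
  rw [sup_comm, Ideal.mem_span_singleton_sup]
theorem zok_mul [Finite B] {w g : B} (hw : w ^ 2 + w + 1 = 0) (h3 : IsUnit (3 : B))
    (hg : IsUnit g) : ZOK (AddMonoidHom.mulLeft w) (AddMonoidHom.mulLeft g) where
  fin := inferInstance
  rel x := by
    change w * (w * x) + w * x + x = 0
    linear_combination x * hw
  three x hx := by
    rw [nsmul_eq_mul, Nat.cast_ofNat] at hx
    exact h3.mul_right_eq_zero.1 hx
  comm x := mul_left_comm w g x
  bij := IsUnit.isUnit_iff_mulLeft_bijective.1 hg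
theorem isUnit_mk_iff {J : Ideal B} {g : B} :
    IsUnit (Ideal.Quotient.mk J g) ↔ J ⊔ Ideal.span {g} = ⊤ := by
  rw [Ideal.eq_top_iff_one, zr_mem_sup, isUnit_iff_exists_inv']
  constructor
  · rintro ⟨b, hb⟩
    obtain ⟨b, rfl⟩ := Ideal.Quotient.mk_surjective b
    rw [← map_mul, ← map_one (Ideal.Quotient.mk J), eq_comm, Ideal.Quotient.eq] at hb
    exact ⟨b, _, hb, by ring⟩
  · rintro ⟨a, b, hb, h⟩
    refine ⟨Ideal.Quotient.mk J a, ?_⟩
    rw [← map_mul, ← map_one (Ideal.Quotient.mk J), eq_comm, Ideal.Quotient.eq, ← h]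
    simpa using hb
theorem QOK.zr_rel {w g : B} {J : Ideal B} (h : QOK w g J) :
    Ideal.Quotient.mk J w ^ 2 + Ideal.Quotient.mk J w + 1 = 0 := by
  have h1 := Ideal.Quotient.eq_zero_iff_mem.2 h.rel
  rwa [map_add, map_add, map_pow, map_one] at h1
theorem QOK.zr_three {w g : B} {J : Ideal B} (h : QOK w g J) : IsUnit (3 : B ⧸ J) := by
  have h1 := isUnit_mk_iff.2 h.three
  rwa [map_ofNat] at h1
theorem QOK.zok {w g : B} {J : Ideal B} (h : QOK w g J) :
    ZOK (AddMonoidHom.mulLeft (Ideal.Quotient.mk J w))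
      (AddMonoidHom.mulLeft (Ideal.Quotient.mk J g)) :=
  have := h.fin
  zok_mul h.zr_rel h.zr_three (isUnit_mk_iff.2 h.unit)
theorem zr_fin_of_le {R S M : Type} [Ring R] [Ring S] [AddCommGroup M] [Module R M] [Module S M]
    {p : Submodule R M} {q : Submodule S M} (h : ∀ x ∈ p, x ∈ q) (hp : Finite (M ⧸ p)) :
    Finite (M ⧸ q) := by
  refine Finite.of_surjective (fun u : M ⧸ p => q.mkQ (Quotient.out u)) fun x => ?_
  obtain ⟨x, rfl⟩ := q.mkQ_surjective x
  refine ⟨p.mkQ x, (Submodule.Quotient.eq q).2 (h _ ((Submodule.Quotient.eq p).1 ?_))⟩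
  exact Quotient.out_eq _
theorem QOK.mono {w g : B} {J J' : Ideal B} (h : QOK w g J) (hJ : J ≤ J') : QOK w g J' :=
  ⟨zr_fin_of_le (fun _ hx => hJ hx) h.fin, hJ h.rel,
    top_le_iff.1 (h.three.ge.trans (sup_le_sup_right hJ _)),
    top_le_iff.1 (h.unit.ge.trans (sup_le_sup_right hJ _))⟩
theorem QOK.mul {w g g' : B} {J : Ideal B} (h : QOK w g J) (h' : QOK w g' J) : QOK w (g * g') J :=
  ⟨h.fin, h.rel, h.three, isUnit_mk_iff.1 (by
    rw [map_mul]; exact (isUnit_mk_iff.2 h.unit).mul (isUnit_mk_iff.2 h'.unit))⟩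
theorem QOK.pow {w g : B} {J : Ideal B} (h : QOK w g J) (k : ℕ) : QOK w (g ^ k) J :=
  ⟨h.fin, h.rel, h.three, isUnit_mk_iff.1 (by
    rw [map_pow]; exact (isUnit_mk_iff.2 h.unit).pow k)⟩
theorem zr_one (w : B) : zr w 1 = 0 := Zs_id _ _ one_mul
theorem zr_equiv [Finite B] (e : B ≃+* B') {w g : B} (hw : w ^ 2 + w + 1 = 0)
    (h3 : IsUnit (3 : B)) (hg : IsUnit g) : zr (e w) (e g) = zr w g :=
  Zs_equiv (W1 := AddMonoidHom.mulLeft (e w)) (G1 := AddMonoidHom.mulLeft (e g))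
    (zok_mul hw h3 hg) e.toAddEquiv (fun x => map_mul e w x) fun x => map_mul e g x
theorem zr_mul [Finite B] {w g g' : B} (hw : w ^ 2 + w + 1 = 0) (h3 : IsUnit (3 : B))
    (hg : IsUnit g) (hg' : IsUnit g') : zr w (g * g') = zr w g + zr w g' := by
  have h : Zs (fun x => w * x) (fun x => g * (g' * x)) = zr w g + zr w g' :=
    Zs_comp (zok_mul hw h3 hg) (zok_mul hw h3 hg')
  simp only [← mul_assoc] at h
  exact h
theorem zr_pow [Finite B] {w g : B} (hw : w ^ 2 + w + 1 = 0) (h3 : IsUnit (3 : B))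
    (hg : IsUnit g) (k : ℕ) : zr w (g ^ k) = k * zr w g := by
  induction k with
  | zero => rw [pow_zero, zr_one, Nat.cast_zero, zero_mul]
  | succ k ih => rw [pow_succ, zr_mul hw h3 (hg.pow k) hg, ih, Nat.cast_succ, add_mul, one_mul]
theorem zr_neg [Finite B] {w g : B} (hw : w ^ 2 + w + 1 = 0) (h3 : IsUnit (3 : B))
    (hg : IsUnit g) : zr w (-g) = zr w g := by
  have h1 := zr_mul hw h3 isUnit_one.neg isUnit_one.neg
  rw [neg_mul_neg, one_mul, zr_one] at h1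
  have h2 : ∀ x : ZMod 3, 0 = x + x → x = 0 := by decide
  rw [← neg_one_mul, zr_mul hw h3 isUnit_one.neg hg, h2 _ h1, zero_add]
theorem zq_top (w g : B) : zq w g ⊤ = 0 :=
  have : Subsingleton (B ⧸ (⊤ : Ideal B)) := Ideal.Quotient.subsingleton_iff.2 rfl
  Zs_subsingleton _ _
theorem zq_one (w : B) (J : Ideal B) : zq w 1 J = 0 := by
  rw [zq, map_one, zr_one]
theorem zq_congr (w : B) {g g' : B} {J : Ideal B} (h : g - g' ∈ J) : zq w g J = zq w g' J := by
  rw [zq, zq, Ideal.Quotient.eq.2 h]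
theorem zq_mul_left {w g g' : B} {J : Ideal B} (h : QOK w g J) (h' : QOK w g' J) :
    zq w (g * g') J = zq w g J + zq w g' J := by
  have := h.fin
  rw [zq, map_mul, zr_mul h.zr_rel h.zr_three (isUnit_mk_iff.2 h.unit) (isUnit_mk_iff.2 h'.unit)]
  rfl
theorem zq_pow {w g : B} {J : Ideal B} (h : QOK w g J) (k : ℕ) : zq w (g ^ k) J = k * zq w g J := by
  have := h.fin
  rw [zq, map_pow, zr_pow h.zr_rel h.zr_three (isUnit_mk_iff.2 h.unit)]
  rfl
theorem zr_exists_equiv (φ : B →+* B') {J : Ideal B} {J' : Ideal B'}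
    (hJ : ∀ x, φ x ∈ J' ↔ x ∈ J) (hs : ∀ y, ∃ x, y - φ x ∈ J') : ∃ e : B ⧸ J ≃+* B' ⧸ J',
      ∀ x, e (Ideal.Quotient.mk J x) = Ideal.Quotient.mk J' (φ x) := by
  refine ⟨RingEquiv.ofBijective (Ideal.quotientMap J' φ fun x hx => (hJ x).2 hx)
    ⟨Ideal.quotientMap_injective' fun x hx => (hJ x).1 hx, fun y => ?_⟩, fun x => rfl⟩
  obtain ⟨y, rfl⟩ := Ideal.Quotient.mk_surjective y
  obtain ⟨x, hx⟩ := hs y
  exact ⟨Ideal.Quotient.mk J x, (Ideal.Quotient.eq.2 hx).symm⟩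
/-- Transport along a map that induces an isomorphism of the quotients. -/
theorem zq_map (φ : B →+* B') {w g : B} {J : Ideal B} {J' : Ideal B'}
    (hJ : ∀ x, φ x ∈ J' ↔ x ∈ J) (hs : ∀ y, ∃ x, y - φ x ∈ J') (h : QOK w g J) :
    QOK (φ w) (φ g) J' ∧ zq (φ w) (φ g) J' = zq w g J := by
  obtain ⟨e, he⟩ := zr_exists_equiv φ hJ hs
  have := h.fin
  refine ⟨⟨Finite.of_equiv _ e.toEquiv, ?_, isUnit_mk_iff.1 ?_, isUnit_mk_iff.1 ?_⟩, ?_⟩
  · have h1 := (hJ _).2 h.rel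
    rwa [map_add, map_add, map_pow, map_one] at h1
  · have h1 := h.zr_three.map e
    rw [map_ofNat] at h1 ⊢
    exact h1
  · rw [← he]
    exact (isUnit_mk_iff.2 h.unit).map e
  · rw [zq, ← he, ← he, zr_equiv e h.zr_rel h.zr_three (isUnit_mk_iff.2 h.unit), zq]
theorem QOK.comap (φ : B →+* B') {w g : B} {J : Ideal B} {J' : Ideal B'}
    (hJ : ∀ x, φ x ∈ J' ↔ x ∈ J) (hs : ∀ y, ∃ x, y - φ x ∈ J') (h : QOK (φ w) (φ g) J') :
    QOK w g J := by
  obtain ⟨e, he⟩ := zr_exists_equiv φ hJ hs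
  have := h.fin
  refine ⟨Finite.of_equiv _ e.toEquiv.symm, (hJ _).1 ?_, isUnit_mk_iff.1 ?_, isUnit_mk_iff.1 ?_⟩
  · rw [map_add, map_add, map_pow, map_one]
    exact h.rel
  · have h1 := h.zr_three.map e.symm
    rw [map_ofNat] at h1 ⊢
    exact h1
  · have h1 := (isUnit_mk_iff.2 h.unit).map e.symm
    rwa [← he, e.symm_apply_apply] at h1
theorem finite_sup_mul {J : Ideal B} {a b : B} (ha : Finite (B ⧸ (J ⊔ Ideal.span {a})))
    (hb : Finite (B ⧸ (J ⊔ Ideal.span {b}))) : Finite (B ⧸ (J ⊔ Ideal.span {a * b})) := by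
  refine Finite.of_surjective (fun u : (B ⧸ (J ⊔ Ideal.span {a})) × (B ⧸ (J ⊔ Ideal.span {b})) =>
    Ideal.Quotient.mk _ (Quotient.out u.1 + a * Quotient.out u.2)) fun x => ?_
  obtain ⟨x, rfl⟩ := Ideal.Quotient.mk_surjective x
  obtain ⟨y, j, hj, h1⟩ := zr_mem_sup.1 (Ideal.Quotient.eq.1
    (Ideal.Quotient.mk_out (Ideal.Quotient.mk (J ⊔ Ideal.span {a}) x)).symm)
  obtain ⟨t, j', hj', h2⟩ := zr_mem_sup.1 (Ideal.Quotient.eq.1
    (Ideal.Quotient.mk_out (Ideal.Quotient.mk (J ⊔ Ideal.span {b}) y)).symm)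
  refine ⟨(Ideal.Quotient.mk _ x, Ideal.Quotient.mk _ y), (Ideal.Quotient.eq.2 ?_).symm⟩
  exact zr_mem_sup.2 ⟨t, j + a * j', J.add_mem hj (J.mul_mem_left a hj'), by
    linear_combination h1 + a * h2⟩
theorem QOK.zr_smul {w g : B} {J : Ideal B} (h : QOK w g J) {M : Type} [AddCommGroup M]
    [Module B M] [Finite M] (hJ : ∀ a ∈ J, ∀ x : M, a • x = 0) :
    ZOK (DistribSMul.toAddMonoidHom M w) (DistribSMul.toAddMonoidHom M g) := by
  have hi : ∀ u : B, J ⊔ Ideal.span {u} = ⊤ → ∀ x : M, u • x = 0 → x = 0 := fun u hu x hx => by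
    obtain ⟨a, j, hj, h1⟩ := zr_mem_sup.1 ((Ideal.eq_top_iff_one _).1 hu)
    rw [← one_smul B x, ← h1, add_smul, mul_smul, hx, hJ j hj, smul_zero, add_zero]
  refine ⟨inferInstance, fun x => ?_, fun x hx => hi 3 h.three x ?_, fun x => smul_comm w g x,
    Finite.injective_iff_bijective.1 ((injective_iff_map_eq_zero _).2 (hi g h.unit))⟩
  · have h1 := hJ _ h.rel x
    rwa [add_smul, add_smul, one_smul, sq, mul_smul] at h1
  · rw [← hx, ← Nat.cast_smul_eq_nsmul B, Nat.cast_ofNat]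
/-- Additivity for modules. -/
theorem QOK.zr_exact {w g : B} {J : Ideal B} (h : QOK w g J) {M M1 M2 : Type} [AddCommGroup M]
    [Module B M] [AddCommGroup M1] [Module B M1] [AddCommGroup M2] [Module B M2] [Finite M]
    (hJ : ∀ a ∈ J, ∀ x : M, a • x = 0) (i : M1 →ₗ[B] M) (π : M →ₗ[B] M2)
    (hi : Function.Injective i) (hπ : Function.Surjective π) (hex : ∀ x, π x = 0 ↔ ∃ y, i y = x) :
    Zs (fun x : M => w • x) (fun x => g • x) =
      Zs (fun x : M1 => w • x) (fun x => g • x) + Zs (fun x : M2 => w • x) (fun x => g • x) := by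
  have := Finite.of_injective i hi
  have := Finite.of_surjective π hπ
  refine Zs_exact (h.zr_smul hJ) (h.zr_smul fun a ha x => hi ?_) (h.zr_smul fun a ha x => ?_)
    i.toAddMonoidHom π.toAddMonoidHom hi hπ hex (i.map_smul w) (i.map_smul g) (π.map_smul w)
    (π.map_smul g)
  · rw [map_smul, hJ a ha, map_zero]
  · obtain ⟨x, rfl⟩ := hπ x
    rw [← map_smul, hJ a ha, map_zero]
theorem zr_zq_eq [Algebra B B'] (w g : B) (J : Ideal B') :
    zq (algebraMap B B' w) (algebraMap B B' g) J =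
      Zs (fun x : B' ⧸ J => w • x) (fun x => g • x) := by
  simp only [zq, zr, Algebra.smul_def, Ideal.Quotient.mk_algebraMap]
/-- Additivity along `0 → B / J1 → B / J → B / J2 → 0`, the first map being multiplication by `y`. -/
theorem zq_step {w g y : B} {J J1 J2 : Ideal B} (h : QOK w g J) (h1 : ∀ x, y * x ∈ J ↔ x ∈ J1)
    (h2 : J2 = J ⊔ Ideal.span {y}) : zq w g J = zq w g J1 + zq w g J2 := by
  have := h.fin
  have hle : J ≤ J2 := h2 ▸ le_sup_left
  have h3 := h.zr_exact (M := B ⧸ J) (fun a ha x => by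
      rw [Algebra.smul_def, Ideal.Quotient.algebraMap_eq, Ideal.Quotient.eq_zero_iff_mem.2 ha,
        zero_mul])
    (Submodule.mapQ J1 J (LinearMap.mul B B y) fun x hx => (h1 x).2 hx)
    (Submodule.mapQ J J2 LinearMap.id fun x hx => hle hx) ?_ ?_ ?_
  · rw [← zr_zq_eq, ← zr_zq_eq, ← zr_zq_eq] at h3
    exact h3
  · refine (injective_iff_map_eq_zero _).2 fun x hx => ?_
    obtain ⟨x, rfl⟩ := Submodule.Quotient.mk_surjective _ x
    exact (Submodule.Quotient.mk_eq_zero _).2 ((h1 x).1 ((Submodule.Quotient.mk_eq_zero _).1 hx))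
  · intro x
    obtain ⟨x, rfl⟩ := Submodule.Quotient.mk_surjective _ x
    exact ⟨Submodule.Quotient.mk x, rfl⟩
  · intro x
    obtain ⟨x, rfl⟩ := Submodule.Quotient.mk_surjective _ x
    refine (Submodule.Quotient.mk_eq_zero J2 (x := x)).trans ?_
    rw [h2, zr_mem_sup]
    constructor
    · rintro ⟨a, b, hb, rfl⟩
      refine ⟨Submodule.Quotient.mk a, ((Submodule.Quotient.eq J).2 ?_).symm⟩
      change a * y + b - y * a ∈ J
      rwa [mul_comm, add_sub_cancel_left]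
    · rintro ⟨a, ha⟩
      obtain ⟨a, rfl⟩ := Submodule.Quotient.mk_surjective _ a
      have h4 : x - y * a ∈ J := (Submodule.Quotient.eq J).1 ha.symm
      exact ⟨a, _, h4, by ring⟩
theorem zq_mul {w g f1 f2 : B} {J : Ideal B} (h : QOK w g (J ⊔ Ideal.span {f1 * f2}))
    (hreg : ∀ x, f1 * x ∈ J → x ∈ J) :
    zq w g (J ⊔ Ideal.span {f1 * f2})
      = zq w g (J ⊔ Ideal.span {f1}) + zq w g (J ⊔ Ideal.span {f2}) := by
  rw [add_comm]
  refine zq_step (y := f1) h (fun x => ?_) ?_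
  · rw [zr_mem_sup, zr_mem_sup]
    constructor
    · rintro ⟨a, b, hb, h1⟩
      refine ⟨a, x - a * f2, hreg _ ?_, by ring⟩
      rwa [show f1 * (x - a * f2) = b by linear_combination -h1]
    · rintro ⟨a, b, hb, rfl⟩
      exact ⟨a, f1 * b, J.mul_mem_left _ hb, by ring⟩
  · rw [sup_assoc, sup_eq_right.2 (Ideal.span_singleton_le_span_singleton.2 (dvd_mul_right f1 f2))]
/-- Units lift to finite quotients. -/
theorem zr_lift {J : Ideal B} (hJ : Finite (B ⧸ J)) {g m : B} (hg : IsCoprime g m) :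
    ∃ t, J ⊔ Ideal.span {g + m * t} = ⊤ := by
  obtain ⟨i, j, hij, h⟩ : ∃ i j : ℕ, i < j ∧
      Ideal.Quotient.mk J g ^ i = Ideal.Quotient.mk J g ^ j := by
    obtain ⟨i, j, hij, h⟩ := Finite.exists_ne_map_eq_of_infinite
      fun i : ℕ => Ideal.Quotient.mk J g ^ i
    rcases lt_or_gt_of_ne hij with h1 | h1
    exacts [⟨i, j, h1, h⟩, ⟨j, i, h1, h.symm⟩]
  obtain ⟨k, rfl⟩ := Nat.exists_eq_add_of_lt hij
  rw [← map_pow, ← map_pow, Ideal.Quotient.eq] at h
  refine ⟨1 - g ^ (k + 1), ?_⟩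
  by_contra hne
  obtain ⟨P, hP, hle⟩ := Ideal.exists_le_maximal _ hne
  have h1 : g + m * (1 - g ^ (k + 1)) ∈ P := hle (Ideal.mem_sup_right (Ideal.subset_span rfl))
  have h2 : g ^ i * (1 - g ^ (k + 1)) ∈ P := by
    rw [show g ^ i * (1 - g ^ (k + 1)) = g ^ i - g ^ (i + k + 1) by ring]
    exact hle (Ideal.mem_sup_left h)
  have h3 : g ∈ P := by
    rcases hP.isPrime.mem_or_mem h2 with h3 | h3
    · exact hP.isPrime.mem_of_pow_mem _ h3
    · exact (P.add_mem_iff_left (P.mul_mem_left m h3)).1 h1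
  obtain ⟨a, b, hab⟩ := hg
  refine hP.ne_top ((Ideal.eq_top_iff_one _).2 ?_)
  have h4 : (1 : B) = b * (g + m * (1 - g ^ (k + 1))) + (a - b + b * m * g ^ k) * g := by
    linear_combination -hab
  rw [h4]
  exact P.add_mem (P.mul_mem_left _ h1) (P.mul_mem_left _ h3)
/-- Change of the order. -/
theorem zq_lattice (φ : B →+* B') (hφ : Function.Injective φ) {w g m : B}
    (hw : w ^ 2 + w + 1 = 0) (h3 : IsUnit (3 : B)) (hg : IsCoprime g m) {c : B}
    (hc : ∀ y : B', ∃ x, φ x = φ c * y) (hcf : Finite (B' ⧸ Ideal.span {φ c}))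
    (hm : ∀ y : B', φ m * y = 0 → y = 0) (hf : Finite (B' ⧸ Ideal.span {φ m})) :
    Finite (B ⧸ Ideal.span {m}) ∧
      zq w g (Ideal.span {m}) = zq (φ w) (φ g) (Ideal.span {φ m}) := by
  have f1 : Finite (B' ⧸ Ideal.span {φ c * φ m}) := by
    have := finite_sup_mul (J := ⊥) (a := φ c) (b := φ m) (by rwa [bot_sup_eq]) (by rwa [bot_sup_eq])
    rwa [bot_sup_eq] at this
  have f2 : Finite (B' ⧸ Ideal.span {φ c * (φ c * φ m)}) := by
    have := finite_sup_mul (J := ⊥) (a := φ c) (b := φ c * φ m) (by rwa [bot_sup_eq])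
      (by rwa [bot_sup_eq])
    rwa [bot_sup_eq] at this
  have f3 : Finite (B ⧸ Ideal.span {c * m}) := by
    refine zr_fin_of_le (p := (Ideal.span {φ c * (φ c * φ m)}).comap φ) (fun x hx => ?_)
      (Finite.of_injective _ Ideal.quotientMap_injective)
    obtain ⟨y, hy⟩ := Ideal.mem_span_singleton'.1 (Ideal.mem_comap.1 hx)
    obtain ⟨x', hx'⟩ := hc y
    refine Ideal.mem_span_singleton'.2 ⟨x', hφ ?_⟩
    rw [← hy, map_mul, map_mul, hx']
    ring
  refine ⟨zr_fin_of_le (fun x hx => Ideal.span_singleton_le_span_singleton.2 (dvd_mul_left m c) hx)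
    f3, ?_⟩
  obtain ⟨t, ht⟩ := zr_lift f3 hg
  have hQ : QOK w (g + m * t) (Ideal.span {c * m}) := ⟨f3, hw ▸ Ideal.zero_mem _,
    by rw [Ideal.span_singleton_eq_top.2 h3, sup_top_eq], ht⟩
  rw [← zq_congr w (g := g + m * t) (Ideal.mem_span_singleton'.2 ⟨t, by ring⟩),
    ← zq_congr (φ w) (g := φ (g + m * t))
      (Ideal.mem_span_singleton'.2 ⟨φ t, by rw [map_add, map_mul]; ring⟩)]
  let := φ.toAlgebra
  have hs : ∀ (a : B) (y : B'), a • y = φ a * y := fun _ _ => rfl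
  have m1 : ∀ y : B', y ∈ Submodule.span B {φ m} ↔ ∃ a, φ a * φ m = y := fun y =>
    Submodule.mem_span_singleton
  have m2 : ∀ y : B', y ∈ Submodule.span B {(1 : B')} ↔ ∃ a, φ a = y := fun y => by
    simp only [Submodule.mem_span_singleton, hs, mul_one]
  have k1 : ∀ y : B', y * (φ c * φ m) ∈ Submodule.span B {φ m} := fun y => by
    obtain ⟨x, hx⟩ := hc y
    exact (m1 _).2 ⟨x, by rw [hx]; ring⟩
  have : Finite (B' ⧸ Submodule.span B {φ m}) := zr_fin_of_le (fun x hx => by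
    obtain ⟨y, rfl⟩ := Ideal.mem_span_singleton'.1 hx
    exact k1 y) f1
  have hN : ∀ a ∈ Ideal.span {c * m}, ∀ x : B' ⧸ Submodule.span B {φ m}, a • x = 0 := by
    intro a ha x
    obtain ⟨a, rfl⟩ := Ideal.mem_span_singleton'.1 ha
    obtain ⟨x, rfl⟩ := Submodule.Quotient.mk_surjective _ x
    rw [← Submodule.Quotient.mk_smul, Submodule.Quotient.mk_eq_zero, hs, map_mul, map_mul,
      mul_right_comm]
    exact k1 _
  have e1 := hQ.zr_exact hN
    (Submodule.mapQ (Ideal.span {m}) (Submodule.span B {φ m}) (Algebra.linearMap B B') ?_)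
    (Submodule.mapQ _ (Submodule.span B {(1 : B')}) LinearMap.id ?_) ?_ ?_ ?_
  have e2 := hQ.zr_exact hN
    (Submodule.mapQ (Submodule.span B {(1 : B')}) (Submodule.span B {φ m})
      (LinearMap.lsmul B B' m) ?_)
    (Submodule.liftQ _ (Ideal.Quotient.mkₐ B (Ideal.span {φ m})).toLinearMap ?_) ?_ ?_ ?_
  · rw [e2, add_comm, add_left_inj, ← zr_zq_eq, ← zr_zq_eq] at e1
    exact e1.symm
  · intro x hx
    obtain ⟨a, rfl⟩ := (m2 x).1 hx
    exact (m1 _).2 ⟨a, mul_comm _ _⟩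
  · intro x hx
    obtain ⟨a, rfl⟩ := (m1 x).1 hx
    exact Ideal.Quotient.eq_zero_iff_mem.2 (Ideal.mem_span_singleton'.2 ⟨_, rfl⟩)
  · refine (injective_iff_map_eq_zero _).2 fun x hx => ?_
    obtain ⟨x, rfl⟩ := Submodule.Quotient.mk_surjective _ x
    obtain ⟨a, ha⟩ := (m1 _).1 ((Submodule.Quotient.mk_eq_zero _).1 hx)
    have h1 : φ a * φ m = φ m * x := ha
    refine (Submodule.Quotient.mk_eq_zero _).2 ((m2 x).2 ⟨a, sub_eq_zero.1 (hm _ ?_)⟩)
    linear_combination h1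
  · intro x
    obtain ⟨x, rfl⟩ := Ideal.Quotient.mk_surjective x
    exact ⟨Submodule.Quotient.mk x, rfl⟩
  · intro x
    obtain ⟨x, rfl⟩ := Submodule.Quotient.mk_surjective _ x
    refine (Ideal.Quotient.eq_zero_iff_mem (I := Ideal.span {φ m}) (a := x)).trans ?_
    rw [Ideal.mem_span_singleton']
    constructor
    · rintro ⟨y, rfl⟩
      exact ⟨Submodule.Quotient.mk y, congrArg Submodule.Quotient.mk (mul_comm (φ m) y)⟩
    · rintro ⟨y, hy⟩
      obtain ⟨y, rfl⟩ := Submodule.Quotient.mk_surjective _ y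
      obtain ⟨a, ha⟩ := (m1 _).1 ((Submodule.Quotient.eq _).1 hy.symm)
      have h1 : φ a * φ m = x - φ m * y := ha
      exact ⟨φ a + y, by linear_combination h1⟩
  · intro x hx
    obtain ⟨a, rfl⟩ := Ideal.mem_span_singleton'.1 hx
    exact (m1 _).2 ⟨a, (map_mul φ a m).symm⟩
  · intro x hx
    obtain ⟨a, rfl⟩ := (m1 x).1 hx
    exact (m2 _).2 ⟨a * m, map_mul φ a m⟩
  · refine (injective_iff_map_eq_zero _).2 fun x hx => ?_
    obtain ⟨x, rfl⟩ := Submodule.Quotient.mk_surjective _ x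
    obtain ⟨a, ha⟩ := (m1 _).1 ((Submodule.Quotient.mk_eq_zero _).1 hx)
    have h1 : φ a * φ m = φ x := ha
    exact (Submodule.Quotient.mk_eq_zero _).2
      (Ideal.mem_span_singleton'.2 ⟨a, hφ ((map_mul φ a m).trans h1)⟩)
  · intro x
    obtain ⟨x, rfl⟩ := Submodule.Quotient.mk_surjective _ x
    exact ⟨Submodule.Quotient.mk x, rfl⟩
  · intro x
    obtain ⟨x, rfl⟩ := Submodule.Quotient.mk_surjective _ x
    refine (Submodule.Quotient.mk_eq_zero (Submodule.span B {(1 : B')}) (x := x)).trans ?_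
    rw [m2]
    constructor
    · rintro ⟨y, rfl⟩
      exact ⟨Submodule.Quotient.mk y, rfl⟩
    · rintro ⟨y, hy⟩
      obtain ⟨y, rfl⟩ := Submodule.Quotient.mk_surjective _ y
      obtain ⟨a, ha⟩ := (m1 _).1 ((Submodule.Quotient.eq _).1 hy.symm)
      have h1 : φ a * φ m = x - φ y := ha
      exact ⟨a * m + y, by rw [map_add, map_mul, h1, sub_add_cancel]⟩

end NQ
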